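import Vale.Agent.P073.H579.FaceIns

/-!
# P073, H579: **(FACE)**, the metric estimate

`rho lo hi a t` is the length of the part of the flat `[lo a, hi a]` below `t`. On a face, the sum
of `rho` over the levels of coordinate `j` is a constant plus the signed sum of the band
coordinates of the arcs (`sum_rho_eq`). Hence `abs_sub_le`.
-/

set_option linter.unusedSectionVars false

open Set Metric Topology Filter

namespace P073.H579

open P073.H31

variable {E : Type*} [NormedAddCommGroup E] [NormedSpace ℝ E]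

/-- the length of the part of the flat over `a` below `t` -/
noncomputable def rho (lo hi : ℝ → ℝ) (a t : ℝ) : ℝ := max 0 (min (hi a - lo a) (t - lo a))

theorem rho_of_le {lo hi : ℝ → ℝ} {a t : ℝ} (h : t ≤ lo a) : rho lo hi a t = 0 :=
  max_eq_left ((min_le_right _ _).trans (by linarith))

theorem rho_of_ge {lo hi : ℝ → ℝ} {a t : ℝ} (h : hi a ≤ t) (h' : lo a ≤ hi a) :
    rho lo hi a t = hi a - lo a := by
  rw [rho, min_eq_left (by linarith), max_eq_right (by linarith)]

theorem rho_eq {lo hi : ℝ → ℝ} {a : ℝ} (h : lo a < hi a) (t : ℝ) :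
    rho lo hi a t = (hi a - lo a) * cut01 ((t - lo a) / (hi a - lo a)) := by
  have hd : 0 < hi a - lo a := by linarith
  rcases le_total t (lo a) with h1 | h1
  · rw [rho_of_le h1, cut01_of_le (div_nonpos_of_nonpos_of_nonneg (by linarith) hd.le), mul_zero]
  · rcases le_total (hi a) t with h2 | h2
    · rw [rho_of_ge h2 h.le, cut01_of_ge ((one_le_div hd).2 (by linarith)), mul_one]
    · rw [cut01_of_mem (div_nonneg (by linarith) hd.le) ((div_le_one hd).2 (by linarith)), rho,
        min_eq_right (by linarith), max_eq_right (by linarith)]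
      field_simp

/-- locally constant off the flat -/
theorem rho_near {lo hi : ℝ → ℝ} {a : ℝ} (h : lo a < hi a) {t₀ : ℝ}
    (ht : ¬ (lo a ≤ t₀ ∧ t₀ ≤ hi a)) : ∀ᶠ t in 𝓝 t₀, rho lo hi a t = rho lo hi a t₀ := by
  rcases lt_or_ge t₀ (lo a) with h1 | h1
  · filter_upwards [gt_mem_nhds h1] with t h2
    rw [rho_of_le h2.le, rho_of_le h1.le]
  · have h2 : hi a < t₀ := not_le.1 fun h2 => ht ⟨h1, h2⟩
    filter_upwards [lt_mem_nhds h2] with t h3
    rw [rho_of_ge h3.le h.le, rho_of_ge h2.le h.le]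

namespace FaceIn

variable {m n : ℕ} {C : Set E} {h : E → Fin m → ℝ} {L : Fin m → Finset ℝ} {fn : ℕ → E → ℝ}
  {cd : ℕ → Fin m} {lev ε : ℕ → ℝ} {k : Fin m → ℝ → ℝ} {lo hi : Fin m → ℝ → ℝ}

/-- the length of the flat of the arc `i` -/
def len (lo hi : Fin m → ℝ → ℝ) (cd : ℕ → Fin m) (lev : ℕ → ℝ) (i : ℕ) : ℝ :=
  hi (cd i) (lev i) - lo (cd i) (lev i)

/-- the difference of the two sums -/
noncomputable def dif (hF : FaceIn n C h (fun j => (L j : Set ℝ)) fn cd lev ε)
    (lo hi : Fin m → ℝ → ℝ) (k : Fin m → ℝ → ℝ) (j : Fin m) (y : Fin m → ℝ) : ℝ :=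
  ∑ a ∈ L j, rho (lo j) (hi j) a (y j) -
    ∑ i ∈ (Finset.range n).filter (fun i => cd i = j), ε i * (len lo hi cd lev i *
      hF.zz lo hi k i y)

/-- **the difference is locally constant** -/
theorem dif_near (hF : FaceIn n C h (fun j => (L j : Set ℝ)) fn cd lev ε)
    (hI : ∀ j, Ins1 (k j) (L j : Set ℝ) (lo j) (hi j)) (j : Fin m) {y₀ : Fin m → ℝ}
    (hy₀ : y₀ ∈ preQ k h C) :
    ∀ᶠ y in 𝓝 y₀, y ∈ preQ k h C → dif hF lo hi k j y = dif hF lo hi k j y₀ := by
  have hcont := continuousOn_pt hF hI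
  have hx₀ : hF.pt k y₀ ∈ C := hF.pt_mem hy₀
  have hh : h (hF.pt k y₀) j = k j (y₀ j) := by rw [hF.h_pt hy₀]; rfl
  have hj : Tendsto (fun y : Fin m → ℝ => y j) (𝓝 y₀) (𝓝 (y₀ j)) := (continuous_apply j).tendsto y₀
  -- all flats which do not contain `y₀ j`
  have h1 : ∀ᶠ y in 𝓝 y₀, ∀ a ∈ L j, k j (y₀ j) ≠ a →
      rho (lo j) (hi j) a (y j) = rho (lo j) (hi j) a (y₀ j) := by
    rw [Filter.eventually_all_finset]
    intro a ha
    by_cases h2 : k j (y₀ j) = a
    · exact Eventually.of_forall fun y h3 => absurd h2 h3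
    · have h3 := rho_near (t₀ := y₀ j) ((hI j).lt a ha)
        (fun h4 => h2 (((hI j).flat a ha _).2 h4))
      filter_upwards [hj.eventually h3] with y hy _
      exact hy
  -- all arcs which do not contain the point
  have h2 : ∀ᶠ y in 𝓝 y₀, ∀ i ∈ Finset.range n, fn i (hF.pt k y₀) ≠ 0 → y ∈ preQ k h C →
      hF.zz lo hi k i y = hF.zz lo hi k i y₀ := by
    rw [Filter.eventually_all_finset]
    intro i hi'
    by_cases h3 : fn i (hF.pt k y₀) = 0
    · exact Eventually.of_forall fun y h4 => absurd h3 h4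
    · filter_upwards [zz_near' (lo := lo) (hi := hi) hF hI (Finset.mem_range.1 hi') hy₀ h3 hcont]
        with y hy _
      exact hy
  by_cases hl : k j (y₀ j) ∈ L j
  · obtain ⟨i₀, hi₀, hcd, hfn⟩ := hF.cov _ hx₀ j (by rw [hh]; exact hl)
    have hlev : k j (y₀ j) = lev i₀ := by rw [← hh, ← hcd]; exact hF.on i₀ hi₀ _ hx₀ hfn
    have h3 := zz_near hF hI hi₀ hy₀ hfn hcont
    filter_upwards [h1, h2, h3] with y a1 a2 a3 hyQ
    have a3' : hF.zz lo hi k i₀ y₀ = cut01 (thk lo hi cd lev ε i₀ y₀) := h3.self_of_nhds hy₀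
    have a3 := a3 hyQ
    have hlt := (hI j).lt _ hl
    rw [dif, dif, sub_eq_sub_iff_sub_eq_sub, ← Finset.sum_sub_distrib, ← Finset.sum_sub_distrib,
      Finset.sum_eq_single (k j (y₀ j)), Finset.sum_eq_single i₀]
    · -- the main term
      have e1 : ∀ y : Fin m → ℝ, ε i₀ * (len lo hi cd lev i₀ * cut01 (thk lo hi cd lev ε i₀ y)) =
          rho (lo j) (hi j) (k j (y₀ j)) (y j) + (if ε i₀ = 1 then 0 else
            - len lo hi cd lev i₀) := by
        intro y
        rw [rho_eq hlt, hlev, len, thk, hcd]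
        rcases hF.eps i₀ hi₀ with h4 | h4
        · rw [if_pos h4, if_pos h4, h4]; ring
        · have h5 : ε i₀ ≠ 1 := by rw [h4]; norm_num
          rw [if_neg h5, if_neg h5, h4]
          have hd : hi j (lev i₀) - lo j (lev i₀) ≠ 0 := by rw [← hlev]; linarith
          have e2 : (hi j (lev i₀) - y j) / (hi j (lev i₀) - lo j (lev i₀)) =
              1 - (y j - lo j (lev i₀)) / (hi j (lev i₀) - lo j (lev i₀)) := by
            field_simp; ring
          rw [e2, cut01_sub]; ring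
      rw [a3, a3', e1 y, e1 y₀]; ring
    · intro i hi' hne
      rw [Finset.mem_filter] at hi'
      have h4 : fn i (hF.pt k y₀) ≠ 0 := fun h5 =>
        hne (hF.uniq i (Finset.mem_range.1 hi'.1) i₀ hi₀ (hi'.2.trans hcd.symm) _ hx₀ h5 hfn)
      rw [a2 i hi'.1 h4 hyQ, sub_self]
    · intro h4
      exact absurd (Finset.mem_filter.2 ⟨Finset.mem_range.2 hi₀, hcd⟩) h4
    · intro a ha hne
      rw [a1 a ha (Ne.symm hne), sub_self]
    · intro h4; exact absurd hl h4
  · filter_upwards [h1, h2] with y a1 a2 hyQ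
    rw [dif, dif]
    congr 1
    · refine Finset.sum_congr rfl fun a ha => a1 a ha fun h4 => hl (h4 ▸ ha)
    · refine Finset.sum_congr rfl fun i hi' => ?_
      rw [Finset.mem_filter] at hi'
      rw [a2 i hi'.1 (fun h4 => ?_) hyQ]
      apply hl
      have h5 := hF.on i (Finset.mem_range.1 hi'.1) _ hx₀ h4
      rw [hi'.2, hh] at h5
      rw [h5, ← hi'.2]
      exact hF.mem i (Finset.mem_range.1 hi'.1)

/-- **the difference is constant** -/
theorem dif_const (hF : FaceIn n C h (fun j => (L j : Set ℝ)) fn cd lev ε)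
    (hI : ∀ j, Ins1 (k j) (L j : Set ℝ) (lo j) (hi j)) (hpre : IsPreconnected (preQ k h C))
    (j : Fin m) {y y' : Fin m → ℝ} (hy : y ∈ preQ k h C) (hy' : y' ∈ preQ k h C) :
    dif hF lo hi k j y = dif hF lo hi k j y' := by
  have : PreconnectedSpace (preQ k h C) := isPreconnected_iff_preconnectedSpace.1 hpre
  have hloc : IsLocallyConstant fun z : preQ k h C => dif hF lo hi k j z := by
    rw [IsLocallyConstant.iff_eventually_eq]
    intro z
    have h2 := dif_near hF hI j z.2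
    have h3 : Tendsto (Subtype.val : preQ k h C → Fin m → ℝ) (𝓝 z) (𝓝 z.1) :=
      continuous_subtype_val.tendsto z
    filter_upwards [h3.eventually h2] with w hw
    exact hw w.2
  exact hloc.apply_eq_of_isPreconnected isPreconnected_univ (mem_univ (⟨y, hy⟩ : preQ k h C))
    (mem_univ ⟨y', hy'⟩)

/-- **the metric estimate** -/
theorem abs_sub_le (hF : FaceIn n C h (fun j => (L j : Set ℝ)) fn cd lev ε)
    (hI : ∀ j, Ins1 (k j) (L j : Set ℝ) (lo j) (hi j)) (hpre : IsPreconnected (preQ k h C))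
    (j : Fin m) {l : ℝ} (hgap : ∀ t t' : ℝ, |(t - ∑ a ∈ L j, rho (lo j) (hi j) a t) -
      (t' - ∑ a ∈ L j, rho (lo j) (hi j) a t')| ≤ l * |k j t - k j t'|)
    {y y' : Fin m → ℝ} (hy : y ∈ preQ k h C) (hy' : y' ∈ preQ k h C) :
    |y j - y' j| ≤ l * |h (hF.pt k y) j - h (hF.pt k y') j| +
      ∑ i ∈ (Finset.range n).filter (fun i => cd i = j),
        len lo hi cd lev i * |hF.zz lo hi k i y - hF.zz lo hi k i y'| := by
  have h1 := dif_const hF hI hpre j hy hy'
  have h2 := hgap (y j) (y' j)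
  have e1 : h (hF.pt k y) j = k j (y j) := by rw [hF.h_pt hy]; rfl
  have e2 : h (hF.pt k y') j = k j (y' j) := by rw [hF.h_pt hy']; rfl
  rw [e1, e2]
  have h3 : |(∑ a ∈ L j, rho (lo j) (hi j) a (y j)) - ∑ a ∈ L j, rho (lo j) (hi j) a (y' j)| ≤
      ∑ i ∈ (Finset.range n).filter (fun i => cd i = j),
        len lo hi cd lev i * |hF.zz lo hi k i y - hF.zz lo hi k i y'| := by
    have h4 : (∑ a ∈ L j, rho (lo j) (hi j) a (y j)) - ∑ a ∈ L j, rho (lo j) (hi j) a (y' j) =
        ∑ i ∈ (Finset.range n).filter (fun i => cd i = j), (ε i * (len lo hi cd lev i *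
          hF.zz lo hi k i y) - ε i * (len lo hi cd lev i * hF.zz lo hi k i y')) := by
      rw [Finset.sum_sub_distrib]
      unfold dif at h1
      linarith
    rw [h4]
    refine (Finset.abs_sum_le_sum_abs _ _).trans (Finset.sum_le_sum fun i hi' => ?_)
    rw [Finset.mem_filter] at hi'
    have hin := Finset.mem_range.1 hi'.1
    have hlt := (hI (cd i)).lt _ (hF.mem i hin)
    have e3 : ε i * (len lo hi cd lev i * hF.zz lo hi k i y) -
        ε i * (len lo hi cd lev i * hF.zz lo hi k i y') =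
        ε i * (len lo hi cd lev i * (hF.zz lo hi k i y - hF.zz lo hi k i y')) := by ring
    rw [e3, abs_mul, abs_mul, abs_of_nonneg (show 0 ≤ len lo hi cd lev i by
      unfold len; linarith)]
    rcases hF.eps i hin with h5 | h5
    · rw [h5, abs_one, one_mul]
    · rw [h5, abs_neg, abs_one, one_mul]
  have h6 : y j - y' j = ((y j - ∑ a ∈ L j, rho (lo j) (hi j) a (y j)) -
      (y' j - ∑ a ∈ L j, rho (lo j) (hi j) a (y' j))) +
      ((∑ a ∈ L j, rho (lo j) (hi j) a (y j)) - ∑ a ∈ L j, rho (lo j) (hi j) a (y' j)) := by ring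
  rw [h6]
  exact (abs_add_le _ _).trans (add_le_add h2 h3)

/-- the difference for one level -/
noncomputable def difA (hF : FaceIn n C h (fun j => (L j : Set ℝ)) fn cd lev ε)
    (lo hi : Fin m → ℝ → ℝ) (k : Fin m → ℝ → ℝ) (j : Fin m) (a : ℝ) (y : Fin m → ℝ) : ℝ :=
  rho (lo j) (hi j) a (y j) -
    ∑ i ∈ (Finset.range n).filter (fun i => cd i = j ∧ lev i = a), ε i *
      (len lo hi cd lev i * hF.zz lo hi k i y)

/-- **the difference for one level is locally constant** -/
theorem difA_near (hF : FaceIn n C h (fun j => (L j : Set ℝ)) fn cd lev ε)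
    (hI : ∀ j, Ins1 (k j) (L j : Set ℝ) (lo j) (hi j)) (j : Fin m) {a : ℝ} (ha : a ∈ L j)
    {y₀ : Fin m → ℝ} (hy₀ : y₀ ∈ preQ k h C) :
    ∀ᶠ y in 𝓝 y₀, y ∈ preQ k h C → difA hF lo hi k j a y = difA hF lo hi k j a y₀ := by
  have hcont := continuousOn_pt hF hI
  have hx₀ : hF.pt k y₀ ∈ C := hF.pt_mem hy₀
  have hh : h (hF.pt k y₀) j = k j (y₀ j) := by rw [hF.h_pt hy₀]; rfl
  have hj : Tendsto (fun y : Fin m → ℝ => y j) (𝓝 y₀) (𝓝 (y₀ j)) := (continuous_apply j).tendsto y₀
  -- all arcs which do not contain the point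
  have h2 : ∀ᶠ y in 𝓝 y₀, ∀ i ∈ Finset.range n, fn i (hF.pt k y₀) ≠ 0 → y ∈ preQ k h C →
      hF.zz lo hi k i y = hF.zz lo hi k i y₀ := by
    rw [Filter.eventually_all_finset]
    intro i hi'
    by_cases h3 : fn i (hF.pt k y₀) = 0
    · exact Eventually.of_forall fun y h4 => absurd h3 h4
    · filter_upwards [zz_near' (lo := lo) (hi := hi) hF hI (Finset.mem_range.1 hi') hy₀ h3 hcont]
        with y hy _
      exact hy
  by_cases hl : k j (y₀ j) = a
  · obtain ⟨i₀, hi₀, hcd, hfn⟩ := hF.cov _ hx₀ j (by rw [hh, hl]; exact ha)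
    have hlev : a = lev i₀ := by
      rw [← hl, ← hh, ← hcd]; exact hF.on i₀ hi₀ _ hx₀ hfn
    have h3 := zz_near hF hI hi₀ hy₀ hfn hcont
    filter_upwards [h2, h3] with y a2 a3 hyQ
    have a3' : hF.zz lo hi k i₀ y₀ = cut01 (thk lo hi cd lev ε i₀ y₀) := h3.self_of_nhds hy₀
    have a3 := a3 hyQ
    have hlt := (hI j).lt _ ha
    rw [difA, difA, sub_eq_sub_iff_sub_eq_sub, ← Finset.sum_sub_distrib, Finset.sum_eq_single i₀]
    · -- the main term
      have e1 : ∀ y : Fin m → ℝ, ε i₀ * (len lo hi cd lev i₀ * cut01 (thk lo hi cd lev ε i₀ y)) =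
          rho (lo j) (hi j) a (y j) + (if ε i₀ = 1 then 0 else
            - len lo hi cd lev i₀) := by
        intro y
        rw [rho_eq hlt, hlev, len, thk, hcd]
        rcases hF.eps i₀ hi₀ with h4 | h4
        · rw [if_pos h4, if_pos h4, h4]; ring
        · have h5 : ε i₀ ≠ 1 := by rw [h4]; norm_num
          rw [if_neg h5, if_neg h5, h4]
          have hd : hi j (lev i₀) - lo j (lev i₀) ≠ 0 := by rw [← hlev]; linarith
          have e2 : (hi j (lev i₀) - y j) / (hi j (lev i₀) - lo j (lev i₀)) =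
              1 - (y j - lo j (lev i₀)) / (hi j (lev i₀) - lo j (lev i₀)) := by
            field_simp; ring
          rw [e2, cut01_sub]; ring
      rw [a3, a3', e1 y, e1 y₀]; ring
    · intro i hi' hne
      rw [Finset.mem_filter] at hi'
      have h4 : fn i (hF.pt k y₀) ≠ 0 := fun h5 =>
        hne (hF.uniq i (Finset.mem_range.1 hi'.1) i₀ hi₀ (hi'.2.1.trans hcd.symm) _ hx₀ h5 hfn)
      rw [a2 i hi'.1 h4 hyQ, sub_self]
    · intro h4
      exact absurd (Finset.mem_filter.2 ⟨Finset.mem_range.2 hi₀, hcd, hlev.symm⟩) h4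
  · have h3 := rho_near (t₀ := y₀ j) ((hI j).lt a ha) (fun h4 => hl (((hI j).flat a ha _).2 h4))
    filter_upwards [hj.eventually h3, h2] with y a1 a2 hyQ
    rw [difA, difA, a1]
    congr 1
    refine Finset.sum_congr rfl fun i hi' => ?_
    rw [Finset.mem_filter] at hi'
    rw [a2 i hi'.1 (fun h4 => ?_) hyQ]
    apply hl
    have h5 := hF.on i (Finset.mem_range.1 hi'.1) _ hx₀ h4
    rw [hi'.2.1, hh, hi'.2.2] at h5
    exact h5

/-- **the metric estimate for one level** -/
theorem abs_rho_le (hF : FaceIn n C h (fun j => (L j : Set ℝ)) fn cd lev ε)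
    (hI : ∀ j, Ins1 (k j) (L j : Set ℝ) (lo j) (hi j)) (hpre : IsPreconnected (preQ k h C))
    (j : Fin m) {a : ℝ} (ha : a ∈ L j) {y y' : Fin m → ℝ} (hy : y ∈ preQ k h C)
    (hy' : y' ∈ preQ k h C) :
    |rho (lo j) (hi j) a (y j) - rho (lo j) (hi j) a (y' j)| ≤
      ∑ i ∈ (Finset.range n).filter (fun i => cd i = j ∧ lev i = a),
        len lo hi cd lev i * |hF.zz lo hi k i y - hF.zz lo hi k i y'| := by
  have h1 : difA hF lo hi k j a y = difA hF lo hi k j a y' := by
    have : PreconnectedSpace (preQ k h C) := isPreconnected_iff_preconnectedSpace.1 hpre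
    have hloc : IsLocallyConstant fun z : preQ k h C => difA hF lo hi k j a z := by
      rw [IsLocallyConstant.iff_eventually_eq]
      intro z
      have h2 := difA_near hF hI j ha z.2
      have h3 : Tendsto (Subtype.val : preQ k h C → Fin m → ℝ) (𝓝 z) (𝓝 z.1) :=
        continuous_subtype_val.tendsto z
      filter_upwards [h3.eventually h2] with w hw
      exact hw w.2
    exact hloc.apply_eq_of_isPreconnected isPreconnected_univ (mem_univ (⟨y, hy⟩ : preQ k h C))
      (mem_univ ⟨y', hy'⟩)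
  have h4 : rho (lo j) (hi j) a (y j) - rho (lo j) (hi j) a (y' j) =
      ∑ i ∈ (Finset.range n).filter (fun i => cd i = j ∧ lev i = a), (ε i * (len lo hi cd lev i *
        hF.zz lo hi k i y) - ε i * (len lo hi cd lev i * hF.zz lo hi k i y')) := by
    rw [Finset.sum_sub_distrib]
    unfold difA at h1
    linarith
  rw [h4]
  refine (Finset.abs_sum_le_sum_abs _ _).trans (Finset.sum_le_sum fun i hi' => ?_)
  rw [Finset.mem_filter] at hi'
  have hin := Finset.mem_range.1 hi'.1
  have hlt := (hI (cd i)).lt _ (hF.mem i hin)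
  have e3 : ε i * (len lo hi cd lev i * hF.zz lo hi k i y) -
      ε i * (len lo hi cd lev i * hF.zz lo hi k i y') =
      ε i * (len lo hi cd lev i * (hF.zz lo hi k i y - hF.zz lo hi k i y')) := by ring
  rw [e3, abs_mul, abs_mul, abs_of_nonneg (show 0 ≤ len lo hi cd lev i by
    unfold len; linarith)]
  rcases hF.eps i hin with h5 | h5
  · rw [h5, abs_one, one_mul]
  · rw [h5, abs_neg, abs_one, one_mul]

/-- **(FACE)**: the filled set of a face is the preimage under the insertion map -/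
noncomputable def xi (hF : FaceIn n C h (fun j => (L j : Set ℝ)) fn cd lev ε)
    (hI : ∀ j, Ins1 (k j) (L j : Set ℝ) (lo j) (hi j)) : ConHomeo (Fil n n C fn) (preQ k h C) :=
  (thHom hF lo hi k hI).symm

variable (hF : FaceIn n C h (fun j => (L j : Set ℝ)) fn cd lev ε)
  (hI : ∀ j, Ins1 (k j) (L j : Set ℝ) (lo j) (hi j))

theorem Th_xi {p : E × (Fin n → ℝ)} (hp : p ∈ Fil n n C fn) :
    (xi hF hI).toFun p ∈ preQ k h C ∧ hF.Th lo hi k ((xi hF hI).toFun p) = p := by
  refine ⟨(xi hF hI).mapsTo hp, ?_⟩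
  have := (thHom hF lo hi k hI).right_inv hp
  rwa [thHom_toFun] at this

theorem pt_xi {p : E × (Fin n → ℝ)} (hp : p ∈ Fil n n C fn) :
    hF.pt k ((xi hF hI).toFun p) = p.1 := congrArg Prod.fst (Th_xi hF hI hp).2

theorem zz_xi {p : E × (Fin n → ℝ)} (hp : p ∈ Fil n n C fn) (i : Fin n) :
    hF.zz lo hi k i ((xi hF hI).toFun p) = p.2 i :=
  congrFun (congrArg Prod.snd (Th_xi hF hI hp).2) i

theorem prodK_xi {p : E × (Fin n → ℝ)} (hp : p ∈ Fil n n C fn) :
    prodK k ((xi hF hI).toFun p) = h p.1 := by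
  rw [← pt_xi hF hI hp, hF.h_pt (Th_xi hF hI hp).1]

/-- the coordinate on an arc -/
theorem xi_arc {p : E × (Fin n → ℝ)} (hp : p ∈ Fil n n C fn) (i : Fin n) (hfn : fn i p.1 = 0) :
    (xi hF hI).toFun p (cd i) =
      if ε i = 1 then lo (cd i) (lev i) + len lo hi cd lev i * p.2 i
        else hi (cd i) (lev i) - len lo hi cd lev i * p.2 i := by
  have h4 := zz_xi hF hI hp i
  rw [hF.zz_zero (by rw [pt_xi hF hI hp]; exact hfn), thk] at h4
  have hlt := (hI (cd i)).lt _ (hF.mem i i.2)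
  have hd : hi (cd i) (lev i) - lo (cd i) (lev i) ≠ 0 := by linarith
  unfold len
  split_ifs at h4 ⊢
  · field_simp at h4
    linarith
  · field_simp at h4
    linarith

/-- **the metric estimate for (FACE)** -/
theorem abs_xi_sub_le (hpre : IsPreconnected (Fil n n C fn))
    (j : Fin m) {l : ℝ} (hgap : ∀ t t' : ℝ, |(t - ∑ a ∈ L j, rho (lo j) (hi j) a t) -
      (t' - ∑ a ∈ L j, rho (lo j) (hi j) a t')| ≤ l * |k j t - k j t'|)
    {p p' : E × (Fin n → ℝ)} (hp : p ∈ Fil n n C fn) (hp' : p' ∈ Fil n n C fn) :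
    |(xi hF hI).toFun p j - (xi hF hI).toFun p' j| ≤ l * |h p.1 j - h p'.1 j| +
      ∑ i : Fin n, if cd i = j then len lo hi cd lev i * |p.2 i - p'.2 i| else 0 := by
  have hpreQ : IsPreconnected (preQ k h C) := by
    rw [← (xi hF hI).image_eq]
    exact hpre.image _ (xi hF hI).cont
  have h1 := abs_sub_le hF hI hpreQ j hgap (Th_xi hF hI hp).1 (Th_xi hF hI hp').1
  rw [pt_xi hF hI hp, pt_xi hF hI hp'] at h1
  refine h1.trans (le_of_eq ?_)
  congr 1
  rw [Finset.sum_filter, ← Fin.sum_univ_eq_sum_range (fun i => if cd i = j then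
    len lo hi cd lev i * |hF.zz lo hi k i ((xi hF hI).toFun p) -
      hF.zz lo hi k i ((xi hF hI).toFun p')| else 0) n]
  refine Finset.sum_congr rfl fun i _ => ?_
  rw [zz_xi hF hI hp i, zz_xi hF hI hp' i]

/-- **the metric estimate for (FACE), one level** -/
theorem abs_rho_xi_le (hpre : IsPreconnected (Fil n n C fn)) (j : Fin m) {a : ℝ} (ha : a ∈ L j)
    {p p' : E × (Fin n → ℝ)} (hp : p ∈ Fil n n C fn) (hp' : p' ∈ Fil n n C fn) :
    |rho (lo j) (hi j) a ((xi hF hI).toFun p j) - rho (lo j) (hi j) a ((xi hF hI).toFun p' j)| ≤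
      ∑ i : Fin n, if cd i = j ∧ lev i = a then len lo hi cd lev i * |p.2 i - p'.2 i| else 0 := by
  have hpreQ : IsPreconnected (preQ k h C) := by
    rw [← (xi hF hI).image_eq]
    exact hpre.image _ (xi hF hI).cont
  refine (abs_rho_le hF hI hpreQ j ha (Th_xi hF hI hp).1 (Th_xi hF hI hp').1).trans (le_of_eq ?_)
  rw [Finset.sum_filter, ← Fin.sum_univ_eq_sum_range (fun i => if cd i = j ∧ lev i = a then
    len lo hi cd lev i * |hF.zz lo hi k i ((xi hF hI).toFun p) -
      hF.zz lo hi k i ((xi hF hI).toFun p')| else 0) n]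
  refine Finset.sum_congr rfl fun i _ => ?_
  rw [zz_xi hF hI hp i, zz_xi hF hI hp' i]

end FaceIn

end P073.H579
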