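import Vale.Agent.P073.H579.FacePat

/-!
# P073, H579: a good state has a face pattern on every flat face
-/

open Set Metric Topology Filter

namespace P073.H579

open P073.TR P073.SCH P073.H339 P073.H341

variable {E : Type*} [NormedAddCommGroup E] [NormedSpace ℝ E] {ι : Type*} {D : Data E ι}

/-- the pair as a family indexed by `Bool` -/
def pr2 (u v : E → ℝ) : E → Bool → ℝ := fun x b => bif b then v x else u x

/-- the levels of the pair -/
def lv2 (D : Data E ι) : Bool → Set ℝ := fun b => bif b then (D.b : Set ℝ) else (D.a : Set ℝ)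

namespace State

variable {u v : E → ℝ}

/-- crossing points are not on the relative boundary of a face -/
theorem notMem_bd (hD : D.Ok) (h : State D u v) (F : Face D) {x : E} (hx : x ∈ D.M F.i₀)
    (hu : u x ∈ D.a) (hv : v x ∈ D.b) : x ∉ F.bd := by
  rintro ⟨z, hz, rfl⟩
  have hzC : z ∈ F.C := F.compact.isClosed.frontier_subset hz
  have hw := h.web hD F
  exact hw.notMem_frontier false (x := z) ⟨hzC, hu⟩ ⟨hzC, hv⟩ hz

theorem mem_W (hD : D.Ok) (F : Face D) {x : E} (hx : x ∈ D.M F.i₀) : x ∈ D.W :=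
  hD.UW (F.subU hx)

theorem mem_U (F : Face D) {x : E} (hx : x ∈ D.M F.i₀) : x ∈ D.U := F.subU hx

/-- **the face pattern of a good state** -/
theorem facePat (hD : D.Ok) (h : State D u v) (F : Face D) (hg : Good (F.tr u v))
    (hball : ConBall 2 (D.M F.i₀) F.bd) :
    ∃ (A : Type) (_ : Finite A) (S : A → Set E) (cd : A → Bool) (lev : A → ℝ),
      FacePat (D.M F.i₀) F.bd (pr2 u v) (lv2 D) S cd lev cd := by
  have hA := fun k : D.a => h.arcs_u hD F hg k.2
  have hB := fun k : D.b => h.arcs_v hD F hg k.2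
  choose J hJ S hSU hSd hSb using hA
  choose J' hJ' T hTU hTd hTb using hB
  let A := (Σ k : D.a, J k) ⊕ (Σ l : D.b, J' l)
  let SS : A → Set E := Sum.elim (fun z => S z.1 z.2) (fun z => T z.1 z.2)
  let cd : A → Bool := Sum.elim (fun _ => false) (fun _ => true)
  let lev : A → ℝ := Sum.elim (fun z => (z.1 : ℝ)) (fun z => (z.1 : ℝ))
  have hSmem : ∀ (k : D.a) (j : J k) (x : E), x ∈ S k j → x ∈ D.M F.i₀ ∧ u x = k := by
    intro k j x hx
    have : x ∈ ⋃ j, S k j := mem_iUnion.2 ⟨j, hx⟩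
    rw [hSU k] at this
    exact this
  have hTmem : ∀ (k : D.b) (j : J' k) (x : E), x ∈ T k j → x ∈ D.M F.i₀ ∧ v x = k := by
    intro k j x hx
    have : x ∈ ⋃ j, T k j := mem_iUnion.2 ⟨j, hx⟩
    rw [hTU k] at this
    exact this
  have nearS : ∀ (k : D.a) (j : J k) (x : E), x ∈ S k j →
      ∀ᶠ y in 𝓝 x, y ∈ D.M F.i₀ → (y ∈ S k j ↔ u y = k) := by
    intro k j x hx
    filter_upwards [near_component (fun j => (hSb k j).isClosed) (hSd k) (hSU k) hx] with y hy hyM
    rw [hy]
    exact ⟨fun h1 => h1.2, fun h1 => ⟨hyM, h1⟩⟩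
  have nearT : ∀ (k : D.b) (j : J' k) (x : E), x ∈ T k j →
      ∀ᶠ y in 𝓝 x, y ∈ D.M F.i₀ → (y ∈ T k j ↔ v y = k) := by
    intro k j x hx
    filter_upwards [near_component (fun j => (hTb k j).isClosed) (hTd k) (hTU k) hx] with y hy hyM
    rw [hy]
    exact ⟨fun h1 => h1.2, fun h1 => ⟨hyM, h1⟩⟩
  have hcone : ∀ x ∈ D.M F.i₀, LocConeAt (D.M F.i₀) x := fun x hx =>
    hD.cone _ x (mem_W hD F hx)
  have hcu : ∀ x ∈ D.M F.i₀, ConicalAt u x := fun x hx =>
    h.conu.conicalAt hD.isOpen (mem_W hD F hx)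
  have hcv : ∀ x ∈ D.M F.i₀, ConicalAt v x := fun x hx =>
    h.conv.conicalAt hD.isOpen (mem_W hD F hx)
  have hku : ∀ x ∈ D.M F.i₀, ContinuousAt u x := fun x hx =>
    h.contu.continuousAt (hD.isOpen.mem_nhds (mem_W hD F hx))
  have hkv : ∀ x ∈ D.M F.i₀, ContinuousAt v x := fun x hx =>
    h.contv.continuousAt (hD.isOpen.mem_nhds (mem_W hD F hx))
  have key : ∀ {s t : Set E} {x : E}, x ∈ closure s → (∀ᶠ y in 𝓝 x, y ∈ s → y ∈ t) →
      x ∈ closure t := by
    intro s t x hs hev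
    rw [mem_closure_iff_nhds] at hs ⊢
    intro U hU
    obtain ⟨y, hy, hys⟩ := hs _ (Filter.inter_mem hU hev)
    exact ⟨y, hy.1, hy.2 hys⟩
  -- crossings
  have crossST : ∀ (k : D.a) (j : J k) (l : D.b) (m : J' l) (x : E), x ∈ S k j → x ∈ T l m →
      XAt (D.M F.i₀) F.bd (S k j) (T l m) x ∧ XAt (D.M F.i₀) F.bd (T l m) (S k j) x := by
    intro k j l m x hxS hxT
    obtain ⟨hxM, hux⟩ := hSmem k j x hxS
    obtain ⟨-, hvx⟩ := hTmem l m x hxT
    have hua : u x ∈ D.a := by rw [hux]; exact k.2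
    have hvb : v x ∈ D.b := by rw [hvx]; exact l.2
    obtain ⟨σ, r, hb⟩ := h.reguv x (mem_U F hxM) hua hvb
    obtain ⟨σ₁, r₁, hb₁⟩ := h.regu x (mem_U F hxM) hua
    obtain ⟨σ₂, r₂, hb₂⟩ := h.regv x (mem_U F hxM) hvb
    have c1 := FlowBox.cross_gt hb hxM
    have c2 := FlowBox.cross_lt hb hxM
    have hb' : FlowBox (fun y => (v y, u y)) D.M x (σ.comp
        (LinearEquiv.prodComm ℝ ℝ ℝ).toLinearMap) r := by
      refine ⟨hb.pos, fun w s hw hs => ?_, fun i w s hw hs => ?_⟩
      · have hs' : ‖(LinearEquiv.prodComm ℝ ℝ ℝ) s‖ < r := by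
          have : ‖(LinearEquiv.prodComm ℝ ℝ ℝ) s‖ = ‖s‖ := by
            show ‖(s.2, s.1)‖ = ‖s‖
            rw [Prod.norm_def, Prod.norm_def, max_comm]
          rwa [this]
        have h1 := hb.add w _ hw hs'
        have e1 := congrArg Prod.fst h1
        have e2 := congrArg Prod.snd h1
        exact Prod.ext e2 e1
      · have hs' : ‖(LinearEquiv.prodComm ℝ ℝ ℝ) s‖ < r := by
          have : ‖(LinearEquiv.prodComm ℝ ℝ ℝ) s‖ = ‖s‖ := by
            show ‖(s.2, s.1)‖ = ‖s‖
            rw [Prod.norm_def, Prod.norm_def, max_comm]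
          rwa [this]
        exact hb.iff i w _ hw hs'
    have c3 := FlowBox.cross_gt hb' hxM
    have c4 := FlowBox.cross_lt hb' hxM
    constructor
    · refine xAt_of_box hb₁ rfl hxS (hcone x hxM) (hcu x hxM) (hku x hxM) ?_
        (fun y hy => (hTmem l m y hy).1) ?_ ?_
      · rw [hux]; exact nearS k j x hxS
      · refine key c1 ?_
        filter_upwards [nearT l m x hxT] with y hy hy2
        exact ⟨(hy hy2.1).2 (hy2.2.1.trans hvx), hy2.2.2⟩
      · refine key c2 ?_
        filter_upwards [nearT l m x hxT] with y hy hy2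
        exact ⟨(hy hy2.1).2 (hy2.2.1.trans hvx), hy2.2.2⟩
    · refine xAt_of_box hb₂ rfl hxT (hcone x hxM) (hcv x hxM) (hkv x hxM) ?_
        (fun y hy => (hSmem k j y hy).1) ?_ ?_
      · rw [hvx]; exact nearT l m x hxT
      · refine key c3 ?_
        filter_upwards [nearS k j x hxS] with y hy hy2
        exact ⟨(hy hy2.1).2 (hy2.2.1.trans hux), hy2.2.2⟩
      · refine key c4 ?_
        filter_upwards [nearS k j x hxS] with y hy hy2
        exact ⟨(hy hy2.1).2 (hy2.2.1.trans hux), hy2.2.2⟩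
  have offST : ∀ (k : D.a) (j : J k) (l : D.b) (m : J' l),
      Disjoint (S k j ∩ T l m) F.bd := by
    intro k j l m
    rw [Set.disjoint_left]
    rintro x ⟨hxS, hxT⟩
    obtain ⟨hxM, hux⟩ := hSmem k j x hxS
    obtain ⟨-, hvx⟩ := hTmem l m x hxT
    exact h.notMem_bd hD F hxM (by rw [hux]; exact k.2) (by rw [hvx]; exact l.2)
  have subST : ∀ (k : D.a) (j : J k) (l : D.b) (m : J' l), (S k j ∩ T l m).Subsingleton := by
    intro k j l m
    obtain ⟨p, q, hpq, -⟩ := exists_ends (hSb k j)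
    obtain ⟨p', q', hpq', -⟩ := exists_ends (hTb l m)
    refine State.subsingleton F hg hpq hpq' (fun x hx => ?_) (fun x hx => ?_)
    · have := hSmem k j x hx
      exact ⟨this.1, by rw [this.2]; exact k.2⟩
    · have := hTmem l m x hx
      exact ⟨this.1, by rw [this.2]; exact l.2⟩
  have disS : ∀ (k k' : D.a) (j : J k) (j' : J k'), (⟨k, j⟩ : Σ k : D.a, J k) ≠ ⟨k', j'⟩ →
      Disjoint (S k j) (S k' j') := by
    intro k k' j j' hne
    rw [Set.disjoint_left]
    intro x hx hx'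
    have h1 := (hSmem k j x hx).2
    have h2 := (hSmem k' j' x hx').2
    have hkk : k = k' := Subtype.ext (h1.symm.trans h2)
    subst hkk
    refine Set.disjoint_left.1 (hSd k j j' fun hj => hne (by rw [hj])) hx hx'
  have disT : ∀ (k k' : D.b) (j : J' k) (j' : J' k'), (⟨k, j⟩ : Σ k : D.b, J' k) ≠ ⟨k', j'⟩ →
      Disjoint (T k j) (T k' j') := by
    intro k k' j j' hne
    rw [Set.disjoint_left]
    intro x hx hx'
    have h1 := (hTmem k j x hx).2
    have h2 := (hTmem k' j' x hx').2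
    have hkk : k = k' := Subtype.ext (h1.symm.trans h2)
    subst hkk
    refine Set.disjoint_left.1 (hTd k j j' fun hj => hne (by rw [hj])) hx hx'
  refine ⟨A, inferInstance, SS, cd, lev, ⟨hball, ?_, ?_, ?_, ?_, ?_, ?_⟩, ?_, ?_, ?_⟩
  · rintro (⟨k, j⟩ | ⟨k, j⟩)
    · exact hSb k j
    · exact hTb k j
  · rintro (⟨k, j⟩ | ⟨k, j⟩) x hx
    · exact (hSmem k j x hx).1
    · exact (hTmem k j x hx).1
  · rintro (⟨k, j⟩ | ⟨k, j⟩) (⟨k', j'⟩ | ⟨k', j'⟩) hne hcol
    · exact disS k k' j j' fun h' => hne (congrArg Sum.inl h')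
    · exact absurd hcol (by simp [cd])
    · exact absurd hcol (by simp [cd])
    · exact disT k k' j j' fun h' => hne (congrArg Sum.inr h')
  · rintro (⟨k, j⟩ | ⟨k, j⟩) (⟨k', j'⟩ | ⟨k', j'⟩) hne
    · have := (disS k k' j j' fun h' => hne (congrArg Sum.inl h')).inter_eq
      show (S k j ∩ S k' j').Subsingleton
      rw [this]; exact subsingleton_empty
    · exact subST k j k' j'
    · show (T k j ∩ S k' j').Subsingleton
      rw [inter_comm]; exact subST k' j' k j
    · have := (disT k k' j j' fun h' => hne (congrArg Sum.inr h')).inter_eq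
      show (T k j ∩ T k' j').Subsingleton
      rw [this]; exact subsingleton_empty
  · rintro (⟨k, j⟩ | ⟨k, j⟩) (⟨k', j'⟩ | ⟨k', j'⟩) hne
    · have := (disS k k' j j' fun h' => hne (congrArg Sum.inl h')).inter_eq
      show Disjoint (S k j ∩ S k' j') F.bd
      rw [this]; exact empty_disjoint _
    · exact offST k j k' j'
    · show Disjoint (T k j ∩ S k' j') F.bd
      rw [inter_comm]; exact offST k' j' k j
    · have := (disT k k' j j' fun h' => hne (congrArg Sum.inr h')).inter_eq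
      show Disjoint (T k j ∩ T k' j') F.bd
      rw [this]; exact empty_disjoint _
  · rintro (⟨k, j⟩ | ⟨k, j⟩) (⟨k', j'⟩ | ⟨k', j'⟩) hne x ⟨hx, hx'⟩
    · exact absurd hx' (Set.disjoint_left.1
        (disS k k' j j' fun h' => hne (congrArg Sum.inl h')) hx)
    · exact (crossST k j k' j' x hx hx').1
    · exact (crossST k' j' k j x hx' hx).2
    · exact absurd hx' (Set.disjoint_left.1
        (disT k k' j j' fun h' => hne (congrArg Sum.inr h')) hx)
  · rintro (⟨k, j⟩ | ⟨k, j⟩)
    · exact k.2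
    · exact k.2
  · intro b k hk
    cases b with
    | false =>
      have hk' : k ∈ D.a := hk
      ext x
      simp only [mem_iUnion, exists_prop]
      constructor
      · rintro ⟨⟨k', j⟩ | ⟨k', j⟩, ⟨h1, h2⟩, hx⟩
        · have h2' : (k' : ℝ) = k := h2
          have := hSmem k' j x hx
          exact ⟨this.1, this.2.trans h2'⟩
        · exact absurd h1 (by simp [cd])
      · rintro ⟨hx, hux⟩
        have hux' : u x = k := hux
        have : x ∈ ⋃ j, S ⟨k, hk'⟩ j := by
          rw [hSU ⟨k, hk'⟩]; exact ⟨hx, hux'⟩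
        obtain ⟨j, hj⟩ := mem_iUnion.1 this
        exact ⟨Sum.inl ⟨⟨k, hk'⟩, j⟩, ⟨rfl, rfl⟩, hj⟩
    | true =>
      have hk' : k ∈ D.b := hk
      ext x
      simp only [mem_iUnion, exists_prop]
      constructor
      · rintro ⟨⟨k', j⟩ | ⟨k', j⟩, ⟨h1, h2⟩, hx⟩
        · exact absurd h1 (by simp [cd])
        · have h2' : (k' : ℝ) = k := h2
          have := hTmem k' j x hx
          exact ⟨this.1, this.2.trans h2'⟩
      · rintro ⟨hx, hux⟩
        have hux' : v x = k := hux
        have : x ∈ ⋃ j, T ⟨k, hk'⟩ j := by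
          rw [hTU ⟨k, hk'⟩]; exact ⟨hx, hux'⟩
        obtain ⟨j, hj⟩ := mem_iUnion.1 this
        exact ⟨Sum.inr ⟨⟨k, hk'⟩, j⟩, ⟨rfl, rfl⟩, hj⟩
  · rintro (⟨k, j⟩ | ⟨k, j⟩)
    · have hm := hSmem k j
      exact twoSided_of_box (M := D.M) (i := F.i₀) rfl (ConBall.isPreconnected' (hSb k j))
        (fun x hx => (hm x hx).2) (fun x hx => (hm x hx).1)
        (fun x hx => h.regu x (mem_U F (hm x hx).1) (by rw [(hm x hx).2]; exact k.2))
        (fun x hx => hcone x (hm x hx).1) (fun x hx => hcu x (hm x hx).1)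
        (fun x hx => hku x (hm x hx).1) (fun x hx => nearS k j x hx)
    · have hm := hTmem k j
      exact twoSided_of_box (M := D.M) (i := F.i₀) rfl (ConBall.isPreconnected' (hTb k j))
        (fun x hx => (hm x hx).2) (fun x hx => (hm x hx).1)
        (fun x hx => h.regv x (mem_U F (hm x hx).1) (by rw [(hm x hx).2]; exact k.2))
        (fun x hx => hcone x (hm x hx).1) (fun x hx => hcv x (hm x hx).1)
        (fun x hx => hkv x (hm x hx).1) (fun x hx => nearT k j x hx)

end State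

end P073.H579
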