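import Vale.Agent.P073.H579.FaceIns
import Vale.Agent.P073.H579.StatePat

/-!
# P073, H579: from a face pattern to the input of (FACE)
-/

set_option linter.unusedSectionVars false

open Set Metric Topology Filter

namespace P073.H579

open P073.TR P073.SCH P073.H339 P073.H341 P073.H31

variable {E : Type*} [NormedAddCommGroup E] [NormedSpace ℝ E]

/-- a function which separates the two sides of an arc -/
theorem sign_of_cut {C B S B₁ B₂ C₁ C₂ : Set E} (hcut : Cut 1 C B S B₁ B₂ C₁ C₂) {f : E → ℝ}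
    (hf : ContinuousOn f C) (h0 : ∀ x ∈ C, (f x = 0 ↔ x ∈ S)) {p : E} (hp : p ∈ C)
    (hfp : f p < 0) (hneg : IsPreconnected {x | x ∈ C ∧ f x < 0}) :
    ((∀ x ∈ C₁ \ S, f x < 0) ∧ ∀ x ∈ C₂ \ S, 0 < f x) ∨
      (∀ x ∈ C₁ \ S, 0 < f x) ∧ ∀ x ∈ C₂ \ S, f x < 0 := by
  have key : ∀ {B₁ B₂ C₁ C₂ : Set E}, Cut 1 C B S B₁ B₂ C₁ C₂ → p ∈ C₁ \ S →
      (∀ x ∈ C₁ \ S, f x < 0) ∧ ∀ x ∈ C₂ \ S, 0 < f x := by
    intro B₁ B₂ C₁ C₂ hcut hpC
    have hC₁ : C₁ ⊆ C := hcut.hCu ▸ subset_union_left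
    have hC₂ : C₂ ⊆ C := hcut.hCu ▸ subset_union_right
    have h1 : ∀ x ∈ C₁ \ S, f x < 0 := by
      intro x hx
      by_contra hcon
      have hne : ∀ z ∈ C₁ \ S, f z ≠ 0 := fun z hz hz0 => hz.2 ((h0 z (hC₁ hz.1)).1 hz0)
      have hxp : 0 < f x := lt_of_le_of_ne (not_lt.1 hcon) (Ne.symm (hne x hx))
      have hpre := hcut.preconn
      obtain ⟨z, hz, hz0⟩ : (0:ℝ) ∈ f '' (C₁ \ S) :=
        (hpre.image f (hf.mono (sdiff_subset.trans hC₁))).ordConnected.out ⟨p, hpC, rfl⟩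
          ⟨x, hx, rfl⟩ ⟨hfp.le, hxp.le⟩
      exact hne z hz hz0
    -- the positive part is in `C₂`
    have h2 : {x | x ∈ C ∧ f x < 0} ⊆ C₁ \ S := by
      rcases hcut.side hneg (fun x hx => hx.1)
        (Set.disjoint_left.2 fun x hx hxS => hx.2.ne ((h0 x hx.1).2 hxS)) with h | h
      · exact h
      · exact absurd (hcut.not_both hpC.1 (h ⟨hp, hfp⟩).1) hpC.2
    refine ⟨h1, fun x hx => ?_⟩
    have hne : f x ≠ 0 := fun hx0 => hx.2 ((h0 x (hC₂ hx.1)).1 hx0)
    rcases lt_or_gt_of_ne hne with h3 | h3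
    · exact absurd (hcut.not_both (h2 ⟨hC₂ hx.1, h3⟩).1 hx.1) hx.2
    · exact h3
  have hpS : p ∉ S := fun h => hfp.ne ((h0 p hp).2 h)
  have : p ∈ C₁ ∪ C₂ := by rw [hcut.hCu]; exact hp
  rcases this with h1 | h1
  · exact Or.inl (key hcut ⟨h1, hpS⟩)
  · obtain ⟨h2, h3⟩ := key hcut.symm ⟨h1, hpS⟩
    exact Or.inr ⟨h3, h2⟩

/-- **the sign** -/
theorem TwoSided.exists_sign {A : Type*} {C B : Set E} {S : A → Set E} {b₀ : E} {α : A}
    {w : E → ℝ} {k : ℝ} (h : TwoSided C B (S α) w k) (hC : ConBall 2 C B)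
    (hS : ConBall 1 (S α) (S α ∩ B)) (hSC : S α ⊆ C) {f : E → ℝ} (hf : IsFn C B S b₀ α f)
    (hb₀ : b₀ ∈ B) : ∃ ε : ℝ, (ε = 1 ∨ ε = -1) ∧ ∀ x ∈ S α, ∀ᶠ y in 𝓝 x, y ∈ C →
      (k < w y → 0 < ε * f y) ∧ (w y < k → ε * f y < 0) := by
  obtain ⟨B₁, B₂, C₁, C₂, hcut⟩ := cutP_one C B (S α) hC hS hSC
  have h1 := sign_of_cut hcut hf.cont hf.zero (hC.1 hb₀) hf.base hf.neg_conn
  rcases h B₁ B₂ C₁ C₂ hcut with h2 | h2
  · rcases h1 with ⟨h3, h4⟩ | ⟨h3, h4⟩
    · refine ⟨1, Or.inl rfl, fun x hx => ?_⟩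
      filter_upwards [h2 x hx] with y hy hyC
      rw [one_mul]
      exact ⟨fun h5 => h4 y ((hy hyC).1 h5), fun h5 => h3 y ((hy hyC).2 h5)⟩
    · refine ⟨-1, Or.inr rfl, fun x hx => ?_⟩
      filter_upwards [h2 x hx] with y hy hyC
      rw [neg_one_mul]
      exact ⟨fun h5 => neg_pos.2 (h4 y ((hy hyC).1 h5)),
        fun h5 => neg_lt_zero.2 (h3 y ((hy hyC).2 h5))⟩
  · rcases h1 with ⟨h3, h4⟩ | ⟨h3, h4⟩
    · refine ⟨-1, Or.inr rfl, fun x hx => ?_⟩
      filter_upwards [h2 x hx] with y hy hyC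
      rw [neg_one_mul]
      exact ⟨fun h5 => neg_pos.2 (h3 y ((hy hyC).1 h5)),
        fun h5 => neg_lt_zero.2 (h4 y ((hy hyC).2 h5))⟩
    · refine ⟨1, Or.inl rfl, fun x hx => ?_⟩
      filter_upwards [h2 x hx] with y hy hyC
      rw [one_mul]
      exact ⟨fun h5 => h3 y ((hy hyC).1 h5), fun h5 => h4 y ((hy hyC).2 h5)⟩

/-- **from the face pattern to the input of (FACE)** -/
theorem FacePat.exists_faceIn {m n : ℕ} [Inhabited (Fin m)] {C B : Set E} {h : E → Fin m → ℝ}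
    {L : Fin m → Set ℝ} {A : Type*} {S : A → Set E} {cd : A → Fin m} {lev : A → ℝ}
    {col : A → Bool} (H : FacePat C B h L S cd lev col)
    (hdis : ∀ α β, α ≠ β → cd α = cd β → Disjoint (S α) (S β))
    (hinj : InjOn h C) (hc : ContinuousOn h C) (hk : ConicalOn h C) {b₀ : E} (hb₀ : b₀ ∈ B)
    (e : Fin n ≃ A) {fn : ℕ → E → ℝ} (hfn : ∀ i : Fin n, IsFn C B S b₀ (e i) (fn i)) :
    ∃ (cd' : ℕ → Fin m) (lev' ε : ℕ → ℝ), FaceIn n C h L fn cd' lev' ε ∧
      ∀ i : Fin n, cd' i = cd (e i) ∧ lev' i = lev (e i) := by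
  have hsg : ∀ i : Fin n, ∃ ε : ℝ, (ε = 1 ∨ ε = -1) ∧ ∀ x ∈ S (e i), ∀ᶠ y in 𝓝 x, y ∈ C →
      (lev (e i) < h y (cd (e i)) → 0 < ε * fn i y) ∧
      (h y (cd (e i)) < lev (e i) → ε * fn i y < 0) := fun i =>
    (H.two (e i)).exists_sign H.pat.hC (H.pat.hS _) (H.pat.hSC _) (hfn i) hb₀
  choose ε hε1 hε2 using hsg
  have hlevel : ∀ α, ∀ x, x ∈ S α → h x (cd α) = lev α := by
    intro α x hx
    have h1 : x ∈ ⋃ (β) (_ : cd β = cd α ∧ lev β = lev α), S β :=
      mem_iUnion₂.2 ⟨α, ⟨rfl, rfl⟩, hx⟩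
    rw [H.eq (cd α) (lev α) (H.mem α)] at h1
    exact h1.2
  refine ⟨fun i => if hi : i < n then cd (e ⟨i, hi⟩) else default,
    fun i => if hi : i < n then lev (e ⟨i, hi⟩) else 0,
    fun i => if hi : i < n then ε ⟨i, hi⟩ else 1, ?_, fun i => ?_⟩
  · refine ⟨H.pat.hC.isCompact, hinj, hc, hk, fun i hi => (hfn ⟨i, hi⟩).cont, fun i hi => ?_,
      fun i hi => ?_, fun x hx j hj => ?_, fun i hi x hx hx0 => ?_,
      fun i hi i' hi' hcd x hx h1 h2 => ?_, fun i hi x hx hx0 => ?_⟩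
    · simp only [dif_pos hi]; exact hε1 _
    · simp only [dif_pos hi]; exact H.mem _
    · have h1 : x ∈ {z | z ∈ C ∧ h z j = h x j} := ⟨hx, rfl⟩
      rw [← H.eq j _ hj] at h1
      obtain ⟨α, ⟨h2, h3⟩, h4⟩ := mem_iUnion₂.1 h1
      refine ⟨e.symm α, (e.symm α).2, ?_, ?_⟩
      · simp only [Fin.is_lt, dif_pos, Fin.eta, Equiv.apply_symm_apply]
        exact h2
      · refine ((hfn (e.symm α)).zero x hx).2 ?_
        rw [Equiv.apply_symm_apply]; exact h4
    · simp only [dif_pos hi]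
      exact hlevel _ x (((hfn ⟨i, hi⟩).zero x hx).1 hx0)
    · simp only [dif_pos hi, dif_pos hi'] at hcd
      by_contra hne
      have hne' : e ⟨i, hi⟩ ≠ e ⟨i', hi'⟩ := fun h3 => hne (by simpa using e.injective h3)
      exact Set.disjoint_left.1 (hdis _ _ hne' hcd) (((hfn ⟨i, hi⟩).zero x hx).1 h1)
        (((hfn ⟨i', hi'⟩).zero x hx).1 h2)
    · simp only [dif_pos hi]
      exact hε2 ⟨i, hi⟩ x (((hfn ⟨i, hi⟩).zero x hx).1 hx0)
  · simp only [Fin.is_lt, dif_pos, Fin.eta, and_self]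

/-- levels in two directions -/
def lvF (i j : Fin 3) (a b : Set ℝ) : Fin 3 → Set ℝ := fun l => if l = i then a else
  if l = j then b else ∅

/-- **from `Bool` to the coordinates** -/
theorem FacePat.toFin {ι : Type*} {D : Data E ι} {u v : E → ℝ} {C B : Set E} {A : Type*}
    {S : A → Set E} {cd : A → Bool} {lev : A → ℝ} {col : A → Bool}
    (H : FacePat C B (pr2 u v) (lv2 D) S cd lev col) {i j : Fin 3} (hij : i ≠ j)
    {g : E → Fin 3 → ℝ}
    (ha : ∀ k ∈ D.a, ∀ x ∈ C, (g x i = k ↔ u x = k) ∧ (g x i < k ↔ u x < k) ∧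
      (k < g x i ↔ k < u x))
    (hb : ∀ k ∈ D.b, ∀ x ∈ C, (g x j = k ↔ v x = k) ∧ (g x j < k ↔ v x < k) ∧
      (k < g x j ↔ k < v x)) :
    FacePat C B g (lvF i j D.a D.b) S (fun α => bif cd α then j else i) lev col where
  pat := H.pat
  mem := fun α => by
    have h1 := H.mem α
    cases h2 : cd α
    · simp only [h2, lv2, cond_false] at h1
      simp only [lvF, cond_false, if_true]
      exact h1
    · simp only [h2, lv2, cond_true] at h1
      simp only [lvF, cond_true, if_neg hij.symm, if_true]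
      exact h1
  eq := fun l k hk => by
    by_cases hl : l = i
    · subst hl
      simp only [lvF, if_true] at hk
      have h1 := H.eq false k hk
      have e1 : (⋃ (α) (_ : (bif cd α then j else l) = l ∧ lev α = k), S α) =
          ⋃ (α) (_ : cd α = false ∧ lev α = k), S α := by
        refine iUnion_congr fun α => ?_
        have : ((bif cd α then j else l) = l ∧ lev α = k) = (cd α = false ∧ lev α = k) := by
          cases cd α
          · simp
          · simp [hij.symm]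
        rw [this]
      rw [e1, h1]
      ext x
      exact and_congr_right fun hx => (ha k hk x hx).1.symm
    · by_cases hl' : l = j
      · subst hl'
        simp only [lvF, if_neg hl, if_true] at hk
        have h1 := H.eq true k hk
        have e1 : (⋃ (α) (_ : (bif cd α then l else i) = l ∧ lev α = k), S α) =
            ⋃ (α) (_ : cd α = true ∧ lev α = k), S α := by
          refine iUnion_congr fun α => ?_
          have : ((bif cd α then l else i) = l ∧ lev α = k) = (cd α = true ∧ lev α = k) := by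
            cases cd α
            · simp [hij]
            · simp
          rw [this]
        rw [e1, h1]
        ext x
        exact and_congr_right fun hx => (hb k hk x hx).1.symm
      · simp only [lvF, if_neg hl, if_neg hl'] at hk
        exact absurd hk (notMem_empty k)
  two := fun α => by
    have h1 := H.two α
    have h3 := H.mem α
    cases h2 : cd α
    · simp only [h2, pr2, lv2, cond_false] at h1 h3
      simp only [cond_false]
      exact twoSided_congr h1 (fun x hx => (ha _ h3 x hx).2.2) (fun x hx => (ha _ h3 x hx).2.1)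
    · simp only [h2, pr2, lv2, cond_true] at h1 h3
      simp only [cond_true]
      exact twoSided_congr h1 (fun x hx => (hb _ h3 x hx).2.2) (fun x hx => (hb _ h3 x hx).2.1)

end P073.H579
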