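import Vale.Agent.P073.H579.PatProd
import Vale.Agent.P073.H579.FaceSide
import Vale.Agent.P073.H579.FaceMet
import Vale.Agent.P073.H31.PlPeel

/-!
# P073, H579: **(PFACE)** the peeled face as one theorem

Input: a face pattern of `h` on the disc `(C, B)`, boundary data `γ, l, r`, a chart
`χ : C → Rct`. Output: `π : C → C` (independent of the insertion map), the data of the arcs, and for
every insertion map (`Ins1`) and every boundary map `G` a conical homeomorphism
`Φ : C → preQ k h C` with `Φ = G` on `B`, `prodK k (Φ x) = h (π x)` and the metric estimate.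
-/

set_option linter.unusedSectionVars false

open Set Metric Topology Filter

namespace P073.H579

open P073.TR P073.SCH P073.H339 P073.H341 P073.H31

variable {E : Type*} [NormedAddCommGroup E] [NormedSpace ℝ E]

/-- the position in the boundary interval of `c` -/
noncomputable def posI (l r : E → ℝ) (c : E) (a : ℝ) : ℝ := (a - l c) / (r c - l c)

/-- the boundary map `G` is affine (in the parameter of the rectangle) over the crossing point
`c` -/
def BdAff {m : ℕ} {C : Set E} (B : Set E) (χ : ConHomeo C Rct) (l r : E → ℝ)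
    (G : E → Fin m → ℝ) (c : E) (j : Fin m) (lo hi : ℝ) : Prop :=
  (∀ x ∈ B, ∀ a ∈ Icc (l c) (r c), χ.toFun x = (a, 1) → G x j = lo + (hi - lo) * posI l r c a) ∨
    ∀ x ∈ B, ∀ a ∈ Icc (l c) (r c), χ.toFun x = (a, 1) → G x j = hi - (hi - lo) * posI l r c a

/-- the output of (PFACE) -/
structure PFaceOut {A : Type*} {m : ℕ} (C B : Set E) (h : E → Fin m → ℝ) (L : Fin m → Finset ℝ)
    (S : A → Set E) (cd : A → Fin m) (lev om : A → ℝ) (χ : ConHomeo C Rct) (γ : ℝ × ℝ → E)
    (l r : E → ℝ) (ws : ℝ) (n : ℕ) (e : Fin n ≃ A) (Aq : ℕ → ArcD) (π : E → E) : Prop where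
  maps : MapsTo π C C
  cont : ContinuousOn π C
  con : ConicalOn π C
  bd : ∀ x ∈ B, π x = γ (χ.toFun x)
  good : ∀ i < n, (Aq i).Good
  pos : Pos n Aq
  arc : ∀ i : Fin n, (Aq i).om = om (e i) ∧ ∃ x y, x ∈ S (e i) ∩ B ∧ y ∈ S (e i) ∩ B ∧
    S (e i) ∩ B = {x, y} ∧ l x < l y ∧ (Aq i).p = l x ∧ (Aq i).w = r x - l x ∧ (Aq i).q = r y ∧
    (Aq i).w' = r y - l y
  ext : ∀ (k : Fin m → ℝ → ℝ) (lo hi : Fin m → ℝ → ℝ),
    (∀ j, Ins1 (k j) (L j : Set ℝ) (lo j) (hi j)) → ∀ G : E → Fin m → ℝ, ContinuousOn G B →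
    (∀ x ∈ B, prodK k (G x) = h (γ (χ.toFun x))) →
    (∀ α, ∀ c ∈ S α ∩ B, BdAff B χ l r G c (cd α) (lo (cd α) (lev α)) (hi (cd α) (lev α))) →
    ∃ Φ : ConHomeo C (preQ k h C), EqOn Φ.toFun G B ∧
      (∀ x ∈ C, prodK k (Φ.toFun x) = h (π x)) ∧
      (∀ (j : Fin m) (ll : ℝ), (∀ t t' : ℝ, |(t - ∑ a ∈ L j, rho (lo j) (hi j) a t) -
        (t' - ∑ a ∈ L j, rho (lo j) (hi j) a t')| ≤ ll * |k j t - k j t'|) →
        ∀ x ∈ C, ∀ x' ∈ C, |Φ.toFun x j - Φ.toFun x' j| ≤ ll * |h (π x) j - h (π x') j| +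
          ∑ i : Fin n, if cd (e i) = j then (hi j (lev (e i)) - lo j (lev (e i))) *
            |md ws Aq n i (χ.toFun x).1 (χ.toFun x).2 -
              md ws Aq n i (χ.toFun x').1 (χ.toFun x').2| else 0) ∧
      ∀ j, ∀ a ∈ L j, ∀ x ∈ C, ∀ x' ∈ C,
        |rho (lo j) (hi j) a (Φ.toFun x j) - rho (lo j) (hi j) a (Φ.toFun x' j)| ≤
          ∑ i : Fin n, if cd (e i) = j ∧ lev (e i) = a then
            (hi j (lev (e i)) - lo j (lev (e i))) *
            |md ws Aq n i (χ.toFun x).1 (χ.toFun x).2 -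
              md ws Aq n i (χ.toFun x').1 (χ.toFun x').2| else 0

/-- **(PFACE)** -/
theorem exists_pface {A : Type*} [Finite A] {m : ℕ} [Inhabited (Fin m)] {C B : Set E}
    {h : E → Fin m → ℝ} {L : Fin m → Finset ℝ} {S : A → Set E} {cd : A → Fin m}
    {lev om : A → ℝ} {col : A → Bool}
    (H : FacePat C B h (fun j => (L j : Set ℝ)) S cd lev col)
    (hdis : ∀ α β, α ≠ β → cd α = cd β → Disjoint (S α) (S β))
    (hinj : InjOn h C) (hc : ContinuousOn h C) (hk : ConicalOn h C) (χ : ConHomeo C Rct)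
    (hχ : χ.toFun '' B = bR) {γ : ℝ × ℝ → E} {l r : E → ℝ} (D : BdData B S γ l r)
    (hom : ∀ α, 0 < om α) {ws : ℝ} (hws : 0 < ws) :
    ∃ (n : ℕ) (e : Fin n ≃ A) (Aq : ℕ → ArcD) (π : E → E),
      PFaceOut C B h L S cd lev om χ γ l r ws n e Aq π := by
  obtain ⟨n, e, Aq, cq, fn, hP, hprop⟩ := exists_pat H.pat D hom
  obtain ⟨P, hP1, hP2⟩ := peelP (E := E) n n Aq cq C B fn γ ws le_rfl hws hP
  have hγB : ∀ z ∈ bR, γ z ∈ B := fun z hz => D.γi ▸ mem_image_of_mem _ hz
  have hBC : B ⊆ C := H.pat.hC.1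
  obtain ⟨cd', lev', ε, hF, hcl⟩ := H.exists_faceIn hdis hinj hc hk
    (hγB _ zero_mem) e (fun i => (hprop i).2.2.2.1)
  have hbR : bR ⊆ Rct := fun z hz => hz.1
  have hχB : ∀ x ∈ B, χ.toFun x ∈ bR := fun x hx => hχ ▸ mem_image_of_mem _ hx
  have hRct : ConicalSet Rct := χ.conicalSet_right
  refine ⟨n, e, Aq, fun x => (P.toFun (χ.toFun x)).1, ⟨fun x hx => ?_, ?_, ?_, fun x hx => ?_,
    hP.pos.good, hP.pos, fun i => ⟨(hprop i).2.2.1, ?_⟩, fun k lo hi hI G hG hGk hGa => ?_⟩⟩
  · exact (P.mapsTo (χ.mapsTo hx)).1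
  · exact continuous_fst.comp_continuousOn (P.cont.comp χ.cont χ.mapsTo)
  · have h1 : ConicalOn (fun x => P.toFun (χ.toFun x)) C := P.conical.comp χ.conical χ.mapsTo χ.cont
    exact h1.linear_comp (LinearMap.fst ℝ E (Fin n → ℝ))
  · exact hP2 _ (hχB x hx)
  · obtain ⟨x, y, h1, h2, h3, h4, h5, h6, h7, h8⟩ := (hprop i).2.2.2.2
    exact ⟨x, y, h1, h2, h3, h4, h5, h6, h7, h8⟩
  -- the homeomorphism
  set X := FaceIn.xi hF hI with hX
  have hFil : ∀ {x}, x ∈ C → P.toFun (χ.toFun x) ∈ Fil n n C fn := fun {x} hx =>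
    P.mapsTo (χ.mapsTo hx)
  have hΦk : ∀ x ∈ C, prodK k (X.toFun (P.toFun (χ.toFun x))) = h (P.toFun (χ.toFun x)).1 :=
    fun x hx => FaceIn.prodK_xi hF hI (hFil hx)
  have hcont : ContinuousOn (fun x => X.toFun (P.toFun (χ.toFun x))) C :=
    X.cont.comp (P.cont.comp χ.cont χ.mapsTo) fun x hx => hFil hx
  -- the end points
  have hfinB : {c | ∃ α, c ∈ S α ∩ B}.Finite := by
    have : {c | ∃ α, c ∈ S α ∩ B} = ⋃ α, S α ∩ B := by
      ext c; simp only [mem_ofPred_eq, mem_iUnion]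
    rw [this]
    refine finite_iUnion fun α => ?_
    obtain ⟨x, y, -, -, -, he⟩ := exists_lr H.pat D α
    rw [he]; exact toFinite _
  -- which arc
  have arc_of : ∀ x ∈ B, ∀ j, h (γ (χ.toFun x)) j ∈ (L j : Set ℝ) → ∃ i : Fin n, cd (e i) = j ∧
      lev (e i) = h (γ (χ.toFun x)) j ∧ γ (χ.toFun x) ∈ S (e i) ∩ B ∧ fn i (γ (χ.toFun x)) = 0 := by
    intro x hx j hj
    have hcB := hγB _ (hχB x hx)
    obtain ⟨i, hi', h1, h2⟩ := hF.cov _ (hBC hcB) j hj
    have h3 := hcl ⟨i, hi'⟩
    have h4 := hF.on i hi' _ (hBC hcB) h2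
    have h5 := ((hprop ⟨i, hi'⟩).2.2.2.1.zero _ (hBC hcB)).1 h2
    refine ⟨⟨i, hi'⟩, ?_, ?_, ⟨h5, hcB⟩, h2⟩
    · rw [← h3.1]; exact h1
    · rw [← h3.2, ← h1]; exact h4.symm
  -- agreement off the levels
  have off : ∀ x ∈ B, ∀ j, h (γ (χ.toFun x)) j ∉ (L j : Set ℝ) →
      X.toFun (P.toFun (χ.toFun x)) j = G x j := by
    intro x hx j hj
    have e1 : k j (X.toFun (P.toFun (χ.toFun x)) j) = h (γ (χ.toFun x)) j := by
      have := congrFun (hΦk x (hBC hx)) j
      rw [hP2 _ (hχB x hx)] at this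
      exact this
    have e2 : k j (G x j) = h (γ (χ.toFun x)) j := congrFun (hGk x hx) j
    exact (hI j).inj _ _ (e1.trans e2.symm) (by rw [e1]; exact hj)
  -- agreement at the left end of the intervals
  have left : ∀ α, ∀ c ∈ S α ∩ B, ∀ x ∈ B, χ.toFun x = (l c, 1) → ∀ j,
      X.toFun (P.toFun (χ.toFun x)) j = G x j := by
    intro α c hcα x hx hxl j
    have hpos := D.pos α c hcα
    -- the points just before
    have hev1 : ∀ᶠ a in 𝓝[<] (l c), 0 < a := by
      filter_upwards [Ioo_mem_nhdsLT hpos.1] with a ha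
      exact ha.1
    have hev2 : ∀ᶠ a in 𝓝[<] (l c), ∀ c' ∈ {c | ∃ α, c ∈ S α ∩ B},
        a ∉ Icc (l c') (r c') := by
      rw [Filter.eventually_all_finite hfinB]
      rintro c' ⟨β, hc'⟩
      by_cases hcc : c' = c
      · subst hcc
        filter_upwards [self_mem_nhdsWithin] with a ha h1
        exact absurd h1.1 (not_le.2 ha)
      · have h1 : l c ∉ Icc (l c') (r c') := fun h2 =>
          D.disj hc' hcα hcc h2 ⟨le_refl _, hpos.2.1.le⟩
        exact nhdsWithin_le_nhds (isClosed_Icc.isOpen_compl.mem_nhds h1)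
    have hmem : ∀ a ∈ Ioc 0 (l c), ((a, 1) : ℝ × ℝ) ∈ bR := fun a ha =>
      top_mem ha.1.le (by linarith [ha.2])
    have hinvB : ∀ z ∈ bR, χ.invFun z ∈ B ∧ χ.toFun (χ.invFun z) = z := by
      intro z hz
      have h1 : χ.toFun (χ.invFun z) = z := χ.right_inv (hbR hz)
      refine ⟨?_, h1⟩
      rw [← hχ] at hz
      obtain ⟨w, hw, rfl⟩ := hz
      rw [χ.left_inv (hBC hw)]; exact hw
    have hev : ∀ᶠ a in 𝓝[<] (l c), X.toFun (P.toFun (χ.toFun (χ.invFun (a, 1)))) j =
        G (χ.invFun (a, 1)) j := by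
      filter_upwards [hev1, hev2, self_mem_nhdsWithin] with a ha1 ha2 ha3
      have hz := hmem a ⟨ha1, (mem_Iio.1 ha3).le⟩
      obtain ⟨h1, h2⟩ := hinvB _ hz
      refine off _ h1 j fun h3 => ?_
      obtain ⟨i, -, -, h4, -⟩ := arc_of _ h1 j h3
      rw [h2] at h4
      exact ha2 _ ⟨e i, h4⟩ (D.fibre h4 hz rfl).1
    -- limits
    have hl : Tendsto (fun a : ℝ => χ.invFun (a, 1)) (𝓝[<] (l c)) (𝓝[B] x) := by
      have hx' : χ.invFun (l c, 1) = x := by rw [← hxl, χ.left_inv (hBC hx)]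
      rw [← hx']
      refine tendsto_nhdsWithin_iff.2 ⟨?_, ?_⟩
      · have h1 : ContinuousWithinAt χ.invFun Rct (l c, 1) :=
          χ.cont_inv _ (hbR (hmem _ ⟨hpos.1, le_refl _⟩))
        refine h1.tendsto.comp (tendsto_nhdsWithin_iff.2 ⟨?_, ?_⟩)
        · exact ((by fun_prop : Continuous fun a : ℝ => ((a, 1) : ℝ × ℝ)).tendsto (l c)).mono_left
            nhdsWithin_le_nhds
        · filter_upwards [hev1, self_mem_nhdsWithin] with a ha1 ha3
          exact hbR (hmem a ⟨ha1, (mem_Iio.1 ha3).le⟩)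
      · filter_upwards [hev1, self_mem_nhdsWithin] with a ha1 ha3
        exact (hinvB _ (hmem a ⟨ha1, (mem_Iio.1 ha3).le⟩)).1
    have t1 : Tendsto (fun a : ℝ => X.toFun (P.toFun (χ.toFun (χ.invFun (a, 1)))) j)
        (𝓝[<] (l c)) (𝓝 (X.toFun (P.toFun (χ.toFun x)) j)) := by
      have h1 : ContinuousWithinAt (fun x => X.toFun (P.toFun (χ.toFun x))) B x :=
        (hcont x (hBC hx)).mono hBC
      exact ((continuous_apply j).tendsto _).comp (h1.tendsto.comp hl)
    have t2 : Tendsto (fun a : ℝ => G (χ.invFun (a, 1)) j) (𝓝[<] (l c)) (𝓝 (G x j)) :=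
      ((continuous_apply j).tendsto _).comp ((hG x hx).tendsto.comp hl)
    exact tendsto_nhds_unique_of_eventuallyEq t1 t2 hev
  -- the boundary values
  have hbd : EqOn (fun x => X.toFun (P.toFun (χ.toFun x))) G B := by
    intro x hx
    funext j
    by_cases hj : h (γ (χ.toFun x)) j ∈ (L j : Set ℝ)
    · obtain ⟨i, hcd, hlev, hcS, hfn0⟩ := arc_of x hx j hj
      set c := γ (χ.toFun x) with hcdef
      obtain ⟨hxI, hx2⟩ := D.fibre hcS (hχB x hx) rfl
      have hxeq : χ.toFun x = ((χ.toFun x).1, 1) := Prod.ext rfl hx2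
      have hpos := D.pos _ c hcS
      have hlt := (hI (cd (e i))).lt _ (H.mem (e i))
      -- the formula for `Φ` over `c`
      have hform : (∀ y ∈ B, ∀ a ∈ Icc (l c) (r c), χ.toFun y = (a, 1) →
          X.toFun (P.toFun (χ.toFun y)) j = lo j (lev (e i)) +
            (hi j (lev (e i)) - lo j (lev (e i))) * posI l r c a) ∨
          ∀ y ∈ B, ∀ a ∈ Icc (l c) (r c), χ.toFun y = (a, 1) →
          X.toFun (P.toFun (χ.toFun y)) j = hi j (lev (e i)) -
            (hi j (lev (e i)) - lo j (lev (e i))) * posI l r c a := by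
        obtain ⟨x₁, y₁, p1, p2, p3, p4, p5, p6, p7, p8⟩ := (hprop i).2.2.2.2
        have hgood := hP.pos.good i i.2
        have hcases : c = x₁ ∨ c = y₁ := by
          have h1 := hcS
          rw [p3] at h1
          exact h1
        -- the value of the band coordinate
        have hz : ∀ y ∈ B, ∀ a, χ.toFun y = (a, 1) →
            (P.toFun (χ.toFun y)).2 i = (Aq i).sig a := by
          intro y hy a hya
          rw [hP1 _ (hbR (hχB y hy)) i, hya]
          exact md_top hws (fun i' hi' => (hP.pos.good i' hi').om0) i.2 a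
        have hval : ∀ y ∈ B, ∀ a ∈ Icc (l c) (r c), χ.toFun y = (a, 1) →
            X.toFun (P.toFun (χ.toFun y)) j = if ε i = 1 then lo j (lev (e i)) +
              (hi j (lev (e i)) - lo j (lev (e i))) * (Aq i).sig a
              else hi j (lev (e i)) - (hi j (lev (e i)) - lo j (lev (e i))) * (Aq i).sig a := by
          intro y hy a ha hya
          have h1 : γ (χ.toFun y) = c := by rw [hya]; exact D.const _ c hcS a ha
          have h2 : fn i (P.toFun (χ.toFun y)).1 = 0 := by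
            rw [hP2 _ (hχB y hy), h1]; exact hfn0
          have h3 := FaceIn.xi_arc hF hI (hFil (hBC hy)) i h2
          rw [hz y hy a hya] at h3
          have h4 := hcl i
          unfold FaceIn.len at h3
          rw [h4.1, h4.2, hcd] at h3
          exact h3
        have hcl1 : ∀ {t : ℝ}, 0 ≤ t → t ≤ 1 → cl1 t = t := fun {t} h0 h1 => by
          unfold cl1
          rw [min_eq_right h1, max_eq_right h0]
        have hd : 0 < r c - l c := by linarith
        rcases hcases with hc1 | hc1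
        · -- left end point
          have hsig : ∀ a ∈ Icc (l c) (r c), (Aq i).sig a = posI l r c a := by
            intro a ha
            have h1 : (Aq i).p = l c := by rw [p5, hc1]
            have h2 : (Aq i).w = r c - l c := by rw [p6, hc1]
            rw [ArcD.sig, hgood.lam_left (by rw [h1]; exact ha.1) (by rw [h1, h2]; linarith [ha.2]),
              h1, h2, posI]
            exact hcl1 (div_nonneg (by linarith [ha.1]) hd.le)
              ((div_le_one hd).2 (by linarith [ha.2]))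
          by_cases hε : ε i = 1
          · left
            intro y hy a ha hya
            rw [hval y hy a ha hya, if_pos hε, hsig a ha]
          · right
            intro y hy a ha hya
            rw [hval y hy a ha hya, if_neg hε, hsig a ha]
        · -- right end point
          have hsig : ∀ a ∈ Icc (l c) (r c), (Aq i).sig a = 1 - posI l r c a := by
            intro a ha
            have h1 : (Aq i).q = r c := by rw [p7, hc1]
            have h2 : (Aq i).w' = r c - l c := by rw [p8, hc1]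
            rw [ArcD.sig, hgood.lam_right (by rw [h1]; exact ha.2)
              (by rw [h1, h2]; linarith [ha.1]), h1, h2, posI,
              hcl1 (div_nonneg (by linarith [ha.2]) hd.le) ((div_le_one hd).2 (by linarith [ha.1]))]
            field_simp
            ring
          by_cases hε : ε i = 1
          · right
            intro y hy a ha hya
            rw [hval y hy a ha hya, if_pos hε, hsig a ha]; ring
          · left
            intro y hy a ha hya
            rw [hval y hy a ha hya, if_neg hε, hsig a ha]; ring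
      have hG2 := hGa (e i) c hcS
      rw [hcd] at hG2
      -- the left end point
      obtain ⟨x₀, hx₀, hx₀l⟩ : ∃ x₀ ∈ B, χ.toFun x₀ = (l c, 1) := by
        have h1 : ((l c, 1) : ℝ × ℝ) ∈ bR := top_mem hpos.1.le (by linarith)
        rw [← hχ] at h1
        exact h1
      have hl0 := left _ c hcS x₀ hx₀ hx₀l j
      have hmem0 : l c ∈ Icc (l c) (r c) := ⟨le_refl _, hpos.2.1.le⟩
      have hp0 : posI l r c (l c) = 0 := by rw [posI, sub_self, zero_div]
      rw [hcd] at hlt
      show X.toFun (P.toFun (χ.toFun x)) j = G x j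
      rcases hform with h1 | h1 <;> rcases hG2 with h2 | h2
      · rw [h1 x hx _ hxI hxeq, h2 x hx _ hxI hxeq]
      · exfalso
        rw [h1 x₀ hx₀ _ hmem0 hx₀l, h2 x₀ hx₀ _ hmem0 hx₀l, hp0] at hl0
        linarith
      · exfalso
        rw [h1 x₀ hx₀ _ hmem0 hx₀l, h2 x₀ hx₀ _ hmem0 hx₀l, hp0] at hl0
        linarith
      · rw [h1 x hx _ hxI hxeq, h2 x hx _ hxI hxeq]
    · exact off x hx j hj
  have hRpre : IsPreconnected Rct :=
    ((convex_Icc (0:ℝ) 1).prod (convex_Icc (0:ℝ) 1)).isPreconnected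
  have hpre : IsPreconnected (Fil n n C fn) := by
    rw [← P.image_eq]; exact hRpre.image _ P.cont
  refine ⟨χ.trans (P.trans X), hbd, hΦk, fun j ll hgap x hx x' hx' => ?_,
    fun j a ha x hx x' hx' => ?_⟩
  · have h1 := FaceIn.abs_xi_sub_le hF hI hpre j hgap (hFil hx) (hFil hx')
    refine h1.trans (le_of_eq ?_)
    congr 1
    refine Finset.sum_congr rfl fun i _ => ?_
    have h4 := hcl i
    unfold FaceIn.len
    rw [hP1 _ (χ.mapsTo hx) i, hP1 _ (χ.mapsTo hx') i, h4.1, h4.2]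
    split_ifs with h5
    · rw [h5]
    · rfl
  · have h1 := FaceIn.abs_rho_xi_le hF hI hpre j ha (hFil hx) (hFil hx')
    refine h1.trans (le_of_eq ?_)
    refine Finset.sum_congr rfl fun i _ => ?_
    have h4 := hcl i
    unfold FaceIn.len
    rw [hP1 _ (χ.mapsTo hx) i, hP1 _ (χ.mapsTo hx') i, h4.1, h4.2]
    by_cases h5 : cd (e i) = j ∧ lev (e i) = a
    · rw [if_pos h5, if_pos h5, h5.1]
    · rw [if_neg h5, if_neg h5]

end P073.H579
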