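import Vale.Agent.P073.ALX.Alexander
import Vale.Agent.P073.IoD

/-!
# P073, H579: **(INS)** insertion: from the faces to the cells

`h : ConHomeo Ω Λ`, `Λ ⊆ ℝ³`; `κ : Λ' → Λ` continuous, proper, surjective; `Ω` is a locally finite
union of cells (conical balls) with faces `F k`. If for every face one has a conical homeomorphism
`F k → κ⁻¹ (h (F k))`, compatible on intersections, then there is a conical homeomorphism
`g : Ω → Λ'` which extends all of them, with `g (q j) = κ⁻¹ (h (q j))` on the cells. (Alexander's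
theorem; no connectedness of the fibres of `κ` is needed.)
-/

open Set Metric Topology Filter

namespace P073.H579

variable {E : Type*} [NormedAddCommGroup E] [NormedSpace ℝ E]

/-- **a bounded open set whose boundary is contained in a conical sphere is the ball** -/
theorem conBall_of_sphere {S A : Set (Fin 3 → ℝ)} (hS : ConSphere 2 S) (hA : IsCompact (A ∪ S))
    (hAo : IsOpen A) (hne : A.Nonempty) (hd : Disjoint A S) : ConBall 3 (A ∪ S) S := by
  obtain ⟨Φ, hΦ⟩ := ALX.specALX3 S hS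
  have hinj : Function.Injective Φ.toFun := fun x y h => Φ.injOn (mem_univ x) (mem_univ y) h
  -- the image of `A`
  set A' := Φ.toFun '' A with hA'
  have hA'o : IsOpen A' := Φ.toHomeomorph.isOpenMap _ hAo
  have hcomp : IsCompact (Φ.toFun '' (A ∪ S)) :=
    hA.image_of_continuousOn (Φ.cont.mono (subset_univ _))
  have hun : Φ.toFun '' (A ∪ S) = A' ∪ sphere 0 1 := by rw [image_union, hΦ]
  have hd' : Disjoint A' (sphere 0 1) := by
    rw [← hΦ]
    exact (disjoint_image_iff hinj).2 hd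
  have hcl : IsClosed (A' ∪ sphere 0 1) := by rw [← hun]; exact hcomp.isClosed
  have hbd : Bornology.IsBounded (A' ∪ sphere 0 1) := by rw [← hun]; exact hcomp.isBounded
  -- connected sets off the sphere
  have key : ∀ T : Set (Fin 3 → ℝ), IsPreconnected T → Disjoint T (sphere 0 1) →
      (T ∩ A').Nonempty → T ⊆ A' := by
    intro T hT hTS hTA
    refine hT.subset_left_of_subset_union hA'o hcl.isOpen_compl ?_ ?_ hTA
    · rw [disjoint_compl_right_iff_subset]; exact subset_union_left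
    · intro x hx
      by_cases h1 : x ∈ A'
      · exact Or.inl h1
      · refine Or.inr fun h2 => ?_
        rcases h2 with h2 | h2
        · exact h1 h2
        · exact Set.disjoint_left.1 hTS hx h2
  -- nothing outside
  have hout : A' ⊆ ball 0 1 := by
    intro x hx
    rw [mem_ball_zero_iff]
    by_contra hx1
    have hx2 : ‖x‖ ≠ 1 := fun h => Set.disjoint_left.1 hd' hx (mem_sphere_zero_iff_norm.2 h)
    have hx3 : 1 < ‖x‖ := lt_of_le_of_ne (not_lt.1 hx1) (Ne.symm hx2)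
    have hray : (fun t : ℝ => t • x) '' Ici 1 ⊆ A' := by
      apply key
      · exact isPreconnected_Ici.image _ (by fun_prop)
      · rw [Set.disjoint_left]
        rintro _ ⟨t, ht, rfl⟩ h4
        rw [mem_sphere_zero_iff_norm, norm_smul, Real.norm_of_nonneg
          (zero_le_one.trans (mem_Ici.1 ht))] at h4
        nlinarith [mem_Ici.1 ht]
      · exact ⟨x, ⟨1, mem_Ici.2 (le_refl _), one_smul _ _⟩, hx⟩
    obtain ⟨R, hR⟩ := (hbd.subset subset_union_left : Bornology.IsBounded A').exists_norm_le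
    have h5 := hR _ (hray ⟨max 1 (R + 1), mem_Ici.2 (le_max_left _ _), rfl⟩)
    simp only [norm_smul] at h5
    rw [Real.norm_of_nonneg (zero_le_one.trans (le_max_left _ _))] at h5
    nlinarith [le_max_right 1 (R + 1), le_max_left 1 (R + 1)]
  have hin : ball 0 1 ⊆ A' := by
    apply key
    · exact (convex_ball _ _).isPreconnected
    · rw [Set.disjoint_left]
      intro x h1 h2
      rw [mem_ball_zero_iff] at h1
      rw [mem_sphere_zero_iff_norm] at h2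
      linarith
    · obtain ⟨x, hx⟩ := hne
      exact ⟨Φ.toFun x, hout ⟨x, hx, rfl⟩, ⟨x, hx, rfl⟩⟩
  have hAeq : A' = ball 0 1 := Subset.antisymm hout hin
  have hfin : Φ.toFun '' (A ∪ S) = closedBall 0 1 := by
    rw [hun, hAeq, ball_union_sphere]
  have hcon : ConicalSet (A ∪ S) := by
    have h1 : ConicalSet (closedBall (0 : Fin 3 → ℝ) 1) := (locCone_closedBall_pi 3 1).conicalSet
    have h2 : A ∪ S = Φ.symm.toFun '' closedBall 0 1 := by
      rw [← hfin]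
      show A ∪ S = Φ.invFun '' (Φ.toFun '' (A ∪ S))
      rw [image_image]
      exact ((image_congr fun x _ => Φ.left_inv (mem_univ x)).trans (image_id' _)).symm
    rw [h2]
    exact Φ.symm.conicalSet_image h1 (subset_univ _)
  exact ⟨subset_union_right, (Φ.restr hcon (subset_univ _)).cast rfl hfin, hΦ⟩

/-- the open cell has an open image -/
theorem isOpen_image_cell {q S Ω : Set E} {Λ : Set (Fin 3 → ℝ)} (hq : ConBall 3 q S)
    (h : ConHomeo Ω Λ) (hqΩ : q ⊆ Ω) : IsOpen (h.toFun '' (q \ S)) := by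
  obtain ⟨hSq, ν, hν⟩ := hq
  have h1 : h.toFun '' (q \ S) = (fun x => h.toFun (ν.invFun x)) '' ball 0 1 := by
    ext y
    constructor
    · rintro ⟨x, ⟨hx, hxS⟩, rfl⟩
      refine ⟨ν.toFun x, ?_, by show h.toFun (ν.invFun (ν.toFun x)) = _; rw [ν.left_inv hx]⟩
      have h2 := ν.mapsTo hx
      rw [mem_closedBall_zero_iff] at h2
      rw [mem_ball_zero_iff]
      refine lt_of_le_of_ne h2 fun h3 => hxS ?_
      have h4 : ν.toFun x ∈ ν.toFun '' S := by rw [hν]; exact mem_sphere_zero_iff_norm.2 h3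
      obtain ⟨z, hz, hzx⟩ := h4
      rwa [← ν.injOn (hSq hz) hx hzx]
    · rintro ⟨x, hx, rfl⟩
      have hx' : x ∈ closedBall (0 : Fin 3 → ℝ) 1 := ball_subset_closedBall hx
      refine ⟨ν.invFun x, ⟨ν.mapsTo_inv hx', fun hS => ?_⟩, rfl⟩
      have h4 : ν.toFun (ν.invFun x) ∈ ν.toFun '' S := mem_image_of_mem _ hS
      rw [ν.right_inv hx', hν, mem_sphere_zero_iff_norm] at h4
      rw [mem_ball_zero_iff] at hx
      linarith
  rw [h1]
  apply Vale.Agent.P073.Sep.isOpen_image_of_injOn isOpen_ball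
  · exact h.cont.comp (ν.cont_inv.mono ball_subset_closedBall)
      (fun x hx => hqΩ (ν.mapsTo_inv (ball_subset_closedBall hx)))
  · intro x hx y hy hxy
    have hx' : x ∈ closedBall (0 : Fin 3 → ℝ) 1 := ball_subset_closedBall hx
    have hy' : y ∈ closedBall (0 : Fin 3 → ℝ) 1 := ball_subset_closedBall hy
    exact ν.symm.injOn hx' hy' (h.injOn (hqΩ (ν.mapsTo_inv hx')) (hqΩ (ν.mapsTo_inv hy')) hxy)

/-- **cell structures**: `q j` with boundary `S j` are the cells, `F k` the faces -/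
structure CellCx {J K : Type*} (Ω : Set E) (q S : J → Set E) (F : K → Set E) : Prop where
  ball : ∀ j, ConBall 3 (q j) (S j)
  cover : ⋃ j, q j = Ω
  lf : ∀ x ∈ Ω, ∃ U ∈ 𝓝 x, {j | (q j ∩ U).Nonempty}.Finite
  lfF : ∀ x ∈ Ω, ∃ U ∈ 𝓝 x, {k | (F k ∩ U).Nonempty}.Finite
  comp : ∀ k, IsCompact (F k)
  bd : ∀ j, ∃ T : Set K, S j = ⋃ k ∈ T, F k
  face : ∀ k, F k ⊆ ⋃ j, S j
  meet : ∀ j, q j ∩ ⋃ k, F k = S j
  inter : ∀ i j, i ≠ j → q i ∩ q j ⊆ ⋃ k, F k

/-- the hypotheses on the insertion map -/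
structure InsMap {m : ℕ} (κ : (Fin m → ℝ) → Fin m → ℝ) (Λ' Λ : Set (Fin m → ℝ)) : Prop where
  isOpen : IsOpen Λ'
  cont : ContinuousOn κ Λ'
  maps : MapsTo κ Λ' Λ
  surj : SurjOn κ Λ' Λ
  proper : ∀ C, IsCompact C → C ⊆ Λ → IsCompact (Λ' ∩ κ ⁻¹' C)

variable {J K : Type*} {Ω : Set E} {q S : J → Set E} {F : K → Set E} {Λ Λ' : Set (Fin 3 → ℝ)}
  {κ : (Fin 3 → ℝ) → Fin 3 → ℝ}

/-- the preimage of the image of a set -/
def Pre (κ : (Fin 3 → ℝ) → Fin 3 → ℝ) (Λ' : Set (Fin 3 → ℝ)) (h : ConHomeo Ω Λ) (X : Set E) :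
    Set (Fin 3 → ℝ) := Λ' ∩ κ ⁻¹' (h.toFun '' X)

theorem Pre.mono {h : ConHomeo Ω Λ} {X Y : Set E} (hXY : X ⊆ Y) : Pre κ Λ' h X ⊆ Pre κ Λ' h Y :=
  fun _ hy => ⟨hy.1, image_mono hXY hy.2⟩

theorem Pre.iUnion {h : ConHomeo Ω Λ} {ι : Type*} {X : ι → Set E} :
    Pre κ Λ' h (⋃ i, X i) = ⋃ i, Pre κ Λ' h (X i) := by
  ext y
  simp only [Pre, image_iUnion, preimage_iUnion, mem_inter_iff, mem_iUnion]
  exact ⟨fun ⟨h1, i, h2⟩ => ⟨i, h1, h2⟩, fun ⟨i, h1, h2⟩ => ⟨h1, i, h2⟩⟩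

theorem Pre.inter {h : ConHomeo Ω Λ} {X Y : Set E} (hX : X ⊆ Ω) (hY : Y ⊆ Ω) :
    Pre κ Λ' h X ∩ Pre κ Λ' h Y = Pre κ Λ' h (X ∩ Y) := by
  ext y
  constructor
  · rintro ⟨⟨h1, x, hx, hxy⟩, -, x', hx', hxy'⟩
    have : x = x' := h.injOn (hX hx) (hY hx') (hxy.trans hxy'.symm)
    subst this
    exact ⟨h1, x, ⟨hx, hx'⟩, hxy⟩
  · rintro ⟨h1, x, hx, hxy⟩
    exact ⟨⟨h1, x, hx.1, hxy⟩, h1, x, hx.2, hxy⟩

theorem InsMap.isCompact_pre (hκ : InsMap κ Λ' Λ) {h : ConHomeo Ω Λ} {X : Set E} (hX : X ⊆ Ω)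
    (hc : IsCompact X) : IsCompact (Pre κ Λ' h X) :=
  hκ.proper _ (hc.image_of_continuousOn (h.cont.mono hX))
    (by rintro _ ⟨x, hx, rfl⟩; exact h.mapsTo (hX hx))

/-- local finiteness of the preimages -/
theorem InsMap.lf (hκ : InsMap κ Λ' Λ) {h : ConHomeo Ω Λ} {ι : Type*} {X : ι → Set E}
    (hX : ∀ i, X i ⊆ Ω) (hlf : ∀ x ∈ Ω, ∃ U ∈ 𝓝 x, {i | (X i ∩ U).Nonempty}.Finite)
    {y : Fin 3 → ℝ} (hy : y ∈ Λ') : ∃ U ∈ 𝓝 y, {i | (Pre κ Λ' h (X i) ∩ U).Nonempty}.Finite := by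
  have hκy : κ y ∈ Λ := hκ.maps hy
  obtain ⟨U, hU, hfin⟩ := hlf _ (h.mapsTo_inv hκy)
  -- a neighbourhood of `y` which goes to `U`
  have h1 : ContinuousAt κ y := hκ.cont.continuousAt (hκ.isOpen.mem_nhds hy)
  have h2 : ContinuousWithinAt (fun z => h.invFun (κ z)) Λ' y :=
    (h.cont_inv _ hκy).comp (hκ.cont y hy) hκ.maps
  have h3 : ContinuousAt (fun z => h.invFun (κ z)) y :=
    h2.continuousAt (hκ.isOpen.mem_nhds hy)
  refine ⟨(fun z => h.invFun (κ z)) ⁻¹' U ∩ Λ', inter_mem (h3 hU) (hκ.isOpen.mem_nhds hy),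
    hfin.subset ?_⟩
  rintro i ⟨z, ⟨hz, x, hx, hxz⟩, hzU, -⟩
  refine ⟨x, hx, ?_⟩
  have h4 : h.invFun (κ z) ∈ U := hzU
  rwa [← hxz, h.left_inv (hX i hx)] at h4

namespace CellCx

theorem q_sub (hC : CellCx Ω q S F) (j : J) : q j ⊆ Ω := hC.cover ▸ subset_iUnion q j

theorem S_sub (hC : CellCx Ω q S F) (j : J) : S j ⊆ q j := (hC.ball j).1

theorem F_sub (hC : CellCx Ω q S F) (k : K) : F k ⊆ Ω := by
  intro x hx
  obtain ⟨j, hj⟩ := mem_iUnion.1 (hC.face k hx)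
  exact hC.q_sub j (hC.S_sub j hj)

end CellCx

/-- **(INS)** -/
theorem exists_insert (hC : CellCx Ω q S F) (h : ConHomeo Ω Λ) (hκ : InsMap κ Λ' Λ)
    (Φ : ∀ k, ConHomeo (F k) (Pre κ Λ' h (F k)))
    (hag : ∀ k l, EqOn (Φ k).toFun (Φ l).toFun (F k ∩ F l))
    (himg : ∀ k l, Pre κ Λ' h (F k ∩ F l) ⊆ (Φ k).toFun '' (F k ∩ F l)) :
    ∃ g : ConHomeo Ω Λ', (∀ k, EqOn g.toFun (Φ k).toFun (F k)) ∧
      ∀ j, g.toFun '' q j = Pre κ Λ' h (q j) := by
  -- gluing of the faces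
  have hLX : RelLF F := by
    refine ⟨fun z hz => ?_, fun k z _ hz => by rwa [(hC.comp k).isClosed.closure_eq] at hz⟩
    obtain ⟨k, hk⟩ := mem_iUnion.1 hz
    exact hC.lfF z (hC.F_sub k hk)
  have hcompF : ∀ k, IsCompact (Pre κ Λ' h (F k)) := fun k =>
    hκ.isCompact_pre (hC.F_sub k) (hC.comp k)
  have hLY : RelLF fun k => Pre κ Λ' h (F k) := by
    refine ⟨fun z hz => ?_, fun k z _ hz => by rwa [(hcompF k).isClosed.closure_eq] at hz⟩
    obtain ⟨k, hk⟩ := mem_iUnion.1 hz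
    exact hκ.lf hC.F_sub hC.lfF hk.1
  set X : Set E := ⋃ k, F k with hXdef
  set Y : Set (Fin 3 → ℝ) := ⋃ k, Pre κ Λ' h (F k) with hYdef
  obtain ⟨φ, hφ⟩ : ∃ φ : ConHomeo X Y, ∀ k, EqOn φ.toFun (Φ k).toFun (F k) ∧
      EqOn φ.invFun (Φ k).invFun (Pre κ Λ' h (F k)) :=
    ConHomeo.exists_glue_family hLX hLY Φ hag
      (fun k l => by rw [Pre.inter (hC.F_sub k) (hC.F_sub l)]; exact himg k l)
  have hXΩ : X ⊆ Ω := iUnion_subset hC.F_sub
  have hY : Y = Pre κ Λ' h X := Pre.iUnion.symm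
  -- the images of the spheres
  have hφS : ∀ j, φ.toFun '' S j = Pre κ Λ' h (S j) := by
    intro j
    obtain ⟨T, hT⟩ := hC.bd j
    rw [hT, image_iUnion₂]
    have e : (⋃ k ∈ T, F k) = ⋃ k : T, F k := by rw [biUnion_eq_iUnion]
    rw [e, Pre.iUnion, biUnion_eq_iUnion]
    refine iUnion_congr fun k => ?_
    rw [(hφ k).1.image_eq, (Φ k).image_eq]
  have hSX : ∀ j, S j ⊆ X := fun j => hC.meet j ▸ inter_subset_right
  have hSq : ∀ j, S j ⊆ q j := hC.S_sub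
  have hqΩ : ∀ j, q j ⊆ Ω := hC.q_sub
  -- the images of the cells are balls
  have hball : ∀ j, ConBall 3 (Pre κ Λ' h (q j)) (Pre κ Λ' h (S j)) := by
    intro j
    have hsph : ConSphere 2 (Pre κ Λ' h (S j)) := by
      obtain ⟨σ⟩ := (hC.ball j).conSphere
      exact ⟨((φ.restr (hC.ball j).conicalSet_bdry (hSX j)).cast rfl (hφS j)).symm.trans σ⟩
    have hun : Pre κ Λ' h (q j) = Pre κ Λ' h (q j \ S j) ∪ Pre κ Λ' h (S j) := by
      apply Subset.antisymm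
      · rintro y ⟨hy, x, hx, hxy⟩
        by_cases hxS : x ∈ S j
        · exact Or.inr ⟨hy, x, hxS, hxy⟩
        · exact Or.inl ⟨hy, x, ⟨hx, hxS⟩, hxy⟩
      · exact union_subset (Pre.mono sdiff_subset) (Pre.mono (hSq j))
    rw [hun]
    refine conBall_of_sphere hsph ?_ ?_ ?_ ?_
    · rw [← hun]
      exact hκ.isCompact_pre (hqΩ j) (hC.ball j).isCompact
    · exact hκ.cont.isOpen_inter_preimage hκ.isOpen (isOpen_image_cell (hC.ball j) h (hqΩ j))
    · obtain ⟨hSq', ν, hν⟩ := hC.ball j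
      have h0 : (0 : Fin 3 → ℝ) ∈ closedBall (0 : Fin 3 → ℝ) 1 := mem_closedBall_self zero_le_one
      have hx := ν.mapsTo_inv h0
      obtain ⟨y, hy, hyx⟩ := hκ.surj (h.mapsTo (hqΩ j hx))
      refine ⟨y, hy, ν.invFun 0, ⟨hx, fun hS => ?_⟩, hyx.symm⟩
      have h4 : ν.toFun (ν.invFun 0) ∈ ν.toFun '' S j := mem_image_of_mem _ hS
      rw [ν.right_inv h0, hν, mem_sphere_zero_iff_norm, norm_zero] at h4
      exact zero_ne_one h4
    · rw [Set.disjoint_left]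
      rintro y ⟨-, x, hx, hxy⟩ ⟨-, x', hx', hxy'⟩
      have : x = x' := h.injOn (hqΩ j hx.1) (hqΩ j (hSq j hx')) (hxy.trans hxy'.symm)
      subst this
      exact hx.2 hx'
  -- extension over the cells
  have hXcl : ∀ z ∈ X ∪ ⋃ j, q j, z ∈ closure X → z ∈ X := by
    intro z hz hzX
    have hzΩ : z ∈ Ω := by
      rcases hz with hz | hz
      · exact hXΩ hz
      · rwa [hC.cover] at hz
    obtain ⟨U, hU, hfin⟩ := hC.lfF z hzΩ
    have h1 : z ∈ closure (⋃ k ∈ {k | (F k ∩ U).Nonempty}, F k) := by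
      rw [mem_closure_iff_nhds]
      intro V hV
      obtain ⟨w, hwV, hwX⟩ := mem_closure_iff_nhds.1 hzX _ (inter_mem hV hU)
      obtain ⟨k, hk⟩ := mem_iUnion.1 hwX
      exact ⟨w, hwV.1, mem_biUnion (show k ∈ {k | (F k ∩ U).Nonempty} from ⟨w, hk, hwV.2⟩) hk⟩
    rw [(hfin.isClosed_biUnion fun k _ => (hC.comp k).isClosed).closure_eq] at h1
    obtain ⟨k, -, hk⟩ := mem_iUnion₂.1 h1
    exact mem_iUnion.2 ⟨k, hk⟩
  have hcov' : Y ∪ ⋃ j, Pre κ Λ' h (q j) = Λ' := by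
    apply Subset.antisymm
    · refine union_subset (iUnion_subset fun k => fun y hy => hy.1)
        (iUnion_subset fun j => fun y hy => hy.1)
    · intro y hy
      right
      have h1 : κ y ∈ Λ := hκ.maps hy
      have h2 : h.invFun (κ y) ∈ ⋃ j, q j := by rw [hC.cover]; exact h.mapsTo_inv h1
      obtain ⟨j, hj⟩ := mem_iUnion.1 h2
      exact mem_iUnion.2 ⟨j, hy, _, hj, h.right_inv h1⟩
  have hcov : X ∪ ⋃ j, q j = Ω := by rw [hC.cover]; exact union_eq_right.2 hXΩ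
  have hYcl : ∀ z ∈ Y ∪ ⋃ j, Pre κ Λ' h (q j), z ∈ closure Y → z ∈ Y := by
    intro z hz hzY
    rw [hcov'] at hz
    obtain ⟨U, hU, hfin⟩ := hκ.lf (h := h) hC.F_sub hC.lfF hz
    have h1 : z ∈ closure (⋃ k ∈ {k | (Pre κ Λ' h (F k) ∩ U).Nonempty}, Pre κ Λ' h (F k)) := by
      rw [mem_closure_iff_nhds]
      intro V hV
      obtain ⟨w, hwV, hwX⟩ := mem_closure_iff_nhds.1 hzY _ (inter_mem hV hU)
      obtain ⟨k, hk⟩ := mem_iUnion.1 hwX
      exact ⟨w, hwV.1, mem_biUnion (show k ∈ {k | (Pre κ Λ' h (F k) ∩ U).Nonempty} from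
        ⟨w, hk, hwV.2⟩) hk⟩
    rw [(hfin.isClosed_biUnion fun k _ => (hcompF k).isClosed).closure_eq] at h1
    obtain ⟨k, -, hk⟩ := mem_iUnion₂.1 h1
    exact mem_iUnion.2 ⟨k, hk⟩
  obtain ⟨g, hg1, hg2⟩ := φ.exists_extend_cells (fun _ => 3) q S (fun j => Pre κ Λ' h (q j))
    (fun j => Pre κ Λ' h (S j)) hC.ball hball hφS hC.meet
    (fun j => by rw [hY, Pre.inter (hqΩ j) hXΩ, hC.meet]) hC.inter
    (fun i j hij => by
      rw [hY, Pre.inter (hqΩ i) (hqΩ j)]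
      exact Pre.mono (hC.inter i j hij)) hXcl hYcl
    (fun z hz => hC.lf z (hcov ▸ hz)) (fun z hz => hκ.lf hqΩ hC.lf (hcov' ▸ hz))
  refine ⟨g.cast hcov hcov', fun k x hx => ?_, hg2⟩
  show g.toFun x = (Φ k).toFun x
  rw [hg1 (mem_iUnion.2 ⟨k, hx⟩)]
  exact (hφ k).1 hx

end P073.H579
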