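import Vale.Agent.P073.H579.HFace
import Vale.Agent.P073.H155.FatStar
import Vale.Agent.P073.H193.EdgCx

/-!
# P073, H579: **(HFACE)**, the form for a mesh: the hypothesis `hface` of `exists_round`
-/

set_option linter.unusedSectionVars false

open Set Metric Topology Filter

namespace P073.H579

open Vale.Agent.P073.St (V)
open Vale.Agent.P073.H73 (Mesh)
open Vale.Agent.P073.H193 (Edges Cyc)
open Vale.Agent.P073.H155 (vv)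

/-- `κ` is the product map `prodK k` near the image of `C` -/
structure Zone {Ω Λ : Set V} (κ : V → V) (Λ' : Set V) (h : ConHomeo Ω Λ) (k : Fin 3 → ℝ → ℝ)
    (C : Set V) : Prop where
  z1 : ∀ y, prodK k y ∈ h.toFun '' C → y ∈ Λ' ∧ κ y = prodK k y
  z2 : ∀ y ∈ Λ', κ y ∈ h.toFun '' C → κ y = prodK k y

theorem Zone.pre_eq {Ω Λ : Set V} {κ : V → V} {Λ' : Set V} {h : ConHomeo Ω Λ} {k : Fin 3 → ℝ → ℝ}
    {C : Set V} (Z : Zone κ Λ' h k C) {X : Set V} (hX : X ⊆ C) :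
    Pre κ Λ' h X = preQ k h.toFun X := by
  ext y
  constructor
  · rintro ⟨h1, h2⟩
    have h3 := Z.z2 y h1 (image_mono hX h2)
    show prodK k y ∈ h.toFun '' X
    rw [← h3]; exact h2
  · intro h2
    have h3 := Z.z1 y (image_mono hX h2)
    refine ⟨h3.1, ?_⟩
    show κ y ∈ h.toFun '' X
    rw [h3.2]; exact h2

/-- `κ = prodK k` on the preimage -/
theorem Zone.eq {Ω Λ : Set V} {κ : V → V} {Λ' : Set V} {h : ConHomeo Ω Λ} {k : Fin 3 → ℝ → ℝ}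
    {C : Set V} (Z : Zone κ Λ' h k C) {X : Set V} (hX : X ⊆ C) {y : V} (hy : y ∈ Pre κ Λ' h X) :
    κ y = prodK k y := Z.z2 y hy.1 (image_mono hX hy.2)

/-- **(HFACE)** for a face of a mesh, with paths -/
theorem hface_mesh_path {Ω Λ Λ' : Set V} {M : Mesh Ω} {Ed : Edges M} {h : ConHomeo Ω Λ} {κ : V → V}
    {k₀ : M.κ} (Cy : Cyc Ed k₀) {O : V} {r0 R : ℝ}
    (hS : P073.H155.Star (Cy.n + 1) (vv Cy) O r0 R (M.F k₀))
    {k : Fin 3 → ℝ → ℝ} {L : Fin 3 → Finset ℝ} {lo hi om : Fin 3 → ℝ → ℝ}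
    (Z : Zone κ Λ' h k (M.F k₀)) (hI : ∀ j, Ins1 (k j) (L j : Set ℝ) (lo j) (hi j))
    {A : Type*} [Finite A] {S : A → Set V} {cd : A → Fin 3} {lev : A → ℝ} {col : A → Bool}
    (HF : FacePat (M.F k₀) (intrinsicFrontier ℝ (M.F k₀)) h.toFun (fun j => (L j : Set ℝ)) S cd
      lev col)
    (hdis : ∀ α β, α ≠ β → cd α = cd β → Disjoint (S α) (S β))
    (hv : ∀ x ∈ Ed.verts, x ∈ M.F k₀ → ∀ j, h.toFun x j ∉ L j)
    (hom : ∀ j, ∀ c ∈ L j, 0 < om j c) {La We : Ed.ε → ℝ} (hLa : ∀ e, 0 ≤ La e)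
    (hWe : ∀ e, Ed.seg e ⊆ M.F k₀ → ∀ Y : Finset V,
      (∀ x ∈ Y, CrsPt (Ed.a e) (Ed.b e) h.toFun L x) → ∑ x ∈ Y, omX h.toFun L om x ≤ We e)
    (Φe : ∀ e, Ed.seg e ⊆ M.F k₀ → ConHomeo (Ed.seg e) (Pre κ Λ' h (Ed.seg e)))
    (hGE : ∀ e he, ∃ s1 s2 s3 s4 : V → ℝ, EdgeNum (Ed.a e) (Ed.b e) h.toFun k L lo hi om (La e)
      (Φe e he).toFun s1 s2 s3 s4)
    (hend : ∀ e he, ∀ x ∈ Ed.seg e, x ∈ Ed.verts → κ ((Φe e he).toFun x) = h.toFun x) :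
    ∃ Φ : ConHomeo (M.F k₀) (Pre κ Λ' h (M.F k₀)),
      (∀ e, Ed.seg e ⊆ M.F k₀ → ∀ x ∈ coneSetAt O (Ed.seg e), ∀ y ∈ coneSetAt O (Ed.seg e),
        bandD L lo hi om (Φ.toFun x) (Φ.toFun y) ≤
          156 * (1 + R / r0) * (La e + (∑ e ∈ (Ed.fin_face k₀).toFinset, We e) / r0) *
            ‖x - y‖) ∧
      (∀ e he, EqOn Φ.toFun (Φe e he).toFun (Ed.seg e)) ∧
      ∀ x ∈ M.F k₀, ∀ y ∈ M.F k₀, ∃ γ : ℝ → V, ContinuousOn γ (Icc 0 3) ∧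
        MapsTo γ (Icc 0 3) (M.F k₀) ∧ γ 0 = x ∧ γ 3 = y ∧
        H880.cvar (fun s t => ENNReal.ofReal
          (bandD L lo hi om (Φ.toFun (γ s)) (Φ.toFun (γ t)))) 0 3 ≤
          ENNReal.ofReal (8 * ∑ e ∈ (Ed.fin_face k₀).toFinset, We e) := by
  classical
  have hFΩ : M.F k₀ ⊆ Ω := Vale.Agent.P073.H193.mesh_sub M k₀
  have hbd : Gon.bd (Cy.n + 1) (vv Cy) = intrinsicFrontier ℝ (M.F k₀) :=
    Vale.Agent.P073.H155.cv_vv_image Cy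
  have hof : ∀ i : Fin (Cy.n + 1), Fin.ofNat (Cy.n + 1) (i : ℕ) = i := fun i => by
    apply Fin.ext
    simp [Fin.ofNat, Nat.mod_eq_of_lt i.2]
  have hvv : ∀ i : Fin (Cy.n + 1), vv Cy i = Cy.v i := fun i => by
    unfold vv; rw [hof]
  have hvv1 : ∀ i : Fin (Cy.n + 1), vv Cy (i + 1) = Cy.v (i + 1) := fun i => by
    rw [Vale.Agent.P073.H155.vv_succ, hof]
  have hseg : ∀ i : Fin (Cy.n + 1), Gon.seg (vv Cy) i = Ed.seg (Cy.c i) := fun i => by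
    rw [Gon.seg, hvv, hvv1, Cy.seg]
  have hpre : ∀ i : Fin (Cy.n + 1), Pre κ Λ' h (Ed.seg (Cy.c i)) =
      preQ k h.toFun (Gon.seg (vv Cy) i) := fun i => by
    rw [hseg]; exact Z.pre_eq (Cy.sub i)
  -- the vertices
  have hvert : ∀ i : ℕ, vv Cy i ∈ Ed.verts ∧ vv Cy i ∈ M.F k₀ := by
    intro i
    set i' := Fin.ofNat (Cy.n + 1) i with hi'
    have e1 : vv Cy i = Cy.v i' := rfl
    rw [e1]
    have h2 : Cy.v i' ∈ Ed.seg (Cy.c i') := by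
      rw [Cy.seg]; exact left_mem_segment ℝ _ _
    refine ⟨?_, Cy.sub i' h2⟩
    rcases Cy.ends i' with h1 | h1
    · rw [h1.1]; exact Or.inl ⟨_, rfl⟩
    · rw [h1.1]; exact Or.inr ⟨_, rfl⟩
  -- the edge maps
  let Ψ : ∀ i : Fin (Cy.n + 1),
      ConHomeo (Gon.seg (vv Cy) i) (preQ k h.toFun (Gon.seg (vv Cy) i)) :=
    fun i => (Φe (Cy.c i) (Cy.sub i)).cast (hseg i).symm (hpre i)
  have hΨ : ∀ i, (Ψ i).toFun = (Φe (Cy.c i) (Cy.sub i)).toFun := fun i => rfl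
  have hend' : ∀ i : Fin (Cy.n + 1), ∀ x ∈ Gon.seg (vv Cy) i, x ∈ Ed.verts →
      prodK k ((Ψ i).toFun x) = h.toFun x := by
    intro i x hx hxv
    have hx' : x ∈ Ed.seg (Cy.c i) := hseg i ▸ hx
    rw [hΨ, ← hend (Cy.c i) (Cy.sub i) x hx' hxv]
    exact (Z.eq (Cy.sub i) ((Φe (Cy.c i) (Cy.sub i)).mapsTo hx')).symm
  obtain ⟨Φ, hΦ1, hΦ2, hΦ3⟩ := exists_hface_path (k := k) (L := L) (lo := lo) (hi := hi) (om := om)
    (h := h.toFun) hS (by rw [hbd]; exact HF) hdis (h.injOn.mono hFΩ) (h.cont.mono hFΩ)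
    (h.conical.mono (HF.pat.hC.conicalSet) hFΩ) hI
    (fun i _ j => hv _ (hvert i).1 (hvert i).2 j) hom
    (La := fun i => La (Cy.c i)) (We := fun i => We (Cy.c i)) (fun i => hLa _)
    (fun i Y hY => hWe _ (Cy.sub i) Y fun x hx => by
      have h1 := hY x hx
      refine ⟨?_, h1.2⟩
      have h2 : x ∈ Gon.seg (vv Cy) i := h1.1
      rw [hseg] at h2
      exact h2)
    (Φe := Ψ) ⟨fun i => hend' i _ (left_mem_segment ℝ _ _) (hvert i).1,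
      fun i => hend' i _ (right_mem_segment ℝ _ _) (hvert (i + 1)).1⟩
    (fun i => by
      obtain ⟨s1, s2, s3, s4, hs⟩ := hGE (Cy.c i) (Cy.sub i)
      rw [hΨ, hvv, hvv1]
      rcases Cy.ends i with ⟨h1, h2⟩ | ⟨h1, h2⟩
      · rw [h1, h2]; exact ⟨s1, s2, s3, s4, hs⟩
      · rw [h1, h2]; exact ⟨_, _, _, _, hs.symm⟩)
  have h2 : ∑ i, We (Cy.c i) = ∑ e ∈ (Ed.fin_face k₀).toFinset, We e := by
    have h3 : (Ed.fin_face k₀).toFinset = Finset.univ.image Cy.c := by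
      ext e'
      rw [Finite.mem_toFinset, Finset.mem_image]
      constructor
      · intro h4
        obtain ⟨i', hi'⟩ := Cy.surj e' h4
        exact ⟨i', Finset.mem_univ _, hi'⟩
      · rintro ⟨i', -, rfl⟩
        exact Cy.sub i'
    rw [h3, Finset.sum_image fun a _ b _ hab => Cy.cinj hab]
  rw [h2] at hΦ2 hΦ3
  refine ⟨Φ.cast rfl (Z.pre_eq Subset.rfl).symm, fun e he x hx y hy => ?_, fun e he x hx => ?_,
    hΦ3⟩
  · obtain ⟨i, rfl⟩ := Cy.surj e he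
    exact hΦ2 i x (by rw [hseg]; exact hx) y (by rw [hseg]; exact hy)
  · obtain ⟨i, rfl⟩ := Cy.surj e he
    have h1 := hΦ1 i (show x ∈ Gon.seg (vv Cy) i by rw [hseg]; exact hx)
    exact h1

/-- **(HFACE)** for a face of a mesh -/
theorem hface_mesh {Ω Λ Λ' : Set V} {M : Mesh Ω} {Ed : Edges M} {h : ConHomeo Ω Λ} {κ : V → V}
    {k₀ : M.κ} (Cy : Cyc Ed k₀) {O : V} {r0 R : ℝ}
    (hS : P073.H155.Star (Cy.n + 1) (vv Cy) O r0 R (M.F k₀))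
    {k : Fin 3 → ℝ → ℝ} {L : Fin 3 → Finset ℝ} {lo hi om : Fin 3 → ℝ → ℝ}
    (Z : Zone κ Λ' h k (M.F k₀)) (hI : ∀ j, Ins1 (k j) (L j : Set ℝ) (lo j) (hi j))
    {A : Type*} [Finite A] {S : A → Set V} {cd : A → Fin 3} {lev : A → ℝ} {col : A → Bool}
    (HF : FacePat (M.F k₀) (intrinsicFrontier ℝ (M.F k₀)) h.toFun (fun j => (L j : Set ℝ)) S cd
      lev col)
    (hdis : ∀ α β, α ≠ β → cd α = cd β → Disjoint (S α) (S β))
    (hv : ∀ x ∈ Ed.verts, x ∈ M.F k₀ → ∀ j, h.toFun x j ∉ L j)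
    (hom : ∀ j, ∀ c ∈ L j, 0 < om j c) {La We : Ed.ε → ℝ} (hLa : ∀ e, 0 ≤ La e)
    (hWe : ∀ e, Ed.seg e ⊆ M.F k₀ → ∀ Y : Finset V,
      (∀ x ∈ Y, CrsPt (Ed.a e) (Ed.b e) h.toFun L x) → ∑ x ∈ Y, omX h.toFun L om x ≤ We e)
    (Φe : ∀ e, Ed.seg e ⊆ M.F k₀ → ConHomeo (Ed.seg e) (Pre κ Λ' h (Ed.seg e)))
    (hGE : ∀ e he, ∃ s1 s2 s3 s4 : V → ℝ, EdgeNum (Ed.a e) (Ed.b e) h.toFun k L lo hi om (La e)
      (Φe e he).toFun s1 s2 s3 s4)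
    (hend : ∀ e he, ∀ x ∈ Ed.seg e, x ∈ Ed.verts → κ ((Φe e he).toFun x) = h.toFun x) :
    ∃ Φ : ConHomeo (M.F k₀) (Pre κ Λ' h (M.F k₀)),
      (∀ e, Ed.seg e ⊆ M.F k₀ → ∀ x ∈ coneSetAt O (Ed.seg e), ∀ y ∈ coneSetAt O (Ed.seg e),
        bandD L lo hi om (Φ.toFun x) (Φ.toFun y) ≤
          156 * (1 + R / r0) * (La e + (∑ e ∈ (Ed.fin_face k₀).toFinset, We e) / r0) *
            ‖x - y‖) ∧
      ∀ e he, EqOn Φ.toFun (Φe e he).toFun (Ed.seg e) := by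
  obtain ⟨Φ, h1, h2, -⟩ := hface_mesh_path Cy hS Z hI HF hdis hv hom hLa hWe Φe hGE hend
  exact ⟨Φ, h1, h2⟩

end P073.H579
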