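import Vale.Agent.P073.H579.HFaceM
import Vale.Agent.P073.H345.Stage2
import Vale.Agent.P073.H236.BoxData
import Vale.Agent.P073.H805.PlateC

/-!
# P073, H579: boxes (`H236.BX`) and (HFACE)

`zone_of_isQ`: the zone hypothesis; `exists_pat_box`: the pattern of a face without circles in a
box.
-/

set_option linter.unusedSectionVars false

open Set Metric Topology Filter

namespace P073.H579

open P073 P073.TR P073.SCH P073.H236 P073.H345
open Vale.Agent.P073.St (V)
open Vale.Agent.P073.H73 (Mesh)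
open Vale.Agent.P073.H193 (Edges Cyc)

/-- the product map preserves the full part of the box, backwards -/
theorem full_of_prodK (B : BX 3) {y : V} (h : B.Full (prodK (kQ B) y)) : B.Full y := by
  intro i hi
  have h1 := h i hi
  have h2 : prodK (kQ B) y i = y i := by rw [prodK_Q, Function.update_of_ne hi]
  rwa [h2] at h1

/-- a set in the full part of the box -/
def InB (B : BX 3) (A : Set V) : Prop := ∀ y ∈ A, y ∈ B.K ∧ B.Full y

theorem InB.mono {B : BX 3} {A A' : Set V} (h : InB B A) (hA : A' ⊆ A) : InB B A' :=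
  fun y hy => h y (hA hy)

/-- a point in `K` after the product map is in `K` before -/
theorem mem_K_of_prodK (B : BX 3) {y : V} (h : prodK (kQ B) y ∈ B.K)
    (hf : B.Full (prodK (kQ B) y)) : y ∈ B.K := by
  have hfy := full_of_prodK B hf
  rw [← Q_eq_prodK hfy] at h
  obtain ⟨⟨h1, h2⟩, h3⟩ := (mem_K B).1 h
  refine (mem_K B).2 ⟨?_, fun i hi => ?_⟩
  · by_contra hcon
    have h4 : y B.j ≤ B.al ∨ B.be ≤ y B.j := by
      by_contra h5
      push Not at h5
      exact hcon ⟨h5.1.le, h5.2.le⟩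
    rw [Q_eq_self_of_end B h4] at h1 h2
    exact hcon ⟨h1, h2⟩
  · have h4 := hfy i hi
    have h5 := B.hr i
    constructor <;> linarith [h4.1, h4.2]

/-- **the zone hypothesis** -/
theorem zone_of_isQ {γ : Type*} {Ω Λ : Set V} {B : γ → BX 3} {κ : V → V} (H : H345.Fam Λ B)
    (hκ : IsQ B κ) {h : ConHomeo Ω Λ} {C : Set V} {g : γ} (hC : InB (B g) (h.toFun '' C)) :
    Zone κ Λ h (kQ (B g)) C where
  z1 := fun y hy => by
    obtain ⟨h1, h2⟩ := hC _ hy
    have h3 := mem_K_of_prodK (B g) h1 h2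
    exact ⟨H.sub g h3, by rw [hκ.on g y h3, Q_eq_prodK (full_of_prodK _ h2)]⟩
  z2 := fun y _ hy => by
    obtain ⟨h1, h2⟩ := hC _ hy
    have h3 : y ∈ (B g).K := (hκ.mem_iff H).1 h1
    rw [hκ.on g y h3] at h2 ⊢
    have h4 : (B g).Full y := fun i hi => by
      have := h2 i hi
      rwa [(B g).Q_ne hi] at this
    exact Q_eq_prodK h4

/-- levels of a box which are regular on a face of a mesh, no circles: the pattern -/
theorem exists_pat_box {Ω Λ : Set V} (hΩ : IsOpen Ω) {M : Mesh Ω} {E : Edges M}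
    {h : ConHomeo Ω Λ} {k : M.κ} (B : BX 3)
    (hreg : ∀ m < B.N, ∀ x ∈ M.F k, h.toFun x B.j = B.a m →
      H805.Reg (fun x => h.toFun x B.j) (fam M E) x)
    (hno : ∀ σ : Set V, IsCircle σ → σ ⊆ M.F k → ¬ ∀ x ∈ σ, ∃ m < B.N, B.a m = h.toFun x B.j) :
    ∃ (A : Type) (_ : Finite A) (S : A → Set V) (cd : A → Fin 3) (lev : A → ℝ) (col : A → Bool),
      FacePat (M.F k) (intrinsicFrontier ℝ (M.F k)) h.toFun (fun j => (LQ B j : Set ℝ)) S cd
        lev col ∧ ∀ α β, α ≠ β → cd α = cd β → Disjoint (S α) (S β) := by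
  obtain ⟨j', hj'⟩ := exists_ne B.j
  let P : H805.Plate :=
    { lo := 0, hi := 0, i := B.j, j := j', a := B.lvs.L, b := ∅, s := 0 }
  have hP : ∀ l, P.lv l = LQ B l := by
    intro l
    show (if l = B.j then B.lvs.L else if l = j' then ∅ else ∅) = LQ B l
    by_cases hl : l = B.j
    · rw [if_pos hl, hl, LQ_self B]
    · rw [if_neg hl, LQ_ne B hl, ite_self]
  have hcl : H805.Clean h.toFun P (M.F k) := by
    refine ⟨fun x hx _ hb => absurd hb (Finset.notMem_empty _), fun σ hσ hs => ⟨fun hall => ?_,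
      fun hall => ?_⟩⟩
    · exact hno σ hσ hs fun x hx => B.lvs.mem_L.1 (hall x hx)
    · obtain ⟨Φ⟩ := hσ
      have h1 : ((1:ℝ), (0:ℝ)) ∈ sphere (0 : ℝ × ℝ) 1 := by
        rw [mem_sphere_zero_iff_norm, Prod.norm_def]; simp
      exact absurd (hall _ (Φ.mapsTo h1)) (Finset.notMem_empty _)
  obtain ⟨A, hA, S, col, lev, h1, h2⟩ := H805.hasPat_clean (F := fam M E) (P := P) hΩ h hj'.symm
    ⟨Sum.inl k, rfl⟩
    (fun x hx hxa => by
      obtain ⟨m, hm, hma⟩ := B.lvs.mem_L.1 hxa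
      exact hreg m hm x hx hma.symm)
    (fun x hx hxb => absurd hxb (Finset.notMem_empty _)) hcl
  refine ⟨A, hA, S, _, lev, col, ?_, h2⟩
  have h3 : (fun l => (P.lv l : Set ℝ)) = fun j => (LQ B j : Set ℝ) := by
    funext l; rw [hP]
  rw [← h3]
  exact h1

end P073.H579
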