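import Vale.Agent.P073.H579.ActR
import Vale.Agent.P073.H345.PBox

/-!
# P073, H579: **[ACT-P]** for round P with the boxes `H345.PLev`
-/

set_option linter.unusedSectionVars false

open Set Metric Topology Filter

namespace P073.H579

open P073 P073.TR P073.SCH P073.H236 P073.H345 P073.PA691
open Vale.Agent.P073.St (V)
open Vale.Agent.P073.H73 (Mesh)
open Vale.Agent.P073.H193 (Edges Cyc)
open Vale.Agent.P073.H471 (Rad Wid Boxes)
open Vale.Agent.P073.H267 (Geo)
open Vale.Agent.P073.H805 (ROut RIn lvs)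
open Vale.Agent.P073.H155 (vv)

variable {Ω Λ : Set V} {v : V} {K : BoxCx Λ v} {S : Rad K} {W : Wid K S} {B : Boxes W}
  {G : Geo B} {M : Mesh Ω} {h h2 : ConHomeo Ω Λ} {Pr : Set M.ι} {Act : Set M.κ} {E : Edges M}

/-- peeled faces before the exchange -/
theorem AkP.pre {L : K.S → Fin 3 → Finset ℝ} (R : RIn G M h Pr Act L E) {s : K.S} {k : M.κ}
    (hk : AkP G M h Act s k) {y : V} (hy : y ∈ M.F k) :
    h.toFun y ∈ G.PB (15 / 16) s ∧
      |h.toFun y (K.nrm s) - K.slo s (K.nrm s)| ≤ B.τ s / 2 := by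
  obtain ⟨hA, x, hx, hxs⟩ := hk
  have h1 := R.osc k hA s x hx (Vale.Agent.P073.H805.PB_mono (by norm_num) s hxs) y hy
  have h2 := R.nrm k hA s x hx (Vale.Agent.P073.H805.PB_mono (by norm_num) s hxs)
  have hp := Geo.p_pos (G := G) s
  have ho := Vale.Agent.P073.H805.oS_p G s
  have ho2 := G.oS_τ s
  have ho3 := Vale.Agent.P073.H805.oS_pos G s
  have h4 : ∀ j, |h.toFun x j - h.toFun y j| ≤ 4 * G.oS s := fun j => by
    have := norm_le_pi_norm (h.toFun x - h.toFun y) j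
    rw [Real.norm_eq_abs, Pi.sub_apply] at this
    linarith
  obtain ⟨h5, -⟩ := Geo.mem_PB.1 hxs
  have h6 : |h.toFun y (K.nrm s) - K.slo s (K.nrm s)| ≤ B.τ s / 2 := by
    have h7 := h4 (K.nrm s)
    rw [abs_le] at h2 h7 ⊢
    constructor <;> linarith [h2.1, h2.2, h7.1, h7.2]
  refine ⟨Geo.mem_PB.2 ⟨fun j hj => ?_, by linarith [B.τ_pos s]⟩, h6⟩
  have h8 := h5 j hj
  have h9 := abs_le.1 (h4 j)
  constructor <;> linarith [h8.1, h8.2, h9.1, h9.2]

/-- **position of the peeled faces after the exchange** -/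
theorem AkP.near' {L : K.S → Fin 3 → Finset ℝ} (R : RIn G M h Pr Act L E)
    (O : ROut G M h h2 Pr Act L E) {s : K.S} {k : M.κ} (hk : AkP G M h Act s k) {y : V}
    (hy : y ∈ M.F k) : h2.toFun y ∈ G.PB (15 / 16) s ∧
      |h2.toFun y (K.nrm s) - K.slo s (K.nrm s)| < B.τ s := by
  refine ⟨?_, (hk.near O hy).2⟩
  have hyΩ : y ∈ Ω := Vale.Agent.P073.H193.mesh_sub M k hy
  have h1 := (hk.pre R hy).1
  by_cases h3 : ∃ s', h.toFun y ∈ G.PB 1 s'
  · obtain ⟨s', hs'⟩ := h3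
    have hss : s = s' := by
      by_contra hne
      exact Set.disjoint_left.1 (Geo.disjoint_PB (G := G) (by norm_num : (1:ℝ) / 2 ≤ 15 / 16) hne)
        h1 (Vale.Agent.P073.H805.PB_mono (by norm_num) s' hs')
    subst hss
    exact Vale.Agent.P073.H805.PB_mono (by norm_num) s ((O.box s y hyΩ).2 hs')
  · push Not at h3
    rw [O.off y hyΩ h3]
    exact h1

/-- **the data of the zones of round P**, for the boxes of `PLev` -/
theorem pact_P (L : PLev G) (R : RIn G M h Pr Act L.lv E) (O : ROut G M h h2 Pr Act L.lv E)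
    {β : Bool} {κ₀ κ₁ : V → V} (h₀ : IsQ (L.bx β) κ₀) (h₁ : IsQ (L.bx (!β)) κ₁) :
    PAct M E h2 (κ₁ ∘ κ₀) Λ (AkP G M h Act) L.kP L.lv L.loP L.hiP L.omP := by
  have hlv : (fun s => lvs L.lv s) = L.lv := funext fun s => L.lvs_lv s
  rw [← hlv]
  refine pact_of_rout O (fun s j => ?_) (fun s j c _ => L.omP_pos s j c) fun s k hk => ?_
  · rw [L.lvs_lv]; exact L.ins1P s j
  · refine L.zone h₀ h₁ ?_
    rintro _ ⟨y, hy, rfl⟩
    exact Vale.Agent.P073.H805.PB_mono (by norm_num) s (hk.near' R O hy).1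

end P073.H579
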