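import Vale.Agent.P073.H579.ActE

/-!
# P073, H579: **[ACT-P]**, the hypotheses `hface` and `hedge` of the insertion step, general zones

`PAct`: a family of zones (index `σ`), in each zone the insertion map is a product map on the chosen
faces (`Ak s k`), with patterns, crossing clauses for the edges and vertices off the levels.
`GEP`, `GFP`: good edge maps (with even slots on the own edges) and good face maps.
-/

set_option linter.unusedSectionVars false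

open Set Metric Topology Filter

namespace P073.H579

open P073 P073.TR P073.SCH P073.H236 P073.H345
open Vale.Agent.P073.St (V)
open Vale.Agent.P073.H73 (Mesh)
open Vale.Agent.P073.H193 (Edges Cyc)
open Vale.Agent.P073.H155 (vv)

variable {σ : Type*} {Ω Λ Λ' : Set V}

/-- the data of the zones: chosen faces and parameters -/
structure PAct (M : Mesh Ω) (E : Edges M) (h : ConHomeo Ω Λ) (κ : V → V) (Λ' : Set V)
    (Ak : σ → M.κ → Prop) (kP : σ → Fin 3 → ℝ → ℝ) (LP : σ → Fin 3 → Finset ℝ)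
    (loP hiP omP : σ → Fin 3 → ℝ → ℝ) : Prop where
  ins : ∀ s j, Ins1 (kP s j) (LP s j : Set ℝ) (loP s j) (hiP s j)
  om : ∀ s j, ∀ c ∈ LP s j, 0 < omP s j c
  /-- one zone for each edge -/
  uniq : ∀ s s' e, EAct E Ak s e → EAct E Ak s' e → s = s'
  zone : ∀ s k, Ak s k → Zone κ Λ' h (kP s) (M.F k)
  pat : ∀ s k, Ak s k → ∃ (A : Type) (_ : Finite A) (S : A → Set V) (cd : A → Fin 3)
    (lev : A → ℝ) (col : A → Bool),
      FacePat (M.F k) (intrinsicFrontier ℝ (M.F k)) h.toFun (fun j => (LP s j : Set ℝ)) S cd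
        lev col ∧ ∀ α β, α ≠ β → cd α = cd β → Disjoint (S α) (S β)
  vert : ∀ s k, Ak s k → ∀ x ∈ E.verts, x ∈ M.F k → ∀ j, h.toFun x j ∉ LP s j
  one : ∀ s k, Ak s k → ∀ e, E.seg e ⊆ M.F k → ∀ x ∈ E.seg e, ∀ j j', h.toFun x j ∈ LP s j →
    h.toFun x j' ∈ LP s j' → j = j'
  cross : ∀ s k, Ak s k → ∀ e, E.seg e ⊆ M.F k → ∀ x ∈ E.seg e, ∀ j, h.toFun x j ∈ LP s j →
    H805.Crosses (E.seg e) (fun y => h.toFun y j) x

/-- the own edges: all faces at the edge are chosen -/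
def OwnE {M : Mesh Ω} (E : Edges M) (Ak : σ → M.κ → Prop) (e : E.ε) : Prop :=
  ∀ l, E.seg e ⊆ M.F l → ∃ s, Ak s l

/-- even slots with affine band coordinates on the edge `[a, b]` -/
def Even (a b : V) (h : V → V) (L : Fin 3 → Finset ℝ) (lo hi om : Fin 3 → ℝ → ℝ) (mu : ℝ)
    (f : V → V) (s1 s2 s3 s4 : V → ℝ) : Prop :=
  ∃ X : Finset V, (∀ x, x ∈ X ↔ CrsPt a b h L x) ∧
    H155.Slots a b mu X (omX h L om) s1 s2 s3 s4 ∧
    ∀ x ∈ X, ∀ j, h x j ∈ L j →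
      (∀ s ∈ Icc (s2 x) (s3 x), f (AffineMap.lineMap a b s) j =
        lo j (h x j) + (hi j (h x j) - lo j (h x j)) * ((s - s2 x) / (s3 x - s2 x))) ∨
      ∀ s ∈ Icc (s2 x) (s3 x), f (AffineMap.lineMap a b s) j =
        hi j (h x j) - (hi j (h x j) - lo j (h x j)) * ((s - s2 x) / (s3 x - s2 x))

/-- **good edge maps**: the numbers of the edge, for the zone of the edge; even slots on own
edges -/
def GEP {M : Mesh Ω} (E : Edges M) (h : ConHomeo Ω Λ) (Ak : σ → M.κ → Prop)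
    (kP : σ → Fin 3 → ℝ → ℝ) (LP : σ → Fin 3 → Finset ℝ) (loP hiP omP : σ → Fin 3 → ℝ → ℝ)
    (La : E.ε → ℝ) (mu : E.ε → ℝ) (e : E.ε) (f : V → V) : Prop :=
  ∀ s, EAct E Ak s e → ∃ s1 s2 s3 s4 : V → ℝ, EdgeNum (E.a e) (E.b e) h.toFun (kP s) (LP s)
    (loP s) (hiP s) (omP s) (La e) f s1 s2 s3 s4 ∧
    (OwnE E Ak e → Even (E.a e) (E.b e) h.toFun (LP s) (loP s) (hiP s) (omP s) (mu e) f s1 s2 s3 s4)

/-- **good face maps**: the cone inequality and the paths -/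
def GFP {M : Mesh Ω} (E : Edges M) (Ak : σ → M.κ → Prop)
    (LP : σ → Fin 3 → Finset ℝ) (loP hiP omP : σ → Fin 3 → ℝ → ℝ)
    (La We : E.ε → ℝ) (O : M.κ → V) (r0 R : M.κ → ℝ) (k : M.κ) (f : V → V) : Prop :=
  ∀ s, Ak s k →
    (∀ e, E.seg e ⊆ M.F k → ∀ x ∈ coneSetAt (O k) (E.seg e), ∀ y ∈ coneSetAt (O k) (E.seg e),
      bandD (LP s) (loP s) (hiP s) (omP s) (f x) (f y) ≤
        156 * (1 + R k / r0 k) * (La e + (∑ e ∈ (E.fin_face k).toFinset, We e) / r0 k) *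
          ‖x - y‖) ∧
    ∀ x ∈ M.F k, ∀ y ∈ M.F k, ∃ γ : ℝ → V, ContinuousOn γ (Icc 0 3) ∧
      MapsTo γ (Icc 0 3) (M.F k) ∧ γ 0 = x ∧ γ 3 = y ∧
      H880.cvar (fun s' t => ENNReal.ofReal (bandD (LP s) (loP s) (hiP s) (omP s)
        (f (γ s')) (f (γ t)))) 0 3 ≤
        ENNReal.ofReal (8 * ∑ e ∈ (E.fin_face k).toFinset, We e)

section

variable {M : Mesh Ω} {E : Edges M} {h : ConHomeo Ω Λ} {κ : V → V} {Ak : σ → M.κ → Prop}
  {kP : σ → Fin 3 → ℝ → ℝ} {LP : σ → Fin 3 → Finset ℝ} {loP hiP omP : σ → Fin 3 → ℝ → ℝ}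
  {La We mu : E.ε → ℝ} {O : M.κ → V} {r0 R : M.κ → ℝ}

theorem GEP.toNum {e : E.ε} {f : V → V} (H : GEP E h Ak kP LP loP hiP omP La mu e f) {s : σ}
    (hs : EAct E Ak s e) : ∃ s1 s2 s3 s4 : V → ℝ, EdgeNum (E.a e) (E.b e) h.toFun (kP s) (LP s)
      (loP s) (hiP s) (omP s) (La e) f s1 s2 s3 s4 := by
  obtain ⟨s1, s2, s3, s4, h1, -⟩ := H s hs
  exact ⟨s1, s2, s3, s4, h1⟩

/-- **[ACT-P]**, faces -/
theorem PAct.hface (P : PAct M E h κ Λ' Ak kP LP loP hiP omP) (Cy : ∀ k, Cyc E k)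
    (hS : ∀ k, P073.H155.Star ((Cy k).n + 1) (vv (Cy k)) (O k) (r0 k) (R k) (M.F k))
    (hLa : ∀ e, 0 ≤ La e)
    (hWe : ∀ s e, EAct E Ak s e → ∀ Y : Finset V,
      (∀ x ∈ Y, CrsPt (E.a e) (E.b e) h.toFun (LP s) x) →
        ∑ x ∈ Y, omX h.toFun (LP s) (omP s) x ≤ We e) :
    ∀ s k, Ak s k → ∀ Φe : ∀ e, E.seg e ⊆ M.F k → ConHomeo (E.seg e) (Pre κ Λ' h (E.seg e)),
      (∀ e he, GEP E h Ak kP LP loP hiP omP La mu e (Φe e he).toFun) →
      (∀ e he e' he', EqOn (Φe e he).toFun (Φe e' he').toFun (E.seg e ∩ E.seg e')) →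
      (∀ e he, ∀ x ∈ E.seg e, x ∈ E.verts → κ ((Φe e he).toFun x) = h.toFun x) →
      ∃ Φ : ConHomeo (M.F k) (Pre κ Λ' h (M.F k)),
        GFP E Ak LP loP hiP omP La We O r0 R k Φ.toFun ∧
        ∀ e he, EqOn Φ.toFun (Φe e he).toFun (E.seg e) := by
  intro s k hk Φe hGE _ hv
  obtain ⟨A, hA, S, cd, lev, col, h1, h2⟩ := P.pat s k hk
  obtain ⟨Φ, hΦ1, hΦ2, hΦ3⟩ := hface_mesh_path (Cy k) (hS k) (P.zone s k hk) (P.ins s) h1 h2
    (P.vert s k hk) (P.om s) hLa (fun e he Y hY => hWe s e ⟨k, hk, he⟩ Y hY) Φe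
    (fun e he => (hGE e he).toNum ⟨k, hk, he⟩) hv
  refine ⟨Φ, fun s' hs' => ?_, hΦ2⟩
  obtain rfl := P.uniq s s' ((Cy k).c 0) ⟨k, hk, (Cy k).sub 0⟩ ⟨k, hs', (Cy k).sub 0⟩
  exact ⟨hΦ1, hΦ3⟩

/-- **[ACT-P]**, own edges; `La e ≥ 8 (∑ om) / |e|` -/
theorem PAct.hedge (P : PAct M E h κ Λ' Ak kP LP loP hiP omP)
    (hmu : ∀ e, mu e ∈ Ioc (0:ℝ) (1 / 4)) (hLa : ∀ e, laE E We e ≤ La e)
    (hWe : ∀ s e, EAct E Ak s e → ∀ Y : Finset V,
      (∀ x ∈ Y, CrsPt (E.a e) (E.b e) h.toFun (LP s) x) →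
        ∑ x ∈ Y, omX h.toFun (LP s) (omP s) x ≤ We e) :
    ∀ s k, Ak s k → ∀ e, E.seg e ⊆ M.F k → ∃ Φ : ConHomeo (E.seg e) (Pre κ Λ' h (E.seg e)),
      GEP E h Ak kP LP loP hiP omP La mu e Φ.toFun ∧
        ∀ x ∈ E.seg e, x ∈ E.verts → κ (Φ.toFun x) = h.toFun x := by
  intro s k hk e he
  have heΩ : E.seg e ⊆ Ω := E.seg_sub_Ω e
  have hZk := P.zone s k hk
  have hpre : Pre κ Λ' h (E.seg e) = preQ (kP s) h.toFun (E.seg e) := hZk.pre_eq he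
  have hvn : ∀ x ∈ E.verts, x ∈ E.seg e → ∀ j, h.toFun x j ∉ LP s j := fun x hx hxe j =>
    P.vert s k hk x hx (he hxe) j
  obtain ⟨X, Φ, s1, s2, s3, s4, hX, ha, hb, hE, hSl, -, haff⟩ := H155.exists_own (E.ne e)
    (h := h.toFun) (k := kP s) (L := LP s) (lo := loP s) (hi := hiP s) (om := omP s)
    (mu := mu e) (h.injOn.mono heΩ) (h.cont.mono heΩ)
    (h.conical.mono (Convex.conicalSet (convex_segment _ _)) heΩ) (P.ins s)
    (hvn _ (Or.inl ⟨e, rfl⟩) (left_mem_segment ℝ _ _))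
    (hvn _ (Or.inr ⟨e, rfl⟩) (right_mem_segment ℝ _ _))
    (fun x hx j hj => P.cross s k hk e he x hx j hj)
    (fun x hx j j' h1 h2 => P.one s k hk e he x hx j j' h1 h2) (P.om s) (hmu e)
  refine ⟨Φ.cast rfl hpre.symm, fun s' hs' => ?_, fun x hx hxv => ?_⟩
  · obtain rfl := P.uniq s s' e ⟨k, hk, he⟩ hs'
    refine ⟨s1, s2, s3, s4, hE.mono_La ((div_le_div_of_nonneg_right ?_ (norm_nonneg _)).trans
      (hLa e)) fun j c hc => ((P.ins s j).lt c hc).le, fun _ => ⟨X, hX, hSl, haff⟩⟩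
    exact mul_le_mul_of_nonneg_left (hWe s e hs' X fun x hx => (hX x).1 hx) (by norm_num)
  · have h1 : κ (Φ.toFun x) = prodK (kP s) (Φ.toFun x) := by
      refine hZk.eq he ?_
      rw [hpre]
      exact Φ.mapsTo hx
    show κ (Φ.toFun x) = h.toFun x
    rw [h1]
    rcases vert_seg E hx hxv with rfl | rfl
    · exact ha
    · exact hb

end

end P073.H579
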