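import Vale.Agent.P073.H193.CellQ
import Vale.Agent.P073.H579.ActP
import Vale.Agent.P073.H142.FacePath

/-!
# P073, H579: the clauses `FaceCl` (H193) of a face for the cost `ρ * bandD (h3 ·) (h3 ·)`

From `GFP` (STAGE 3 of ROUND P).
-/

open Set Metric Topology Filter
open scoped ENNReal

namespace P073.H579

open P073 P073.PA691
open Vale.Agent.P073.St (V)
open Vale.Agent.P073.H73 (Mesh)
open Vale.Agent.P073.H193 (Edges edges FaceCl)
open P073.H142 (FStar)
open P073.H950 (bsum)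

variable {Ω : Set V} {M : Mesh Ω} {σ : Type*} {Ak : σ → M.κ → Prop}
  {LP : σ → Fin 3 → Finset ℝ} {loP hiP omP : σ → Fin 3 → ℝ → ℝ} {k : M.κ} {f : V → V} {s : σ}

/-- **`GFP ⟹ FaceCl`**, for the cost `ρ * bandD` -/
theorem GFP.faceCl {T : ∀ k, FStar (edges M) k} {La We b : (edges M).ε → ℝ} {C₁ C₂ ρ q : ℝ}
    (H : GFP (edges M) Ak LP loP hiP omP La We (fun k => (T k).O) (fun k => (T k).rho)
      (fun k => (T k).R) k f) (hs : Ak s k) (hρ : 0 ≤ ρ)
    (hb : ∀ e, (edges M).seg e ⊆ M.F k → 0 ≤ b e)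
    (hLa : ∀ e, (edges M).seg e ⊆ M.F k → La e * ‖(edges M).b e - (edges M).a e‖ ≤ q * b e)
    (hWe : ∀ e, (edges M).seg e ⊆ M.F k → We e ≤ q * b e)
    (h1 : 156 * (1 + (T k).R / (T k).rho) * (ρ * q) ≤ C₁) (h2 : 8 * (ρ * q) ≤ C₂) {g : V → V}
    (hg : EqOn g f (M.F k)) :
    FaceCl M k (T k) b C₁ C₂ fun x y =>
      ρ * bandD (LP s) (loP s) (hiP s) (omP s) (g x) (g y) := by
  obtain ⟨hc, hp⟩ := H s hs
  have hr := (T k).star.rho0
  have hR := (T k).R0
  have hfin : ∀ e ∈ ((edges M).fin_face k).toFinset, (edges M).seg e ⊆ M.F k :=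
    fun e he => ((edges M).fin_face k).mem_toFinset.1 he
  have hSb : 0 ≤ ∑ e ∈ ((edges M).fin_face k).toFinset, b e :=
    Finset.sum_nonneg fun e he => hb e (hfin e he)
  have hSW : ∑ e ∈ ((edges M).fin_face k).toFinset, We e ≤
      q * ∑ e ∈ ((edges M).fin_face k).toFinset, b e := by
    rw [Finset.mul_sum]
    exact Finset.sum_le_sum fun e he => hWe e (hfin e he)
  refine ⟨fun e he x hx y hy => ?_, fun x hx y hy => ?_⟩
  · have hpos := _root_.P073.H142.elen_pos (edges M) e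
    have e1 := hc e he x hx y hy
    rw [hg ((T k).cone_sub he hx), hg ((T k).cone_sub he hy)]
    have e2 : La e ≤ q * (b e / ‖(edges M).b e - (edges M).a e‖) := by
      rw [← mul_div_assoc, le_div_iff₀ hpos]
      exact hLa e he
    have e3 : (∑ e ∈ ((edges M).fin_face k).toFinset, We e) / (T k).rho ≤
        q * ((∑ e ∈ ((edges M).fin_face k).toFinset, b e) / (T k).rho) := by
      rw [← mul_div_assoc]
      exact div_le_div_of_nonneg_right hSW hr.le
    have e4 : 0 ≤ b e / ‖(edges M).b e - (edges M).a e‖ := div_nonneg (hb e he) hpos.le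
    have e5 : 0 ≤ (∑ e ∈ ((edges M).fin_face k).toFinset, b e) / (T k).rho :=
      div_nonneg hSb hr.le
    have e6 : 0 ≤ (T k).R / (T k).rho := div_nonneg hR hr.le
    have e7 : 156 * (1 + (T k).R / (T k).rho) *
        (La e + (∑ e ∈ ((edges M).fin_face k).toFinset, We e) / (T k).rho) ≤
        156 * (1 + (T k).R / (T k).rho) * (q * (b e / ‖(edges M).b e - (edges M).a e‖ +
          (∑ e ∈ ((edges M).fin_face k).toFinset, b e) / (T k).rho)) :=
      mul_le_mul_of_nonneg_left (by linarith) (by positivity)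
    have e8 : ρ * (156 * (1 + (T k).R / (T k).rho) *
        (La e + (∑ e ∈ ((edges M).fin_face k).toFinset, We e) / (T k).rho)) ≤
        C₁ * (b e / ‖(edges M).b e - (edges M).a e‖ +
          (∑ e ∈ ((edges M).fin_face k).toFinset, b e) / (T k).rho) := by
      refine (mul_le_mul_of_nonneg_left e7 hρ).trans ?_
      have := mul_le_mul_of_nonneg_right h1 (add_nonneg e4 e5)
      linarith
    calc ρ * bandD (LP s) (loP s) (hiP s) (omP s) (f x) (f y)
        ≤ ρ * (156 * (1 + (T k).R / (T k).rho) *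
          (La e + (∑ e ∈ ((edges M).fin_face k).toFinset, We e) / (T k).rho) * ‖x - y‖) :=
          mul_le_mul_of_nonneg_left e1 hρ
      _ = ρ * (156 * (1 + (T k).R / (T k).rho) *
          (La e + (∑ e ∈ ((edges M).fin_face k).toFinset, We e) / (T k).rho)) * ‖x - y‖ := by
          ring
      _ ≤ (T k).con C₁ b e * ‖x - y‖ := mul_le_mul_of_nonneg_right e8 (norm_nonneg _)
  · obtain ⟨γ, a1, a2, a3, a4, a5⟩ := hp x hx y hy
    refine ⟨γ, a1, a2, a3, a4, ?_⟩
    have key : H880.cvar (fun t t' => ENNReal.ofReal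
        (ρ * bandD (LP s) (loP s) (hiP s) (omP s) (g (γ t)) (g (γ t')))) 0 3 ≤
        ENNReal.ofReal ρ * H880.cvar (fun t t' => ENNReal.ofReal
          (bandD (LP s) (loP s) (hiP s) (omP s) (f (γ t)) (f (γ t')))) 0 3 := by
      refine H142.cvar_mul_le fun t ht t' ht' _ => ?_
      rw [hg (a2 ht), hg (a2 ht'), ENNReal.ofReal_mul hρ]
    refine key.trans ((mul_le_mul_right a5 _).trans ?_)
    rw [← ENNReal.ofReal_mul hρ]
    refine ENNReal.ofReal_le_ofReal ?_
    unfold bsum
    calc ρ * (8 * ∑ e ∈ ((edges M).fin_face k).toFinset, We e)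
        ≤ ρ * (8 * (q * ∑ e ∈ ((edges M).fin_face k).toFinset, b e)) :=
          mul_le_mul_of_nonneg_left (by linarith) hρ
      _ = 8 * (ρ * q) * ∑ e ∈ ((edges M).fin_face k).toFinset, b e := by ring
      _ ≤ C₂ * ∑ e ∈ ((edges M).fin_face k).toFinset, b e :=
          mul_le_mul_of_nonneg_right h2 hSb

end P073.H579
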