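import Vale.Agent.P073.H579.ActP
import Vale.Agent.P073.H805.PIn

/-!
# P073, H579: **[ACT-P]** for round P: `PAct` from the output `ROut` of the exchange (H805)
-/

set_option linter.unusedSectionVars false

open Set Metric Topology Filter

namespace P073.H579

open P073 P073.TR P073.SCH P073.H236 P073.H345 P073.PA691
open Vale.Agent.P073.St (V)
open Vale.Agent.P073.H73 (Mesh)
open Vale.Agent.P073.H193 (Edges Cyc)
open Vale.Agent.P073.H471 (Rad Wid Boxes)
open Vale.Agent.P073.H267 (Geo)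
open Vale.Agent.P073.H805 (ROut lvs)

variable {Ω Λ : Set V} {v : V} {K : BoxCx Λ v} {S : Rad K} {W : Wid K S} {B : Boxes W}

/-- the peeled faces of the plate `s` (`h`: the map before the exchange) -/
def AkP (G : Geo B) (M : Mesh Ω) (h : ConHomeo Ω Λ) (Act : Set M.κ) (s : K.S) (k : M.κ) : Prop :=
  k ∈ Act ∧ ∃ x ∈ M.F k, h.toFun x ∈ G.PB 1 s

variable {G : Geo B} {M : Mesh Ω} {h h2 : ConHomeo Ω Λ} {Pr : Set M.ι} {Act : Set M.κ}
  {L : K.S → Fin 3 → Finset ℝ} {E : Edges M}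

/-- position of the peeled faces -/
theorem AkP.near (O : ROut G M h h2 Pr Act L E) {s : K.S} {k : M.κ} (hk : AkP G M h Act s k)
    {y : V} (hy : y ∈ M.F k) :
    h2.toFun y ∈ G.PB (3 / 4) s ∧ |h2.toFun y (K.nrm s) - K.slo s (K.nrm s)| < B.τ s := by
  obtain ⟨hA, x, hx, hxs⟩ := hk
  exact O.near k hA s x hx hxs y hy

/-- one square for each edge -/
theorem AkP.uniq (O : ROut G M h h2 Pr Act L E) {s s' : K.S} {e : E.ε}
    (h1 : EAct E (AkP G M h Act) s e) (h3 : EAct E (AkP G M h Act) s' e) : s = s' := by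
  by_contra hne
  obtain ⟨k, hk, he⟩ := h1
  obtain ⟨k', hk', he'⟩ := h3
  have ha : E.a e ∈ E.seg e := left_mem_segment ℝ _ _
  exact Set.disjoint_left.1 (Vale.Agent.P073.H267.Geo.disjoint_PB (G := G)
    (by norm_num : (1:ℝ) / 2 ≤ 3 / 4) hne) (hk.near O (he ha)).1 (hk'.near O (he' ha)).1

/-- **the data of the zones of round P** -/
theorem pact_of_rout (O : ROut G M h h2 Pr Act L E) {κ : V → V} {Λ' : Set V}
    {kP : K.S → Fin 3 → ℝ → ℝ} {loP hiP omP : K.S → Fin 3 → ℝ → ℝ}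
    (hins : ∀ s j, Ins1 (kP s j) (lvs L s j : Set ℝ) (loP s j) (hiP s j))
    (hom : ∀ s j, ∀ c ∈ lvs L s j, 0 < omP s j c)
    (hz : ∀ s k, AkP G M h Act s k → Zone κ Λ' h2 (kP s) (M.F k)) :
    PAct M E h2 κ Λ' (AkP G M h Act) kP (fun s => lvs L s) loP hiP omP where
  ins := hins
  om := hom
  uniq := fun s s' e h1 h3 => AkP.uniq O h1 h3
  zone := hz
  pat := by
    rintro s k ⟨hA, x, hx, hxs⟩
    obtain ⟨A, hA', S, col, lev, h1, h3⟩ := O.pat k hA s x hx hxs
    exact ⟨A, hA', S, _, lev, col, h1, h3⟩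
  vert := by
    rintro s k ⟨hA, x, hx, hxs⟩ y hy hyk j
    exact O.vert k hA s x hx hxs y hy hyk j
  one := by
    rintro s k ⟨hA, x, hx, hxs⟩ e he y hy j j' h1 h3
    exact (O.edge k hA s x hx hxs e he).1.off y hy j j' h1 h3
  cross := by
    rintro s k ⟨hA, x, hx, hxs⟩ e he y hy j h1
    exact (O.edge k hA s x hx hxs e he).1.cross y hy j h1

end P073.H579
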