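import Vale.Agent.P073.H579.Thin
import Vale.Agent.P073.H31.PlPat

/-!
# P073, H579: from a pattern of arcs and boundary data to the patterns of block H31
-/

open Set Metric Topology Filter

namespace P073.H579

open P073.TR P073.SCH P073.H339 P073.H341 P073.H31

variable {E : Type*} [NormedAddCommGroup E] [NormedSpace ℝ E]

/-- the boundary data of a pattern: a parametrisation of the boundary by the boundary of the model
rectangle which collapses disjoint intervals `[l x, r x]` of the top side to the end points `x` of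
the arcs -/
structure BdData {A : Type*} (B : Set E) (S : A → Set E) (γ : ℝ × ℝ → E) (l r : E → ℝ) : Prop where
  γc : ContinuousOn γ bR
  γk : ConicalOn γ bR
  γi : γ '' bR = B
  pos : ∀ α, ∀ x ∈ S α ∩ B, 0 < l x ∧ l x < r x ∧ r x < 1
  const : ∀ α, ∀ x ∈ S α ∩ B, ∀ a ∈ Icc (l x) (r x), γ (a, 1) = x
  inj : ∀ y ∈ bR, ∀ z ∈ bR, γ y = γ z → y = z ∨ ∃ α, ∃ x ∈ S α ∩ B,
    (y.1 ∈ Icc (l x) (r x) ∧ y.2 = 1) ∧ (z.1 ∈ Icc (l x) (r x) ∧ z.2 = 1)
  own : ∀ α, ∀ x ∈ S α ∩ B, ∀ y ∈ S α ∩ B, l x < l y →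
    l x + 2 * (r x - l x) ≤ r y - 2 * (r y - l y)
  gap : ∀ α β, α ≠ β → (S α ∩ S β).Nonempty → ∀ x ∈ S α ∩ B, ∀ y ∈ S β ∩ B, l x < l y →
    r x + (r x - l x) < l y ∧ r x + (r y - l y) < l y

/-- the boundary of the rectangle without a segment of the top side is connected -/
theorem preconn_out {p q : ℝ} (hp : 0 < p) (hq : q < 1) :
    IsPreconnected {x : ℝ × ℝ | x ∈ bR ∧ (x.2 = 1 → x.1 < p ∨ q < x.1)} := by
  have e : {x : ℝ × ℝ | x ∈ bR ∧ (x.2 = 1 → x.1 < p ∨ q < x.1)} =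
      ((Ico 0 (min p 1) ×ˢ {(1:ℝ)} ∪ {(0:ℝ)} ×ˢ Icc 0 1) ∪ Icc 0 1 ×ˢ {(0:ℝ)}) ∪
        ({(1:ℝ)} ×ˢ Icc 0 1 ∪ Ioc (max q 0) 1 ×ˢ {(1:ℝ)}) := by
    ext ⟨a, b⟩
    simp only [bR, Rct, mem_prod, mem_Icc, mem_ofPred_eq, mem_union, mem_Ico, mem_Ioc,
      mem_singleton_iff, lt_min_iff, max_lt_iff]
    constructor
    · rintro ⟨⟨⟨⟨h1, h2⟩, h3, h4⟩, h5⟩, h6⟩
      rcases h5 with h5 | h5 | h5 | h5
      · exact Or.inl (Or.inl (Or.inr ⟨h5, h3, h4⟩))
      · exact Or.inr (Or.inl ⟨h5, h3, h4⟩)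
      · exact Or.inl (Or.inr ⟨⟨h1, h2⟩, h5⟩)
      · rcases h6 h5 with h7 | h7
        · rcases h2.lt_or_eq with h8 | h8
          · exact Or.inl (Or.inl (Or.inl ⟨⟨h1, h7, h8⟩, h5⟩))
          · exact Or.inr (Or.inl ⟨h8, h3, h4⟩)
        · rcases h1.lt_or_eq with h8 | h8
          · exact Or.inr (Or.inr ⟨⟨⟨h7, h8⟩, h2⟩, h5⟩)
          · exact Or.inl (Or.inl (Or.inr ⟨h8.symm, h3, h4⟩))
    · rintro (((⟨⟨h1, h2, h3⟩, h4⟩ | ⟨h1, h2, h3⟩) | ⟨⟨h1, h2⟩, h3⟩) |
        (⟨h1, h2, h3⟩ | ⟨⟨⟨h1, h2⟩, h3⟩, h4⟩))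
      · exact ⟨⟨⟨⟨h1, h3.le⟩, by linarith, h4.le⟩, Or.inr (Or.inr (Or.inr h4))⟩, fun _ => Or.inl h2⟩
      · subst h1
        exact ⟨⟨⟨⟨le_refl _, zero_le_one⟩, h2, h3⟩, Or.inl rfl⟩, fun _ => Or.inl hp⟩
      · subst h3
        exact ⟨⟨⟨⟨h1, h2⟩, le_refl _, zero_le_one⟩, Or.inr (Or.inr (Or.inl rfl))⟩,
          fun h => absurd h (by norm_num)⟩
      · subst h1
        exact ⟨⟨⟨⟨zero_le_one, le_refl _⟩, h2, h3⟩, Or.inr (Or.inl rfl)⟩, fun _ => Or.inr hq⟩
      · exact ⟨⟨⟨⟨h2.le, h3⟩, by linarith, h4.le⟩, Or.inr (Or.inr (Or.inr h4))⟩, fun _ => Or.inr h1⟩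
  rw [e]
  have c1 : IsPreconnected (Ico 0 (min p 1) ×ˢ {(1:ℝ)}) :=
    isPreconnected_Ico.prod isPreconnected_singleton
  have c2 : IsPreconnected ({(0:ℝ)} ×ˢ Icc (0:ℝ) 1) :=
    isPreconnected_singleton.prod isPreconnected_Icc
  have c3 : IsPreconnected (Icc (0:ℝ) 1 ×ˢ {(0:ℝ)}) :=
    isPreconnected_Icc.prod isPreconnected_singleton
  have c4 : IsPreconnected ({(1:ℝ)} ×ˢ Icc (0:ℝ) 1) :=
    isPreconnected_singleton.prod isPreconnected_Icc
  have c5 : IsPreconnected (Ioc (max q 0) 1 ×ˢ {(1:ℝ)}) :=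
    isPreconnected_Ioc.prod isPreconnected_singleton
  have i01 : (0:ℝ) ∈ Icc (0:ℝ) 1 := ⟨le_refl _, zero_le_one⟩
  have i11 : (1:ℝ) ∈ Icc (0:ℝ) 1 := ⟨zero_le_one, le_refl _⟩
  have c12 := IsPreconnected.union ((0:ℝ), (1:ℝ))
    (show ((0:ℝ), (1:ℝ)) ∈ Ico 0 (min p 1) ×ˢ {(1:ℝ)} from ⟨⟨le_refl _, lt_min hp one_pos⟩, rfl⟩)
    (show ((0:ℝ), (1:ℝ)) ∈ {(0:ℝ)} ×ˢ Icc (0:ℝ) 1 from ⟨rfl, i11⟩) c1 c2
  have c123 := IsPreconnected.union ((0:ℝ), (0:ℝ)) (Or.inr ⟨rfl, i01⟩ : ((0:ℝ), (0:ℝ)) ∈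
    Ico 0 (min p 1) ×ˢ {(1:ℝ)} ∪ {(0:ℝ)} ×ˢ Icc (0:ℝ) 1)
    (show ((0:ℝ), (0:ℝ)) ∈ Icc (0:ℝ) 1 ×ˢ {(0:ℝ)} from ⟨i01, rfl⟩) c12 c3
  have c45 := IsPreconnected.union ((1:ℝ), (1:ℝ))
    (show ((1:ℝ), (1:ℝ)) ∈ {(1:ℝ)} ×ˢ Icc (0:ℝ) 1 from ⟨rfl, i11⟩)
    (show ((1:ℝ), (1:ℝ)) ∈ Ioc (max q 0) 1 ×ˢ {(1:ℝ)} from
      ⟨⟨max_lt hq one_pos, le_refl _⟩, rfl⟩) c4 c5
  exact IsPreconnected.union ((1:ℝ), (0:ℝ)) (Or.inr ⟨i11, rfl⟩) (Or.inl ⟨rfl, i01⟩) c123 c45

/-- signs of a continuous function with connected domain and no zeros -/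
theorem sign_prop {X : Type*} [TopologicalSpace X] {K : Set X} (hK : IsPreconnected K)
    {f : X → ℝ} (hf : ContinuousOn f K) (h0 : ∀ x ∈ K, f x ≠ 0) {x y : X} (hx : x ∈ K)
    (hy : y ∈ K) (hx' : 0 < f x) : 0 < f y := by
  by_contra h
  have hy' : f y < 0 := lt_of_le_of_ne (not_lt.1 h) (h0 y hy)
  obtain ⟨z, hz, hz0⟩ := hK.intermediate_value hy hx hf ⟨hy'.le, hx'.le⟩
  exact h0 z hz hz0

theorem sign_prop' {X : Type*} [TopologicalSpace X] {K : Set X} (hK : IsPreconnected K)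
    {f : X → ℝ} (hf : ContinuousOn f K) (h0 : ∀ x ∈ K, f x ≠ 0) {x y : X} (hx : x ∈ K)
    (hy : y ∈ K) (hx' : f x < 0) : f y < 0 := by
  have := sign_prop (f := fun x => - f x) hK hf.neg (fun x hx h => h0 x hx (by linarith)) hx hy
    (by linarith)
  linarith

section

variable {A : Type*} {C B : Set E} {S : A → Set E} {col : A → Bool} {γ : ℝ × ℝ → E}
  {l r : E → ℝ}

theorem top_mem {a : ℝ} (h0 : 0 ≤ a) (h1 : a ≤ 1) : ((a, 1) : ℝ × ℝ) ∈ bR :=
  ⟨⟨⟨h0, h1⟩, zero_le_one, le_refl _⟩, Or.inr (Or.inr (Or.inr rfl))⟩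

theorem zero_mem : ((0, 0) : ℝ × ℝ) ∈ bR :=
  ⟨⟨⟨le_refl _, zero_le_one⟩, le_refl _, zero_le_one⟩, Or.inl rfl⟩

/-- intervals of different points are disjoint -/
theorem BdData.disj (D : BdData B S γ l r) {α β : A} {x y : E} (hx : x ∈ S α ∩ B)
    (hy : y ∈ S β ∩ B) (hne : x ≠ y) {a : ℝ} (h1 : a ∈ Icc (l x) (r x))
    (h2 : a ∈ Icc (l y) (r y)) : False :=
  hne ((D.const α x hx a h1).symm.trans (D.const β y hy a h2))

theorem BdData.order (D : BdData B S γ l r) {α β : A} {x y : E} (hx : x ∈ S α ∩ B)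
    (hy : y ∈ S β ∩ B) (hne : x ≠ y) : r x < l y ∨ r y < l x := by
  have h1 := D.pos α x hx
  have h2 := D.pos β y hy
  by_contra hcon
  push Not at hcon
  rcases le_total (l x) (l y) with h | h
  · exact D.disj hx hy hne (a := l y) ⟨h, hcon.1⟩ ⟨le_refl _, h2.2.1.le⟩
  · exact D.disj hx hy hne (a := l x) ⟨le_refl _, h1.2.1.le⟩ ⟨h, hcon.2⟩

/-- the preimage of an end point -/
theorem BdData.fibre (D : BdData B S γ l r) {α : A} {x : E} (hx : x ∈ S α ∩ B) {z : ℝ × ℝ}
    (hz : z ∈ bR) (h : γ z = x) : z.1 ∈ Icc (l x) (r x) ∧ z.2 = 1 := by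
  have h1 := D.pos α x hx
  have hm : ((l x, 1) : ℝ × ℝ) ∈ bR := top_mem h1.1.le (by linarith)
  have h2 : γ z = γ (l x, 1) := by rw [h, D.const α x hx _ ⟨le_refl _, h1.2.1.le⟩]
  rcases D.inj z hz _ hm h2 with h3 | ⟨β, y, hy, h3, h4⟩
  · rw [h3]; exact ⟨⟨le_refl _, h1.2.1.le⟩, rfl⟩
  · have hyx : y = x := by
      by_contra hne
      exact D.disj hy hx hne h4.1 ⟨le_refl _, h1.2.1.le⟩
    rw [hyx] at h3
    exact h3

/-- an arc with its end points in order -/
theorem exists_lr (h : ArcPat C B S col) (D : BdData B S γ l r) (α : A) :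
    ∃ x y, x ∈ S α ∩ B ∧ y ∈ S α ∩ B ∧ l x < l y ∧ S α ∩ B = {x, y} := by
  obtain ⟨p, q, hpq, he⟩ := exists_ends' (h.hS α)
  have hp : p ∈ S α ∩ B := by rw [he]; exact Or.inl rfl
  have hq : q ∈ S α ∩ B := by rw [he]; exact Or.inr rfl
  have h1 := D.pos α p hp
  have h2 := D.pos α q hq
  rcases D.order hp hq hpq with h3 | h3
  · exact ⟨p, q, hp, hq, by linarith, he⟩
  · exact ⟨q, p, hq, hp, by linarith, by rw [he, pair_comm]⟩

/-- an enumeration with increasing values -/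
theorem exists_enum {A : Type*} [Finite A] {P : A → ℝ} (hP : Function.Injective P) :
    ∃ (k : ℕ) (e : Fin k ≃ A), ∀ i j : Fin k, i < j → P (e i) < P (e j) := by
  classical
  have := Fintype.ofFinite A
  set s : Finset ℝ := Finset.univ.image P with hs
  have hcard : s.card = Fintype.card A := by
    rw [hs, Finset.card_image_of_injective _ hP, Finset.card_univ]
  set emb := s.orderEmbOfFin hcard with hemb
  have hmem : ∀ i, ∃ α, P α = emb i := by
    intro i
    have := Finset.orderEmbOfFin_mem s hcard i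
    obtain ⟨α, -, hα⟩ := Finset.mem_image.1 this
    exact ⟨α, hα⟩
  choose g hg using hmem
  have hinj : Function.Injective g := by
    intro i j hij
    have : emb i = emb j := by rw [← hg i, ← hg j, hij]
    exact emb.injective this
  have hbij : Function.Bijective g := by
    rw [Fintype.bijective_iff_injective_and_card]
    exact ⟨hinj, Fintype.card_fin _⟩
  refine ⟨Fintype.card A, Equiv.ofBijective g hbij, fun i j hij => ?_⟩
  show P (g i) < P (g j)
  rw [hg, hg]
  exact emb.strictMono hij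

/-- the defining function of an arc is positive inside the boundary interval of the arc and
negative outside -/
theorem fn_signs (h : ArcPat C B S col) (D : BdData B S γ l r) {α : A} {x y : E}
    (hx : x ∈ S α ∩ B) (hy : y ∈ S α ∩ B) (hxy : l x < l y) (he : S α ∩ B = {x, y}) {f : E → ℝ}
    (hf : IsFn C B S (γ (0, 0)) α f) :
    (∀ a, r x < a → a < l y → 0 < f (γ (a, 1))) ∧
      ∀ z ∈ bR, (z.2 = 1 → z.1 < l x ∨ r y < z.1) → f (γ z) < 0 := by
  have hBC : B ⊆ C := h.hC.1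
  have px := D.pos α x hx
  have py := D.pos α y hy
  have hne : x ≠ y := by rintro rfl; exact lt_irrefl _ hxy
  have hord : r x < l y := by
    rcases D.order hx hy hne with h1 | h1
    · exact h1
    · exfalso; linarith
  have hγB : ∀ z ∈ bR, γ z ∈ B := fun z hz => D.γi ▸ mem_image_of_mem _ hz
  have hzero : ∀ z ∈ bR, f (γ z) = 0 → γ z = x ∨ γ z = y := by
    intro z hz h0
    have h1 : γ z ∈ S α ∩ B := ⟨(hf.zero _ (hBC (hγB z hz))).1 h0, hγB z hz⟩
    rw [he] at h1
    exact h1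
  have hcont : ContinuousOn (fun z => f (γ z)) bR := hf.cont.comp D.γc fun z hz => hBC (hγB z hz)
  set N : Set (ℝ × ℝ) := {z | z ∈ bR ∧ (z.2 = 1 → z.1 < l x ∨ r y < z.1)} with hN
  have hNpre : IsPreconnected N := preconn_out px.1 py.2.2
  have hN0 : ∀ z ∈ N, f (γ z) ≠ 0 := by
    rintro z ⟨hz, hz2⟩ h0
    rcases hzero z hz h0 with h1 | h1
    · obtain ⟨h2, h3⟩ := D.fibre hx hz h1
      rcases hz2 h3 with h4 | h4
      · linarith [h2.1]
      · linarith [h2.2]
    · obtain ⟨h2, h3⟩ := D.fibre hy hz h1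
      rcases hz2 h3 with h4 | h4
      · linarith [h2.1]
      · linarith [h2.2]
  have h00 : ((0, 0) : ℝ × ℝ) ∈ N := ⟨zero_mem, fun h => absurd h (by norm_num)⟩
  have hNneg : ∀ z ∈ N, f (γ z) < 0 := fun z hz =>
    sign_prop' hNpre (hcont.mono fun z hz => hz.1) hN0 h00 hz hf.base
  refine ⟨?_, fun z hz hz2 => hNneg z ⟨hz, hz2⟩⟩
  -- the inner interval
  have hcI : ContinuousOn (fun a : ℝ => f (γ (a, 1))) (Ioo (r x) (l y)) := by
    refine hcont.comp (by fun_prop) fun a ha => ?_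
    exact top_mem (by linarith [ha.1]) (by linarith [ha.2])
  have hI0 : ∀ a ∈ Ioo (r x) (l y), f (γ (a, 1)) ≠ 0 := by
    intro a ha h0
    have hm := top_mem (a := a) (by linarith [ha.1]) (by linarith [ha.2])
    rcases hzero _ hm h0 with h1 | h1
    · obtain ⟨h2, -⟩ := D.fibre hx hm h1
      have h2' := h2.2
      simp only at h2'
      linarith [ha.1]
    · obtain ⟨h2, -⟩ := D.fibre hy hm h1
      have h2' := h2.1
      simp only at h2'
      linarith [ha.2]
  obtain ⟨b, hb, hbpos⟩ := hf.other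
  rw [← D.γi] at hb
  obtain ⟨z, hz, rfl⟩ := hb
  have hz2 : z.2 = 1 := by
    by_contra hne
    exact absurd (hNneg z ⟨hz, fun h => absurd h hne⟩) (not_lt.2 hbpos.le)
  have hz1 : l x ≤ z.1 ∧ z.1 ≤ r y := by
    by_contra hcon
    rw [not_and_or, not_le, not_le] at hcon
    exact absurd (hNneg z ⟨hz, fun _ => hcon⟩) (not_lt.2 hbpos.le)
  have hzeq : z = (z.1, 1) := Prod.ext rfl hz2
  have hfx : ∀ a ∈ Icc (l x) (r x), f (γ (a, 1)) = 0 := by
    intro a ha
    rw [D.const α x hx a ha]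
    exact (hf.zero x (hBC hx.2)).2 hx.1
  have hfy : ∀ a ∈ Icc (l y) (r y), f (γ (a, 1)) = 0 := by
    intro a ha
    rw [D.const α y hy a ha]
    exact (hf.zero y (hBC hy.2)).2 hy.1
  have hzI : z.1 ∈ Ioo (r x) (l y) := by
    constructor
    · by_contra hcon
      have := hfx z.1 ⟨hz1.1, not_lt.1 hcon⟩
      rw [← hzeq] at this
      linarith
    · by_contra hcon
      have := hfy z.1 ⟨not_lt.1 hcon, hz1.2⟩
      rw [← hzeq] at this
      linarith
  intro a ha1 ha2
  have hzpos : 0 < f (γ (z.1, 1)) := by rwa [← hzeq]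
  exact sign_prop (f := fun a : ℝ => f (γ (a, 1))) isPreconnected_Ioo hcI hI0 hzI ⟨ha1, ha2⟩ hzpos

/-- **production of the patterns of block H31** -/
theorem exists_pat [Finite A] (h : ArcPat C B S col) (D : BdData B S γ l r) {om : A → ℝ}
    (hom : ∀ α, 0 < om α) :
    ∃ (k : ℕ) (e : Fin k ≃ A) (Aq : ℕ → ArcD) (cq : ℕ → Bool) (fn : ℕ → E → ℝ),
      Pat k Aq cq C B fn γ ∧
      (∀ i : Fin k, Sa C fn i = S (e i) ∧ cq i = col (e i) ∧ (Aq i).om = om (e i) ∧
        IsFn C B S (γ (0, 0)) (e i) (fn i) ∧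
        ∃ x y, x ∈ S (e i) ∩ B ∧ y ∈ S (e i) ∩ B ∧ S (e i) ∩ B = {x, y} ∧ l x < l y ∧
          (Aq i).p = l x ∧ (Aq i).w = r x - l x ∧ (Aq i).q = r y ∧ (Aq i).w' = r y - l y) := by
  classical
  have hBC : B ⊆ C := h.hC.1
  have hγB : ∀ z ∈ bR, γ z ∈ B := fun z hz => D.γi ▸ mem_image_of_mem _ hz
  have hb₀ : ∀ α, γ (0, 0) ∉ S α := by
    intro α hα
    have := (D.fibre ⟨hα, hγB _ zero_mem⟩ zero_mem rfl).2
    norm_num at this
  choose xL xR hxL hxR hlt heq using exists_lr h D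
  choose f hf using fun α => h.exists_fn (hγB _ zero_mem) α (hb₀ α)
  -- the enumeration
  have hPinj : Function.Injective fun α => l (xL α) := by
    intro α β hαβ
    by_contra hne
    have hxx : xL α ≠ xL β := by
      intro hx
      exact Set.disjoint_left.1 (h.off α β hne) ⟨(hxL α).1, hx ▸ (hxL β).1⟩ (hxL α).2
    have h1 := D.pos α _ (hxL α)
    have h2 := D.pos β _ (hxL β)
    have h3 : l (xL α) = l (xL β) := hαβ
    rcases D.order (hxL α) (hxL β) hxx with h4 | h4 <;> linarith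
  obtain ⟨k, e, he⟩ := exists_enum hPinj
  set AD : A → ArcD := fun α => ⟨l (xL α), r (xR α), r (xL α) - l (xL α), r (xR α) - l (xR α),
    om α⟩ with hAD
  set junk : ArcD := ⟨0, 0, 0, 0, 0⟩
  set Aq : ℕ → ArcD := fun i => if hi : i < k then AD (e ⟨i, hi⟩) else junk with hAq
  set cq : ℕ → Bool := fun i => if hi : i < k then col (e ⟨i, hi⟩) else false with hcq
  set fn : ℕ → E → ℝ := fun i => if hi : i < k then f (e ⟨i, hi⟩) else fun _ => 0 with hfn
  have hAi : ∀ i (hi : i < k), Aq i = AD (e ⟨i, hi⟩) := fun i hi => by simp only [hAq, dif_pos hi]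
  have hci : ∀ i (hi : i < k), cq i = col (e ⟨i, hi⟩) := fun i hi => by simp only [hcq, dif_pos hi]
  have hfi : ∀ i (hi : i < k), fn i = f (e ⟨i, hi⟩) := fun i hi => by simp only [hfn, dif_pos hi]
  have hSa : ∀ i (hi : i < k), Sa C fn i = S (e ⟨i, hi⟩) := by
    intro i hi
    ext x
    constructor
    · rintro ⟨hx, hx0⟩
      rw [hfi i hi] at hx0
      exact ((hf _).zero x hx).1 hx0
    · intro hx
      have hxC := h.hSC _ hx
      refine ⟨hxC, ?_⟩
      rw [hfi i hi]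
      exact ((hf _).zero x hxC).2 hx
  have hsign := fun α => fn_signs h D (hxL α) (hxR α) (hlt α) (heq α) (hf α)
  have hRL : ∀ α, r (xL α) < l (xR α) := by
    intro α
    have hne : xL α ≠ xR α := fun h' => (hlt α).ne (by rw [h'])
    have h1 := D.pos α _ (hxL α)
    rcases D.order (hxL α) (hxR α) hne with h2 | h2
    · exact h2
    · have := D.pos α _ (hxR α)
      linarith [hlt α]
  -- different end points of different arcs
  have hdiff : ∀ {α β : A}, α ≠ β → ∀ {x y : E}, x ∈ S α ∩ B → y ∈ S β ∩ B → x ≠ y := by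
    intro α β hne x y hx hy hxy
    exact Set.disjoint_left.1 (h.off α β hne) ⟨hx.1, hxy ▸ hy.1⟩ hx.2
  have hene : ∀ i (hi : i < k) j (hj : j < k), i ≠ j → e ⟨i, hi⟩ ≠ e ⟨j, hj⟩ := by
    intro i hi j hj hij h'
    exact hij (congrArg Fin.val (e.injective h'))
  -- links
  have linkpt : ∀ {α β : A}, α ≠ β → (S α ∩ S β).Nonempty → Lnk (AD α) (AD β) := by
    intro α β hne hx
    have hc := (hf α).cross β hne.symm hx _ _ (heq β)
    have p1 := D.pos β _ (hxL β)
    have p2 := D.pos β _ (hxR β)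
    have q1 := D.pos α _ (hxL α)
    have q2 := D.pos α _ (hxR α)
    have gL : γ (l (xL β), 1) = xL β := D.const β _ (hxL β) _ ⟨le_refl _, p1.2.1.le⟩
    have gR : γ (l (xR β), 1) = xR β := D.const β _ (hxR β) _ ⟨le_refl _, p2.2.1.le⟩
    have mL : ((l (xL β), 1) : ℝ × ℝ) ∈ bR := top_mem p1.1.le (by linarith)
    have mR : ((l (xR β), 1) : ℝ × ℝ) ∈ bR := top_mem p2.1.le (by linarith)
    have sg := hsign α
    -- position of a boundary point from the sign
    have posn : ∀ {x : E}, x ∈ S β ∩ B → 0 < f α x → r (xL α) < l x ∧ r x < l (xR α) := by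
      intro x hx hpos
      have hpx := D.pos β x hx
      have gx : γ (l x, 1) = x := D.const β _ hx _ ⟨le_refl _, hpx.2.1.le⟩
      have mx : ((l x, 1) : ℝ × ℝ) ∈ bR := top_mem hpx.1.le (by linarith)
      have n1 : ¬ (l x < l (xL α) ∨ r (xR α) < l x) := by
        intro hcon
        have := sg.2 _ mx fun _ => hcon
        rw [gx] at this
        linarith
      push Not at n1
      constructor
      · rcases D.order (hxL α) hx (hdiff hne (hxL α) hx) with h1 | h1
        · exact h1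
        · linarith [n1.1]
      · rcases D.order (hxR α) hx (hdiff hne (hxR α) hx) with h1 | h1
        · linarith [n1.2]
        · exact h1
    have negn : ∀ {x : E}, x ∈ S β ∩ B → f α x < 0 → r x < l (xL α) ∨ r (xR α) < l x := by
      intro x hx hneg
      have hpx := D.pos β x hx
      have gx : γ (l x, 1) = x := D.const β _ hx _ ⟨le_refl _, hpx.2.1.le⟩
      rcases D.order (hxL α) hx (hdiff hne (hxL α) hx) with h1 | h1
      · right
        rcases D.order (hxR α) hx (hdiff hne (hxR α) hx) with h2 | h2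
        · exact h2
        · exfalso
          have := sg.1 (l x) h1 (by linarith)
          rw [gx] at this
          linarith
      · exact Or.inl h1
    show (l (xL α) < l (xL β) ∧ l (xL β) < r (xR α) ∧ r (xR α) < r (xR β)) ∨
      (l (xL β) < l (xL α) ∧ l (xL α) < r (xR β) ∧ r (xR β) < r (xR α))
    have := hlt β
    rcases hc with ⟨h1, h2⟩ | ⟨h1, h2⟩
    · obtain ⟨k1, k2⟩ := posn (hxL β) h1
      rcases negn (hxR β) h2 with k3 | k3
      · exfalso; linarith
      · left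
        exact ⟨by linarith, by linarith, by linarith⟩
    · obtain ⟨k1, k2⟩ := posn (hxR β) h2
      rcases negn (hxL β) h1 with k3 | k3
      · right
        exact ⟨by linarith, by linarith, by linarith⟩
      · exfalso; linarith
  -- disjoint arcs are not linked
  have nolink : ∀ {α β : A}, α ≠ β → ¬ (S α ∩ S β).Nonempty → ¬ Lnk (AD α) (AD β) := by
    intro α β hne hx hL
    have p1 := D.pos β _ (hxL β)
    have p2 := D.pos β _ (hxR β)
    have q1 := D.pos α _ (hxL α)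
    have q2 := D.pos α _ (hxR α)
    have hL' : (l (xL α) < l (xL β) ∧ l (xL β) < r (xR α) ∧ r (xR α) < r (xR β)) ∨
      (l (xL β) < l (xL α) ∧ l (xL α) < r (xR β) ∧ r (xR β) < r (xR α)) := hL
    have sg := hsign α
    have gL : γ (l (xL β), 1) = xL β := D.const β _ (hxL β) _ ⟨le_refl _, p1.2.1.le⟩
    have gR : γ (l (xR β), 1) = xR β := D.const β _ (hxR β) _ ⟨le_refl _, p2.2.1.le⟩
    have mL : ((l (xL β), 1) : ℝ × ℝ) ∈ bR := top_mem p1.1.le (by linarith)
    have mR : ((l (xR β), 1) : ℝ × ℝ) ∈ bR := top_mem p2.1.le (by linarith)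
    have oLL := D.order (hxL α) (hxL β) (hdiff hne (hxL α) (hxL β))
    have oLR := D.order (hxL α) (hxR β) (hdiff hne (hxL α) (hxR β))
    have oRL := D.order (hxR α) (hxL β) (hdiff hne (hxR α) (hxL β))
    have oRR := D.order (hxR α) (hxR β) (hdiff hne (hxR α) (hxR β))
    have hβ0 : ∀ z ∈ S β, f α z ≠ 0 := fun z hz h0 =>
      hx ⟨z, ((hf α).zero z (h.hSC β hz)).1 h0, hz⟩
    have hβpre : IsPreconnected (S β) := ConBall.isPreconnected' (h.hS β)
    have hβc : ContinuousOn (f α) (S β) := (hf α).cont.mono (h.hSC β)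
    rcases hL' with ⟨h1, h2, h3⟩ | ⟨h1, h2, h3⟩
    · -- `xL β` inside, `xR β` outside
      have k1 : r (xL α) < l (xL β) := by rcases oLL with o | o <;> linarith
      have k2 : r (xL β) < l (xR α) := by rcases oRL with o | o <;> linarith
      have k3 : r (xR α) < l (xR β) := by rcases oRR with o | o <;> linarith
      have s1 : 0 < f α (xL β) := by
        have := sg.1 (l (xL β)) k1 (by linarith)
        rwa [gL] at this
      have s2 : f α (xR β) < 0 := by
        have := sg.2 _ mR fun _ => Or.inr k3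
        rwa [gR] at this
      exact absurd (sign_prop hβpre hβc hβ0 (hxL β).1 (hxR β).1 s1) (not_lt.2 s2.le)
    · have k1 : r (xL β) < l (xL α) := by rcases oLL with o | o <;> linarith
      have k2 : r (xL α) < l (xR β) := by rcases oLR with o | o <;> linarith
      have k3 : r (xR β) < l (xR α) := by rcases oRR with o | o <;> linarith
      have s1 : 0 < f α (xR β) := by
        have := sg.1 (l (xR β)) k2 (by linarith)
        rwa [gR] at this
      have s2 : f α (xL β) < 0 := by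
        have := sg.2 _ mL fun _ => Or.inl (by show l (xL β) < l (xL α); linarith)
        rwa [gL] at this
      exact absurd (sign_prop hβpre hβc hβ0 (hxR β).1 (hxL β).1 s1) (not_lt.2 s2.le)
  have hPos : Pos k Aq := by
    refine ⟨fun i hi => ?_, fun i hi j hj hij => ?_, fun j hj i hij => ?_, fun j hj i hij => ?_⟩
    · rw [hAi i hi]
      set α := e ⟨i, hi⟩
      have h1 := D.pos α _ (hxL α)
      have h2 := D.pos α _ (hxR α)
      exact ⟨sub_pos.2 h1.2.1, sub_pos.2 h2.2.1, hom α,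
        D.own α _ (hxL α) _ (hxR α) (hlt α), h1.1, h2.2.2⟩
    · rw [hAi i hi, hAi j hj]
      set α := e ⟨i, hi⟩
      set β := e ⟨j, hj⟩
      have hne : α ≠ β := hene i hi j hj hij
      have dd : ∀ {x y : E}, x ∈ S α ∩ B → y ∈ S β ∩ B → ∀ {s t : ℝ} (z : ℝ × ℝ), s = l x → t = l y →
          z ∈ Icc s (r x) ×ˢ {(1:ℝ)} → z ∈ Icc t (r y) ×ˢ {(1:ℝ)} → False := by
        rintro x y hx hy s t z rfl rfl hz1 hz2
        exact D.disj hx hy (hdiff hne hx hy) hz1.1 hz2.1
      refine ⟨?_, ?_, ?_⟩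
      · rw [Set.disjoint_left]
        intro z hz1 hz2
        simp only [IL, hAD, add_sub_cancel] at hz1 hz2
        exact dd (hxL α) (hxL β) z rfl rfl hz1 hz2
      · rw [Set.disjoint_left]
        intro z hz1 hz2
        simp only [IR, hAD, sub_sub_cancel] at hz1 hz2
        exact dd (hxR α) (hxR β) z rfl rfl hz1 hz2
      · rw [Set.disjoint_left]
        intro z hz1 hz2
        simp only [IL, IR, hAD, add_sub_cancel, sub_sub_cancel] at hz1 hz2
        exact dd (hxL α) (hxR β) z rfl rfl hz1 hz2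
    · -- gaps
      have hi : i < k := hij.trans hj
      intro a ha
      rw [hAi i hi, hAi j hj] at *
      set α := e ⟨i, hi⟩ with hα
      set β := e ⟨j, hj⟩ with hβ
      have hne : α ≠ β := hene i hi j hj hij.ne
      have hpp : l (xL α) < l (xL β) := he ⟨i, hi⟩ ⟨j, hj⟩ hij
      have p1 := D.pos β _ (hxL β)
      have p2 := D.pos β _ (hxR β)
      have q1 := D.pos α _ (hxL α)
      have q2 := D.pos α _ (hxR α)
      have oLL := D.order (hxL α) (hxL β) (hdiff hne (hxL α) (hxL β))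
      have oRL := D.order (hxR α) (hxL β) (hdiff hne (hxR α) (hxL β))
      have oRR := D.order (hxR α) (hxR β) (hdiff hne (hxR α) (hxR β))
      have k1 : r (xL α) < l (xL β) := by rcases oLL with o | o <;> linarith
      have own := D.own β _ (hxL β) _ (hxR β) (hlt β)
      have ownα := hRL α
      have ownβ := hRL β
      simp only [hAD] at ha ⊢
      constructor
      · rintro ⟨_, h2⟩
        rcases ha with ⟨h3, _⟩ | ⟨h3, _⟩ <;> linarith
      · rintro ⟨h1, h2⟩
        -- the right interval of `α`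
        rcases oRL with o | o
        · -- `α` is to the left of `β`
          rcases ha with ⟨h3, _⟩ | ⟨h3, _⟩ <;> linarith
        · rcases oRR with o2 | o2
          · -- linked
            by_cases hX : (S α ∩ S β).Nonempty
            · have g1 := D.gap β α hne.symm (by rwa [inter_comm]) _ (hxL β) _ (hxR α) (by linarith)
              have g2 := D.gap α β hne hX _ (hxR α) _ (hxR β) (by linarith)
              rcases ha with ⟨_, h4⟩ | ⟨h3, _⟩
              · linarith [g1.1]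
              · linarith [g2.2]
            · exact nolink hne hX (Or.inl ⟨hpp, by linarith, by linarith⟩)
          · -- nested
            rcases ha with ⟨_, h4⟩ | ⟨_, h4⟩ <;> linarith
    · have hi : i < k := hij.trans hj
      rw [hAi i hi, hAi j hj]
      have hpp : l (xL (e ⟨i, hi⟩)) < l (xL (e ⟨j, hj⟩)) := he ⟨i, hi⟩ ⟨j, hj⟩ hij
      rintro ⟨h1, _⟩
      simp only [hAD] at h1
      linarith
  refine ⟨k, e, Aq, cq, fn, ?_, ?_⟩
  · refine ⟨hPos, h.hC, ?_, ?_, D.γc, D.γk, D.γi, ?_, ?_, ?_, ?_, ?_, ?_, ?_, ?_, ?_, ?_⟩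
    · intro i hi
      rw [hfi i hi]; exact (hf _).cont
    · intro i hi
      rw [hSa i hi]; exact h.hS _
    · intro x hx y hy hxy
      rcases D.inj x hx y hy hxy with h1 | ⟨α, z, hz, h1, h2⟩
      · exact Or.inl h1
      · right
        obtain ⟨⟨i, hi⟩, rfl⟩ := e.surjective α
        refine ⟨i, hi, ?_⟩
        have hz' := hz
        rw [heq] at hz'
        have ex : x = (x.1, 1) := Prod.ext rfl h1.2
        have ey : y = (y.1, 1) := Prod.ext rfl h2.2
        rcases hz' with rfl | hz'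
        · left
          constructor
          · rw [ex]
            simp only [IL, hAi i hi, hAD, add_sub_cancel]
            exact ⟨h1.1, rfl⟩
          · rw [ey]
            simp only [IL, hAi i hi, hAD, add_sub_cancel]
            exact ⟨h2.1, rfl⟩
        · rw [mem_singleton_iff] at hz'
          subst hz'
          right
          constructor
          · rw [ex]
            simp only [IR, hAi i hi, hAD, sub_sub_cancel]
            exact ⟨h1.1, rfl⟩
          · rw [ey]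
            simp only [IR, hAi i hi, hAD, sub_sub_cancel]
            exact ⟨h2.1, rfl⟩
    · intro i hi x hx
      rw [hAi i hi] at hx ⊢
      set α := e ⟨i, hi⟩
      simp only [IL, hAD, add_sub_cancel] at hx
      have ex : x = (x.1, 1) := Prod.ext rfl hx.2
      have h1 := D.pos α _ (hxL α)
      rw [ex]
      show γ (x.1, 1) = γ (l (xL α), 1)
      rw [D.const α _ (hxL α) _ hx.1, D.const α _ (hxL α) _ ⟨le_refl _, h1.2.1.le⟩]
    · intro i hi x hx
      rw [hAi i hi] at hx ⊢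
      set α := e ⟨i, hi⟩
      simp only [IR, hAD, sub_sub_cancel] at hx
      have ex : x = (x.1, 1) := Prod.ext rfl hx.2
      have h1 := D.pos α _ (hxR α)
      rw [ex]
      show γ (x.1, 1) = γ (r (xR α), 1)
      rw [D.const α _ (hxR α) _ hx.1, D.const α _ (hxR α) _ ⟨h1.2.1.le, le_refl _⟩]
    · intro i hi
      rw [hAi i hi, hfi i hi]
      set α := e ⟨i, hi⟩
      have h1 := D.pos α _ (hxL α)
      show f α (γ (l (xL α), 1)) = 0
      rw [D.const α _ (hxL α) _ ⟨le_refl _, h1.2.1.le⟩]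
      exact ((hf α).zero _ (hBC (hxL α).2)).2 (hxL α).1
    · intro i hi
      rw [hAi i hi, hfi i hi]
      set α := e ⟨i, hi⟩
      have h1 := D.pos α _ (hxR α)
      show f α (γ (r (xR α), 1)) = 0
      rw [D.const α _ (hxR α) _ ⟨h1.2.1.le, le_refl _⟩]
      exact ((hf α).zero _ (hBC (hxR α).2)).2 (hxR α).1
    · intro i hi a ha1 ha2
      rw [hAi i hi] at ha1 ha2
      rw [hfi i hi]
      simp only [hAD, add_sub_cancel, sub_sub_cancel] at ha1 ha2
      exact (hsign _).1 a ha1 ha2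
    · intro i hi x hx hx2
      rw [hAi i hi] at hx2
      rw [hfi i hi]
      exact (hsign _).2 x hx hx2
    · intro i hi j hj hij
      rw [hSa i hi, hSa j hj]
      exact h.sub _ _ (hene i hi j hj hij)
    · intro i hi j hj hij hcol
      rw [hSa i hi, hSa j hj]
      refine h.dis _ _ (hene i hi j hj hij) ?_
      rwa [← hci i hi, ← hci j hj]
    · intro i hi j hj hij hne
      rw [hSa i hi, hSa j hj] at hne
      rw [hAi i hi, hAi j hj]
      exact linkpt (hene i hi j hj hij) hne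
  · intro i
    refine ⟨hSa i i.2, hci i i.2, ?_, ?_, xL (e i), xR (e i), hxL _, hxR _, heq _, hlt _, ?_⟩
    · rw [hAi i i.2]
    · rw [hfi i i.2]; exact hf _
    · rw [hAi i i.2]
      exact ⟨rfl, rfl, rfl, rfl⟩

end

end P073.H579
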