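import Vale.Agent.P073.H579.HFaceB

/-!
# P073, H579: **(HFACE)**, part C: the input of block H155 from the edge maps
-/

set_option linter.unusedSectionVars false

open Set Metric Topology Filter

namespace P073.H579

open P073.H31 P073.H155 Gon

variable {E : Type*} [NormedAddCommGroup E] [NormedSpace ℝ E]

/-- the weight of a crossing point -/
noncomputable def omX {m : ℕ} (h : E → Fin m → ℝ) (L : Fin m → Finset ℝ) (om : Fin m → ℝ → ℝ)
    (x : E) : ℝ := by
  classical exact ∑ j, if h x j ∈ L j then om j (h x j) else 0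

theorem omX_eq {m : ℕ} {h : E → Fin m → ℝ} {L : Fin m → Finset ℝ} {om : Fin m → ℝ → ℝ} {x : E}
    {j : Fin m} (hj : h x j ∈ L j) (hoth : ∀ j', j' ≠ j → h x j' ∉ L j') :
    omX h L om x = om j (h x j) := by
  classical
  unfold omX
  rw [Finset.sum_eq_single j]
  · rw [if_pos hj]
  · intro j' _ hne
    rw [if_neg (hoth j' hne)]
  · intro h1; exact absurd (Finset.mem_univ j) h1

section

variable {m n : ℕ} {v : ℕ → E} {h : E → Fin m → ℝ} {k : Fin m → ℝ → ℝ} {L : Fin m → Finset ℝ}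
  {lo hi om : Fin m → ℝ → ℝ}

theorem exists_posIn (H : HIn n v h k L lo hi)
    {Φe : ∀ i : Fin n, ConHomeo (seg v i) (preQ k h (seg v i))} (He : HEdge n v h k Φe)
    {G : ConHomeo (bd n v) (preQ k h (bd n v))}
    (hG : ∀ i : Fin n, EqOn G.toFun (Φe i).toFun (seg v i)) {π : E → E}
    (hπ : Colp h k L n v G.toFun π) (hom : ∀ j, ∀ c ∈ L j, 0 < om j c)
    {X : Finset E} (hX : ∀ x, x ∈ X ↔ x ∈ bd n v ∧ ∃ j, h x j ∈ L j)
    (hun : ∀ x ∈ bd n v, ∀ j j', h x j ∈ L j → h x j' ∈ L j' → j = j') {La : Fin n → ℝ}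
    (hGE : ∀ i : Fin n, ∃ s1 s2 s3 s4 : E → ℝ,
      EdgeNum (v i) (v (i + 1)) h k L lo hi om (La i) (Φe i).toFun s1 s2 s3 s4) :
    ∃ (S1 S2 S3 S4 : E → ℝ) (ze : E → ℝ → ℝ), PosIn (n : ℝ) X S1 S2 S3 S4 (omX h L om) ze ∧
      Clp n v X S2 S3 π ∧
      (∀ x ∈ X, ∀ j, h x j ∈ L j →
        (∀ T ∈ Icc (S2 x) (S3 x), G.toFun (cv n v T) j =
          lo j (h x j) + (hi j (h x j) - lo j (h x j)) * ze x T) ∨
        ∀ T ∈ Icc (S2 x) (S3 x), G.toFun (cv n v T) j =
          hi j (h x j) - (hi j (h x j) - lo j (h x j)) * ze x T) ∧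
      ∀ i : Fin n, ∀ x ∈ X, (((i : ℕ) : ℝ) ≤ S1 x ∧ S4 x ≤ (i : ℕ) + 1 ∧
          omX h L om x ≤ La i * ‖v (i + 1) - v i‖ * (S2 x - S1 x) ∧
          omX h L om x ≤ La i * ‖v (i + 1) - v i‖ * (S4 x - S3 x) ∧
          ∀ T ∈ Icc (S2 x) (S3 x), ∀ T' ∈ Icc (S2 x) (S3 x), T ≤ T' →
            omX h L om x * (ze x T' - ze x T) ≤ La i * ‖v (i + 1) - v i‖ * (T' - T)) ∨
          S4 x ≤ (i : ℕ) ∨ ((i : ℕ) : ℝ) + 1 ≤ S1 x := by
  classical
  choose s1 s2 s3 s4 hs using hGE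
  have hoth : ∀ x ∈ X, ∀ j, h x j ∈ L j → ∀ j', j' ≠ j → h x j' ∉ L j' := fun x hx j hj j' hne hj' =>
    hne (hun x ((hX x).1 hx).1 j' j hj' hj)
  -- the edge of a crossing point
  have hidx' : ∀ x, ∃ i : Fin n, x ∈ X → ∃ s ∈ Ioo (0:ℝ) 1,
      (AffineMap.lineMap (v i) (v (i + 1)) s : E) = x := by
    intro x
    by_cases hx : x ∈ X
    · obtain ⟨hxB, j, hj⟩ := (hX x).1 hx
      obtain ⟨i, hi', hxi⟩ := H.gon.exists_seg hxB
      rw [seg_eq] at hxi
      obtain ⟨s, hs', hsx⟩ := hxi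
      refine ⟨⟨i, hi'⟩, fun _ => ⟨s, ⟨lt_of_le_of_ne hs'.1 fun h0 => ?_, lt_of_le_of_ne hs'.2
        fun h1 => ?_⟩, hsx⟩⟩
      · rw [← h0, AffineMap.lineMap_apply_zero] at hsx
        rw [← hsx] at hj
        exact H.hv i hi'.le j hj
      · rw [h1, AffineMap.lineMap_apply_one] at hsx
        rw [← hsx] at hj
        exact H.hv (i + 1) hi' j hj
    · exact ⟨⟨0, H.gon.hn⟩, fun h1 => absurd h1 hx⟩
  choose idx hidx using hidx'
  have hmem : ∀ x ∈ X, x ∈ seg v (idx x) := by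
    intro x hx
    obtain ⟨s, hs', hsx⟩ := hidx x hx
    rw [seg_eq]
    exact ⟨s, ⟨hs'.1.le, hs'.2.le⟩, hsx⟩
  have hcr : ∀ x ∈ X, CrsPt (v (idx x)) (v (idx x + 1)) h L x := fun x hx =>
    ⟨hmem x hx, ((hX x).1 hx).2⟩
  have hfr : ∀ i : Fin n, seg v i ⊆ bd n v := fun i => H.gon.seg_sub i.2
  have hae : ∀ i : Fin n, v i ∈ seg v i := fun i => left_mem_segment ℝ _ _
  have hbe : ∀ i : Fin n, v (i + 1) ∈ seg v i := fun i => right_mem_segment ℝ _ _
  -- the band coordinates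
  have hze' : ∀ x, ∃ ze : ℝ → ℝ, x ∈ X → Continuous ze ∧ ConicalOn ze univ ∧
      (∀ T ≤ s2 (idx x) x, ze T = 0) ∧ (∀ T, s3 (idx x) x ≤ T → ze T = 1) ∧
      StrictMonoOn ze (Icc (s2 (idx x) x) (s3 (idx x) x)) ∧
      (∀ T ∈ Icc (s2 (idx x) x) (s3 (idx x) x), ∀ T' ∈ Icc (s2 (idx x) x) (s3 (idx x) x), T ≤ T' →
        omX h L om x * (ze T' - ze T) ≤ La (idx x) * ‖v (idx x + 1) - v (idx x)‖ * (T' - T)) ∧
      ∀ j, h x j ∈ L j → ((∀ T ∈ Icc (s2 (idx x) x) (s3 (idx x) x),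
        (Φe (idx x)).toFun (AffineMap.lineMap (v (idx x)) (v (idx x + 1)) T) j =
          lo j (h x j) + (hi j (h x j) - lo j (h x j)) * ze T) ∨
        ∀ T ∈ Icc (s2 (idx x) x) (s3 (idx x) x),
        (Φe (idx x)).toFun (AffineMap.lineMap (v (idx x)) (v (idx x + 1)) T) j =
          hi j (h x j) - (hi j (h x j) - lo j (h x j)) * ze T) := by
    intro x
    by_cases hx : x ∈ X
    · obtain ⟨j, hj⟩ := ((hX x).1 hx).2
      obtain ⟨ze, z1, z2, z3, z4, z5, z6, z7⟩ := (hs (idx x)).exists_ze (s := seg v (idx x)) rfl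
        (H.gon.ne (idx x).2) (H.inj.mono (hfr _)) (H.hc.mono (hfr _))
        (H.hk.mono (Convex.conicalSet (convex_segment _ _)) (hfr _)) H.hI (Φe (idx x))
        (He.left _) (He.right _) (hmem x hx) hj (hoth x hx j hj)
      refine ⟨ze, fun _ => ⟨z1, z2, z3, z4, z5, ?_, fun j' hj' => ?_⟩⟩
      · rw [omX_eq hj (hoth x hx j hj)]; exact z6
      · obtain rfl : j' = j := hun x ((hX x).1 hx).1 j' j hj' hj
        exact z7
    · exact ⟨0, fun h1 => absurd h1 hx⟩
  choose ze hze using hze'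
  have b1 : ∀ x ∈ X, 0 < s1 (idx x) x := fun x hx => (hs (idx x)).a1 x (hcr x hx)
  have b2 : ∀ x ∈ X, s1 (idx x) x < s2 (idx x) x := fun x hx => (hs (idx x)).a2 x (hcr x hx)
  have b3 : ∀ x ∈ X, s2 (idx x) x < s3 (idx x) x := fun x hx => (hs (idx x)).a3 x (hcr x hx)
  have b4 : ∀ x ∈ X, s3 (idx x) x < s4 (idx x) x := fun x hx => (hs (idx x)).a4 x (hcr x hx)
  have b5 : ∀ x ∈ X, s4 (idx x) x < 1 := fun x hx => (hs (idx x)).a5 x (hcr x hx)
  have hle : ∀ i : Fin n, ((i : ℕ) : ℝ) + 1 ≤ n := fun i => by exact_mod_cast i.2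
  have hnn : ∀ i : Fin n, (0:ℝ) ≤ ((i : ℕ) : ℝ) := fun i => Nat.cast_nonneg _
  have hn0 : (0:ℝ) < n := by exact_mod_cast H.gon.hn
  -- the points of the fibres
  have hpt : ∀ x ∈ X, ∀ T ∈ Icc (((idx x : ℕ) : ℝ) + s2 (idx x) x) ((idx x : ℕ) + s3 (idx x) x),
      T - (idx x : ℕ) ∈ Icc (s2 (idx x) x) (s3 (idx x) x) ∧ T - (idx x : ℕ) ∈ Icc (0:ℝ) 1 ∧
      cv n v T = AffineMap.lineMap (v (idx x)) (v (idx x + 1)) (T - (idx x : ℕ)) ∧
      cv n v T ∈ seg v (idx x) := by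
    intro x hx T hT
    have h1 : T - (idx x : ℕ) ∈ Icc (s2 (idx x) x) (s3 (idx x) x) :=
      ⟨by linarith [hT.1], by linarith [hT.2]⟩
    have h2 : T - (idx x : ℕ) ∈ Icc (0:ℝ) 1 :=
      ⟨by linarith [h1.1, b1 x hx, b2 x hx], by linarith [h1.2, b4 x hx, b5 x hx]⟩
    have h3 : cv n v T = AffineMap.lineMap (v (idx x)) (v (idx x + 1)) (T - (idx x : ℕ)) :=
      cv_sub (idx x).2 (by linarith [h2.1]) (by linarith [h2.2])
    refine ⟨h1, h2, h3, ?_⟩
    rw [h3, seg_eq]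
    exact mem_image_of_mem _ h2
  refine ⟨fun x => (idx x : ℕ) + s1 (idx x) x, fun x => (idx x : ℕ) + s2 (idx x) x,
    fun x => (idx x : ℕ) + s3 (idx x) x, fun x => (idx x : ℕ) + s4 (idx x) x,
    fun x T => ze x (T - (idx x : ℕ)), ?_, ?_, ?_, ?_⟩
  · -- positions
    refine ⟨hn0, fun x hx => ?_, fun x hx => ?_, fun x hx => ?_, fun x hx => ?_, fun x hx => ?_,
      fun x hx y hy hxy => ?_, fun x hx => ?_, fun x hx T hT => ?_, fun x hx T hT => ?_,
      fun x hx => ?_, fun x hx => ?_, fun x hx => ?_⟩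
    · linarith [b1 x hx, hnn (idx x)]
    · linarith [b2 x hx]
    · linarith [b3 x hx]
    · linarith [b4 x hx]
    · linarith [b5 x hx, hle (idx x)]
    · rcases lt_trichotomy (idx x) (idx y) with h1 | h1 | h1
      · left
        have h2 : ((idx x : ℕ) : ℝ) + 1 ≤ (idx y : ℕ) := by exact_mod_cast h1
        linarith [b5 x hx, b1 y hy]
      · have h2 := (hs (idx x)).dis x y (hcr x hx) (by rw [h1]; exact hcr y hy) hxy
        rw [← h1]
        rcases h2 with h2 | h2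
        · left; linarith
        · right; linarith
      · right
        have h2 : ((idx y : ℕ) : ℝ) + 1 ≤ (idx x : ℕ) := by exact_mod_cast h1
        linarith [b5 y hy, b1 x hx]
    · obtain ⟨j, hj⟩ := ((hX x).1 hx).2
      rw [omX_eq hj (hoth x hx j hj)]
      exact hom j _ hj
    · exact (hze x hx).2.2.1 _ (by linarith)
    · exact (hze x hx).2.2.2.1 _ (by linarith)
    · intro T hT T' hT' hTT
      simp only at hT hT' ⊢
      exact (hze x hx).2.2.2.2.1 ⟨by linarith [hT.1], by linarith [hT.2]⟩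
        ⟨by linarith [hT'.1], by linarith [hT'.2]⟩ (by linarith)
    · exact (hze x hx).1.comp (by fun_prop)
    · have h1 : ConicalOn (fun T : ℝ => T - (idx x : ℕ)) univ :=
        (conicalOn_id (IsOpen.conicalSet isOpen_univ)).sub
          (conicalOn_const _ (IsOpen.conicalSet isOpen_univ))
      exact (hze x hx).2.1.comp h1 (mapsTo_univ _ _) (by fun_prop : Continuous fun T : ℝ =>
        T - (idx x : ℕ)).continuousOn
  · -- the collapse
    have hconst : ∀ x ∈ X, ∀ T ∈ Icc (((idx x : ℕ) : ℝ) + s2 (idx x) x)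
        ((idx x : ℕ) + s3 (idx x) x), π (cv n v T) = x := by
      intro x hx T hT
      obtain ⟨h1, h2, h3, h4⟩ := hpt x hx T hT
      have h5 := ((hs (idx x)).fib x (hcr x hx) _ h2).2 ⟨h1.1, h1.2⟩
      rw [← h3, ← hG (idx x) h4] at h5
      have h6 := hπ.eq _ (hfr _ h4)
      exact H.inj (hfr _ (hπ.maps _ (idx x).2 h4)) (hfr _ (hmem x hx)) (h6.symm.trans h5)
    refine ⟨hπ.cont, hπ.con, hπ.im, hconst, fun y hy z hz he => ?_⟩
    rcases hπ.inj y hy z hz he with h1 | ⟨i, hi', s, hs', hsw, hl, hyi, hzi⟩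
    · exact Or.inl h1
    · right
      have hwi : π y ∈ seg v i := hπ.maps i hi' hyi
      have hwB : π y ∈ bd n v := H.gon.seg_sub hi' hwi
      have hwX : π y ∈ X := (hX _).2 ⟨hwB, hl⟩
      have hidxw : ((idx (π y) : Fin n) : ℕ) = i := by
        have h2 := hmem _ hwX
        have h3 : (AffineMap.lineMap (v i) (v (i + 1)) s : E) ∈ seg v (idx (π y)) := by
          rw [← hsw]; exact h2
        exact H.gon.uniq hi' (idx (π y)).2 hs' h3
      have key : ∀ x ∈ seg v i, π x = π y → ∃ T ∈ Icc (((idx (π y) : ℕ) : ℝ) +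
          s2 (idx (π y)) (π y)) ((idx (π y) : ℕ) + s3 (idx (π y)) (π y)), cv n v T = x := by
        intro x hx hxw
        have hx2 := hx
        rw [seg_eq] at hx
        obtain ⟨t, ht, htx⟩ := hx
        have h4 : (AffineMap.lineMap (v (idx (π y))) (v (idx (π y) + 1)) t : E) = x := by
          rw [hidxw]; exact htx
        have h5 := hπ.eq x (H.gon.seg_sub hi' hx2)
        have hx3 : x ∈ seg v (idx (π y)) := by rw [hidxw]; exact hx2
        rw [hG (idx (π y)) hx3, hxw] at h5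
        have h6 := ((hs (idx (π y))).fib (π y) (hcr _ hwX) t ht).1 (by rw [h4]; exact h5)
        refine ⟨(idx (π y) : ℕ) + t, ⟨by linarith [h6.1], by linarith [h6.2]⟩, ?_⟩
        rw [cv_add (idx (π y)).2 ht, h4]
      exact ⟨π y, hwX, key y hyi rfl, key z hzi he.symm⟩
  · intro x hx j hj
    rcases (hze x hx).2.2.2.2.2.2 j hj with h1 | h1
    · left
      intro T hT
      obtain ⟨a1, a2, a3, a4⟩ := hpt x hx T hT
      rw [hG (idx x) a4, a3]
      exact h1 _ a1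
    · right
      intro T hT
      obtain ⟨a1, a2, a3, a4⟩ := hpt x hx T hT
      rw [hG (idx x) a4, a3]
      exact h1 _ a1
  · intro i x hx
    rcases lt_trichotomy (idx x) i with h1 | h1 | h1
    · right; left
      have h2 : ((idx x : ℕ) : ℝ) + 1 ≤ (i : ℕ) := by exact_mod_cast h1
      simp only
      linarith [b5 x hx]
    · left
      subst h1
      obtain ⟨j, hj⟩ := ((hX x).1 hx).2
      have h2 := omX_eq (om := om) hj (hoth x hx j hj)
      refine ⟨by simp only; linarith [b1 x hx], by simp only; linarith [b5 x hx], ?_, ?_, ?_⟩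
      · rw [h2]
        have := (hs (idx x)).g1 x (hmem x hx) j hj
        simp only
        rwa [add_sub_add_left_eq_sub]
      · rw [h2]
        have := (hs (idx x)).g2 x (hmem x hx) j hj
        simp only
        rwa [add_sub_add_left_eq_sub]
      · intro T hT T' hT' hTT
        simp only at hT hT' ⊢
        have := (hze x hx).2.2.2.2.2.1 (T - (idx x : ℕ)) ⟨by linarith [hT.1], by linarith [hT.2]⟩
          (T' - (idx x : ℕ)) ⟨by linarith [hT'.1], by linarith [hT'.2]⟩ (by linarith)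
        rwa [sub_sub_sub_cancel_right] at this
    · right; right
      have h2 : ((i : ℕ) : ℝ) + 1 ≤ (idx x : ℕ) := by exact_mod_cast h1
      simp only
      linarith [b1 x hx]

end

end P073.H579
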