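import Vale.Agent.P073.H579.OutSa

/-!
# P073, H579: **[T3OUT-S]**, the output of ROUND T for a set of boxes `G₀`

`exists_t3outS`: STAGE 3 after STAGE 2; `T3OutS.congr`: another map with the same values on the
full zones; `T3OutS.t3out`: `G₀ = univ`, `Act₀ = univ`.
-/

open Set Metric Topology Filter

namespace P073.H236

open _root_.P073 _root_.P073.Net _root_.P073.PA691 _root_.P073.H579
open _root_.P073.PR720 (LF)
open Vale.Agent.P073.St (V)
open Vale.Agent.P073.H471 Vale.Agent.P073.H267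
open Vale.Agent.P073.H73 (Mesh)
open Vale.Agent.P073.H193 (Edges)
open Vale.Agent.P073.H238 (oT TMid TMid_sub TAct skel mesh_sub)
open Vale.Agent.P073.H579 (TStageW)
open Vale.Agent.P073.H669 (TLv)

variable {Ω Λ : Set V} {v : V} {K : BoxCx Λ v} {S₀ : Rad K} {Wd : Wid K S₀} {B : Boxes Wd}
  {G : Geo B} {M : Mesh Ω} {E : Edges M} {h h' h1 : ConHomeo Ω Λ} {ω : TBx K → ℝ}
  {T : TBx K → Finset (ℝ × ℝ)} {η : ℝ} {τ : Type*} {A : τ → Set V} {C : Set ℝ} {εE : E.ε → ℝ}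
  {δ : TBx K → ℝ} {Act₀ : Set M.κ} {G₀ : Set (TBx K)}
  {L : TLv G E h ω T η A C εE δ} {c : TBx K → ℝ} {hc0 : ∀ b, 0 < c b}
  {hc : ∀ b, c b ≤ δ b / 8} {Pr W : Set M.ι} {κ : V → V} {g : ConHomeo Ω Λ}

/-- **STAGE 3 ⟹ T3OutS** -/
theorem exists_t3outS (D : St2W L hc0 hc Pr W Act₀ G₀ h' κ g)
    (hW : ∀ k, (∀ x ∈ M.F k, ∀ b ∈ G₀, h.toFun x ∉ G.TB false b) →
      EqOn g.toFun h'.toFun (M.F k))
    (hom : ∀ b ∈ G₀, ∀ y q, y ∈ G.TB false b → y ∈ K.cube q → 1024 * ω b ≤ G.om q)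
    (hcmp : ∀ k, (∃ x ∈ M.F k, ∃ b ∈ G₀, h.toFun x ∈ G.TB false b) →
      ∀ x ∈ M.F k, ∀ x' ∈ M.F k, ∀ q q', h.toFun x ∈ K.cube q →
      h.toFun x' ∈ K.cube q' → 4096 * ‖h.toFun x - h.toFun x'‖ ≤ G.om q ∧ G.om q' ≤ 4 * G.om q)
    (hdsp : ∀ b, dsp (T b) (δ b) + δ b + 60 * ω b ≤ 62 * ω b)
    (hcω : ∀ b ∈ G₀, c b ≤ 18 * ω b)
    {O : M.κ → V} (hO : ∀ k, O k ∈ M.F k) {La : E.ε → ℝ} {Lf : M.κ → E.ε → ℝ}
    (hLa : ∀ e, 0 ≤ La e) (hLf : ∀ k e, 0 ≤ Lf k e)
    (hGE : ∀ ed, ∀ b ∈ G₀, ∀ k ∈ Act₀, TAct G M h' L.lev b k → E.seg ed ⊆ M.F k → ∃ f : V → V,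
      EqOn g.toFun f (E.seg ed) ∧ ∃ s1 s2 s3 s4 : V → ℝ, EdgeNum (E.a ed) (E.b ed) h'.toFun
        (kQ (L.bxQ c hc0 hc b)) (LQ (L.bxQ c hc0 hc b)) (loQ (L.bxQ c hc0 hc b))
        (hiQ (L.bxQ c hc0 hc b)) (omQ (L.bxQ c hc0 hc b)) (La ed) f s1 s2 s3 s4)
    (hGF : ∀ k ∈ Act₀, ∀ b ∈ G₀, TAct G M h' L.lev b k → ∃ Φ : V → V, EqOn g.toFun Φ (M.F k) ∧
      ∀ e, E.seg e ⊆ M.F k → ∀ x ∈ coneSetAt (O k) (E.seg e), ∀ y ∈ coneSetAt (O k) (E.seg e),
      bandD (LQ (L.bxQ c hc0 hc b)) (loQ (L.bxQ c hc0 hc b))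
        (hiQ (L.bxQ c hc0 hc b)) (omQ (L.bxQ c hc0 hc b)) (Φ x) (Φ y) ≤ Lf k e * ‖x - y‖) :
    ∃ Lam1 : M.κ → ℝ, (∀ k, 0 ≤ Lam1 k) ∧
      (∀ k, ∀ x ∈ M.F k, ∀ y ∈ M.F k, ‖g.toFun x - g.toFun y‖ ≤ Lam1 k * ‖x - y‖) ∧
      ∀ (σ e₁ : TBx K → ℝ) (ε : M.κ → ℝ) (εe : E.ε → ℝ), (∀ b, 0 < σ b) → (∀ b, 0 < e₁ b) →
        (∀ k, 0 < ε k) → (∀ e, 0 < εe e) →
        ∃ (e : TBx K → ℝ) (he : ∀ b, 0 < e b) (he8 : ∀ b, e b ≤ δ b / 8), (∀ b, e b ≤ e₁ b) ∧
          (∀ b, ∑ p ∈ (L.bfam hc0 hc e (fun b => 62 * ω b) he he8 hdsp).sl b,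
            (p.2 - p.1) ≤ σ b) ∧
          (∀ k b, InT G M h ω b k → e b / c b * Lam1 k ≤ ε k) ∧
          ∀ S : ConHomeo Λ Λ, ((L.bfam hc0 hc e (fun b => 62 * ω b) he he8 hdsp).comp
            (Subtype.val : G₀ → TBx K) Subtype.val_injective).IsS S →
          T3OutS G M E h (g.trans S) ω G₀ Act₀ O (fun e => La e + εe e) (fun k e => Lf k e + ε k)
            Lam1 (L.bfam hc0 hc e (fun b => 62 * ω b) he he8 hdsp).sl := by
  choose Lam1 hLam0 hLam using fun k => exists_lip_compact D.hΩ g.conical g.cont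
    (face_compact M k) (mesh_sub M k)
  refine ⟨Lam1, fun k => (hLam0 k).le, hLam, fun σ e₁ ε εe hσ he₁ hε hεe => ?_⟩
  -- finitely many faces at each box
  have hfin : ∀ b, {k | ∃ x ∈ M.F k, h.toFun x ∈ G.TB false b}.Finite := by
    intro b
    obtain ⟨hc', hcΩ, hcm⟩ := Vale.Agent.P073.H238.cpt_preimage h (Q := G.TB false b)
      isCompact_Icc (Geo.TB_sub b)
    refine (M.ffin _ hcΩ hc').subset ?_
    rintro k ⟨x, hx, hxb⟩
    exact ⟨x, hx, hcm x (mesh_sub M k hx) hxb⟩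
  -- the smallest of the numbers `ε k`, `εe e`
  have hmin : ∀ k, ∃ t : ℝ, 0 < t ∧ t ≤ ε k ∧ ∀ e, E.seg e ⊆ M.F k → t ≤ εe e := by
    intro k
    obtain ⟨e', h1, h2, h3⟩ := exists_small (ι := Unit) (R := fun _ e => E.seg e ⊆ M.F k)
      (fun _ => E.fin_face k) (q := fun _ e => εe e) (fun _ e => hεe e) (e₀ := fun _ => ε k)
      (fun _ => hε k)
    exact ⟨e' (), h1 (), h2 (), fun e he => h3 () e he⟩
  choose εm hεm0 hεm1 hεm2 using hmin
  obtain ⟨e, he0, hee, heq⟩ := exists_small (R := fun b k => ∃ x ∈ M.F k, h.toFun x ∈ G.TB false b)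
    hfin (q := fun b k => c b * εm k / Lam1 k)
    (fun b k => div_pos (mul_pos (hc0 b) (hεm0 k)) (hLam0 k))
    (e₀ := fun b => min (min (δ b / 8) (e₁ b)) (σ b / (2 * (L.N b + 1))))
    (fun b => lt_min (lt_min (by linarith [L.δ0 b]) (he₁ b)) (div_pos (hσ b) (by positivity)))
  have he8 : ∀ b, e b ≤ δ b / 8 := fun b =>
    (hee b).trans ((min_le_left _ _).trans (min_le_left _ _))
  set F₁ := L.bfam hc0 hc e (fun b => 62 * ω b) he0 he8 hdsp with hFdef
  set F := F₁.comp (Subtype.val : G₀ → TBx K) Subtype.val_injective with hF₀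
  have hF : F.B = fun b : G₀ => L.bxQ c hc0 hc b.1 := rfl
  have hsl : ∀ b : G₀, F.sl b = F₁.sl b.1 := fun b => rfl
  have hek : ∀ k b, InT G M h ω b k → F₁.e b / c b * Lam1 k ≤ εm k := by
    intro k b hk
    have hne : (M.F k).Nonempty := ⟨_, hO k⟩
    obtain ⟨x, hx⟩ := hne
    have h1 : h.toFun x ∈ G.TB false b := Geo.TB_true_subset b
      (hk x hx (mem_closedBall_self (by linarith [L.ω0 b])))
    have h2 : e b ≤ c b * εm k / Lam1 k := heq b k ⟨x, hx, h1⟩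
    rw [le_div_iff₀ (hLam0 k)] at h2
    show e b / c b * Lam1 k ≤ εm k
    rw [div_mul_eq_mul_div, div_le_iff₀ (hc0 b)]
    linarith
  refine ⟨e, he0, he8, fun b => (hee b).trans ((min_le_left _ _).trans (min_le_right _ _)),
    fun b => ?_, fun k b hk => (hek k b hk).trans (hεm1 k), fun S hS => ?_⟩
  · refine (F₁.sum_sl b).trans ?_
    have h1 : e b ≤ σ b / (2 * (L.N b + 1)) := (hee b).trans (min_le_right _ _)
    rw [le_div_iff₀ (by positivity)] at h1
    show 2 * ((L.N b : ℝ) + 1) * e b ≤ σ b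
    linarith
  · have hS' : F.IsS S := hS
    refine {
      sl_le := fun b => F₁.sl_le b
      ends := fun b _ => ⟨F₁.end_al b, F₁.end_be b⟩
      near := fun k x hx q hq => by
        by_cases hk : ∃ x ∈ M.F k, ∃ b ∈ G₀, h.toFun x ∈ G.TB false b
        · exact D.near hF hS' hom (hcmp k hk) (fun _ => le_rfl)
            (fun b hb => (hcω b hb).trans (by linarith [L.ω0 b])) hx hq
        · have hno : ∀ x ∈ M.F k, ∀ b ∈ G₀, h.toFun x ∉ G.TB false b :=
            fun x hx b hb hT => hk ⟨x, hx, b, hb, hT⟩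
          rw [D.off hF hS' hno (hW k hno) hx, sub_self, norm_zero]
          exact (G.om_pos q).le
      off := fun k hno => D.off hF hS' hno (hW k hno)
      vi := ?_
      vert := fun x hx b hbG hb => D.vert' hF hS' (b := ⟨b, hbG⟩) hx hb
      deep := fun k b hbG hk x hx => D.inT_S hF hS' hcω (b := ⟨b, hbG⟩) hk hx
      cone := ?_
      elip := ?_
      lip := ?_
      circ := fun k hk0 b hbG t ht σ' hσ' hσk hl =>
        D.circ hF hS' hk0 (b := ⟨b, hbG⟩) ht hσ' hσk hl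
      edge := ?_ }
    · rintro X (⟨k, rfl⟩ | ⟨ed, rfl⟩ | ⟨i, rfl⟩) b hbG y hy hyT t ht hgap
      · exact D.vi hF hS' (mesh_sub M k) (D.face k) (b := ⟨b, hbG⟩) hy hyT ht hgap
      · exact D.vi hF hS' (E.seg_sub_Ω ed) (D.edge ed) (b := ⟨b, hbG⟩) hy hyT ht hgap
      · exact D.vi hF hS' (M.sub i) (D.cell i) (b := ⟨b, hbG⟩) hy hyT ht hgap
    · intro k hk0 b hbG hk ed hed x hx y hy
      exact D.cone hF hS' hcω (b := ⟨b, hbG⟩) hk (hLam k) (hLf k ed)
        ((hek k b hk).trans (hεm1 k)) (cone_sub (hO k) hed)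
        (fun hT => by
          obtain ⟨Φ, h1, h2⟩ := hGF k hk0 b hbG hT
          exact ⟨Φ, h1, h2 ed hed⟩) hx hy
    · intro k hk0 b hbG hk ed hed x hx y hy
      exact D.elip hF hS' hcω (b := ⟨b, hbG⟩) hk (hLam k) (hLa ed)
        ((hek k b hk).trans (hεm2 k ed hed)) hed (fun hT => hGE ed b hbG k hk0 hT hed) hx hy
    · intro k b hbG hk j hj x hx y hy
      exact D.lip hF hS' hcω (b := ⟨b, hbG⟩) hk hj (hLam k) hx hy
    · rintro ed ⟨k, hk0, hed⟩ b hbG s hs hT hsl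
      obtain ⟨t1, t2, s2, s3, ψ, a1, a2, a3, a4, a5, a6, a7, a8, a9, a10, a11, a12, a13⟩ :=
        D.edge' hF hS' (b := ⟨b, hbG⟩) hed (fun hT => hGE ed b hbG k hk0 hT hed) hs hT hsl
      exact ⟨t1, t2, s2, s3, ψ, a1, a2, a3, a4, a5, a6, a7, a8, a9, a10, a11, a12,
        fun s' hs' s'' hs'' => (a13 s' hs' s'' hs'').trans (by
          have := hεe ed
          gcongr
          linarith)⟩

namespace T3OutS

variable {O : M.κ → V} {La : E.ε → ℝ} {Lf : M.κ → E.ε → ℝ} {Lam1 : M.κ → ℝ}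
  {sl : TBx K → Finset (ℝ × ℝ)}

/-- all boxes, all faces -/
theorem t3out (H : T3OutS G M E h h1 ω univ univ O La Lf Lam1 sl) :
    T3Out G M E h h1 ω O La Lf Lam1 sl where
  sl_le := H.sl_le
  ends := fun b => H.ends b trivial
  near := H.near
  off := fun k hk => H.off k fun x hx b _ => hk x hx b
  vi := fun X hX b => H.vi X hX b trivial
  vert := fun x hx b => H.vert x hx b trivial
  cone := fun k b => H.cone k trivial b trivial
  elip := fun k b => H.elip k trivial b trivial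
  lip := fun k b => H.lip k b trivial
  circ := fun k b t => H.circ k trivial b trivial t
  edge := fun e b => by
    obtain ⟨k, hk⟩ := E.own e
    exact H.edge e ⟨k, trivial, hk⟩ b trivial

/-- **another map**: `h2` agrees with `h1` where one of them is in a full zone -/
theorem congr (H : T3OutS G M E h h1 ω G₀ Act₀ O La Lf Lam1 sl) {h2 : ConHomeo Ω Λ}
    (hO : ∀ k, O k ∈ M.F k)
    (hEq : ∀ b ∈ G₀, ∀ x ∈ Ω, (h2.toFun x ∈ G.TB true b ∨ h1.toFun x ∈ G.TB true b) →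
      h2.toFun x = h1.toFun x)
    (near : ∀ k, ∀ x ∈ M.F k, ∀ q, h.toFun x ∈ K.cube q →
      ‖h2.toFun x - h.toFun x‖ ≤ G.om q)
    (off : ∀ k, (∀ x ∈ M.F k, ∀ b ∈ G₀, h.toFun x ∉ G.TB false b) →
      EqOn h2.toFun h.toFun (M.F k)) :
    T3OutS G M E h h2 ω G₀ Act₀ O La Lf Lam1 sl := by
  have hseg : ∀ e, ∀ s ∈ Icc (0:ℝ) 1, (AffineMap.lineMap (E.a e) (E.b e) s : V) ∈ Ω :=
    fun e s hs => E.seg_sub_Ω e (lineMap_mem hs)
  have hdeep : ∀ k, ∀ b ∈ G₀, InT G M h ω b k → ∀ x ∈ M.F k, h2.toFun x = h1.toFun x :=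
    fun k b hb hk x hx => hEq b hb x (mesh_sub M k hx) (Or.inr (H.deep k b hb hk x hx))
  exact {
    sl_le := H.sl_le
    ends := H.ends
    near := near
    off := off
    vi := by
      intro X hX b hb y hy hyT t ht hgap
      have hXΩ : X ⊆ Ω := by
        rcases hX with ⟨k, rfl⟩ | ⟨e, rfl⟩ | ⟨i, rfl⟩
        · exact mesh_sub M k
        · exact E.seg_sub_Ω e
        · exact M.sub i
      obtain ⟨x, hx, rfl⟩ := hy
      have e1 := hEq b hb x (hXΩ hx) (Or.inl hyT)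
      rw [e1] at hyT hgap ⊢
      obtain ⟨x', hx', h3⟩ := H.vi X hX b hb _ (mem_image_of_mem _ hx) hyT t ht hgap
      have h4 : h1.toFun x' ∈ G.TB true b := by rw [h3]; exact update_TB hyT ht.1 ht.2
      exact ⟨x', hx', by rw [hEq b hb x' (hXΩ hx') (Or.inr h4), h3]⟩
    vert := by
      intro x hx b hb hT
      obtain ⟨k, hk⟩ := H345.exists_face_of_vert E hx
      have e1 := hEq b hb x (mesh_sub M k hk) (Or.inl hT)
      rw [e1] at hT ⊢
      exact H.vert x hx b hb hT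
    deep := by
      intro k b hb hk x hx
      rw [hdeep k b hb hk x hx]
      exact H.deep k b hb hk x hx
    cone := by
      intro k hk0 b hb hk e he x hx y hy
      rw [hdeep k b hb hk x (cone_sub (hO k) he hx), hdeep k b hb hk y (cone_sub (hO k) he hy)]
      exact H.cone k hk0 b hb hk e he x hx y hy
    elip := by
      intro k hk0 b hb hk e he x hx y hy
      rw [hdeep k b hb hk x (he hx), hdeep k b hb hk y (he hy)]
      exact H.elip k hk0 b hb hk e he x hx y hy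
    lip := by
      intro k b hb hk j hj x hx y hy
      rw [hdeep k b hb hk x hx, hdeep k b hb hk y hy]
      exact H.lip k b hb hk j hj x hx y hy
    circ := by
      intro k hk0 b hb t ht σ hσ hσk hl
      refine H.circ k hk0 b hb t ht σ hσ hσk fun x hx => ?_
      rw [← hEq b hb x (mesh_sub M k (hσk hx)) (Or.inl (hl x hx).1)]
      exact hl x hx
    edge := by
      intro e he b hb s hs hT hsl
      have e1 := hEq b hb _ (hseg e s hs) (Or.inl hT)
      rw [e1] at hT hsl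
      obtain ⟨t1, t2, s2, s3, ψ, a1, a2, a3, a4, a5, a6, a7, a8, a9, a10, a11, a12, a13⟩ :=
        H.edge e he b hb s hs hT hsl
      refine ⟨t1, t2, s2, s3, ψ, a1, a2, a3, a4, a5, a6, a7, a8, fun s' hs' => ?_, a10, a11, a12,
        a13⟩
      have h3 := a9 s' hs'
      have hs01 : s' ∈ Icc (0:ℝ) 1 := ⟨by linarith [hs'.1], by linarith [hs'.2]⟩
      have ht : ψ s' ∈ Icc t1 t2 := by rw [← a12]; exact mem_image_of_mem _ hs'
      have h4 : h1.toFun (AffineMap.lineMap (E.a e) (E.b e) s') ∈ G.TB true b := by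
        rw [h3]
        have h5 : ψ s = h1.toFun (AffineMap.lineMap (E.a e) (E.b e) s) b.ax := by
          have h6 := congrFun (a9 s a8) b.ax
          rw [Function.update_self] at h6
          exact h6.symm
        have h6 : ψ s ∈ Icc t1 t2 := by rw [← a12]; exact mem_image_of_mem _ a8
        have h7 : G.tlo true b b.ax ≤ ψ s := by rw [h5]; exact hT.1 _
        have h8 : ψ s ≤ G.thi true b b.ax := by rw [h5]; exact hT.2 _
        refine update_TB hT ?_ ?_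
        · by_contra hlt
          push Not at hlt
          exact (H.ends b hb).1 (a4 _ ⟨by linarith [ht.1], by linarith [h6.2]⟩)
        · by_contra hlt
          push Not at hlt
          exact (H.ends b hb).2 (a4 _ ⟨by linarith [h6.1], by linarith [ht.2]⟩)
      rw [hEq b hb _ (hseg e s' hs01) (Or.inr h4), h3, e1] }

end T3OutS

/-- if `S'` is `S` on the full zones, then also where the values are in the full zones -/
theorem eq_of_fullK {ι : Type*} {Λ : Set V} {F : BFam 3 ι Λ} {S S' : ConHomeo Λ Λ}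
    (hS : F.IsS S) (hSS : ∀ b z, F.FullK b z → S'.toFun z = S.toFun z) {b : ι} {z : V}
    (hz : z ∈ Λ) (h : F.FullK b (S'.toFun z) ∨ F.FullK b (S.toFun z)) :
    S'.toFun z = S.toFun z := by
  rcases h with h | h
  · have h1 : S.invFun (S'.toFun z) ∈ Λ := S.mapsTo_inv (S'.mapsTo hz)
    have h2 : S.toFun (S.invFun (S'.toFun z)) = S'.toFun z := S.right_inv (S'.mapsTo hz)
    have h3 : F.FullK b (S.invFun (S'.toFun z)) := by
      rw [← hS.fullK_iff h1, h2]; exact h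
    have h4 := hSS b _ h3
    rw [h2] at h4
    have h5 : S.invFun (S'.toFun z) = z := S'.left_inv.injOn h1 hz h4
    rw [h5] at h2
    exact h2.symm
  · exact hSS b z ((hS.fullK_iff hz).1 h)

end P073.H236
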