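import Vale.Agent.P073.H238.TStage1

/-!
# P073, H579: **[tstage1-W]**, the first stage of round T in a set of boxes, with cells `W`

`G₀`: processed boxes; `W`: cells on which the traces are kept (as on the skeleton); `Act₀`: the
faces which are cleaned, no face of a cell of `W`.
-/

open Set Metric Topology Filter

namespace Vale.Agent.P073.H579

open _root_.P073 _root_.P073.TR _root_.P073.SCH _root_.P073.H339 _root_.P073.Net _root_.P073.PA691
open _root_.P073.PR720 (LF)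
open Vale.Agent.P073.H471 Vale.Agent.P073.H267 Vale.Agent.P073.H267.Geo
open Vale.Agent.P073.H73 (Mesh)
open Vale.Agent.P073.H238

variable {Ω Λ : Set V} {v : V} {K : BoxCx Λ v} {S : Rad K} {Wd : Wid K S} {B : Boxes Wd}

/-- the skeleton, together with the cells of `W` -/
def skelW (M : Mesh Ω) (W : Set M.ι) : Set V := skel M ∪ ⋃ i ∈ W, M.Q i

theorem skel_subW (M : Mesh Ω) (W : Set M.ι) : skel M ⊆ skelW M W := subset_union_left

theorem cell_subW (M : Mesh Ω) {W : Set M.ι} {i : M.ι} (hi : i ∈ W) : M.Q i ⊆ skelW M W :=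
  fun _ hx => Or.inr (mem_iUnion₂.2 ⟨i, hi, hx⟩)

theorem skelW_sub (M : Mesh Ω) (W : Set M.ι) : skelW M W ⊆ Ω := by
  rintro x (hx | hx)
  · obtain ⟨k, hk⟩ := mem_iUnion.1 hx
    exact mesh_sub M k hk
  · obtain ⟨i, -, hi⟩ := mem_iUnion₂.1 hx
    exact M.sub i hi

/-- near a relative interior point of a face which is in no cell of `W`, `skelW` is the face -/
theorem mesh_nearW (hΩ : IsOpen Ω) (M : Mesh Ω) {W : Set M.ι} {k : M.κ}
    (hW : ∀ i ∈ W, ¬ M.F k ⊆ M.Q i) {x : V} (hx : x ∈ intrinsicInterior ℝ (M.F k)) :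
    ∀ᶠ y in 𝓝 x, y ∈ skelW M W → y ∈ M.F k := by
  have hxF : x ∈ M.F k := intrinsicInterior_subset hx
  obtain ⟨r, hr, hb⟩ := Metric.nhds_basis_closedBall.mem_iff.1
    (hΩ.mem_nhds (mesh_sub M k hxF))
  have hfin := M.fin _ hb (isCompact_closedBall x r)
  have h1 : ∀ᶠ y in 𝓝 x, ∀ i ∈ {i | (M.Q i ∩ closedBall x r).Nonempty} ∩ W, y ∉ M.Q i := by
    refine (eventually_all_finite (hfin.subset inter_subset_left)).2 fun i hi => ?_
    refine (M.poly i).cpt.isClosed.isOpen_compl.mem_nhds fun h2 => ?_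
    exact Set.disjoint_left.1 (face_off_cell M (hW i hi.2)) h2 hx
  filter_upwards [h1, closedBall_mem_nhds x hr, mesh_near hΩ M k hx] with y hy hyb hys hyW
  rcases hyW with h2 | h2
  · exact hys h2
  · obtain ⟨i, hi, hyi⟩ := mem_iUnion₂.1 h2
    exact absurd hyi (hy i ⟨⟨y, hyi, hyb⟩, hi⟩)

/-- the output of stage 1 in the boxes `G₀`, with cells `W`, for the faces `Act₀` -/
structure TStageW (G : Geo B) (M : Mesh Ω) (h h' : ConHomeo Ω Λ) (Pr W : Set M.ι)
    (Act₀ : Set M.κ) (G₀ : Set (TBx K)) (L : TBx K → Set ℝ) (ω : TBx K → ℝ) : Prop where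
  /-- nothing changes outside of the supports -/
  off : ∀ x ∈ Ω, (∀ b ∈ G₀, h.toFun x ∉ interior (G.TB false b)) →
    ∀ᶠ y in 𝓝 x, h'.toFun y = h.toFun y
  /-- nothing changes outside of the middle zones -/
  off' : ∀ x ∈ Ω, (∀ b ∈ G₀, h.toFun x ∉ interior (TMid G b (ω b))) →
    ∀ᶠ y in 𝓝 x, h'.toFun y = h.toFun y
  memM : ∀ b, ∀ x ∈ Ω, (h'.toFun x ∈ interior (TMid G b (ω b)) ↔
    h.toFun x ∈ interior (TMid G b (ω b)))
  memI : ∀ b, ∀ x ∈ Ω, (h'.toFun x ∈ interior (G.TB false b) ↔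
    h.toFun x ∈ interior (G.TB false b))
  mem : ∀ b, ∀ x ∈ Ω, (h'.toFun x ∈ G.TB false b ↔ h.toFun x ∈ G.TB false b)
  /-- nothing changes in the other boxes -/
  other : ∀ b ∉ G₀, ∀ x ∈ Ω, h.toFun x ∈ G.TB false b → ∀ᶠ y in 𝓝 x, h'.toFun y = h.toFun y
  /-- traces only disappear, with the same germs -/
  keep : ∀ b, ∀ x ∈ skelW M W, h'.toFun x ∈ G.TB false b → h'.toFun x b.ax ∈ L b →
    ∀ᶠ y in 𝓝 x, h'.toFun y = h.toFun y
  near : ∀ b, ∀ x ∈ skelW M W, h.toFun x ∈ G.TB false b →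
    dist (h'.toFun x) (h.toFun x) ≤ 6 * ω b
  all : ∀ b, ∀ x ∈ Ω, h.toFun x ∈ G.TB false b → dist (h'.toFun x) (h.toFun x) ≤ 12 * ω b
  /-- no circles on the active faces -/
  noCirc : ∀ b ∈ G₀, ∀ k ∈ Act₀, TAct G M h L b k → ∀ t ∈ L b, ∀ σ, IsCircle σ →
    ¬ σ ⊆ {z | z ∈ (meshFace M k).C ∧ h'.toFun ((meshFace M k).ch z) b.ax = t}
  /-- faces which are active for `h'` are active for `h` -/
  act : ∀ b k, TAct G M h' L b k → TAct G M h L b k
  /-- active faces are in the full zone, up to `7 ω` -/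
  loc : ∀ b ∈ G₀, ∀ k, TAct G M h L b k → ∀ x ∈ M.F k, h'.toFun x ∈ interior (G.TB false b) ∧
    (G.tlo true b b.ax + 3 * ω b < h'.toFun x b.ax ∧
      h'.toFun x b.ax < G.thi true b b.ax - 3 * ω b) ∧
    ∀ j, j ≠ b.ax → G.tlo true b j - 7 * ω b ≤ h'.toFun x j ∧
      h'.toFun x j ≤ G.thi true b j + 7 * ω b
  /-- the protected cells are not touched -/
  wall : ∀ i ∈ Pr, ∀ x ∈ M.Q i, ∀ᶠ y in 𝓝 x, h'.toFun y = h.toFun y

/-- the levels; the oscillation only for the boxes of `G₀` -/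
structure TLevG (G : Geo B) (M : Mesh Ω) (h : ConHomeo Ω Λ) (G₀ : Set (TBx K))
    (L : TBx K → Set ℝ) (ω : TBx K → ℝ) : Prop where
  fin : ∀ b, (L b).Finite
  ω0 : ∀ b, 0 < ω b
  ωo : ∀ b, ω b ≤ oT G b
  /-- the levels are away from the ends of the boxes -/
  lev : ∀ b, ∀ t ∈ L b, G.tlo true b b.ax + 10 * ω b < t ∧ t < G.thi true b b.ax - 10 * ω b
  osc : ∀ b ∈ G₀, ∀ k, ∀ x ∈ M.F k, ∀ y ∈ M.F k, h.toFun x ∈ G.TB false b →
    dist (h.toFun x) (h.toFun y) ≤ ω b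
  reg : ∀ b k, ∀ x ∈ M.F k, h.toFun x ∈ G.TB false b → h.toFun x b.ax ∈ L b →
    H805.Reg (fun y => h.toFun y b.ax) (fun _ : Unit => M.F k) x

namespace TLevG

variable {G : Geo B} {M : Mesh Ω} {h : ConHomeo Ω Λ} {G₀ : Set (TBx K)} {L : TBx K → Set ℝ}
  {ω : TBx K → ℝ}

theorem ball (T : TLevG G M h G₀ L ω) {b : TBx K} (hb : b ∈ G₀) {k : M.κ}
    (hk : TAct G M h L b k) {x : V} (hx : x ∈ M.F k) :
    closedBall (h.toFun x) (8 * ω b) ⊆ interior (TMid G b (ω b)) := by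
  obtain ⟨x0, hx0, hxb, hxL⟩ := hk
  obtain ⟨h1, h2⟩ := T.lev b _ hxL
  refine Subset.trans ?_ (ball_sub G b (T.ω0 b) hxb h1 h2)
  intro z hz
  rw [mem_closedBall] at hz ⊢
  have h3 := T.osc b hb k x0 hx0 x hx (TB_true_subset b hxb)
  have h4 := dist_triangle z (h.toFun x) (h.toFun x0)
  rw [dist_comm (h.toFun x)] at h4
  linarith

theorem memM (T : TLevG G M h G₀ L ω) {b : TBx K} (hb : b ∈ G₀) {k : M.κ}
    (hk : TAct G M h L b k) {x : V} (hx : x ∈ M.F k) : h.toFun x ∈ interior (TMid G b (ω b)) :=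
  T.ball hb hk hx (mem_closedBall_self (by linarith [T.ω0 b]))

theorem sub (T : TLevG G M h G₀ L ω) (b : TBx K) :
    interior (TMid G b (ω b)) ⊆ interior (G.TB false b) :=
  interior_mono (TMid_sub G b (T.ω0 b) (T.ωo b))

theorem mem (T : TLevG G M h G₀ L ω) {b : TBx K} (hb : b ∈ G₀) {k : M.κ}
    (hk : TAct G M h L b k) {x : V} (hx : x ∈ M.F k) : h.toFun x ∈ interior (G.TB false b) :=
  T.sub b (T.memM hb hk hx)

/-- the set up in a box -/
theorem setup (hΩ : IsOpen Ω) (hΛ : IsOpen Λ) (T : TLevG G M h G₀ L ω) {b : TBx K}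
    (hb : b ∈ G₀) :
    Setup Ω Λ (skel M) (interior (TMid G b (ω b))) h (fun j : {k // TAct G M h L b k} => M.F j.1)
      (fun j => meshFace M j.1) (lvl b (L b)) (ω b) := by
  have hω := T.ω0 b
  refine setup_of_mesh hΩ hΛ M h (fun j : {k // TAct G M h L b k} => j.1) ((T.fin b).image _) ?_ ?_
    hω ?_ isOpen_interior ((T.sub b).trans (interior_subset.trans (TB_sub b))) ?_
  · rintro ⟨k, hk⟩ x hx _ ⟨t, ht, rfl⟩ hxt
    have h1 : h.toFun x b.ax = t := hxt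
    exact T.reg b k x hx (interior_subset (T.mem hb hk hx)) (by rw [h1]; exact ht)
  · rintro ⟨k, hk⟩ x hx _ ⟨t, ht, rfl⟩ _ ⟨t', ht', rfl⟩ h1 h2
    have e1 : h.toFun x b.ax = t := h1
    have e2 : h.toFun x b.ax = t' := h2
    rw [← e1, ← e2]
  · rintro ⟨k, hk⟩ x hx y hy
    exact T.osc b hb k x hx y hy (interior_subset (T.mem hb hk hx))
  · rintro ⟨k, hk⟩ x hx
    exact T.ball hb hk hx

end TLevG

/-- protected cells: large boxes near the boxes of `G₀` -/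
def PWall (G : Geo B) (M : Mesh Ω) (h : ConHomeo Ω Λ) (Pr : Set M.ι) (G₀ : Set (TBx K)) : Prop :=
  ∀ i ∈ Pr, ∀ b ∈ G₀, (h.toFun '' M.Q i ∩ G.TB false b).Nonempty →
    ∃ lo hi : V, (∀ k, 15 * oT G b < hi k - lo k) ∧ h.toFun '' M.Q i = Icc lo hi

/-- the protected cells of K2C -/
theorem _root_.Vale.Agent.P073.H238.TProt.pWall {G : Geo B} {M : Mesh Ω} {h : ConHomeo Ω Λ}
    {Pr : Set M.ι} (R : TProt K M h Pr) (ho : ∀ b, 0 < oT G b) (G₀ : Set (TBx K)) :
    PWall G M h Pr G₀ := by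
  rintro i hi b - ⟨y, hy, hyb⟩
  obtain ⟨lo, hi', hlt, he⟩ := R.box i hi
  exact ⟨lo, hi', R.large hi (ho b) hy hyb hlt he, he⟩

/-- **the walls**: the protected boxes -/
theorem PWall.walls {G : Geo B} {M : Mesh Ω} {h : ConHomeo Ω Λ} {Pr : Set M.ι}
    {G₀ : Set (TBx K)} {L : TBx K → Set ℝ} {ω : TBx K → ℝ} (R : PWall G M h Pr G₀)
    (T : TLevG G M h G₀ L ω) {Act₀ : Set M.κ} (hA : ∀ k ∈ Act₀, ∀ i ∈ Pr, ¬ M.F k ⊆ M.Q i)
    {b : TBx K} (hb : b ∈ G₀) :
    Walls h (fun j : {k // k ∈ Act₀ ∧ TAct G M h L b k} => meshFace M j.1) (lvl b (L b)) (ω b)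
      {Q | ∃ i ∈ Pr, Q = h.toFun '' M.Q i ∧ (Q ∩ G.TB false b).Nonempty} := by
  have hω := T.ω0 b
  have ho : 0 < oT G b := hω.trans_le (T.ωo b)
  have hωo := T.ωo b
  refine ⟨?_, ?_, ?_, ?_, ?_, ?_, ?_⟩
  · obtain ⟨hc, hcΩ, hcm⟩ := cpt_preimage h (Q := G.TB false b) isCompact_Icc (TB_sub b)
    refine ((M.fin _ hcΩ hc).image fun i => h.toFun '' M.Q i).subset ?_
    rintro _ ⟨i, hi, rfl, ⟨_, ⟨x, hx, rfl⟩, hxb⟩⟩
    exact ⟨i, ⟨x, hx, hcm x (M.sub i hx) hxb⟩, rfl⟩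
  · rintro _ ⟨i, hi, rfl, hne⟩
    obtain ⟨lo, hi', -, he⟩ := R i hi b hb hne
    rw [he]; exact isClosed_Icc
  · rintro _ ⟨i, hi, rfl, hne⟩
    obtain ⟨lo, hi', -, he⟩ := R i hi b hb hne
    rw [he]; exact (convex_Icc _ _).isPreconnected
  · rintro _ ⟨i, hi, rfl, -⟩ ⟨k, hk0, hk⟩ -
    have h1 := face_off_cell M (hA k hk0 i hi)
    rw [(meshFace M k).intrinsicInterior_eq] at h1
    rw [Set.disjoint_left]
    rintro _ ⟨x, hx, rfl⟩ ⟨_, ⟨z, hz, rfl⟩, hzx⟩
    have h2 : (meshFace M k).ch z = x := by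
      refine h.left_inv.injOn ?_ (M.sub i hx) hzx
      exact mesh_sub M k ((meshFace M k).ch_mem (interior_subset hz))
    exact Set.disjoint_left.1 h1 hx ⟨z, hz, h2⟩
  · rintro _ ⟨i, hi, rfl, hne⟩ q -
    obtain ⟨lo, hi', -, he⟩ := R i hi b hb hne
    rw [he]
    have hP : Convex ℝ (Pl q.1 q.2) := by
      intro x hx y hy a c ha hc hac
      have e1 : x q.1 = q.2 := hx
      have e2 : y q.1 = q.2 := hy
      show (a • x + c • y) q.1 = q.2
      rw [Pi.add_apply, Pi.smul_apply, Pi.smul_apply, e1, e2, smul_eq_mul, smul_eq_mul,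
        ← add_mul, hac, one_mul]
    exact ((convex_Icc _ _).inter hP).isPreconnected
  · rintro _ ⟨i, hi, rfl, hne⟩ q - ⟨w, hw, hwq⟩
    obtain ⟨lo, hi', hl, he⟩ := R i hi b hb hne
    have hlt : ∀ k, lo k < hi' k := fun k => by linarith [hl k]
    rw [he] at hw ⊢
    obtain ⟨k, hk⟩ := exists_ne q.1
    have hmem : ∀ s, lo k ≤ s → s ≤ hi' k → Function.update w k s ∈ Icc lo hi' ∩ Pl q.1 q.2 := by
      intro s h1 h2
      refine ⟨⟨fun j => ?_, fun j => ?_⟩, ?_⟩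
      · by_cases hj : j = k
        · subst hj; simpa using h1
        · simpa [hj] using hw.1 j
      · by_cases hj : j = k
        · subst hj; simpa using h2
        · simpa [hj] using hw.2 j
      · show Function.update w k s q.1 = q.2
        rw [Function.update_of_ne hk.symm]; exact hwq
    refine ⟨_, hmem (lo k) le_rfl (hlt k).le, _, hmem (hi' k) (hlt k).le le_rfl, ?_⟩
    have h1 := dist_le_pi_dist (Function.update w k (lo k)) (Function.update w k (hi' k)) k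
    rw [Function.update_self, Function.update_self, Real.dist_eq,
      abs_sub_comm, abs_of_pos (by linarith [hlt k])] at h1
    have := hl k
    linarith
  · rintro _ ⟨i, hi, rfl, hne⟩
    obtain ⟨lo, hi', hl, he⟩ := R i hi b hb hne
    have hlt : ∀ k, lo k < hi' k := fun k => by linarith [hl k]
    rw [he]
    refine ⟨lo, ⟨fun _ => le_rfl, fun k => (hlt k).le⟩, hi', ⟨fun k => (hlt k).le, fun _ => le_rfl⟩,
      ?_⟩
    have h1 := dist_le_pi_dist lo hi' 0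
    rw [Real.dist_eq, abs_sub_comm, abs_of_pos (by linarith [hlt 0])] at h1
    have := hl 0
    linarith

/-- the set up in a box, with cells `W`, for the faces `Act₀` -/
theorem setupW {G : Geo B} {M : Mesh Ω} {h : ConHomeo Ω Λ} {L : TBx K → Set ℝ}
    {ω : TBx K → ℝ} (hΩ : IsOpen Ω) (hΛ : IsOpen Λ) {G₀ : Set (TBx K)}
    (T : TLevG G M h G₀ L ω) {W : Set M.ι}
    {Act₀ : Set M.κ} (hW : ∀ k ∈ Act₀, ∀ i ∈ W, ¬ M.F k ⊆ M.Q i) {b : TBx K} (hb : b ∈ G₀) :
    Setup Ω Λ (skelW M W) (interior (TMid G b (ω b))) h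
      (fun j : {k // k ∈ Act₀ ∧ TAct G M h L b k} => M.F j.1)
      (fun j => meshFace M j.1) (lvl b (L b)) (ω b) := by
  have S₀ := T.setup hΩ hΛ hb
  exact {
    oΩ := hΩ
    oΛ := hΛ
    AΩ := fun j => mesh_sub M j.1
    AK := fun j => (subset_iUnion M.F j.1).trans (skel_subW M W)
    Ao := fun j z hz => mesh_nearW hΩ M (hW j.1 j.2.1) (by
      rw [(meshFace M j.1).intrinsicInterior_eq]; exact ⟨z, hz, rfl⟩)
    fin := S₀.fin
    reg := fun j => S₀.reg ⟨j.1, j.2.2⟩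
    disj := fun j => S₀.disj ⟨j.1, j.2.2⟩
    ω0 := S₀.ω0
    diam := fun j => S₀.diam ⟨j.1, j.2.2⟩
    oP := S₀.oP
    PΛ := S₀.PΛ
    ball := fun j => S₀.ball ⟨j.1, j.2.2⟩ }

/-- **[tstage1-W]** -/
theorem exists_tstageW {G : Geo B} {M : Mesh Ω} {h : ConHomeo Ω Λ} {Pr : Set M.ι}
    {L : TBx K → Set ℝ} {ω : TBx K → ℝ} (hΩ : IsOpen Ω) (hΛ : IsOpen Λ) {G₀ : Set (TBx K)}
    (T : TLevG G M h G₀ L ω) (R : PWall G M h Pr G₀) {W : Set M.ι} {Act₀ : Set M.κ}
    (hA : ∀ k ∈ Act₀, ∀ i ∈ Pr, ¬ M.F k ⊆ M.Q i)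
    (hW : ∀ k ∈ Act₀, ∀ i ∈ W, ¬ M.F k ⊆ M.Q i) :
    ∃ h' : ConHomeo Ω Λ, TStageW G M h h' Pr W Act₀ G₀ L ω := by
  have hfin : ∀ b : G₀, Finite {k // k ∈ Act₀ ∧ TAct G M h L b.1 k} := by
    intro b
    obtain ⟨hc, hcΩ, hcm⟩ := cpt_preimage h (Q := G.TB false b.1) isCompact_Icc (TB_sub b.1)
    refine ((M.ffin _ hcΩ hc).subset ?_).to_subtype
    rintro k ⟨-, x, hx, hxb, -⟩
    exact ⟨x, hx, hcm x (mesh_sub M k hx) (TB_true_subset b.1 hxb)⟩
  obtain ⟨h', O⟩ := step_t hΩ hΛ (fun b : G₀ => setupW hΩ hΛ T hW b.2)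
    (fun b => R.walls T hA b.2)
    (fun b b' hne => ((disjoint_TB fun hh => hne (Subtype.ext hh)).mono_right
      interior_subset).mono (T.sub b.1) (T.sub b'.1))
    (fun z hz => by
      obtain ⟨U, hU, hf⟩ := lf_TB G z hz
      refine ⟨U, hU, (hf.preimage (f := fun b : G₀ => b.1) Subtype.val_injective.injOn).subset ?_⟩
      rintro b ⟨y, hy, hyU⟩
      exact ⟨y, interior_subset (T.sub b.1 hy), hyU⟩)
  -- a point in a middle zone is not in another box
  have hone : ∀ b b' (y : V), y ∈ interior (TMid G b (ω b)) → y ∈ G.TB false b' → b = b' := by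
    intro b b' y hy hy'
    by_contra hbb
    exact (disjoint_TB hbb).notMem_of_mem_left (T.sub b hy) hy'
  have hoff' : ∀ x ∈ Ω, (∀ b ∈ G₀, h.toFun x ∉ interior (TMid G b (ω b))) →
      ∀ᶠ y in 𝓝 x, h'.toFun y = h.toFun y := fun x hx h1 => O.off x hx fun b => h1 b.1 b.2
  have hmemM : ∀ b, ∀ x ∈ Ω, (h'.toFun x ∈ interior (TMid G b (ω b)) ↔
      h.toFun x ∈ interior (TMid G b (ω b))) := by
    intro b x hx
    by_cases hb : b ∈ G₀
    · exact O.mem ⟨b, hb⟩ x hx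
    by_cases h1 : ∃ b' ∈ G₀, h.toFun x ∈ interior (TMid G b' (ω b'))
    · obtain ⟨b', hb'G, hb'⟩ := h1
      have hb'' := (O.mem ⟨b', hb'G⟩ x hx).2 hb'
      constructor
      · intro h2
        have h3 := hone b' b _ hb'' (interior_subset (T.sub b h2))
        exact absurd (h3 ▸ hb'G) hb
      · intro h2
        have h3 := hone b' b _ hb' (interior_subset (T.sub b h2))
        exact absurd (h3 ▸ hb'G) hb
    · push Not at h1
      rw [(hoff' x hx h1).self_of_nhds]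
  have hmemB : ∀ b, ∀ x ∈ Ω, (h'.toFun x ∈ G.TB false b ↔ h.toFun x ∈ G.TB false b) := by
    intro b x hx
    by_cases h1 : ∃ b' ∈ G₀, h.toFun x ∈ interior (TMid G b' (ω b'))
    · obtain ⟨b', -, hb'⟩ := h1
      have hb'' := (hmemM b' x hx).2 hb'
      constructor
      · intro h2
        have h3 := hone b' b _ hb'' h2
        subst h3
        exact interior_subset (T.sub b' hb')
      · intro h2
        have h3 := hone b' b _ hb' h2
        subst h3
        exact interior_subset (T.sub b' hb'')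
    · push Not at h1
      rw [(hoff' x hx h1).self_of_nhds]
  have hmemI : ∀ b, ∀ x ∈ Ω, (h'.toFun x ∈ interior (G.TB false b) ↔
      h.toFun x ∈ interior (G.TB false b)) := by
    intro b x hx
    by_cases h1 : ∃ b' ∈ G₀, h.toFun x ∈ interior (TMid G b' (ω b'))
    · obtain ⟨b', -, hb'⟩ := h1
      have hb'' := (hmemM b' x hx).2 hb'
      constructor
      · intro h2
        have h3 := hone b' b _ hb'' (interior_subset h2)
        subst h3
        exact T.sub b' hb'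
      · intro h2
        have h3 := hone b' b _ hb' (interior_subset h2)
        subst h3
        exact T.sub b' hb''
    · push Not at h1
      rw [(hoff' x hx h1).self_of_nhds]
  have hother : ∀ b ∉ G₀, ∀ x ∈ Ω, h.toFun x ∈ G.TB false b →
      ∀ᶠ y in 𝓝 x, h'.toFun y = h.toFun y := by
    intro b hb x hx hxb
    refine hoff' x hx fun b' hb' h2 => hb ?_
    rw [← hone b' b _ h2 hxb]
    exact hb'
  have hkeep : ∀ b, ∀ x ∈ skelW M W, h'.toFun x ∈ G.TB false b → h'.toFun x b.ax ∈ L b →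
      ∀ᶠ y in 𝓝 x, h'.toFun y = h.toFun y := by
    intro b x hx hxb hxL
    have hxΩ : x ∈ Ω := skelW_sub M W hx
    by_cases h1 : ∃ b' ∈ G₀, h.toFun x ∈ interior (TMid G b' (ω b'))
    · obtain ⟨b', hb'G, hb'⟩ := h1
      have h3 := hone b' b _ ((hmemM b' x hxΩ).2 hb') hxb
      subst h3
      exact O.keep ⟨b', hb'G⟩ x hxΩ hx hb' (b'.ax, h'.toFun x b'.ax) ⟨_, hxL, rfl⟩ rfl
    · push Not at h1
      exact hoff' x hxΩ h1
  have hnear : ∀ b, ∀ x ∈ skelW M W, h.toFun x ∈ G.TB false b →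
      dist (h'.toFun x) (h.toFun x) ≤ 6 * ω b := by
    intro b x hx hxb
    have hxΩ : x ∈ Ω := skelW_sub M W hx
    by_cases h1 : ∃ b' ∈ G₀, h.toFun x ∈ interior (TMid G b' (ω b'))
    · obtain ⟨b', hb'G, hb'⟩ := h1
      have h3 := hone b' b _ hb' hxb
      subst h3
      exact O.near ⟨b', hb'G⟩ x hxΩ hx hb'
    · push Not at h1
      rw [(hoff' x hxΩ h1).self_of_nhds, dist_self]
      linarith [T.ω0 b]
  refine ⟨h', ⟨fun x hx h1 => hoff' x hx fun b hb hb' => h1 b hb (T.sub b hb'), hoff', hmemM,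
    hmemI, hmemB, hother, hkeep, hnear, ?_, ?_, ?_, ?_, ?_⟩⟩
  · intro b x hxΩ hxb
    by_cases h1 : ∃ b' ∈ G₀, h.toFun x ∈ interior (TMid G b' (ω b'))
    · obtain ⟨b', hb'G, hb'⟩ := h1
      have h3 := hone b' b _ hb' hxb
      subst h3
      exact O.all ⟨b', hb'G⟩ x hxΩ hb'
    · push Not at h1
      rw [(hoff' x hxΩ h1).self_of_nhds, dist_self]
      linarith [T.ω0 b]
  · intro b hb k hk0 hk t ht σ hσ
    exact O.noCirc ⟨b, hb⟩ ⟨k, hk0, hk⟩ (b.ax, t) ⟨t, ht, rfl⟩ σ hσ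
  · rintro b k ⟨x, hx, hxb, hxL⟩
    have h1 := (hkeep b x (skel_subW M W (mem_iUnion.2 ⟨k, hx⟩)) (TB_true_subset b hxb)
      hxL).self_of_nhds
    rw [h1] at hxb hxL
    exact ⟨x, hx, hxb, hxL⟩
  · intro b hbG k hk x hx
    have hxΩ := mesh_sub M k hx
    have hxI := T.memM hbG hk hx
    refine ⟨T.sub b ((hmemM b x hxΩ).2 hxI), ?_⟩
    obtain ⟨x0, hx0, hxb, hxL⟩ := hk
    have h1 := T.osc b hbG k x0 hx0 x hx (TB_true_subset b hxb)
    have h2 := hnear b x (skel_subW M W (mem_iUnion.2 ⟨k, hx⟩)) (interior_subset (T.sub b hxI))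
    have h3 := dist_triangle_right (h'.toFun x) (h.toFun x0) (h.toFun x)
    have h4 : dist (h'.toFun x) (h.toFun x0) ≤ 7 * ω b := by linarith
    have hω := T.ω0 b
    rw [dist_pi_le_iff (by positivity)] at h4
    have h5 := T.lev b _ hxL
    constructor
    · have h6 := h4 b.ax
      rw [Real.dist_eq, abs_le] at h6
      constructor <;> linarith [h6.1, h6.2, h5.1, h5.2]
    · intro j _
      have h6 := h4 j
      rw [Real.dist_eq, abs_le] at h6
      have h7 := hxb.1 j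
      have h8 := hxb.2 j
      constructor <;> linarith [h6.1, h6.2]
  · intro i hi x hx
    have hxΩ := M.sub i hx
    by_cases h1 : ∃ b ∈ G₀, h.toFun x ∈ interior (TMid G b (ω b))
    · obtain ⟨b, hbG, hb⟩ := h1
      exact O.wall ⟨b, hbG⟩ _ ⟨i, hi, rfl, ⟨_, ⟨x, hx, rfl⟩, interior_subset (T.sub b hb)⟩⟩ x hxΩ
        hb ⟨x, hx, rfl⟩
    · push Not at h1
      exact hoff' x hxΩ h1

namespace TStageW

variable {G : Geo B} {M : Mesh Ω} {h h' : ConHomeo Ω Λ} {Pr W : Set M.ι} {Act₀ : Set M.κ}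
  {G₀ : Set (TBx K)} {L : TBx K → Set ℝ} {ω : TBx K → ℝ}

/-- no circles on an active face, in the space, for all levels at once -/
theorem noCircV (O : TStageW G M h h' Pr W Act₀ G₀ L ω) (hL : ∀ b, (L b).Finite)
    {b : TBx K} (hb : b ∈ G₀) {k : M.κ} (hk0 : k ∈ Act₀) (hk : TAct G M h L b k) {σ : Set V}
    (hσ : IsCircle σ) (hs : σ ⊆ M.F k) (hl : ∀ x ∈ σ, h'.toFun x b.ax ∈ L b) : False := by
  set F := meshFace M k with hF
  have hτ : IsCircle (F.hom.symm.toFun '' σ) := IsCircle.image hσ F.hom.symm hs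
  set τ := F.hom.symm.toFun '' σ with hτd
  have hτC : ∀ z ∈ τ, z ∈ F.C ∧ F.ch z ∈ σ := by
    rintro _ ⟨x, hx, rfl⟩
    refine ⟨F.hom.symm.mapsTo (hs hx), ?_⟩
    have h1 : F.hom.toFun (F.hom.symm.toFun x) = x := F.hom.right_inv (hs hx)
    rw [F.hom_toFun] at h1
    rw [h1]; exact hx
  obtain ⟨z0, hz0⟩ := Fam.circle_nonempty hτ
  have hpre : IsPreconnected τ := by
    obtain ⟨D, hD, hfr⟩ := schoenflies hτ
    rw [← hfr]
    exact _root_.P073.SCH.AmbDisc.isPreconnected_frontier hD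
  have hcont : ContinuousOn (fun z => h'.toFun (F.ch z) b.ax) τ := by
    have h1 : ContinuousOn (fun z => h'.toFun (F.ch z)) τ :=
      h'.cont.comp F.continuous_ch.continuousOn fun z hz =>
        mesh_sub M k (F.ch_mem (hτC z hz).1)
    exact (continuous_apply b.ax).comp_continuousOn h1
  have hsub : ((fun z => h'.toFun (F.ch z) b.ax) '' τ).Subsingleton := by
    by_contra hnt
    rw [Set.not_subsingleton_iff] at hnt
    refine (hpre.image _ hcont).infinite_of_nontrivial hnt ((hL b).subset ?_)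
    rintro _ ⟨z, hz, rfl⟩
    exact hl _ (hτC z hz).2
  exact O.noCirc b hb k hk0 hk _ (hl _ (hτC z0 hz0).2) τ hτ fun z hz =>
    ⟨(hτC z hz).1, hsub ⟨z, hz, rfl⟩ ⟨z0, hz0, rfl⟩⟩

/-- regularity is kept, for all families -/
theorem reg (O : TStageW G M h h' Pr W Act₀ G₀ L ω) {ι : Type*}
    {N : ι → Set V} {b : TBx K} {x : V} (hx : x ∈ skelW M W) (hxb : h'.toFun x ∈ G.TB false b)
    (hxL : h'.toFun x b.ax ∈ L b) (hr : h.toFun x ∈ G.TB false b → h.toFun x b.ax ∈ L b →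
      H805.Reg (fun y => h.toFun y b.ax) N x) :
    h.toFun x = h'.toFun x ∧ H805.Reg (fun y => h'.toFun y b.ax) N x := by
  have h1 := O.keep b x hx hxb hxL
  have h2 := h1.self_of_nhds
  rw [h2] at hxb hxL
  exact ⟨h2.symm, (hr hxb hxL).congr_fun (h1.mono fun y hy => by
    show h'.toFun y b.ax = h.toFun y b.ax
    rw [hy])⟩

/-- all boxes, no cells, all faces: the output of stage 1 -/
theorem stage1 (O : TStageW G M h h' Pr ∅ univ univ L ω) : TStage1 G M h h' Pr L ω where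
  off := fun x hx h1 => O.off x hx fun b _ => h1 b
  off' := fun x hx h1 => O.off' x hx fun b _ => h1 b
  memM := O.memM
  memI := O.memI
  mem := O.mem
  keep := fun b x hx => O.keep b x (skel_subW M _ hx)
  near := fun b x hx => O.near b x (skel_subW M _ hx)
  all := O.all
  noCirc := fun b k hk => O.noCirc b trivial k trivial hk
  act := O.act
  loc := fun b k hk => O.loc b trivial k hk
  wall := O.wall

end TStageW

end Vale.Agent.P073.H579
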