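import Vale.Agent.P073.H579.FaceIns

/-!
# P073, H579: the collapse of an edge map

`Φ : segment a b → preQ k h (segment a b)` any conical homeomorphism with
`prodK k (Φ a) = h a`, `prodK k (Φ b) = h b`. Then `prodK k (Φ (a + t (b - a))) = h (a + τ t (b - a))`
with a monotone conical surjection `τ : [0,1] → [0,1]`, and over a crossing point the coordinate of
`Φ` is strictly monotone from one end of the flat to the other.
-/

set_option linter.unusedSectionVars false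

open Set Metric Topology Filter

namespace P073.H579

variable {E : Type*} [NormedAddCommGroup E] [NormedSpace ℝ E]

theorem conicalOn_lineMap (a b : E) : ConicalOn (AffineMap.lineMap a b : ℝ → E) (Icc (0:ℝ) 1) := by
  have h1 : ConicalOn (fun t : ℝ => t • (b - a) + a) (Icc (0:ℝ) 1) := by
    have h2 : ConicalOn (fun t : ℝ => t • (b - a)) (Icc (0:ℝ) 1) :=
      conicalOn_linear (LinearMap.toSpanSingleton ℝ E (b - a)) (Convex.conicalSet (convex_Icc 0 1))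
    exact h2.add (conicalOn_const _ (Convex.conicalSet (convex_Icc 0 1)))
  refine h1.congr fun t _ => ?_
  simp [AffineMap.lineMap_apply]

theorem continuous_lineMap (a b : E) : Continuous (AffineMap.lineMap a b : ℝ → E) := by
  have : (AffineMap.lineMap a b : ℝ → E) = fun t => t • (b - a) + a := by
    funext t; simp [AffineMap.lineMap_apply]
  rw [this]; fun_prop

/-- parametrisation of a segment -/
noncomputable def segC {a b : E} (hab : a ≠ b) : ConHomeo (Icc (0:ℝ) 1) (segment ℝ a b) :=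
  ConHomeo.ofCompact isCompact_Icc (AffineMap.lineMap a b) (continuous_lineMap a b).continuousOn
    (AffineMap.lineMap_injective ℝ hab).injOn (conicalOn_lineMap a b)
    (segment_eq_image_lineMap ℝ a b).symm

theorem segC_toFun {a b : E} (hab : a ≠ b) : (segC hab).toFun = AffineMap.lineMap a b :=
  ConHomeo.ofCompact_toFun _ _ _ _ _ _

/-- a continuous surjection with connected fibres is monotone -/
theorem monotone_of_fibres {f : ℝ → ℝ} (hf : ContinuousOn f (Icc 0 1))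
    (hm : MapsTo f (Icc 0 1) (Icc 0 1)) (h0 : f 0 = 0) (h1 : f 1 = 1)
    (hfib : ∀ s ∈ Icc (0:ℝ) 1, IsPreconnected {t | t ∈ Icc (0:ℝ) 1 ∧ f t = s}) :
    MonotoneOn f (Icc 0 1) := by
  intro s hs t ht hst
  by_contra hcon
  rw [not_le] at hcon
  obtain ⟨c, hc1, hc2⟩ := exists_between hcon
  have hs1 := (hm hs).2
  have ht0 := (hm ht).1
  obtain ⟨x, hx, hxc⟩ := intermediate_value_Icc hs.1 (hf.mono (Icc_subset_Icc_right hs.2))
    (show c ∈ Icc (f 0) (f s) from ⟨by rw [h0]; linarith, hc2.le⟩)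
  obtain ⟨y, hy, hyc⟩ := intermediate_value_Icc ht.2 (hf.mono (Icc_subset_Icc_left ht.1))
    (show c ∈ Icc (f t) (f 1) from ⟨hc1.le, by rw [h1]; linarith⟩)
  have h2 := (hfib c ⟨by linarith, by linarith⟩).ordConnected.out
    (show x ∈ {t | t ∈ Icc (0:ℝ) 1 ∧ f t = c} from ⟨⟨hx.1, hx.2.trans hs.2⟩, hxc⟩)
    (show y ∈ {t | t ∈ Icc (0:ℝ) 1 ∧ f t = c} from ⟨⟨ht.1.trans hy.1, hy.2⟩, hyc⟩)
    (show s ∈ Icc x y from ⟨hx.2, hst.trans hy.1⟩)
  linarith [h2.2]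

/-- the fibres of the product map are convex -/
theorem convex_fibre {m : ℕ} {k : Fin m → ℝ → ℝ} {L : Fin m → Set ℝ} {lo hi : Fin m → ℝ → ℝ}
    (hI : ∀ j, Ins1 (k j) (L j) (lo j) (hi j)) (z : Fin m → ℝ) :
    Convex ℝ {y | prodK k y = z} := by
  intro y hy y' hy' p q hp hq hpq
  funext j
  have e1 : k j (y j) = z j := congrFun hy j
  have e2 : k j (y' j) = z j := congrFun hy' j
  show k j (p * y j + q * y' j) = z j
  obtain rfl : p = 1 - q := by linarith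
  rcases le_total (y j) (y' j) with h | h
  · have h1 : y j ≤ (1 - q) * y j + q * y' j := by
      nlinarith [mul_nonneg hq (sub_nonneg.2 h)]
    have h2 : (1 - q) * y j + q * y' j ≤ y' j := by
      nlinarith [mul_nonneg hp (sub_nonneg.2 h)]
    exact le_antisymm (((hI j).mono h2).trans e2.le) (e1.ge.trans ((hI j).mono h1))
  · have h1 : y' j ≤ (1 - q) * y j + q * y' j := by
      nlinarith [mul_nonneg hp (sub_nonneg.2 h)]
    have h2 : (1 - q) * y j + q * y' j ≤ y j := by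
      nlinarith [mul_nonneg hq (sub_nonneg.2 h)]
    exact le_antisymm (((hI j).mono h2).trans e1.le) (e2.ge.trans ((hI j).mono h1))

/-- the parameter change of an edge map: `f` on the arc parametrised by `ep` -/
structure EdgePar {m : ℕ} (ep : ℝ → E) (k : Fin m → ℝ → ℝ) (h : E → Fin m → ℝ)
    (f : E → Fin m → ℝ) (τ : ℝ → ℝ) : Prop where
  cont : ContinuousOn τ (Icc 0 1)
  con : ConicalOn τ (Icc 0 1)
  mono : MonotoneOn τ (Icc 0 1)
  maps : MapsTo τ (Icc 0 1) (Icc 0 1)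
  zero : τ 0 = 0
  one : τ 1 = 1
  eq : ∀ t ∈ Icc (0:ℝ) 1, prodK k (f (ep t)) = h (ep (τ t))

section

variable {m : ℕ} {s : Set E} {h : E → Fin m → ℝ} {k : Fin m → ℝ → ℝ} {L : Fin m → Set ℝ}
  {lo hi : Fin m → ℝ → ℝ}

/-- **existence of the parameter change** -/
theorem exists_edgePar (sc : ConHomeo (Icc (0:ℝ) 1) s) (hinj : InjOn h s)
    (hc : ContinuousOn h s) (hk : ConicalOn h s) (hI : ∀ j, Ins1 (k j) (L j) (lo j) (hi j))
    (Φ : ConHomeo s (preQ k h s))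
    (ha : prodK k (Φ.toFun (sc.toFun 0)) = h (sc.toFun 0))
    (hb : prodK k (Φ.toFun (sc.toFun 1)) = h (sc.toFun 1)) :
    ∃ τ, EdgePar sc.toFun k h Φ.toFun τ := by
  have hcomp : IsCompact s := sc.isCompact_right isCompact_Icc
  obtain ⟨Hs, hHs⟩ : ∃ Hs : ConHomeo s (h '' s), Hs.toFun = h :=
    ⟨ConHomeo.ofCompact hcomp h hc hinj hk rfl, ConHomeo.ofCompact_toFun _ _ _ _ _ _⟩
  have hm1 : ∀ t ∈ Icc (0:ℝ) 1, prodK k (Φ.toFun (sc.toFun t)) ∈ h '' s := fun t ht =>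
    Φ.mapsTo (sc.mapsTo ht)
  obtain ⟨τ, hτ⟩ : ∃ τ : ℝ → ℝ, ∀ t, τ t =
      sc.invFun (Hs.invFun (prodK k (Φ.toFun (sc.toFun t)))) := ⟨_, fun _ => rfl⟩
  have hmem : ∀ t ∈ Icc (0:ℝ) 1, τ t ∈ Icc (0:ℝ) 1 := fun t ht => by
    rw [hτ]; exact sc.mapsTo_inv (Hs.mapsTo_inv (hm1 t ht))
  have heq : ∀ t ∈ Icc (0:ℝ) 1, prodK k (Φ.toFun (sc.toFun t)) = h (sc.toFun (τ t)) := by
    intro t ht
    have h1 : sc.toFun (τ t) = Hs.invFun (prodK k (Φ.toFun (sc.toFun t))) := by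
      rw [hτ]
      exact sc.right_inv (Hs.mapsTo_inv (hm1 t ht))
    rw [h1]
    have h2 := Hs.right_inv (hm1 t ht)
    rw [hHs] at h2
    exact h2.symm
  have hinv : ∀ t ∈ Icc (0:ℝ) 1, ∀ s' ∈ Icc (0:ℝ) 1,
      prodK k (Φ.toFun (sc.toFun t)) = h (sc.toFun s') → τ t = s' := by
    intro t ht s' hs' he
    have h1 := hinj (sc.mapsTo (hmem t ht)) (sc.mapsTo hs') ((heq t ht).symm.trans he)
    exact sc.injOn (hmem t ht) hs' h1
  have c1 : ContinuousOn (fun t => Φ.toFun (sc.toFun t)) (Icc 0 1) :=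
    Φ.cont.comp sc.cont sc.mapsTo
  have k1 : ConicalOn (fun t => Φ.toFun (sc.toFun t)) (Icc 0 1) :=
    Φ.conical.comp sc.conical sc.mapsTo sc.cont
  have c2 : ContinuousOn (fun t => prodK k (Φ.toFun (sc.toFun t))) (Icc 0 1) :=
    (continuous_prodK fun j => (hI j).cont).comp_continuousOn c1
  have k2 : ConicalOn (fun t => prodK k (Φ.toFun (sc.toFun t))) (Icc 0 1) :=
    (conicalOn_prodK hI).comp k1 (mapsTo_univ _ _) c1
  have c3 := Hs.cont_inv.comp c2 hm1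
  have k3 := Hs.conical_inv.comp k2 hm1 c2
  have m3 : ∀ t ∈ Icc (0:ℝ) 1, Hs.invFun (prodK k (Φ.toFun (sc.toFun t))) ∈ s := fun t ht =>
    Hs.mapsTo_inv (hm1 t ht)
  have hcont : ContinuousOn τ (Icc 0 1) :=
    (sc.cont_inv.comp c3 m3).congr fun t _ => hτ t
  have hcon : ConicalOn τ (Icc 0 1) :=
    (sc.conical_inv.comp k3 m3 c3).congr fun t _ => hτ t
  have i0 : (0:ℝ) ∈ Icc (0:ℝ) 1 := ⟨le_refl _, zero_le_one⟩
  have i1 : (1:ℝ) ∈ Icc (0:ℝ) 1 := ⟨zero_le_one, le_refl _⟩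
  have h0 : τ 0 = 0 := hinv 0 i0 0 i0 ha
  have h1 : τ 1 = 1 := hinv 1 i1 1 i1 hb
  refine ⟨τ, hcont, hcon, monotone_of_fibres hcont hmem h0 h1 fun s' hs' => ?_, hmem, h0, h1,
    heq⟩
  have hsub : {y | prodK k y = h (sc.toFun s')} ⊆ preQ k h s := fun y hy =>
    ⟨sc.toFun s', sc.mapsTo hs', hy.symm⟩
  have e : {t | t ∈ Icc (0:ℝ) 1 ∧ τ t = s'} =
      (fun y => sc.invFun (Φ.invFun y)) '' {y | prodK k y = h (sc.toFun s')} := by
    ext t
    constructor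
    · rintro ⟨ht, hts⟩
      refine ⟨Φ.toFun (sc.toFun t), by rw [mem_ofPred_eq, heq t ht, hts], ?_⟩
      show sc.invFun (Φ.invFun (Φ.toFun (sc.toFun t))) = t
      rw [Φ.left_inv (sc.mapsTo ht), sc.left_inv ht]
    · rintro ⟨y, hy, rfl⟩
      have hyQ := hsub hy
      have h2 : sc.invFun (Φ.invFun y) ∈ Icc (0:ℝ) 1 := sc.mapsTo_inv (Φ.mapsTo_inv hyQ)
      refine ⟨h2, hinv _ h2 _ hs' ?_⟩
      rw [sc.right_inv (Φ.mapsTo_inv hyQ), Φ.right_inv hyQ]
      exact hy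
  rw [e]
  refine (convex_fibre hI _).isPreconnected.image _ ?_
  exact sc.cont_inv.comp (Φ.cont_inv.mono hsub) fun y hy => Φ.mapsTo_inv (hsub hy)

/-- **the crossing points**: the fibre is an interval `[p, q]` on which the coordinate is strictly
monotone from one end of the flat to the other -/
theorem EdgePar.cross (sc : ConHomeo (Icc (0:ℝ) 1) s) (hI : ∀ j, Ins1 (k j) (L j) (lo j) (hi j))
    (Φ : ConHomeo s (preQ k h s)) {τ : ℝ → ℝ} (H : EdgePar sc.toFun k h Φ.toFun τ)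
    (hinj : InjOn h s) {s₀ : ℝ} (hs₀ : s₀ ∈ Icc (0:ℝ) 1) {j : Fin m} {c : ℝ}
    (hc : h (sc.toFun s₀) j = c) (hj : c ∈ L j)
    (hoth : ∀ j', j' ≠ j → h (sc.toFun s₀) j' ∉ L j') :
    ∃ p q, 0 ≤ p ∧ p < q ∧ q ≤ 1 ∧ (∀ t ∈ Icc (0:ℝ) 1, (τ t = s₀ ↔ t ∈ Icc p q)) ∧
      ((StrictMonoOn (fun t => Φ.toFun (sc.toFun t) j) (Icc p q) ∧
        Φ.toFun (sc.toFun p) j = lo j c ∧ Φ.toFun (sc.toFun q) j = hi j c) ∨
      (StrictAntiOn (fun t => Φ.toFun (sc.toFun t) j) (Icc p q) ∧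
        Φ.toFun (sc.toFun p) j = hi j c ∧ Φ.toFun (sc.toFun q) j = lo j c)) := by
  have hlt := (hI j).lt c hj
  set T : Set ℝ := {t | t ∈ Icc (0:ℝ) 1 ∧ τ t = s₀} with hT
  -- every point of the fibre comes from `T`
  have hsurj : ∀ y, prodK k y = h (sc.toFun s₀) → ∃ t ∈ T, Φ.toFun (sc.toFun t) = y := by
    intro y hy
    have hyQ : y ∈ preQ k h s := ⟨sc.toFun s₀, sc.mapsTo hs₀, hy.symm⟩
    have h1 := Φ.mapsTo_inv hyQ
    have h2 : sc.invFun (Φ.invFun y) ∈ Icc (0:ℝ) 1 := sc.mapsTo_inv h1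
    refine ⟨_, ⟨h2, ?_⟩, by rw [sc.right_inv h1]; exact Φ.right_inv hyQ⟩
    have h4 := H.eq _ h2
    rw [sc.right_inv h1, Φ.right_inv hyQ, hy] at h4
    have h5 := hinj (sc.mapsTo (H.maps h2)) (sc.mapsTo hs₀) h4.symm
    exact sc.injOn (H.maps h2) hs₀ h5
  -- the fibre over `h (sc s₀)`
  obtain ⟨y₀, hy₀⟩ : ∃ y₀, prodK k y₀ = h (sc.toFun s₀) := by
    choose y₀ hy₀ using fun i => (hI i).surj (h (sc.toFun s₀) i)
    exact ⟨y₀, funext hy₀⟩
  have hupd : ∀ z ∈ Icc (lo j c) (hi j c), prodK k (Function.update y₀ j z) = h (sc.toFun s₀) := by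
    intro z hz
    funext i
    by_cases hi' : i = j
    · subst hi'
      show k i (Function.update y₀ i z i) = _
      rw [Function.update_self, hc]
      exact ((hI i).flat _ hj z).2 hz
    · show k i (Function.update y₀ j z i) = _
      rw [Function.update_of_ne hi']
      exact congrFun hy₀ i
  have hfib : ∀ t ∈ T, ∀ i, k i (Φ.toFun (sc.toFun t) i) = h (sc.toFun s₀) i := by
    intro t ht i
    have := congrFun (H.eq t ht.1) i
    rwa [ht.2] at this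
  have hrange : ∀ t ∈ T, Φ.toFun (sc.toFun t) j ∈ Icc (lo j c) (hi j c) := fun t ht =>
    ((hI j).flat _ hj _).1 ((hfib t ht j).trans hc)
  have hTinj : InjOn (fun t => Φ.toFun (sc.toFun t) j) T := by
    intro t ht t' ht' he
    have h1 : Φ.toFun (sc.toFun t) = Φ.toFun (sc.toFun t') := by
      funext i
      by_cases hi' : i = j
      · subst hi'; exact he
      · refine (hI i).inj _ _ ((hfib t ht i).trans (hfib t' ht' i).symm) ?_
        rw [hfib t ht i]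
        exact hoth i hi'
    exact sc.injOn ht.1 ht'.1 (Φ.injOn (sc.mapsTo ht.1) (sc.mapsTo ht'.1) h1)
  have hval : ∀ z ∈ Icc (lo j c) (hi j c), ∃ t ∈ T, Φ.toFun (sc.toFun t) j = z := by
    intro z hz
    obtain ⟨t, ht, h1⟩ := hsurj _ (hupd z hz)
    refine ⟨t, ht, ?_⟩
    rw [h1, Function.update_self]
  have hcomp : IsCompact T := by
    have h1 : IsClosed (Icc (0:ℝ) 1 ∩ τ ⁻¹' {s₀}) :=
      H.cont.preimage_isClosed_of_isClosed isClosed_Icc isClosed_singleton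
    exact isCompact_Icc.of_isClosed_subset h1 inter_subset_left
  have hne : T.Nonempty := by
    obtain ⟨t, ht, -⟩ := hval _ (left_mem_Icc.2 hlt.le)
    exact ⟨t, ht⟩
  have hord : T.OrdConnected := by
    refine ⟨fun x hx y hy z hz => ?_⟩
    have hz' : z ∈ Icc (0:ℝ) 1 := ⟨hx.1.1.trans hz.1, hz.2.trans hy.1.2⟩
    refine ⟨hz', le_antisymm ?_ ?_⟩
    · rw [← hy.2]; exact H.mono hz' hy.1 hz.2
    · rw [← hx.2]; exact H.mono hx.1 hz' hz.1
  have hTeq := eq_Icc_of_connected_compact ⟨hne, hord.isPreconnected⟩ hcomp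
  set p := sInf T with hp
  set q := sSup T with hq
  have hpq' : p ≤ q := by
    obtain ⟨t, ht⟩ := hne
    rw [hTeq] at ht
    exact ht.1.trans ht.2
  have hpT : p ∈ T := by rw [hTeq]; exact left_mem_Icc.2 hpq'
  have hqT : q ∈ T := by rw [hTeq]; exact right_mem_Icc.2 hpq'
  obtain ⟨t₁, ht₁, e₁⟩ := hval _ (left_mem_Icc.2 hlt.le)
  obtain ⟨t₂, ht₂, e₂⟩ := hval _ (right_mem_Icc.2 hlt.le)
  have m₁ := ht₁
  have m₂ := ht₂
  rw [hTeq] at m₁ m₂
  have hpq : p < q := by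
    rcases hpq'.lt_or_eq with h1 | h1
    · exact h1
    · exfalso
      have e3 : t₁ = t₂ := le_antisymm (by linarith [m₁.2, m₂.1]) (by linarith [m₂.2, m₁.1])
      rw [e3, e₂] at e₁
      exact hlt.ne' e₁
  have hcz : ContinuousOn (fun t => Φ.toFun (sc.toFun t) j) T :=
    (continuous_apply j).comp_continuousOn
      ((Φ.cont.comp sc.cont sc.mapsTo).mono fun t ht => ht.1)
  refine ⟨p, q, hpT.1.1, hpq, hqT.1.2, fun t ht => ?_, ?_⟩
  · rw [← hTeq]; exact ⟨fun h1 => ⟨ht, h1⟩, fun h1 => h1.2⟩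
  have hr1 := hrange _ hpT
  have hr2 := hrange _ hqT
  have hmono := ContinuousOn.strictMonoOn_of_injOn_Icc' hpq.le (hTeq ▸ hcz) (hTeq ▸ hTinj)
  rcases hmono with h1 | h1
  · left
    refine ⟨h1, le_antisymm ?_ hr1.1, le_antisymm hr2.2 ?_⟩
    · rw [← e₁]; exact h1.monotoneOn (left_mem_Icc.2 hpq.le) m₁ m₁.1
    · rw [← e₂]; exact h1.monotoneOn m₂ (right_mem_Icc.2 hpq.le) m₂.2
  · right
    refine ⟨h1, le_antisymm hr1.2 ?_, le_antisymm ?_ hr2.1⟩
    · rw [← e₂]; exact h1.antitoneOn (left_mem_Icc.2 hpq.le) m₂ m₂.1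
    · rw [← e₁]; exact h1.antitoneOn m₁ (right_mem_Icc.2 hpq.le) m₁.2

end

end P073.H579
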