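import Vale.Agent.P073.H880.Met4
import Vale.Agent.P073.H926.AffCell
import Vale.Agent.P073.H238.StepB

/-!
# P073, H579: **[POLY-PATH]**, polygons in a convex set and the variation of a cost along them

`exists_poly`: a polygon, and the variation of any cost along it. `exists_times`: the times at which
a path changes the cell of a finite closed cover. `PFace.exists_cov`: a conical map on a flat face
is affine on the segments of the cells of a finite closed cover.
-/

open Set Metric Topology Filter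
open scoped ENNReal

namespace P073.H579

open P073 P073.H880

variable {E : Type*} [NormedAddCommGroup E] [NormedSpace ℝ E]

/-- the variation of a cost after a monotone change of the parameter -/
theorem cvar_comp_le {c : ℝ → ℝ → ℝ≥0∞} {φ : ℝ → ℝ} {a b : ℝ} (hφ : Monotone φ) :
    cvar (fun s t => c (φ s) (φ t)) a b ≤ cvar c (φ a) (φ b) := by
  rw [cvar_le_iff]
  intro n u hu hu'
  exact sum_le_cvar n (hφ.comp hu) fun i => ⟨hφ (hu' i).1, hφ (hu' i).2⟩

/-- a cost which is Lipschitz in the parameter -/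
theorem cvar_le_lip {c : ℝ → ℝ → ℝ≥0∞} {K : ℝ≥0∞} {a b : ℝ} (hab : a ≤ b)
    (h : ∀ s ∈ Icc a b, ∀ t ∈ Icc a b, s ≤ t → c s t ≤ ENNReal.ofReal (t - s) * K) :
    cvar c a b ≤ ENNReal.ofReal (b - a) * K := by
  refine cvar_le_of_le (μ := fun s t => ENNReal.ofReal (t - s) * K) hab h
    fun s _ m _ t _ hsm hmt => le_of_eq ?_
  rw [← add_mul, ← ENNReal.ofReal_add (by linarith) (by linarith)]
  congr 2
  ring

/-- the variation of a monotone function -/
theorem cvar_mono_le {f : ℝ → ℝ} {a b : ℝ} (hab : a ≤ b) (hf : MonotoneOn f (Icc a b)) :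
    cvar (fun s t => ENNReal.ofReal |f s - f t|) a b ≤ ENNReal.ofReal |f a - f b| := by
  have ha : a ∈ Icc a b := ⟨le_rfl, hab⟩
  have hb : b ∈ Icc a b := ⟨hab, le_rfl⟩
  refine cvar_le_of_le (μ := fun s t => ENNReal.ofReal |f s - f t|) hab
    (fun s _ t _ _ => le_rfl) fun s hs m hm t ht hsm hmt => ?_
  have h1 := hf hs hm hsm
  have h2 := hf hm ht hmt
  rw [abs_sub_comm (f s) (f m), abs_sub_comm (f m) (f t), abs_sub_comm (f s) (f t),
    abs_of_nonneg (by linarith), abs_of_nonneg (by linarith), abs_of_nonneg (by linarith),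
    ← ENNReal.ofReal_add (by linarith) (by linarith)]
  exact ENNReal.ofReal_le_ofReal (by linarith)

theorem cvar_anti_le {f : ℝ → ℝ} {a b : ℝ} (hab : a ≤ b) (hf : AntitoneOn f (Icc a b)) :
    cvar (fun s t => ENNReal.ofReal |f s - f t|) a b ≤ ENNReal.ofReal |f a - f b| := by
  have h1 : MonotoneOn (fun t => - f t) (Icc a b) := hf.neg
  have h2 := cvar_mono_le hab h1
  have h3 : ∀ s t, |-f s - -f t| = |f s - f t| := fun s t => by
    rw [show -f s - -f t = -(f s - f t) by ring, abs_neg]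
  simpa only [h3] using h2

/-- **a polygon** with `N` sides in a convex set; the cost along it -/
theorem exists_poly {F : Set E} (hF : Convex ℝ F) (z : ℕ → E) (N : ℕ) (hz : ∀ i ≤ N, z i ∈ F) :
    ∃ γ : ℝ → E, ContinuousOn γ (Icc 0 3) ∧ MapsTo γ (Icc 0 3) F ∧ γ 0 = z 0 ∧ γ 3 = z N ∧
      ∀ c : E → E → ℝ≥0∞, (∀ x ∈ F, ∀ y ∈ F, ∀ w ∈ F, c x w ≤ c x y + c y w) →
      (∀ x, c x x = 0) → ∀ a : ℕ → ℝ≥0∞,
      (∀ i < N, cvar (fun s t => c (AffineMap.lineMap (z i) (z (i + 1)) s)
        (AffineMap.lineMap (z i) (z (i + 1)) t)) 0 1 ≤ a i) →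
      cvar (fun s t => c (γ s) (γ t)) 0 3 ≤ ∑ i ∈ Finset.range N, a i := by
  have key : ∀ n ≤ N, ∃ γ : ℝ → E, ContinuousOn γ (Icc 0 (n : ℝ)) ∧ MapsTo γ (Icc 0 (n : ℝ)) F ∧
      γ 0 = z 0 ∧ γ n = z n ∧
      ∀ c : E → E → ℝ≥0∞, (∀ x ∈ F, ∀ y ∈ F, ∀ w ∈ F, c x w ≤ c x y + c y w) →
      (∀ x, c x x = 0) → ∀ a : ℕ → ℝ≥0∞,
      (∀ i < N, cvar (fun s t => c (AffineMap.lineMap (z i) (z (i + 1)) s)
        (AffineMap.lineMap (z i) (z (i + 1)) t)) 0 1 ≤ a i) →
      cvar (fun s t => c (γ s) (γ t)) 0 n ≤ ∑ i ∈ Finset.range n, a i := by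
    intro n
    induction n with
    | zero =>
      intro _
      refine ⟨fun _ => z 0, continuousOn_const, fun _ _ => hz 0 (Nat.zero_le _), rfl, rfl,
        fun c _ h0 a _ => ?_⟩
      simp only [Nat.cast_zero, Finset.range_zero, Finset.sum_empty, nonpos_iff_eq_zero]
      exact cvar_self (c := fun s t => c (z 0) (z 0)) (fun _ => h0 _) 0
    | succ n ih =>
      intro hn
      obtain ⟨γ, g1, g2, g3, g4, g5⟩ := ih (by omega)
      have hn0 : (0:ℝ) ≤ n := Nat.cast_nonneg n
      set l : ℝ → E := fun t => AffineMap.lineMap (z n) (z (n + 1)) (t - n) with hl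
      have hlc : Continuous l := by
        have : Continuous fun t : ℝ => (AffineMap.lineMap (z n) (z (n + 1)) t : E) :=
          AffineMap.lineMap_continuous
        exact this.comp (continuous_id.sub continuous_const)
      have hln : l n = z n := by simp [hl]
      set γ' : ℝ → E := fun t => if t ≤ n then γ t else l t with hγ'
      have e1 : ∀ t : ℝ, t ≤ n → γ' t = γ t := fun t ht => by simp [hγ', ht]
      have e2 : ∀ t : ℝ, (n : ℝ) ≤ t → γ' t = l t := fun t ht => by
        rcases ht.eq_or_lt with h | h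
        · rw [← h, e1 _ le_rfl, g4, hln]
        · simp [hγ', not_le.2 h]
      have hmem : ∀ t ∈ Icc (n:ℝ) (n + 1), l t ∈ F := fun t ht =>
        hF.segment_subset (hz n (by omega)) (hz (n + 1) hn) (by
          rw [segment_eq_image_lineMap]
          exact ⟨t - n, ⟨by linarith [ht.1], by linarith [ht.2]⟩, rfl⟩)
      have hsplit : Icc (0:ℝ) ((n + 1 : ℕ) : ℝ) = Icc 0 (n:ℝ) ∪ Icc (n:ℝ) (n + 1) := by
        push_cast
        rw [Icc_union_Icc_eq_Icc hn0 (by linarith)]
      refine ⟨γ', ?_, ?_, ?_, ?_, fun c htri h0 a ha => ?_⟩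
      · rw [hsplit]
        refine ContinuousOn.union_of_isClosed ?_ ?_ isClosed_Icc isClosed_Icc
        · exact g1.congr fun t ht => e1 t ht.2
        · exact hlc.continuousOn.congr fun t ht => e2 t ht.1
      · rw [hsplit]
        rintro t (ht | ht)
        · rw [e1 t ht.2]; exact g2 ht
        · rw [e2 t ht.1]; exact hmem t ht
      · rw [e1 0 hn0, g3]
      · rw [e2 _ (by push_cast; linarith)]
        simp [hl]
      · have hT : Tri (fun s t => c (γ' s) (γ' t)) 0 ((n + 1 : ℕ) : ℝ) := by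
          intro s hs m hm t ht _ _
          have hmF : ∀ t ∈ Icc (0:ℝ) ((n + 1 : ℕ) : ℝ), γ' t ∈ F := by
            rw [hsplit]
            rintro t (ht | ht)
            · rw [e1 t ht.2]; exact g2 ht
            · rw [e2 t ht.1]; exact hmem t ht
          exact htri _ (hmF s hs) _ (hmF m hm) _ (hmF t ht)
        have hle : (n:ℝ) ≤ ((n + 1 : ℕ) : ℝ) := by push_cast; linarith
        refine (cvar_le_add hT hn0 hle).trans ?_
        rw [Finset.sum_range_succ]
        refine add_le_add ?_ ?_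
        · refine (cvar_congr fun s hs t ht _ => ?_).trans (g5 c htri h0 a ha)
          rw [e1 s hs.2, e1 t ht.2]
        · refine le_trans ?_ (ha n (by omega))
          refine (cvar_congr (c' := fun s t => c (l s) (l t)) fun s hs t ht _ => ?_).trans ?_
          · rw [e2 s hs.1, e2 t ht.1]
          · have hφ : Monotone fun t : ℝ => t - n := fun s t hst => sub_le_sub_right hst _
            have h1 := cvar_comp_le (c := fun s t => c (AffineMap.lineMap (z n) (z (n + 1)) s)
              (AffineMap.lineMap (z n) (z (n + 1)) t)) (a := n) (b := ((n + 1 : ℕ) : ℝ)) hφ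
            refine h1.trans (le_of_eq ?_)
            congr 1
            · ring
            · push_cast; ring
  obtain ⟨γ, g1, g2, g3, g4, g5⟩ := key N le_rfl
  have hN : (0:ℝ) ≤ N / 3 := by positivity
  set φ : ℝ → ℝ := fun t => N / 3 * t with hφ
  have hmono : Monotone φ := fun s t hst => mul_le_mul_of_nonneg_left hst hN
  have e0 : φ 0 = 0 := by simp [hφ]
  have e3 : φ 3 = N := by simp [hφ]
  have hmaps : MapsTo φ (Icc 0 3) (Icc 0 (N:ℝ)) := fun t ht => by
    have h1 := hmono ht.1
    have h2 := hmono ht.2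
    rw [e0] at h1
    rw [e3] at h2
    exact ⟨h1, h2⟩
  refine ⟨fun t => γ (φ t), g1.comp (by fun_prop) hmaps, fun t ht => g2 (hmaps ht), ?_, ?_,
    fun c htri h0 a ha => ?_⟩
  · show γ (φ 0) = _
    rw [e0, g3]
  · show γ (φ 3) = _
    rw [e3, g4]
  · have h1 := cvar_comp_le (c := fun s t => c (γ s) (γ t)) (a := 0) (b := 3) hmono
    rw [e0, e3] at h1
    exact h1.trans (g5 c htri h0 a ha)

/-- **the times of change**: a path in a set covered by `n` closed sets -/
theorem exists_times {X J : Type*} [TopologicalSpace X] {Z : J → Set X}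
    (hZ : ∀ j, IsClosed (Z j)) {γ : ℝ → X} (n : ℕ) : ∀ (T : Finset J), T.card = n → ∀ a b : ℝ,
    a ≤ b → ContinuousOn γ (Icc a b) → (∀ t ∈ Icc a b, ∃ j ∈ T, γ t ∈ Z j) →
    ∃ u : ℕ → ℝ, u 0 = a ∧ u n = b ∧ (∀ i, u i ≤ u (i + 1)) ∧ (∀ i, u i ∈ Icc a b) ∧
      ∀ i < n, ∃ j, γ (u i) ∈ Z j ∧ γ (u (i + 1)) ∈ Z j := by
  classical
  induction n with
  | zero =>
    intro T hT a b hab _ hcov
    rw [Finset.card_eq_zero] at hT
    obtain ⟨j, hj, -⟩ := hcov a ⟨le_rfl, hab⟩
    rw [hT] at hj
    exact absurd hj (Finset.notMem_empty _)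
  | succ n ih =>
    intro T hT a b hab hγ hcov
    obtain ⟨j₀, hj₀, ha⟩ := hcov a ⟨le_rfl, hab⟩
    set I : Set ℝ := Icc a b ∩ γ ⁻¹' Z j₀ with hI
    have hIc : IsCompact I :=
      isCompact_Icc.of_isClosed_subset (hγ.preimage_isClosed_of_isClosed isClosed_Icc (hZ j₀))
        inter_subset_left
    have hIn : I.Nonempty := ⟨a, ⟨le_rfl, hab⟩, ha⟩
    set s := sSup I with hs
    have hsI : s ∈ I := hIc.sSup_mem hIn
    have hle : ∀ t ∈ I, t ≤ s := fun t ht => le_csSup hIc.bddAbove ht
    rcases hsI.1.2.eq_or_lt with h | h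
    · refine ⟨fun i => if i = 0 then a else b, by simp, by simp, ?_, ?_, ?_⟩
      · intro i
        by_cases hi : i = 0 <;> simp [hi, hab]
      · intro i
        by_cases hi : i = 0 <;> simp [hi, hab]
      · intro i _
        refine ⟨j₀, ?_, ?_⟩
        · by_cases hi : i = 0
          · simpa [hi] using ha
          · simp only [hi, if_false]; rw [← h]; exact hsI.2
        · simp only [Nat.add_one_ne_zero, if_false]; rw [← h]; exact hsI.2
    · have hc1 : ∀ t ∈ Ioc s b, γ t ∈ ⋃ j ∈ T.erase j₀, Z j := by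
        intro t ht
        have ht' : t ∈ Icc a b := ⟨hsI.1.1.trans ht.1.le, ht.2⟩
        obtain ⟨j, hj, hjt⟩ := hcov t ht'
        refine mem_biUnion (Finset.mem_erase.2 ⟨?_, hj⟩) hjt
        rintro rfl
        exact absurd (hle t ⟨ht', hjt⟩) (not_le.2 ht.1)
      have hcl : IsClosed (⋃ j ∈ T.erase j₀, Z j) :=
        (T.erase j₀).finite_toSet.isClosed_biUnion fun j _ => hZ j
      have hγ' : ContinuousOn γ (Icc s b) := hγ.mono (Icc_subset_Icc_left hsI.1.1)
      have hc2 : ∀ t ∈ Icc s b, γ t ∈ ⋃ j ∈ T.erase j₀, Z j := by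
        have h1 : MapsTo γ (closure (Ioc s b)) (closure (⋃ j ∈ T.erase j₀, Z j)) := by
          refine MapsTo.closure_of_continuousOn (fun t ht => hc1 t ht) ?_
          rwa [closure_Ioc h.ne]
        rw [closure_Ioc h.ne, hcl.closure_eq] at h1
        exact h1
      obtain ⟨u, u1, u2, u3, u4, u5⟩ := ih (T.erase j₀)
        (by rw [Finset.card_erase_of_mem hj₀, hT]; rfl) s b h.le hγ' (fun t ht => by
          obtain ⟨j, hj, hjt⟩ := mem_iUnion₂.1 (hc2 t ht)
          exact ⟨j, hj, hjt⟩)
      refine ⟨fun i => if i = 0 then a else u (i - 1), by simp, by simp [u2], ?_, ?_, ?_⟩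
      · intro i
        by_cases hi : i = 0
        · subst hi
          simp only [if_true, zero_add, one_ne_zero, if_false, Nat.sub_self, u1]
          exact hsI.1.1
        · simp only [hi, if_false, Nat.add_one_ne_zero, Nat.add_sub_cancel]
          have := u3 (i - 1)
          rwa [Nat.sub_add_cancel (Nat.one_le_iff_ne_zero.2 hi)] at this
      · intro i
        by_cases hi : i = 0
        · simp [hi, hab]
        · simp only [hi, if_false]
          exact ⟨hsI.1.1.trans (u4 _).1, (u4 _).2⟩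
      · intro i hin
        by_cases hi : i = 0
        · subst hi
          refine ⟨j₀, by simpa using ha, ?_⟩
          simp only [zero_add, one_ne_zero, if_false, Nat.sub_self, u1]
          exact hsI.2
        · obtain ⟨j, h1, h2⟩ := u5 (i - 1) (by omega)
          refine ⟨j, by simpa only [hi, if_false] using h1, ?_⟩
          simp only [Nat.add_one_ne_zero, if_false, Nat.add_sub_cancel]
          rwa [Nat.sub_add_cancel (Nat.one_le_iff_ne_zero.2 hi)] at h2

end P073.H579

namespace Vale.Agent.P073.H238.PFace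

open _root_.P073 _root_.P073.H926 _root_.P073.H579
open Vale.Agent.P073.St (V)

variable {A : Set V}

/-- **the affine cells**: a conical map on a flat face is affine on the segments of the cells of a
finite closed cover -/
theorem exists_cov {E : Type*} [NormedAddCommGroup E] [NormedSpace ℝ E] (F : PFace A) {g : V → E}
    (hg : ConicalOn g A) :
    ∃ (J : Type) (_ : Fintype J) (Z : J → Set V), (∀ i, IsClosed (Z i)) ∧ (∀ x ∈ A, ∃ i, x ∈ Z i) ∧
      ∀ i, ∀ x ∈ Z i, ∀ y ∈ Z i, ∀ t ∈ Icc (0:ℝ) 1,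
        g (AffineMap.lineMap x y t) = AffineMap.lineMap (g x) (g y) t := by
  classical
  have h1 : ConicalOn (g ∘ F.ch) F.C :=
    hg.comp F.conicalOn_ch (fun z hz => F.ch_mem hz) F.continuous_ch.continuousOn
  obtain ⟨L, -, hL⟩ := exists_lines_aff F.convex F.compact F.cone h1
  refine ⟨{τ // τ ∈ L.powerset}, inferInstance, fun τ => F.ch '' cellA F.C L τ.1, fun τ => ?_,
    fun x hx => ?_, ?_⟩
  · exact ((isCompact_cellA F.compact).image F.continuous_ch).isClosed
  · obtain ⟨z, hz, rfl⟩ := F.exists_ch hx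
    refine ⟨⟨L.filter fun l => 0 ≤ l z, Finset.mem_powerset.2 (Finset.filter_subset _ _)⟩, z,
      ⟨hz, fun l hl => ⟨fun h => (Finset.mem_filter.1 h).2, fun h => ?_⟩⟩, rfl⟩
    by_contra hlt
    exact h (Finset.mem_filter.2 ⟨hl, (not_le.1 hlt).le⟩)
  · rintro τ _ ⟨z, hz, rfl⟩ _ ⟨w, hw, rfl⟩ t ht
    obtain ⟨A', hA'⟩ := hL _ cellA_subset (sgnOn_cellA (C := F.C) (L := L) (τ := τ.1))
    have h2 : AffineMap.lineMap z w t ∈ cellA F.C L τ.1 :=
      (convex_cellA F.convex).segment_subset hz hw (by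
        rw [segment_eq_image_lineMap]; exact ⟨t, ht, rfl⟩)
    have h3 : AffineMap.lineMap (F.ch z) (F.ch w) t = F.ch (AffineMap.lineMap z w t) := by
      show _ = F.o + F.L _
      rw [AffineMap.lineMap_apply_module', AffineMap.lineMap_apply_module']
      show t • (F.o + F.L w - (F.o + F.L z)) + (F.o + F.L z) = _
      rw [map_add, map_smul, map_sub]
      module
    rw [h3]
    have e1 : g (F.ch z) = A' z := hA' hz
    have e2 : g (F.ch w) = A' w := hA' hw
    have e3 : g (F.ch (AffineMap.lineMap z w t)) = A' (AffineMap.lineMap z w t) := hA' h2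
    rw [e1, e2, e3, AffineMap.apply_lineMap]

end Vale.Agent.P073.H238.PFace
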