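import Vale.Agent.P073.H579.FaceClY
import Vale.Agent.P073.H880.RP4

/-!
# P073, H579: **[FCL-Y]** for the insertion step of ROUND P of `K3C` (`PIns` with the face maps `GF3`)
-/

open Set Metric Topology Filter
open scoped ENNReal

set_option linter.unusedSectionVars false

namespace P073.H880.RP

open _root_.P073 _root_.P073.Net _root_.P073.PA691 _root_.P073.H236 _root_.P073.H579
  _root_.P073.H345 _root_.P073.H880
open Vale.Agent.P073.St (V)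
open Vale.Agent.P073.H471 Vale.Agent.P073.H267 Vale.Agent.P073.H267.Geo
open Vale.Agent.P073.H73 (Mesh)
open Vale.Agent.P073.H193 (Edges edges FaceCl)
open _root_.P073.H142 (FStar)

variable {Ω Λ : Set V} {v : V} {K : BoxCx Λ v} {S : Rad K} {W : Wid K S} {B : Boxes W}
  {G : Geo B} {M : Mesh Ω} {D : Dat K M} {h1 h2 h3 : ConHomeo Ω Λ} {L : PLev G}
  {hΛ : IsOpen Λ} {c : K.S → Bool → ℝ} {c0 : ∀ s β, 0 < c s β} {c1 : ∀ s β, c s β ≤ L.c s β}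
  {κ : Bool → V → V} {Θ : Bool → ConHomeo Λ Λ} {GE : (edges M).ε → (V → V) → Prop}
  {T : ∀ k, FStar (edges M) k} {La We b : (edges M).ε → ℝ} {Y : Set M.κ} {Ks es βs ρs : ℝ}
  {k : M.κ} {s : K.S}

/-- **the clauses of a peeled face** for the cost `ρ * bandD (h3 ·) (h3 ·)` -/
theorem PIns.faceCl (H : PIns G (edges M) D L hΛ h1 h2 c c0 c1 κ Θ GE
      (GF3 G (edges M) D h1 h2 L c c0 c1 La We (fun k => (T k).O) (fun k => (T k).rho)
        (fun k => (T k).R) Y Ks es βs ρs) h3) (hk : D.PkS G h1 s k) {C₁ C₂ ρ q : ℝ} (hρ : 0 ≤ ρ)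
    (hb : ∀ e, (edges M).seg e ⊆ M.F k → 0 ≤ b e)
    (hLa : ∀ e, (edges M).seg e ⊆ M.F k → La e * ‖(edges M).b e - (edges M).a e‖ ≤ q * b e)
    (hWe : ∀ e, (edges M).seg e ⊆ M.F k → We e ≤ q * b e)
    (h1' : FW31.DK Ks * (1 + (T k).R / (T k).rho) * (ρ * q) ≤ C₁)
    (h2' : FW31.DK Ks * (ρ * q) ≤ C₂) :
    FaceCl M k (T k) b C₁ C₂ fun x y =>
      ρ * bandD (L.lv s) ((thinL L c c0 c1).loP s) ((thinL L c c0 c1).hiP s)
        ((thinL L c c0 c1).omP s) (h3.toFun x) (h3.toFun y) := by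
  obtain ⟨Φ, hΦ, hg⟩ := H.out.face k ⟨s, hk⟩
  exact FW31.GFY.faceCl hΦ hk hρ hb hLa hWe h1' h2' hg

/-- the same on a square face, where `R = rho` -/
theorem PIns.faceCl_sqr (H : PIns G (edges M) D L hΛ h1 h2 c c0 c1 κ Θ GE
      (GF3 G (edges M) D h1 h2 L c c0 c1 La We (fun k => (T k).O) (fun k => (T k).rho)
        (fun k => (T k).R) Y Ks es βs ρs) h3) (hk : D.PkS G h1 s k) {C₁ C₂ ρ q : ℝ} (hρ : 0 ≤ ρ)
    {a : V} {l : Fin 3} {r : ℝ} (hr : 0 < r) (hF : M.F k = Vale.Agent.P073.H73.sqr a l r)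
    (hb : ∀ e, (edges M).seg e ⊆ M.F k → 0 ≤ b e)
    (hLa : ∀ e, (edges M).seg e ⊆ M.F k → La e * ‖(edges M).b e - (edges M).a e‖ ≤ q * b e)
    (hWe : ∀ e, (edges M).seg e ⊆ M.F k → We e ≤ q * b e)
    (h1' : 2 * FW31.DK Ks * (ρ * q) ≤ C₁) (h2' : FW31.DK Ks * (ρ * q) ≤ C₂) :
    FaceCl M k (T k) b C₁ C₂ fun x y =>
      ρ * bandD (L.lv s) ((thinL L c c0 c1).loP s) ((thinL L c c0 c1).hiP s)
        ((thinL L c c0 c1).omP s) (h3.toFun x) (h3.toFun y) := by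
  obtain ⟨Φ, hΦ, hg⟩ := H.out.face k ⟨s, hk⟩
  exact FW31.GFY.faceCl_sqr hΦ hk hρ hr hF hb hLa hWe h1' h2' hg

end P073.H880.RP
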