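import Vale.Agent.P073.H579.ActS
import Vale.Agent.P073.H880.RP0

/-!
# P073, H579: **[ACT3]** `PAct` for ROUND P of `K3C`, from the output `ROut3` of the exchange

`thinL L c`: the levels of `L` with the thin flats chosen after the exchange; the maps of the
thin plates of the processed squares.
-/

set_option linter.unusedSectionVars false

open Set Metric Topology Filter

namespace P073.H880.RP

open _root_.P073 _root_.P073.Net _root_.P073.PA691 _root_.P073.H236 _root_.P073.H579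
  _root_.P073.H345 _root_.P073.H880
open Vale.Agent.P073.St (V)
open Vale.Agent.P073.H471 Vale.Agent.P073.H267 Vale.Agent.P073.H267.Geo
open Vale.Agent.P073.H805 (t1 t2 EdgeOk lvs)
open Vale.Agent.P073.H73 (Mesh)
open Vale.Agent.P073.H193 (Edges Cyc)

variable {Ω Λ : Set V} {v : V} {K : BoxCx Λ v} {S : Rad K} {W : Wid K S} {B : Boxes W}
  {G : Geo B} {M : Mesh Ω} {E : Edges M} {D : Dat K M} {h1 h2 : ConHomeo Ω Λ}
  {ι : Type} {F : ι → Set V}

namespace ROut3

/-- one square for each edge -/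
theorem uniq {L : K.S → Fin 3 → Finset ℝ} (O : ROut3 G E D h1 h2 L F) {s s' : K.S} {e : E.ε}
    (he : EAct E (D.PkS G h1) s e) (he' : EAct E (D.PkS G h1) s' e) : s = s' := by
  by_contra hne
  obtain ⟨k, hk, hek⟩ := he
  obtain ⟨k', hk', hek'⟩ := he'
  have ha : E.a e ∈ E.seg e := left_mem_segment ℝ _ _
  exact Set.disjoint_left.1 (Geo.disjoint_PB (G := G) (by norm_num : (1:ℝ) / 2 ≤ 15 / 16) hne)
    (O.near s k hk _ (hek ha)).1 (O.near s' k' hk' _ (hek' ha)).1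

/-- **the data of the zones of round P** -/
theorem pact {L : K.S → Fin 3 → Finset ℝ} (O : ROut3 G E D h1 h2 L F) {κ : V → V} {Λ' : Set V}
    {kP : K.S → Fin 3 → ℝ → ℝ} {loP hiP omP : K.S → Fin 3 → ℝ → ℝ}
    (hins : ∀ s j, Ins1 (kP s j) (lvs L s j : Set ℝ) (loP s j) (hiP s j))
    (hom : ∀ s j, ∀ c ∈ lvs L s j, 0 < omP s j c)
    (hz : ∀ s k, D.PkS G h1 s k → Zone κ Λ' h2 (kP s) (M.F k)) :
    PAct M E h2 κ Λ' (D.PkS G h1) kP (fun s => lvs L s) loP hiP omP where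
  ins := hins
  om := hom
  uniq := fun _ _ _ he he' => O.uniq he he'
  zone := hz
  pat := fun s k hk => by
    obtain ⟨A, hA', S, col, lev, h3, h4⟩ := O.pat s k hk
    exact ⟨A, hA', S, _, lev, col, h3, h4⟩
  vert := fun s k hk y hy hyk j => O.vert s k hk y hy hyk j
  one := fun s k hk e he y hy j j' h3 h4 => (O.edge s k hk e he).off y hy j j' h3 h4
  cross := fun s k hk e he y hy j h3 => (O.edge s k hk e he).cross y hy j h3

/-- **[ACT3]**, the thin plates of the processed squares -/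
theorem pact3 {L : PLev G} (O : ROut3 G E D h1 h2 L.lv F) {c : K.S → Bool → ℝ}
    {c0 : ∀ s β, 0 < c s β} {c1 : ∀ s β, c s β ≤ L.c s β} {β : Bool} {κ₀ κ₁ : V → V}
    (h₀ : IsQ (fun s : D.S₀ => (thinL L c c0 c1).bx β s.1) κ₀)
    (h₁ : IsQ (fun s : D.S₀ => (thinL L c c0 c1).bx (!β) s.1) κ₁) :
    PAct M E h2 (κ₁ ∘ κ₀) Λ (D.PkS G h1) (thinL L c c0 c1).kP L.lv (thinL L c c0 c1).loP
      (thinL L c c0 c1).hiP (thinL L c c0 c1).omP := by
  have hlv : (fun s => lvs L.lv s) = L.lv := funext fun s => L.lvs_lv s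
  rw [← hlv]
  refine O.pact (fun s j => ?_) (fun s j t _ => (thinL L c c0 c1).omP_pos s j t) fun s k hk => ?_
  · rw [L.lvs_lv, ← thinL_lv (L := L) (c := c) (h0 := c0) (h1 := c1)]
    exact (thinL L c c0 c1).ins1P s j
  · refine (thinL L c c0 c1).zone_sub h₀ h₁ ⟨s, hk.1⟩ ?_
    rintro _ ⟨y, hy, rfl⟩
    exact Vale.Agent.P073.H805.PB_mono (by norm_num) s (O.near s k hk y hy).2.1

/-- the same with the plates of `L` -/
theorem pact3' {L : PLev G} (O : ROut3 G E D h1 h2 L.lv F) {β : Bool} {κ₀ κ₁ : V → V}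
    (h₀ : IsQ (fun s : D.S₀ => L.bx β s.1) κ₀) (h₁ : IsQ (fun s : D.S₀ => L.bx (!β) s.1) κ₁) :
    PAct M E h2 (κ₁ ∘ κ₀) Λ (D.PkS G h1) L.kP L.lv L.loP L.hiP L.omP := by
  have hlv : (fun s => lvs L.lv s) = L.lv := funext fun s => L.lvs_lv s
  rw [← hlv]
  refine O.pact (fun s j => ?_) (fun s j t _ => L.omP_pos s j t) fun s k hk => ?_
  · rw [L.lvs_lv]; exact L.ins1P s j
  · refine L.zone_sub h₀ h₁ ⟨s, hk.1⟩ ?_
    rintro _ ⟨y, hy, rfl⟩
    exact Vale.Agent.P073.H805.PB_mono (by norm_num) s (O.near s k hk y hy).2.1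

end ROut3

end P073.H880.RP
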