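import Vale.Agent.P073.H579.State

/-!
# P073, H579: the bookkeeping relation of the exchange process and the final form of **(E3)**

`Tu`, `Tv`: traces of the levels on the sets of the mesh (inside the ball). `Off`: no crossing
point on the set `M i`. `Rel D u v u' v'`: on every set `M i` of the mesh without crossing points
for `(u, v)` there are none for `(u', v')`, the number of points on levels does not increase (this
is used for edges), and no circles appear (used for faces which cross the boundary of the ball).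
-/

open Set Metric Topology Filter

namespace P073.H579

open P073.TR P073.SCH P073.H339

variable {E : Type*} [NormedAddCommGroup E] [NormedSpace ℝ E] {ι : Type*}

/-- the trace of the levels of `u` on `M i`, inside the ball -/
def Tu (D : Data E ι) (i : ι) (u : E → ℝ) : Set E := {x | (x ∈ D.M i ∧ x ∈ D.U) ∧ u x ∈ D.a}

/-- the trace of the levels of `v` on `M i`, inside the ball -/
def Tv (D : Data E ι) (i : ι) (v : E → ℝ) : Set E := {x | (x ∈ D.M i ∧ x ∈ D.U) ∧ v x ∈ D.b}

/-- no crossing points on `M i` -/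
def Off (D : Data E ι) (i : ι) (u v : E → ℝ) : Prop := Disjoint (Tu D i u) (Tv D i v)

/-- no circles on `M i` -/
def NoCirc (D : Data E ι) (i : ι) (u v : E → ℝ) : Prop :=
  ∀ σ : Set E, IsCircle σ → ¬ σ ⊆ Tu D i u ∧ ¬ σ ⊆ Tv D i v

/-- the bookkeeping relation -/
structure Rel (D : Data E ι) (u v u' v' : E → ℝ) : Prop where
  off : ∀ i, Off D i u v → Off D i u' v'
  cnt : ∀ i, Off D i u v → (Tu D i u).Finite → (Tv D i v).Finite →
    (Tu D i u').Finite ∧ (Tv D i v').Finite ∧
      (Tu D i u').ncard + (Tv D i v').ncard ≤ (Tu D i u).ncard + (Tv D i v).ncard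
  circ : ∀ i, Off D i u v → NoCirc D i u v → NoCirc D i u' v'

theorem Rel.refl (D : Data E ι) (u v : E → ℝ) : Rel D u v u v :=
  ⟨fun _ h => h, fun _ _ h1 h2 => ⟨h1, h2, le_refl _⟩, fun _ _ h => h⟩

theorem Rel.trans {D : Data E ι} {u v u' v' u'' v'' : E → ℝ} (h : Rel D u v u' v')
    (h' : Rel D u' v' u'' v'') : Rel D u v u'' v'' where
  off := fun i h0 => h'.off i (h.off i h0)
  cnt := fun i h0 h1 h2 => by
    obtain ⟨k1, k2, k3⟩ := h.cnt i h0 h1 h2
    obtain ⟨l1, l2, l3⟩ := h'.cnt i (h.off i h0) k1 k2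
    exact ⟨l1, l2, l3.trans k3⟩
  circ := fun i h0 h1 => h'.circ i (h.off i h0) (h.circ i h0 h1)

/-- **one step**: every clean disc can be removed -/
def StepP {D : Data E ι} {J : Type*} [Fintype J] (F : J → Face D) : Prop :=
  ∀ u v, State D u v → ∀ j K, CleanDisc (F j).C ((F j).tr u v) K →
    ∃ u' v', State D u' v' ∧ Rel D u v u' v' ∧ Less F u' v' u v

/-- **(E3)**, final form -/
theorem exists_good {D : Data E ι} (hD : D.Ok) {J : Type*} [Fintype J] (F : J → Face D)
    (hstep : StepP F) {u v : E → ℝ} (h : State D u v) :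
    ∃ u' v', State D u' v' ∧ Rel D u v u' v' ∧ ∀ j, Good ((F j).tr u' v') :=
  good_of_step hD F (Rel D) (Rel.refl D) (fun _ _ _ _ _ _ h h' => h.trans h') hstep h

/-! ### Tools for `Less` -/

section less

variable {D : Data E ι} {J : Type*} [Fintype J] {F : J → Face D} {u v u' v' : E → ℝ}

theorem finite_cross_state (hD : D.Ok) (h : State D u v) (G : Face D) :
    (G.tr u v false ∩ G.tr u v true).Finite := (h.web hD G).finite_cross

/-- the crossing points decrease -/
theorem less_of_cross (hD : D.Ok) (h : State D u v)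
    (hsub : ∀ j, (F j).tr u' v' false ∩ (F j).tr u' v' true ⊆
      (F j).tr u v false ∩ (F j).tr u v true) {j : J} {x : P}
    (hx : x ∈ (F j).tr u v false ∩ (F j).tr u v true)
    (hx' : x ∉ (F j).tr u' v' false ∩ (F j).tr u' v' true) : Less F u' v' u v := by
  left
  refine Finset.sum_lt_sum (fun i _ => ncard_le_ncard (hsub i) (finite_cross_state hD h (F i)))
    ⟨j, Finset.mem_univ j, ncard_lt_ncard ?_ (finite_cross_state hD h (F j))⟩
  exact ⟨hsub j, fun h1 => hx' (h1 hx)⟩

/-- finitely many circles in a curve -/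
theorem finite_circles {A : Set P} (hA : Curve A) : {σ | IsCircle σ ∧ σ ⊆ A}.Finite := by
  obtain ⟨I, hI, S, hU, hd, hb⟩ := hA.exists_components
  -- every circle is one of the components
  have key : ∀ σ, IsCircle σ → σ ⊆ A → ∃ j, σ = S j := by
    intro σ hσ hs
    obtain ⟨D', hD', hf⟩ := schoenflies hσ
    have hne : σ.Nonempty := by
      obtain ⟨φ⟩ := hσ
      exact ⟨φ.toFun (1, 0), φ.mapsTo (by simp [Prod.norm_def])⟩
    have hpre : IsPreconnected σ := by
      rw [← hf]; exact AmbDisc.isPreconnected_frontier hD'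
    obtain ⟨x, hx⟩ := hne
    obtain ⟨j, hj⟩ := mem_iUnion.1 (hU.symm ▸ hs hx)
    have hcl : ∀ j, IsClosed (S j) := by
      intro j
      rcases hb j with ⟨h2, -⟩ | ⟨p, q, h2, -⟩
      · exact (IsCircle.isCompact (conSphere_iff.1 h2)).isClosed
      · exact (isArc_iff_conBall.2 h2).isClosed
    have hpreS : IsPreconnected (S j) := by
      rcases hb j with ⟨h2, -⟩ | ⟨p, q, h2, -⟩
      · obtain ⟨D'', hD'', hf''⟩ := schoenflies (conSphere_iff.1 h2)
        rw [← hf'']
        exact AmbDisc.isPreconnected_frontier hD''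
      · exact ConBall.isPreconnected h2
    -- `σ ⊆ S j`
    have h1 : σ ⊆ S j := by
      have hfin : Finite I := hI
      have hc1 : IsClosed (⋃ i ∈ {i | i ≠ j}, S i) :=
        (toFinite {i | i ≠ j}).isClosed_biUnion fun i _ => hcl i
      have hcov : σ ⊆ S j ∪ ⋃ i ∈ {i | i ≠ j}, S i := by
        intro y hy
        obtain ⟨i, hi⟩ := mem_iUnion.1 (hU.symm ▸ hs hy)
        by_cases hij : i = j
        · exact Or.inl (hij ▸ hi)
        · exact Or.inr (mem_biUnion (by exact hij) hi)
      have hdis : Disjoint (S j) (⋃ i ∈ {i | i ≠ j}, S i) := by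
        rw [disjoint_iUnion₂_right]
        exact fun i hi => hd j i (Ne.symm hi)
      by_contra hnot
      obtain ⟨y, hy, hyn⟩ := not_subset.1 hnot
      have hy2 := (hcov hy).resolve_left hyn
      obtain ⟨z, hz1, hz2, hz3⟩ := isPreconnected_closed_iff.1 hpre _ _ (hcl j) hc1 hcov
        ⟨x, hx, hj⟩ ⟨y, hy, hy2⟩
      exact Set.disjoint_left.1 hdis hz2 hz3
    -- `S j ⊆ σ`: the circle is open and closed in `A`
    have h2 : S j ⊆ σ := by
      have hSA : S j ⊆ A := hU ▸ subset_iUnion S j
      have hclσ : IsClosed σ := (IsCircle.isCompact hσ).isClosed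
      by_contra hnot
      obtain ⟨y, hy, hyn⟩ := not_subset.1 hnot
      have hclo : IsClosed (S j \ σ) := by
        apply isClosed_of_closure_subset
        intro z hz
        have hzS : z ∈ S j := by
          have := closure_mono (sdiff_subset : S j \ σ ⊆ S j) hz
          rwa [(hcl j).closure_eq] at this
        refine ⟨hzS, fun hzσ => ?_⟩
        have hne := near_eq_of_subset hA hσ hs hzσ
        obtain ⟨w, hw1, hw2⟩ := mem_closure_iff_nhds.1 hz _ hne
        exact hw2.2 (hw1.1 (hSA hw2.1))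
      obtain ⟨z, hz1, hz2, hz3⟩ := isPreconnected_closed_iff.1 hpreS _ _ hclσ hclo
        (fun w hw => by
          by_cases hwσ : w ∈ σ
          · exact Or.inl hwσ
          · exact Or.inr ⟨hw, hwσ⟩) ⟨x, h1 hx, hx⟩ ⟨y, hy, hy, hyn⟩
      exact hz3.2 hz2
    exact ⟨j, Subset.antisymm h1 h2⟩
  refine (finite_range S).subset ?_
  rintro σ ⟨h1, h2⟩
  obtain ⟨j, hj⟩ := key σ h1 h2
  exact ⟨j, hj.symm⟩

/-- the circles decrease -/
theorem less_of_circle (hD : D.Ok) (h : State D u v)
    (hsub : ∀ j i, (F j).tr u' v' i ⊆ (F j).tr u v i) {j : J} {i : Bool} {σ : Set P}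
    (hσ : IsCircle σ) (h1 : σ ⊆ (F j).tr u v i) (h2 : ¬ σ ⊆ (F j).tr u' v' i) :
    Less F u' v' u v := by
  right
  have hfin : ∀ j i, {σ | IsCircle σ ∧ σ ⊆ (F j).tr u v i}.Finite :=
    fun j i => finite_circles ((h.web hD (F j)).curve i)
  have hle : ∀ j i, circ ((F j).tr u' v' i) ≤ circ ((F j).tr u v i) := fun j i =>
    ncard_le_ncard (fun σ hσ => ⟨hσ.1, hσ.2.trans (hsub j i)⟩) (hfin j i)
  have hlt : circ ((F j).tr u' v' i) < circ ((F j).tr u v i) :=
    ncard_lt_ncard ⟨fun σ hσ => ⟨hσ.1, hσ.2.trans (hsub j i)⟩, fun h3 => h2 (h3 ⟨hσ, h1⟩).2⟩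
      (hfin j i)
  constructor
  · exact Finset.sum_le_sum fun j _ => ncard_le_ncard
      (inter_subset_inter (hsub j false) (hsub j true)) (finite_cross_state hD h (F j))
  · refine Finset.sum_lt_sum (fun k _ => Nat.add_le_add (hle k false) (hle k true))
      ⟨j, Finset.mem_univ j, ?_⟩
    cases i
    · exact Nat.add_lt_add_of_lt_of_le hlt (hle j true)
    · exact Nat.add_lt_add_of_le_of_lt (hle j false) hlt

end less

end P073.H579
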