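import Vale.Agent.P073.H579.OscTop
import Vale.Agent.P073.H31.SK8
import Vale.Agent.P073.H880.TopN

/-!
# P073, H579, [K3-TOP]: the listed faces of the clause `osc`, all numbers in slots

`row_listed`: one family of slots for all numbers of `S5.osc_listed`.
-/

open Set Metric Topology Filter MeasureTheory
open scoped ENNReal

set_option linter.unusedSectionVars false

namespace Vale.Agent.P073.H579.K3

open _root_.P073 _root_.P073.Net _root_.P073.PA691 _root_.P073.H236 _root_.P073.H579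
open _root_.P073.H142 _root_.P073.H429
open _root_.P073.H345 (PK PB_sub_PK PLev tg)
open _root_.P073.H880.RP
open _root_.P073.H919 (HB)
open Vale.Agent.P073.St (V)
open Vale.Agent.P073.H471 Vale.Agent.P073.H267
open Vale.Agent.P073.H267.K3
open Vale.Agent.P073.H73 (Mesh)
open Vale.Agent.P073.H193 (Edges edges)
open Vale.Agent.P073.H926
open Vale.Agent.P073.H238.K3
open Vale.Agent.P073.H341
open Vale.Agent.P073.H233 (Xp Ev OscEst FHyp)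
open Vale.Agent.P073.H345W (SubW Tvg subW_of)
open Vale.Agent.P073.Top880

variable {c₀ n δ : ℝ} {j : ℕ} {Ω Λ : Set V} {v w : V} {ρ : V → ℝ} {M : Mesh Ω}
  {h : ConHomeo Ω Λ} {J₀ J : Set (ℕ × (Fin 3 → ℤ))} {P Z : Set M.ι} {K : BoxCx Λ w}

/-- **the listed faces, all numbers in slots** -/
theorem row_listed (D : KIn3 c₀ n j δ v w ρ M h J₀ J P Z) (C : Cells ρ w K) {C₀ μT : ℝ}
    (hC₀ : 0 ≤ C₀) {Ys : Set M.κ} {sc : Sharp} {ε : M.κ → ℝ} {om εL : (edges M).ε → ℝ}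
    {lam osc : M.ι → ℝ} (T : H233.Tol M h.toFun ε om εL lam osc) :
    ∃ S : Slots D C C₀ μT Ys sc, ∀ {N : RTn M C J₀} {X : S1 D C C₀ μT} {Y₂ : S2 X}
      {Y₃ : S3 Y₂ Ys sc} {Y₄ : S4 Y₃} (Y₅ : S5 Y₄), Ok5 S N Y₅ →
      Tvg D C (edges M) C₀ X.εe X.h1 →
      ∀ {s : K.S}, s ∈ pS C J₀ → ∀ {k : M.κ}, (∀ i ∈ P, ¬ M.F k ⊆ M.Q i) →
      (∃ z ∈ M.F k, Y₃.h4.toFun z ∈ HB (D.G C) (29 / 32) (3 / 4) s) →
      PatS Y₂.L.lv s Y₂.h2.toFun (M.F k) → ∀ {i : M.ι}, M.F k ⊆ M.Q i →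
      ∀ {c μ : ℝ}, 432000 * C₀ + 1 ≤ c → 0 ≤ μ → μ ≤ 1 →
      ∃ L, (∀ b > 0, FHyp M h.toFun i k b → L ≤ c * b) ∧
        Ev (D.B C) (Xp C J₀) μ M Y₅.f.toFun (.inl k) (OscEst Y₅.f.toFun k L) := by
  classical
  have hn := D.pos
  obtain ⟨m, hm0, hm⟩ := Vale.Agent.P073.H669.exists_le_of_finite
    (R := fun (k : M.κ) i => M.F k ⊆ M.Q i) (H233.finite_cells_face M) (f := osc) T.osc_pos
  choose Nf hNf0 hNf using fun (X : S1 D C C₀ μT) (Y₂ : S2 X) (Y₃ : S3 Y₂ Ys sc) =>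
    exists_oscN Y₃
  set τ : ∀ (X : S1 D C C₀ μT) (Y₂ : S2 X) (_ : S3 Y₂ Ys sc), M.κ → ℝ := fun X Y₂ Y₃ k =>
    m k / (16 * (1 + Nf X Y₂ Y₃ k)) with hτ
  have hτ0 : ∀ (X : S1 D C C₀ μT) (Y₂ : S2 X) (Y₃ : S3 Y₂ Ys sc) k, 0 < τ X Y₂ Y₃ k := by
    intro X Y₂ Y₃ k
    have h1 := hNf0 X Y₂ Y₃ k
    have h2 := hm0 k
    simp only [hτ]
    positivity
  choose t4 ht4 H4 using fun (X : S1 D C C₀ μT) (Y₂ : S2 X) (Y₃ : S3 Y₂ Ys sc) =>
    Vale.Agent.P073.H669.exists_le_of_finite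
      (R := fun (s : K.S) k => (X.h1.toFun '' M.F k ∩ PK (D.G C) s).Nonempty)
      (H31.K3.finite_faces_PK (D.G C) X.h1) (f := τ X Y₂ Y₃) (hτ0 X Y₂ Y₃)
  choose t5 ht5 H5 using fun (X : S1 D C C₀ μT) (Y₂ : S2 X) (Y₃ : S3 Y₂ Ys sc) (Y₄ : S4 Y₃) =>
    H253.Tube.exists_epsb (D := D) (C := C) Y₄.f5 J₀ (t := fun k => τ X Y₂ Y₃ k / 16)
      fun k => by have := hτ0 X Y₂ Y₃ k; positivity
  refine ⟨{ (Slots.one : Slots D C C₀ μT Ys sc) with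
    εe := fun e => om e / 1000000
    εe0 := fun e => by have := T.om_pos e; positivity
    tol4 := fun Y₃ _ _ s => t4 _ _ Y₃ s.1 / 16
    tol40 := fun Y₃ _ _ s => by have := ht4 _ _ Y₃ s.1; positivity
    tol5 := fun Y₄ _ _ => t5 _ _ _ Y₄
    tol50 := fun Y₄ _ _ => ht5 _ _ _ Y₄ }, ?_⟩
  intro N X Y₂ Y₃ Y₄ Y₅ H htvg s hs k hP hz hpat i hi c μ hc hμ0 hμ1
  have hμb : ∀ b : pG C J₀, 0 ≤ Y₅.μ b := fun b => by
    rw [H.μ5]
    exact (H212.K3.muT_pos D C b.1).le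
  have hμb1 : ∀ b : pG C J₀, Y₅.μ b ≤ n / 1024 := fun b => by
    rw [H.μ5]
    exact H212.K3.muT_le D C b.1
  have hμu : ∀ b : pG C J₀, Y₅.μ b * (ebe (D.W C) b.1 - eal (D.W C) b.1) =
      n / 1024 * (D.G C).uT b.1 := fun b => by
    rw [H.μ5]
    exact H212.K3.muT_len D C b.1
  have HW : SubW X Y₂ fun s => 512 * ω3S δ C s :=
    subW_of (fun s => by rw [H.J]) (fun b => by rw [H.fat]) fun s β => by rw [H.Jn]
  refine S5.osc_listed Y₅ hC₀ HW htvg (hNf X Y₂ Y₃) (fun s => (H.q4 s).ge)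
    (fun s => (H.r4 s).ge) hμb (fun b => (hμb1 b).trans (by linarith))
    (fun b => (hμu b).le.trans (le_of_eq (by ring))) (hτ0 X Y₂ Y₃) (fun s' k' hk' => ?_)
    (fun b k' hk' => ?_) hs hP hz hpat (T.osc_le i) ?_ hc hμ0 hμ1
  · have h1 := H.ε4 s'
    have h2 := H4 X Y₂ Y₃ s'.1 k' hk'
    change Y₄.ε s' ≤ t4 X Y₂ Y₃ s'.1 / 16 at h1
    linarith
  · have h1 := H.ε5 b
    have h2 := H5 X Y₂ Y₃ Y₄ b k' hk'
    change Y₅.ε b ≤ t5 X Y₂ Y₃ Y₄ b at h1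
    have hd : 0 ≤ diam (M.F k') := diam_nonneg
    have h3 := ht5 X Y₂ Y₃ Y₄ b
    have h4 := hτ0 X Y₂ Y₃ k'
    nlinarith
  · have h1 : ∑ e ∈ ((edges M).fin_face k).toFinset, (250 * X.εe e + 100 * Y₂.εE e) ≤
        ∑ e ∈ ((edges M).fin_face k).toFinset, 35 / 1000000 * (10 * om e) := by
      refine Finset.sum_le_sum fun e _ => ?_
      have h2 := H.εe e
      have h3 := H.εE' e
      change X.εe e ≤ om e / 1000000 at h2
      linarith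
    have h2 : ∑ e ∈ ((edges M).fin_face k).toFinset, 10 * om e ≤ osc i :=
      T.om_sum i _ fun e he => (((edges M).fin_face k).mem_toFinset.1 he).trans hi
    rw [← Finset.mul_sum] at h1
    have h3 := hm k i hi
    have h4 := hNf0 X Y₂ Y₃ k
    have h5 := hm0 k
    have h6 : 8 * (Nf X Y₂ Y₃ k * τ X Y₂ Y₃ k) ≤ m k / 2 := by
      simp only [hτ]
      rw [← mul_div_assoc, ← mul_div_assoc, div_le_div_iff₀ (by positivity) (by norm_num)]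
      nlinarith
    linarith

end Vale.Agent.P073.H579.K3
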