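import Vale.Agent.P073.H579.PathC
import Vale.Agent.P073.H579.HFace
import Vale.Agent.P073.H919.PathPat

/-!
# P073, H579: **[W4-LIFT]**, part 2: curves lift through products of one-dimensional insertion maps

`exists_prod_path`: a curve along which the labels vary by at most `N` lifts through `prodK k` to a
curve with given ends, along which the bands vary by at most `2 (N + 1) ∑ j, Om j`.
-/

open Set Metric Topology Filter
open scoped ENNReal

namespace P073.H579

open P073 P073.H880 P073.H919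

/-! ### one variable -/

section one

variable {k : ℝ → ℝ} {L : Set ℝ} {lo hi : ℝ → ℝ} {x : ℝ → ℝ} {s t : ℝ}

theorem sign_of_off (hx : ContinuousOn x (Icc s t)) {a : ℝ} (hoff : ∀ r ∈ Ioo s t, x r ≠ a) :
    (∀ r ∈ Ioo s t, a < x r) ∨ ∀ r ∈ Ioo s t, x r < a := by
  by_contra hcon
  push Not at hcon
  obtain ⟨⟨u, hu, hu1⟩, v, hv, hv1⟩ := hcon
  obtain ⟨w, hw, hw1⟩ := isPreconnected_Ioo.intermediate_value hu hv
    (hx.mono Ioo_subset_Icc_self) ⟨hu1, hv1⟩
  exact hoff w hw hw1

/-- **a room** -/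
theorem Ins1.exists_room (h : Ins1 k L lo hi) (hst : s ≤ t) (hx : ContinuousOn x (Icc s t))
    (htype : (∀ r ∈ Ioo s t, x r ∉ L) ∨ ∃ a ∈ L, ∀ r ∈ Ioo s t, x r = a) :
    ∃ z : ℝ → ℝ, ContinuousOn z (Icc s t) ∧ (∀ r ∈ Icc s t, k (z r) = x r) ∧
      ∀ a ∈ L, ∀ r ∈ Icc s t, ∀ u ∈ Icc s t, rho lo hi a (z r) = rho lo hi a (z u) := by
  rcases hst.eq_or_lt with rfl | hlt
  · obtain ⟨y, hy⟩ := h.surj (x s)
    refine ⟨fun _ => y, continuousOn_const, fun r hr => ?_, fun _ _ _ _ _ _ => rfl⟩
    rw [Icc_self, mem_singleton_iff] at hr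
    rw [hy, hr]
  have hcl : closure (Ioo s t) = Icc s t := closure_Ioo hlt.ne
  rcases htype with hoff | ⟨a, ha, hon⟩
  · choose z₀ hz₀ using fun r => h.surj (x r)
    have hside : ∀ a ∈ L, (∀ r ∈ Ioo s t, hi a < z₀ r) ∨ ∀ r ∈ Ioo s t, z₀ r < lo a := by
      intro a ha
      rcases sign_of_off hx fun r hr hra => hoff r hr (hra ▸ ha) with h1 | h1
      · exact Or.inl fun r hr => h.hi_lt ha (by rw [hz₀]; exact h1 r hr)
      · exact Or.inr fun r hr => h.lt_lo ha (by rw [hz₀]; exact h1 r hr)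
    have hlim : ∀ r₀ ∈ Icc s t, ∃ y, k y = x r₀ ∧ Tendsto z₀ (𝓝[Ioo s t] r₀) (𝓝 y) := by
      intro r₀ hr₀
      have hne : NeBot (𝓝[Ioo s t] r₀) := by
        rw [← mem_closure_iff_nhdsWithin_neBot, hcl]; exact hr₀
      obtain ⟨M, hM⟩ := h.bdd
      have hxt : Tendsto x (𝓝[Ioo s t] r₀) (𝓝 (x r₀)) :=
        (hx r₀ hr₀).mono Ioo_subset_Icc_self
      have hK : IsCompact (closedBall (x r₀) (M + 1)) := isCompact_closedBall _ _
      have hev : ∀ᶠ r in 𝓝[Ioo s t] r₀, z₀ r ∈ closedBall (x r₀) (M + 1) := by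
        filter_upwards [hxt (closedBall_mem_nhds _ one_pos)] with r hr
        have h1 := hM (z₀ r)
        rw [hz₀] at h1
        rw [mem_preimage, mem_closedBall, Real.dist_eq] at hr
        rw [mem_closedBall, Real.dist_eq]
        have h2 := abs_sub_le (z₀ r) (x r) (x r₀)
        rw [abs_sub_comm (z₀ r) (x r)] at h2
        linarith
      have hlimk : ∀ q, MapClusterPt q (𝓝[Ioo s t] r₀) z₀ → k q = x r₀ := by
        intro q hq
        have h2 : MapClusterPt (k q) (𝓝[Ioo s t] r₀) (k ∘ z₀) :=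
          hq.continuousAt_comp h.cont.continuousAt
        have h3 : Tendsto (k ∘ z₀) (𝓝[Ioo s t] r₀) (𝓝 (x r₀)) := by
          have : k ∘ z₀ = x := by ext r; exact hz₀ r
          rw [this]; exact hxt
        have h4 : NeBot (𝓝 (k q) ⊓ 𝓝 (x r₀)) := ClusterPt.mono h2 h3
        exact eq_of_nhds_neBot h4
      have huniq : ∀ q q', MapClusterPt q (𝓝[Ioo s t] r₀) z₀ →
          MapClusterPt q' (𝓝[Ioo s t] r₀) z₀ → q = q' := by
        intro q q' hq hq'
        have e1 := hlimk q hq
        have e2 := hlimk q' hq'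
        by_cases hL : x r₀ ∈ L
        · have f1 := (h.flat _ hL q).1 e1
          have f2 := (h.flat _ hL q').1 e2
          rcases hside _ hL with h1 | h1
          · have hin : ∀ᶠ r in 𝓝[Ioo s t] r₀, z₀ r ∈ Ici (hi (x r₀)) := by
              filter_upwards [self_mem_nhdsWithin] with r hr
              exact (h1 r hr).le
            have r1 : hi (x r₀) ≤ q := isClosed_Ici.mem_of_mapClusterPt hq hin
            have r2 : hi (x r₀) ≤ q' := isClosed_Ici.mem_of_mapClusterPt hq' hin
            linarith [f1.2, f2.2]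
          · have hin : ∀ᶠ r in 𝓝[Ioo s t] r₀, z₀ r ∈ Iic (lo (x r₀)) := by
              filter_upwards [self_mem_nhdsWithin] with r hr
              exact (h1 r hr).le
            have r1 : q ≤ lo (x r₀) := isClosed_Iic.mem_of_mapClusterPt hq hin
            have r2 : q' ≤ lo (x r₀) := isClosed_Iic.mem_of_mapClusterPt hq' hin
            linarith [f1.1, f2.1]
        · exact h.inj q q' (e1.trans e2.symm) (by rw [e1]; exact hL)
      obtain ⟨y, -, hyc⟩ := hK.exists_mapClusterPt_of_frequently (l := 𝓝[Ioo s t] r₀) (f := z₀)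
        hev.frequently
      exact ⟨y, hlimk y hyc, hK.tendsto_nhds_of_unique_mapClusterPt hev fun q _ hqc =>
        huniq q y hqc hyc⟩
    have hz : ∀ r ∈ Icc s t, k (extendFrom (Ioo s t) z₀ r) = x r ∧
        Tendsto z₀ (𝓝[Ioo s t] r) (𝓝 (extendFrom (Ioo s t) z₀ r)) := by
      intro r hr
      obtain ⟨y, hy, hyt⟩ := hlim r hr
      rw [extendFrom_eq (hcl ▸ hr) hyt]
      exact ⟨hy, hyt⟩
    refine ⟨extendFrom (Ioo s t) z₀, ?_, fun r hr => (hz r hr).1, ?_⟩
    · refine continuousOn_extendFrom (by rw [hcl]) fun r hr => ?_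
      obtain ⟨y, -, hyt⟩ := hlim r hr
      exact ⟨y, hyt⟩
    · intro a ha
      have hlh := (h.lt a ha).le
      have key : (∀ r ∈ Icc s t, hi a ≤ extendFrom (Ioo s t) z₀ r) ∨
          ∀ r ∈ Icc s t, extendFrom (Ioo s t) z₀ r ≤ lo a := by
        rcases hside a ha with h1 | h1
        · left
          intro r hr
          have hne : NeBot (𝓝[Ioo s t] r) := by
            rw [← mem_closure_iff_nhdsWithin_neBot, hcl]; exact hr
          refine ge_of_tendsto (hz r hr).2 ?_
          filter_upwards [self_mem_nhdsWithin] with u hu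
          exact (h1 u hu).le
        · right
          intro r hr
          have hne : NeBot (𝓝[Ioo s t] r) := by
            rw [← mem_closure_iff_nhdsWithin_neBot, hcl]; exact hr
          refine le_of_tendsto (hz r hr).2 ?_
          filter_upwards [self_mem_nhdsWithin] with u hu
          exact (h1 u hu).le
      rcases key with h1 | h1
      · intro r hr u hu
        rw [rho_of_ge (h1 r hr) hlh, rho_of_ge (h1 u hu) hlh]
      · intro r hr u hu
        rw [rho_of_le (h1 r hr), rho_of_le (h1 u hu)]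
  · refine ⟨fun _ => lo a, continuousOn_const, fun r hr => ?_, fun _ _ _ _ _ _ => rfl⟩
    have e1 : k (lo a) = a := (h.flat a ha _).2 ⟨le_rfl, (h.lt a ha).le⟩
    rw [e1]
    have hne : NeBot (𝓝[Ioo s t] r) := by
      rw [← mem_closure_iff_nhdsWithin_neBot, hcl]; exact hr
    have hxt : Tendsto x (𝓝[Ioo s t] r) (𝓝 (x r)) := (hx r hr).mono Ioo_subset_Icc_self
    have hxa : Tendsto x (𝓝[Ioo s t] r) (𝓝 a) := by
      refine tendsto_const_nhds.congr' ?_
      filter_upwards [self_mem_nhdsWithin] with u hu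
      exact (hon u hu).symm
    exact tendsto_nhds_unique hxa hxt

/-- a fibre over a level -/
theorem Ins1.rho_fib (h : Ins1 k L lo hi) {a b p q : ℝ} (ha : a ∈ L) (hab : a ≠ b)
    (hp : k p = b) (hq : k q = b) : rho lo hi a p = rho lo hi a q := by
  have hlh := (h.lt a ha).le
  rcases lt_or_gt_of_ne hab with h1 | h1
  · rw [rho_of_ge (h.hi_lt ha (by rw [hp]; exact h1)).le hlh,
      rho_of_ge (h.hi_lt ha (by rw [hq]; exact h1)).le hlh]
  · rw [rho_of_le (h.lt_lo ha (by rw [hp]; exact h1)).le,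
      rho_of_le (h.lt_lo ha (by rw [hq]; exact h1)).le]

theorem rho_flat {a p : ℝ} (h1 : lo a ≤ p) (h2 : p ≤ hi a) : rho lo hi a p = p - lo a := by
  unfold rho
  rw [min_eq_right (by linarith), max_eq_right (by linarith)]

end one

/-! ### products -/

section prod

variable {m : ℕ} {k : Fin m → ℝ → ℝ} {L : Fin m → Finset ℝ} {lo hi om : Fin m → ℝ → ℝ}
  {Om : Fin m → ℝ}

theorem bandD_nonneg' (hk : ∀ j, Ins1 (k j) (L j) (lo j) (hi j)) (hom : ∀ j a, 0 ≤ om j a)
    (y y' : Fin m → ℝ) : 0 ≤ bandD L lo hi om y y' := by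
  refine Finset.sum_nonneg fun j _ => Finset.sum_nonneg fun a ha => ?_
  have := (hk j).lt a ha
  have h1 : 0 < hi j a - lo j a := by linarith
  have := hom j a
  positivity

theorem bandD_triangle (hk : ∀ j, Ins1 (k j) (L j) (lo j) (hi j)) (hom : ∀ j a, 0 ≤ om j a)
    (x y z : Fin m → ℝ) :
    bandD L lo hi om x z ≤ bandD L lo hi om x y + bandD L lo hi om y z := by
  unfold bandD
  rw [← Finset.sum_add_distrib]
  refine Finset.sum_le_sum fun j _ => ?_
  rw [← Finset.sum_add_distrib]
  refine Finset.sum_le_sum fun a ha => ?_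
  rw [← mul_add]
  have := (hk j).lt a ha
  have h1 : 0 < hi j a - lo j a := by linarith
  exact mul_le_mul_of_nonneg_left (abs_sub_le _ _ _) (div_nonneg (hom j a) h1.le)

/-- **a path in a fibre** -/
theorem exists_fib_path (hk : ∀ j, Ins1 (k j) (L j) (lo j) (hi j)) (hom : ∀ j a, 0 ≤ om j a)
    (hOm : ∀ j, ∀ a ∈ L j, om j a ≤ Om j) (hOm0 : ∀ j, 0 ≤ Om j) {p q w : Fin m → ℝ}
    (hp : prodK k p = w) (hq : prodK k q = w) :
    PathC (fun x y => ENNReal.ofReal (bandD L lo hi om x y)) (univ ∩ prodK k ⁻¹' {w}) p q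
      (ENNReal.ofReal (∑ j, Om j)) := by
  have hpj : ∀ j, k j (p j) = w j := fun j => congrFun hp j
  have hqj : ∀ j, k j (q j) = w j := fun j => congrFun hq j
  have hline : ∀ t ∈ Icc (0:ℝ) 1, ∀ j, k j ((AffineMap.lineMap p q t : Fin m → ℝ) j) = w j := by
    intro t ht j
    have e1 : (AffineMap.lineMap p q t : Fin m → ℝ) j = p j + t * (q j - p j) := by
      rw [AffineMap.lineMap_apply_module]
      simp only [Pi.add_apply, Pi.smul_apply, smul_eq_mul]
      ring
    rw [e1]
    rcases le_total (p j) (q j) with h1 | h1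
    · have a1 : 0 ≤ q j - p j := by linarith
      have a2 := mul_nonneg ht.1 a1
      have a3 := mul_le_mul_of_nonneg_right ht.2 a1
      refine le_antisymm ?_ ?_
      · rw [← hqj j]; exact (hk j).mono (by linarith)
      · rw [← hpj j]; exact (hk j).mono (by linarith)
    · have a1 : q j - p j ≤ 0 := by linarith
      have a2 := mul_nonpos_of_nonneg_of_nonpos ht.1 a1
      have a3 := mul_le_mul_of_nonpos_right ht.2 a1
      refine le_antisymm ?_ ?_
      · rw [← hpj j]; exact (hk j).mono (by linarith)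
      · rw [← hqj j]; exact (hk j).mono (by linarith)
  have h := PathC.of_curve (c := fun x y => ENNReal.ofReal (bandD L lo hi om x y))
    (X := univ ∩ prodK k ⁻¹' {w}) (B := ENNReal.ofReal (∑ j, Om j))
    (γ := fun t => (AffineMap.lineMap p q t : Fin m → ℝ)) zero_le_one
    (AffineMap.lineMap_continuous.continuousOn) ?_ ?_
  · simpa using h
  · exact fun t ht => ⟨mem_univ _, funext fun j => hline t ht j⟩
  · refine (cvar_le_lip (K := ENNReal.ofReal (∑ j, Om j)) zero_le_one ?_).trans (by simp)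
    intro s hs t ht hst
    rw [← ENNReal.ofReal_mul (by linarith)]
    refine ENNReal.ofReal_le_ofReal ?_
    rw [Finset.mul_sum]
    refine Finset.sum_le_sum fun j _ => ?_
    have e1 : ∀ r : ℝ, (AffineMap.lineMap p q r : Fin m → ℝ) j = p j + r * (q j - p j) := by
      intro r
      rw [AffineMap.lineMap_apply_module]
      simp only [Pi.add_apply, Pi.smul_apply, smul_eq_mul]
      ring
    have hts : 0 ≤ t - s := by linarith
    by_cases hw : w j ∈ L j
    · rw [Finset.sum_eq_single_of_mem (w j) hw]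
      · have f1 := ((hk j).flat _ hw _).1 (hline s hs j)
        have f2 := ((hk j).flat _ hw _).1 (hline t ht j)
        have g1 := ((hk j).flat _ hw _).1 (hpj j)
        have g2 := ((hk j).flat _ hw _).1 (hqj j)
        rw [rho_flat f1.1 f1.2, rho_flat f2.1 f2.2, e1 s, e1 t]
        have hlt := (hk j).lt _ hw
        have h0 : 0 < hi j (w j) - lo j (w j) := by linarith
        have e2 : p j + s * (q j - p j) - lo j (w j) - (p j + t * (q j - p j) - lo j (w j)) =
            (s - t) * (q j - p j) := by ring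
        rw [e2, abs_mul, abs_sub_comm s t, abs_of_nonneg hts]
        have h3 : |q j - p j| ≤ hi j (w j) - lo j (w j) := by
          rw [abs_le]; constructor <;> linarith [g1.1, g1.2, g2.1, g2.2]
        have h4 : om j (w j) / (hi j (w j) - lo j (w j)) * ((t - s) * |q j - p j|) ≤
            om j (w j) / (hi j (w j) - lo j (w j)) * ((t - s) * (hi j (w j) - lo j (w j))) := by
          have := hom j (w j)
          gcongr
        refine h4.trans ?_
        have h5 : om j (w j) / (hi j (w j) - lo j (w j)) * ((t - s) * (hi j (w j) - lo j (w j))) =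
            (t - s) * om j (w j) := by field_simp
        rw [h5]
        exact mul_le_mul_of_nonneg_left (hOm j _ hw) hts
      · intro a ha hne
        rw [(hk j).rho_fib ha hne (hline s hs j) (hline t ht j), sub_self, abs_zero, mul_zero]
    · have e3 : p j = q j := (hk j).inj _ _ ((hpj j).trans (hqj j).symm) (by rw [hpj j]; exact hw)
      refine le_trans (le_of_eq (Finset.sum_eq_zero fun a _ => ?_)) (mul_nonneg hts (hOm0 j))
      rw [e1 s, e1 t, e3]
      simp

/-- **curves lift through products of insertion maps** -/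
theorem exists_prod_path (hk : ∀ j, Ins1 (k j) (L j) (lo j) (hi j)) (hom : ∀ j a, 0 ≤ om j a)
    (hOm : ∀ j, ∀ a ∈ L j, om j a ≤ Om j) (hOm0 : ∀ j, 0 ≤ Om j) {δ : ℝ → Fin m → ℝ}
    (hδ : ContinuousOn δ (Icc 0 1)) {N : ℕ}
    (hlab : ∑ l, eVariationOn (fun t => lab (L l) (δ t l)) (Icc 0 1) ≤ N) {p q : Fin m → ℝ}
    (hp : prodK k p = δ 0) (hq : prodK k q = δ 1) :
    PathC (fun x y => ENNReal.ofReal (bandD L lo hi om x y)) (prodK k ⁻¹' (δ '' Icc 0 1)) p q
      (ENNReal.ofReal (2 * (N + 1) * ∑ j, Om j)) := by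
  classical
  have hfin : ∀ l, eVariationOn (fun t => lab (L l) (δ t l)) (Icc 0 1) ≠ ⊤ := by
    intro l h
    have h1 := Finset.single_le_sum (f := fun l => eVariationOn (fun t => lab (L l) (δ t l))
      (Icc 0 1)) (fun _ _ => zero_le) (Finset.mem_univ l)
    rw [h] at h1
    exact absurd (h1.trans hlab) (by simp)
  have hint : ∀ l t, ∃ n : ℤ, lab (L l) (δ t l) = n := fun l t =>
    ⟨(((L l).filter (· < δ t l)).card + ((L l).filter (· ≤ δ t l)).card : ℕ), by
      unfold lab; push_cast; rfl⟩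
  choose T hT1 hT2 hT3 using fun l => exists_jumps (a := 0) (b := 1) (fun t _ => hint l t) (hfin l)
  set U : Finset ℝ := Finset.univ.biUnion T with hU
  have hUc : U.card ≤ N := by
    have h1 : (U.card : ℝ≥0∞) ≤ ∑ l, (T l).card := by exact_mod_cast Finset.card_biUnion_le
    have h2 : (U.card : ℝ≥0∞) ≤ N := by
      refine h1.trans (le_trans ?_ hlab)
      rw [Nat.cast_sum]
      exact Finset.sum_le_sum fun l _ => hT1 l
    exact_mod_cast h2
  have hδj : ∀ j, ContinuousOn (fun t => δ t j) (Icc 0 1) := fun j =>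
    (continuous_apply j).comp_continuousOn hδ
  have key := exists_liftC (c := fun x y : Fin m → ℝ => ENNReal.ofReal (bandD L lo hi om x y))
    (κ := prodK k) (δ := δ) (Λ := univ) (T := U) (A := ENNReal.ofReal (∑ j, Om j))
    (ρ := fun _ _ => 0) (a₀ := 0) (b₀ := 1) ?_ ?_ ?_ ?_ ?_ (U.filter (· ∈ Ioo 0 1)).card 0 1 le_rfl
    zero_le_one le_rfl rfl p (mem_univ _) q (mem_univ _) hp hq
  · refine key.mono (by rw [univ_inter]) ?_
    have h0 : 0 ≤ ∑ j, Om j := Finset.sum_nonneg fun j _ => hOm0 j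
    have h1 : (U.filter (· ∈ Ioo 0 1)).card ≤ N := (Finset.card_filter_le _ _).trans hUc
    rw [add_zero, ENNReal.ofReal_mul (by positivity)]
    refine mul_le_mul_left ?_ _
    rw [show (2 * ((N:ℝ) + 1)) = ((2 * (N + 1) : ℕ) : ℝ) by push_cast; ring,
      ENNReal.ofReal_natCast]
    exact_mod_cast Nat.mul_le_mul_left 2 (Nat.succ_le_succ h1)
  · intro x _ y _ z _
    rw [← ENNReal.ofReal_add (bandD_nonneg' hk hom _ _) (bandD_nonneg' hk hom _ _)]
    exact ENNReal.ofReal_le_ofReal (bandD_triangle hk hom _ _ _)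
  · intro s m' t _ _ _ _
    simp
  · intro t _
    choose y hy using fun j => (hk j).surj (δ t j)
    exact ⟨y, mem_univ _, funext hy⟩
  · intro t _ p' _ q' _ hp' hq'
    exact exists_fib_path hk hom hOm hOm0 hp' hq'
  · intro s t hs hst ht hno
    have hI : Icc s t ⊆ Icc 0 1 := Icc_subset_Icc hs ht
    have hroom : ∀ j, ∃ z : ℝ → ℝ, ContinuousOn z (Icc s t) ∧ (∀ r ∈ Icc s t, k j (z r) = δ r j) ∧
        ∀ a ∈ L j, ∀ r ∈ Icc s t, ∀ u ∈ Icc s t,
          rho (lo j) (hi j) a (z r) = rho (lo j) (hi j) a (z u) := by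
      intro j
      refine (hk j).exists_room hst ((hδj j).mono hI) ?_
      have hconst := hT3 j s t hs ht fun r hr hrT => hno r hr (Finset.mem_biUnion.2
        ⟨j, Finset.mem_univ _, hrT⟩)
      by_cases hon : ∃ r ∈ Ioo s t, δ r j ∈ L j
      · obtain ⟨r, hr, hrL⟩ := hon
        refine Or.inr ⟨δ r j, hrL, fun u hu => ?_⟩
        refine eq_of_lab hrL ?_
        have h1 := hconst r hr u hu
        unfold lab at h1
        exact_mod_cast h1
      · push Not at hon
        exact Or.inl hon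
    choose z hz1 hz2 hz3 using hroom
    refine ⟨fun r j => z j r, continuousOn_pi.2 hz1, fun r hr => ⟨mem_univ _, funext fun j =>
      hz2 j r hr⟩, ?_⟩
    rw [cvar_le_iff]
    intro n u _ hu'
    refine le_of_eq (Finset.sum_eq_zero fun i _ => ?_)
    have h0 : bandD L lo hi om (fun j => z j (u i)) (fun j => z j (u (i + 1))) = 0 := by
      refine Finset.sum_eq_zero fun j _ => Finset.sum_eq_zero fun a ha => ?_
      rw [hz3 j a ha _ (hu' i) _ (hu' (i + 1)), sub_self, abs_zero, mul_zero]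
    rw [h0, ENNReal.ofReal_zero]

end prod

end P073.H579
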