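import Vale.Agent.P073.H579.State
import Vale.Agent.P073.PR.Boxes

/-!
# P073, H579: **(W2)** the arcs of a good state on a face

`Face.bd` is the relative boundary of a face. On a face with a good pattern every level is a finite
disjoint union of proper arcs (`State.arcs_u`, `State.arcs_v`), arcs of different families meet at
most once (`State.subsingleton`), not on the boundary, and levels are crossed by all sets of the
mesh and by the levels of the other family (`FlowBox.mem_closure_gt`, …).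
-/

open Set Metric Topology Filter

namespace P073.H579

open P073.TR P073.SCH P073.H339

/-- a curve without circles is a finite disjoint union of arcs -/
theorem curve_arcs {M : Set P} (h : Curve M) (hno : ∀ σ, IsCircle σ → ¬ σ ⊆ M) :
    ∃ (J : Type) (_ : Finite J) (S : J → Set P), (⋃ j, S j) = M ∧
      (∀ j j', j ≠ j' → Disjoint (S j) (S j')) ∧
      ∀ j, ConBall 1 (S j) {x | x ∈ S j ∧ (dirs M x).ncard = 1} := by
  obtain ⟨J, hJ, S, hU, hd, hb⟩ := h.exists_components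
  refine ⟨J, hJ, S, hU, hd, fun j => ?_⟩
  rcases hb j with ⟨h1, -⟩ | ⟨p, q, h1, h2, h3, h4⟩
  · exact (hno _ (conSphere_iff.1 h1) (hU ▸ subset_iUnion S j)).elim
  · have : {x | x ∈ S j ∧ (dirs M x).ncard = 1} = {p, q} := by
      ext x
      constructor
      · rintro ⟨hx, h5⟩
        exact h4 x hx h5
      · rintro (rfl | rfl)
        · exact ⟨arc_left h1, h2⟩
        · exact ⟨arc_right h1, h3⟩
    rw [this]; exact h1

theorem Reg1.mono {C : Set P} {u : P → ℝ} {La La' : Set ℝ} (h : Reg1 C u La) (hs : La' ⊆ La) :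
    Reg1 C u La' :=
  ⟨h.cont, h.con, h.fin.subset hs, fun x hx hu => h.box x hx (hs hu)⟩

/-- the proper arcs of the traces -/
theorem Reg1.arcs {C : Set P} {u : P → ℝ} {La : Set ℝ} (h : Reg1 C u La) (hC : Convex ℝ C)
    (hi : (interior C).Nonempty) (hc : IsCompact C) (hl : LocCone C)
    (hno : ∀ σ, IsCircle σ → ¬ σ ⊆ trace C u La) :
    ∃ (J : Type) (_ : Finite J) (S : J → Set P), (⋃ j, S j) = trace C u La ∧
      (∀ j j', j ≠ j' → Disjoint (S j) (S j')) ∧ ∀ j, ConBall 1 (S j) (S j ∩ frontier C) := by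
  obtain ⟨J, hJ, S, hU, hd, hb⟩ := curve_arcs (h.curve hC hi hc hl) hno
  refine ⟨J, hJ, S, hU, hd, fun j => ?_⟩
  have : S j ∩ frontier C = {x | x ∈ S j ∧ (dirs (trace C u La) x).ncard = 1} := by
    ext x
    constructor
    · rintro ⟨hx, hf⟩
      exact ⟨hx, (h.ncard hC hi (hU ▸ mem_iUnion.2 ⟨j, hx⟩)).2 hf.2⟩
    · rintro ⟨hx, h1⟩
      have h2 : x ∈ trace C u La := hU ▸ mem_iUnion.2 ⟨j, hx⟩
      refine ⟨hx, subset_closure h2.1, fun h3 => ?_⟩
      have := (h.ncard hC hi h2).1 h3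
      omega
  rw [this]; exact hb j

section flow

variable {E G : Type*} [NormedAddCommGroup E] [NormedSpace ℝ E]
  [NormedAddCommGroup G] [NormedSpace ℝ G] {ι : Type*}

/-- near the centre of a flow box: the translates in the direction `s` -/
theorem FlowBox.tendsto {u : E → G} {M : ι → Set E} {x : E} {σ : G →ₗ[ℝ] E} {r : ℝ}
    (h : FlowBox u M x σ r) (s : G) :
    Tendsto (fun t : ℝ => x + σ (t • s)) (𝓝[>] 0) (𝓝 x) ∧
      ∀ᶠ t in 𝓝[>] (0:ℝ), u (x + σ (t • s)) = u x + t • s ∧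
        ∀ i, (x + σ (t • s) ∈ M i ↔ x ∈ M i) := by
  constructor
  · simp only [map_smul]
    have : Tendsto (fun t : ℝ => x + t • σ s) (𝓝[>] 0) (𝓝 (x + (0:ℝ) • σ s)) := by
      apply Tendsto.mono_left _ nhdsWithin_le_nhds
      exact ((continuous_const.add (continuous_id.smul continuous_const)).tendsto _)
    simpa using this
  · have h1 : ∀ᶠ t in 𝓝[>] (0:ℝ), ‖t • s‖ < r := by
      apply Filter.Eventually.filter_mono nhdsWithin_le_nhds
      have : ContinuousAt (fun t : ℝ => ‖t • s‖) 0 :=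
        (continuous_id.smul continuous_const).norm.continuousAt
      exact this.eventually_lt_const (by simpa using h.pos)
    filter_upwards [h1] with t ht
    have h2 := h.add 0 (t • s) (by simpa using h.pos) ht
    have h3 := fun i => h.iff i 0 (t • s) (by simpa using h.pos) ht
    simp only [add_zero] at h2 h3
    exact ⟨h2, h3⟩

/-- every set of the mesh crosses a regular level from below to above -/
theorem FlowBox.mem_closure_gt {u : E → ℝ} {M : ι → Set E} {x : E} {σ : ℝ →ₗ[ℝ] E} {r : ℝ}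
    (h : FlowBox u M x σ r) {i : ι} (hx : x ∈ M i) : x ∈ closure {y | y ∈ M i ∧ u x < u y} := by
  obtain ⟨h1, h2⟩ := FlowBox.tendsto h (1:ℝ)
  apply mem_closure_of_tendsto h1
  filter_upwards [h2, self_mem_nhdsWithin] with t ht ht0
  refine ⟨(ht.2 i).2 hx, ?_⟩
  rw [ht.1, smul_eq_mul, mul_one]
  have : (0:ℝ) < t := ht0
  linarith

theorem FlowBox.mem_closure_lt {u : E → ℝ} {M : ι → Set E} {x : E} {σ : ℝ →ₗ[ℝ] E} {r : ℝ}
    (h : FlowBox u M x σ r) {i : ι} (hx : x ∈ M i) : x ∈ closure {y | y ∈ M i ∧ u y < u x} := by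
  obtain ⟨h1, h2⟩ := FlowBox.tendsto h (-1:ℝ)
  apply mem_closure_of_tendsto h1
  filter_upwards [h2, self_mem_nhdsWithin] with t ht ht0
  refine ⟨(ht.2 i).2 hx, ?_⟩
  rw [ht.1, smul_eq_mul, mul_neg_one]
  have : (0:ℝ) < t := ht0
  linarith

/-- crossing: on a set of the mesh the level of `v` crosses the level of `u` -/
theorem FlowBox.cross_gt {u v : E → ℝ} {M : ι → Set E} {x : E} {σ : ℝ × ℝ →ₗ[ℝ] E} {r : ℝ}
    (h : FlowBox (fun y => (u y, v y)) M x σ r) {i : ι} (hx : x ∈ M i) :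
    x ∈ closure {y | y ∈ M i ∧ v y = v x ∧ u x < u y} := by
  obtain ⟨h1, h2⟩ := FlowBox.tendsto h ((1:ℝ), (0:ℝ))
  apply mem_closure_of_tendsto h1
  filter_upwards [h2, self_mem_nhdsWithin] with t ht ht0
  have e1 : u (x + σ (t • ((1:ℝ), (0:ℝ)))) = u x + t := by
    have := congrArg Prod.fst ht.1
    simpa using this
  have e2 : v (x + σ (t • ((1:ℝ), (0:ℝ)))) = v x := by
    have := congrArg Prod.snd ht.1
    simpa using this
  refine ⟨(ht.2 i).2 hx, e2, ?_⟩
  rw [e1]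
  have : (0:ℝ) < t := ht0
  linarith

theorem FlowBox.cross_lt {u v : E → ℝ} {M : ι → Set E} {x : E} {σ : ℝ × ℝ →ₗ[ℝ] E} {r : ℝ}
    (h : FlowBox (fun y => (u y, v y)) M x σ r) {i : ι} (hx : x ∈ M i) :
    x ∈ closure {y | y ∈ M i ∧ v y = v x ∧ u y < u x} := by
  obtain ⟨h1, h2⟩ := FlowBox.tendsto h ((-1:ℝ), (0:ℝ))
  apply mem_closure_of_tendsto h1
  filter_upwards [h2, self_mem_nhdsWithin] with t ht ht0
  have e1 : u (x + σ (t • ((-1:ℝ), (0:ℝ)))) = u x - t := by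
    have := congrArg Prod.fst ht.1
    simp only [Prod.smul_mk, smul_eq_mul, mul_neg, mul_one, mul_zero, Prod.mk_add_mk] at this
    rw [sub_eq_add_neg]
    simpa using this
  have e2 : v (x + σ (t • ((-1:ℝ), (0:ℝ)))) = v x := by
    have := congrArg Prod.snd ht.1
    simpa using this
  refine ⟨(ht.2 i).2 hx, e2, ?_⟩
  rw [e1]
  have : (0:ℝ) < t := ht0
  linarith

end flow

variable {E : Type*} [NormedAddCommGroup E] [NormedSpace ℝ E] {ι : Type*} {D : Data E ι}

/-- the relative boundary of a face -/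
def Face.bd (F : Face D) : Set E := F.ch '' frontier F.C

theorem Face.ch_inj (F : Face D) : Function.Injective F.ch := by
  intro z w h
  exact F.inj (add_left_cancel (h : F.o + F.L z = F.o + F.L w))

/-- the chart as an affine map -/
def Face.aff (F : Face D) : P →ᵃ[ℝ] E where
  toFun := F.ch
  linear := F.L
  map_vadd' := fun z w => by
    show F.o + F.L (w + z) = F.L w + (F.o + F.L z)
    rw [map_add]; abel

theorem Face.conicalOn_ch (F : Face D) : ConicalOn F.ch F.C :=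
  conicalOn_of_affine F.aff F.cone.conicalSet

/-- the chart as a conical homeomorphism -/
noncomputable def Face.hom (F : Face D) : ConHomeo F.C (D.M F.i₀) :=
  ConHomeo.ofCompact F.compact F.ch F.continuous_ch.continuousOn F.ch_inj.injOn
    F.conicalOn_ch F.eq.symm

theorem Face.hom_toFun (F : Face D) : F.hom.toFun = F.ch :=
  ConHomeo.ofCompact_toFun _ _ _ _ _ _

theorem Face.image_trace (F : Face D) (w : E → ℝ) (La : Set ℝ) :
    F.ch '' trace F.C (w ∘ F.ch) La = {x | x ∈ D.M F.i₀ ∧ w x ∈ La} := by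
  ext x
  constructor
  · rintro ⟨z, ⟨hz, hw⟩, rfl⟩
    exact ⟨F.ch_mem hz, hw⟩
  · rintro ⟨hx, hw⟩
    rw [F.eq] at hx
    obtain ⟨z, hz, rfl⟩ := hx
    exact ⟨z, ⟨hz, hw⟩, rfl⟩

namespace State

variable {u v : E → ℝ}

theorem arcs_aux (F : Face D) {w : E → ℝ} {La : Set ℝ}
    (hr : Reg1 F.C (w ∘ F.ch) La) (hno : ∀ σ, IsCircle σ → ¬ σ ⊆ trace F.C (w ∘ F.ch) La) :
    ∃ (J : Type) (_ : Finite J) (S : J → Set E), (⋃ j, S j) = {x | x ∈ D.M F.i₀ ∧ w x ∈ La} ∧
      (∀ j j', j ≠ j' → Disjoint (S j) (S j')) ∧ ∀ j, ConBall 1 (S j) (S j ∩ F.bd) := by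
  obtain ⟨J, hJ, S, hU, hd, hb⟩ := hr.arcs F.convex F.int F.compact F.cone hno
  refine ⟨J, hJ, fun j => F.ch '' S j, ?_, fun j j' hj => ?_, fun j => ?_⟩
  · rw [← image_iUnion, hU, F.image_trace]
  · exact (disjoint_image_iff F.ch_inj).2 (hd j j' hj)
  · have h1 := (hb j).image_affine F.aff F.ch_inj F.continuous_ch
    have h2 : F.ch '' S j ∩ F.bd = F.ch '' (S j ∩ frontier F.C) :=
      (image_inter F.ch_inj).symm
    show ConBall 1 (F.ch '' S j) (F.ch '' S j ∩ F.bd)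
    rw [h2]
    exact h1

/-- **the arcs of a level of `u` on a face** -/
theorem arcs_u (hD : D.Ok) (h : State D u v) (F : Face D) (hg : Good (F.tr u v)) {k : ℝ}
    (hk : k ∈ D.a) :
    ∃ (J : Type) (_ : Finite J) (S : J → Set E), (⋃ j, S j) = {x | x ∈ D.M F.i₀ ∧ u x = k} ∧
      (∀ j j', j ≠ j' → Disjoint (S j) (S j')) ∧ ∀ j, ConBall 1 (S j) (S j ∩ F.bd) := by
  have h1 : Reg1 F.C (u ∘ F.ch) (D.a : Set ℝ) := reg1 hD F h.conu h.contu h.regu
  have h2 : ({k} : Set ℝ) ⊆ (D.a : Set ℝ) := singleton_subset_iff.2 hk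
  obtain ⟨J, hJ, S, hU, hd, hb⟩ := arcs_aux F (h1.mono h2)
    (fun σ hσ hs => hg.circ false σ hσ (fun z hz => ⟨(hs hz).1, h2 (hs hz).2⟩))
  exact ⟨J, hJ, S, hU, hd, hb⟩

/-- **the arcs of a level of `v` on a face** -/
theorem arcs_v (hD : D.Ok) (h : State D u v) (F : Face D) (hg : Good (F.tr u v)) {k : ℝ}
    (hk : k ∈ D.b) :
    ∃ (J : Type) (_ : Finite J) (S : J → Set E), (⋃ j, S j) = {x | x ∈ D.M F.i₀ ∧ v x = k} ∧
      (∀ j j', j ≠ j' → Disjoint (S j) (S j')) ∧ ∀ j, ConBall 1 (S j) (S j ∩ F.bd) := by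
  have h1 : Reg1 F.C (v ∘ F.ch) (D.b : Set ℝ) := reg1 hD F h.conv h.contv h.regv
  have h2 : ({k} : Set ℝ) ⊆ (D.b : Set ℝ) := singleton_subset_iff.2 hk
  obtain ⟨J, hJ, S, hU, hd, hb⟩ := arcs_aux F (h1.mono h2)
    (fun σ hσ hs => hg.circ true σ hσ (fun z hz => ⟨(hs hz).1, h2 (hs hz).2⟩))
  exact ⟨J, hJ, S, hU, hd, hb⟩

/-- the pull back of an arc in a face -/
theorem exists_pull (F : Face D) {S : Set E} {p q : E} (hS : IsArc S p q) (hs : S ⊆ D.M F.i₀) :
    ∃ (a : Set P) (p' q' : P), F.ch '' a = S ∧ F.ch p' = p ∧ F.ch q' = q ∧ a ⊆ F.C ∧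
      IsArc a p' q' := by
  have h1 := (isArc_iff_conBall.1 hS).image F.hom.symm hs
  have hinv : ∀ x ∈ S, F.ch (F.hom.invFun x) = x := by
    intro x hx
    rw [← F.hom_toFun]
    exact F.hom.right_inv (hs hx)
  have h2 : F.hom.symm.toFun '' {p, q} = {F.hom.invFun p, F.hom.invFun q} := by
    rw [image_pair]; rfl
  rw [h2] at h1
  refine ⟨_, F.hom.invFun p, F.hom.invFun q, ?_, hinv p hS.left_mem, hinv q hS.right_mem, ?_,
    isArc_iff_conBall.2 h1⟩
  · rw [image_image]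
    exact (image_congr hinv).trans (image_id' S)
  · rintro _ ⟨x, hx, rfl⟩
    exact F.hom.mapsTo_inv (hs hx)

/-- **two arcs of the two families on a good face meet in at most one point** -/
theorem subsingleton (F : Face D) (hg : Good (F.tr u v)) {S T : Set E} {p q p' q' : E}
    (hS : IsArc S p q) (hT : IsArc T p' q') (hs : ∀ x ∈ S, x ∈ D.M F.i₀ ∧ u x ∈ D.a)
    (ht : ∀ x ∈ T, x ∈ D.M F.i₀ ∧ v x ∈ D.b) : (S ∩ T).Subsingleton := by
  rintro x ⟨hxS, hxT⟩ y ⟨hyS, hyT⟩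
  by_contra hne
  obtain ⟨σ, hσS, hσ, -, -⟩ := IsArc.exists_sub hS hxS hyS hne
  obtain ⟨τ, hτT, hτ, -, -⟩ := IsArc.exists_sub hT hxT hyT hne
  obtain ⟨a, p₁, q₁, ha, hp₁, hq₁, haC, ha'⟩ :=
    exists_pull F hσ (fun z hz => (hs z (hσS hz)).1)
  obtain ⟨b, p₂, q₂, hb, hp₂, hq₂, hbC, hb'⟩ :=
    exists_pull F hτ (fun z hz => (ht z (hτT hz)).1)
  have e1 : p₁ = p₂ := F.ch_inj (hp₁.trans hp₂.symm)
  have e2 : q₁ = q₂ := F.ch_inj (hq₁.trans hq₂.symm)
  subst e1
  subst e2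
  refine hg.bigon a b p₁ q₁ ha' hb' ?_ ?_
  · intro z hz
    exact ⟨haC hz, (hs _ (hσS (ha ▸ mem_image_of_mem _ hz))).2⟩
  · intro z hz
    exact ⟨hbC hz, (ht _ (hτT (hb ▸ mem_image_of_mem _ hz))).2⟩

end State

end P073.H579
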