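import Vale.Agent.P073.H341.Bigon
import Vale.Agent.P073.H341.Circ
import Vale.Agent.P073.H579.Rel
import Vale.Agent.P073.H579.Arcs

/-!
# P073, H579: **(LOC)** sets which are never touched by the exchange process

`Safe D u v Y`: `Y` is closed, every point of `Y`, and every point of a trace of a sheet on `Y`, is
joined to the boundary of the ball inside `Y` resp. inside the trace. Then the region of a bigon or
of a circle in a face which misses `Y` also misses `Y` (`disjoint_bigon`, `disjoint_circle`).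
`exists_good_safe` is (E3) with the clause that nothing changes on `Y`.
-/

set_option linter.unusedSectionVars false

open Set Metric Topology Filter

namespace P073.H579

open P073.TR P073.SCH P073.H339 P073.H341

variable {E : Type*} [NormedAddCommGroup E] [NormedSpace ℝ E] {ι : Type*}

/-- every point of `T` is joined to `B` inside `T` -/
def JoinedB (T B : Set E) : Prop :=
  ∀ x ∈ T, ∃ C ⊆ T, IsPreconnected C ∧ x ∈ C ∧ (C ∩ B).Nonempty

theorem JoinedB.of_preconnected {T B : Set E} (h : IsPreconnected T)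
    (hB : T.Nonempty → (T ∩ B).Nonempty) : JoinedB T B :=
  fun x hx => ⟨T, Subset.rfl, h, hx, hB ⟨x, hx⟩⟩

theorem JoinedB.empty {B : Set E} : JoinedB ∅ B := fun _ hx => absurd hx (notMem_empty _)

theorem JoinedB.iUnion {κ : Type*} {T : κ → Set E} {B : Set E} (h : ∀ i, JoinedB (T i) B) :
    JoinedB (⋃ i, T i) B := by
  intro x hx
  obtain ⟨i, hi⟩ := mem_iUnion.1 hx
  obtain ⟨C, hC, h1, h2, h3⟩ := h i x hi
  exact ⟨C, hC.trans (subset_iUnion T i), h1, h2, h3⟩

/-- a closed set which misses `B` and is open in `T` misses `T` -/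
theorem JoinedB.disjoint {T B R : Set E} (hT : JoinedB T B) (hR : IsClosed R)
    (hRB : Disjoint R B) (ho : ∀ x ∈ R, x ∈ T → ∀ᶠ y in 𝓝 x, y ∈ T → y ∈ R) : Disjoint R T := by
  rw [Set.disjoint_left]
  intro x hx hxT
  obtain ⟨C, hCT, hC, hxC, y, hyC, hyB⟩ := hT x hxT
  choose! V hV using fun x (hx : x ∈ R) (hxT : x ∈ T) =>
    _root_.eventually_nhds_iff.1 (ho x hx hxT)
  have hopen : IsOpen (⋃ x ∈ R ∩ T, V x) :=
    isOpen_biUnion fun x hx => (hV x hx.1 hx.2).2.1
  have h1 : C ⊆ ⋃ x ∈ R ∩ T, V x := by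
    refine ((isPreconnected_iff_subset_of_disjoint.1 hC) _ _ hopen hR.isOpen_compl ?_ ?_).resolve_right ?_
    · intro z hz
      by_cases hzR : z ∈ R
      · exact Or.inl (mem_biUnion (show z ∈ R ∩ T from ⟨hzR, hCT hz⟩)
          (hV z hzR (hCT hz)).2.2)
      · exact Or.inr hzR
    · rw [Set.eq_empty_iff_forall_notMem]
      rintro z ⟨hzC, hz1, hz2⟩
      obtain ⟨w, hw, hzw⟩ := mem_iUnion₂.1 hz1
      exact hz2 ((hV w hw.1 hw.2).1 z hzw (hCT hzC))
    · exact fun h => h hxC hx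
  obtain ⟨w, hw, hyw⟩ := mem_iUnion₂.1 (h1 hyC)
  exact Set.disjoint_left.1 hRB ((hV w hw.1 hw.2).1 y hyw (hCT hyC)) hyB

/-- sets which are never touched -/
structure Safe (D : Data E ι) (u v : E → ℝ) (Y : Set E) : Prop where
  closed : IsClosed Y
  sub : Y ⊆ D.U
  all : JoinedB Y D.B
  ju : ∀ k ∈ D.a, JoinedB {x | x ∈ Y ∧ u x = k} D.B
  jv : ∀ l ∈ D.b, JoinedB {x | x ∈ Y ∧ v x = l} D.B
  juv : ∀ k ∈ D.a, ∀ l ∈ D.b, JoinedB {x | x ∈ Y ∧ u x = k ∧ v x = l} D.B

namespace Safe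

variable {D : Data E ι} {u v : E → ℝ} {Y : Set E}

theorem empty (D : Data E ι) (u v : E → ℝ) : Safe D u v ∅ where
  closed := isClosed_empty
  sub := empty_subset _
  all := JoinedB.empty
  ju := fun _ _ _ hx => absurd hx.1 (notMem_empty _)
  jv := fun _ _ _ hx => absurd hx.1 (notMem_empty _)
  juv := fun _ _ _ _ _ hx => absurd hx.1 (notMem_empty _)

theorem congr {u' v' : E → ℝ} (h : Safe D u v Y) (hu : EqOn u' u Y) (hv : EqOn v' v Y) :
    Safe D u' v' Y where
  closed := h.closed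
  sub := h.sub
  all := h.all
  ju := fun k hk => by
    have e : {x | x ∈ Y ∧ u' x = k} = {x | x ∈ Y ∧ u x = k} := by
      ext x; exact and_congr_right fun hx => by rw [hu hx]
    rw [e]; exact h.ju k hk
  jv := fun l hl => by
    have e : {x | x ∈ Y ∧ v' x = l} = {x | x ∈ Y ∧ v x = l} := by
      ext x; exact and_congr_right fun hx => by rw [hv hx]
    rw [e]; exact h.jv l hl
  juv := fun k hk l hl => by
    have e : {x | x ∈ Y ∧ u' x = k ∧ v' x = l} = {x | x ∈ Y ∧ u x = k ∧ v x = l} := by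
      ext x; exact and_congr_right fun hx => by rw [hu hx, hv hx]
    rw [e]; exact h.juv k hk l hl

theorem iUnion {κ : Type*} [Finite κ] {Y : κ → Set E} (h : ∀ i, Safe D u v (Y i)) :
    Safe D u v (⋃ i, Y i) where
  closed := isClosed_iUnion_of_finite fun i => (h i).closed
  sub := iUnion_subset fun i => (h i).sub
  all := JoinedB.iUnion fun i => (h i).all
  ju := fun k hk => by
    have e : {x | x ∈ ⋃ i, Y i ∧ u x = k} = ⋃ i, {x | x ∈ Y i ∧ u x = k} := by
      ext x; simp only [mem_ofPred_eq, mem_iUnion, exists_and_right]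
    rw [e]; exact JoinedB.iUnion fun i => (h i).ju k hk
  jv := fun l hl => by
    have e : {x | x ∈ ⋃ i, Y i ∧ v x = l} = ⋃ i, {x | x ∈ Y i ∧ v x = l} := by
      ext x; simp only [mem_ofPred_eq, mem_iUnion, exists_and_right]
    rw [e]; exact JoinedB.iUnion fun i => (h i).jv l hl
  juv := fun k hk l hl => by
    have e : {x | x ∈ ⋃ i, Y i ∧ u x = k ∧ v x = l} = ⋃ i, {x | x ∈ Y i ∧ u x = k ∧ v x = l} := by
      ext x; simp only [mem_ofPred_eq, mem_iUnion, exists_and_right]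
    rw [e]; exact JoinedB.iUnion fun i => (h i).juv k hk l hl

end Safe

/-- **the region of a bigon misses safe sets** -/
theorem disjoint_bigon {C B : Set E} {u v : E → ℝ} {X α β : Set E} {p q : E} {Z Z' l₀ : Set E}
    (h : BG C B u v X α β p q Z Z' l₀) (hu : ContinuousOn u C) (hv : ContinuousOn v C)
    {Y : Set E} (hYC : Y ⊆ C) (hYX : Disjoint X Y) (ja : JoinedB Y B)
    (ju : JoinedB {x | x ∈ Y ∧ u x = 0} B) (jv : JoinedB {x | x ∈ Y ∧ v x = 0} B)
    (juv : JoinedB {x | x ∈ Y ∧ u x = 0 ∧ v x = 0} B) : Disjoint Z Y := by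
  have hZc : IsClosed Z := h.hZ.isClosed
  have hZ'c : IsClosed Z' := by
    obtain ⟨R, -, -, -, hR⟩ := h.hZ'
    exact hR.isClosed
  have mZ : ∀ {x}, x ∈ Z → x ∈ C ∧ 0 ≤ u x ∧ 0 ≤ v x := fun {x} hx => by
    have : x ∈ Z ∪ Z' := Or.inl hx
    rw [h.un] at this; exact this
  -- near a point of `Z ∩ Y`, the points of the quadrant are in `Z`
  have near : ∀ x ∈ Z, x ∈ Y → ∀ᶠ y in 𝓝 x, y ∈ C → 0 ≤ u y → 0 ≤ v y → y ∈ Z := by
    intro x hx hxY
    have hxZ' : x ∉ Z' := fun h1 => by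
      have : x ∈ Z ∩ Z' := ⟨hx, h1⟩
      rw [h.int] at this
      exact Set.disjoint_left.1 hYX this hxY
    filter_upwards [hZ'c.isOpen_compl.mem_nhds hxZ'] with y hy h1 h2 h3
    have : y ∈ Z ∪ Z' := by rw [h.un]; exact ⟨h1, h2, h3⟩
    exact this.resolve_right hy
  have pos : ∀ {w : E → ℝ}, ContinuousOn w C → ∀ x ∈ Z, 0 < w x →
      ∀ᶠ y in 𝓝 x, y ∈ C → 0 ≤ w y := by
    intro w hw x hx hwx
    have h1 := (hw x (mZ hx).1).eventually (lt_mem_nhds hwx)
    rw [eventually_nhdsWithin_iff] at h1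
    filter_upwards [h1] with y hy hyC
    exact (hy hyC).le
  have d1 : Disjoint Z {x | x ∈ Y ∧ u x = 0 ∧ v x = 0} := by
    refine juv.disjoint hZc h.hZB fun x hx hxT => ?_
    filter_upwards [near x hx hxT.1] with y hy hyT
    exact hy (hYC hyT.1) hyT.2.1.ge hyT.2.2.ge
  have d2 : Disjoint Z {x | x ∈ Y ∧ u x = 0} := by
    refine ju.disjoint hZc h.hZB fun x hx hxT => ?_
    have hvx : 0 < v x := lt_of_le_of_ne (mZ hx).2.2 fun h0 =>
      Set.disjoint_left.1 d1 hx ⟨hxT.1, hxT.2, h0.symm⟩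
    filter_upwards [near x hx hxT.1, pos hv x hx hvx] with y hy hvy hyT
    exact hy (hYC hyT.1) hyT.2.ge (hvy (hYC hyT.1))
  have d3 : Disjoint Z {x | x ∈ Y ∧ v x = 0} := by
    refine jv.disjoint hZc h.hZB fun x hx hxT => ?_
    have hux : 0 < u x := lt_of_le_of_ne (mZ hx).2.1 fun h0 =>
      Set.disjoint_left.1 d2 hx ⟨hxT.1, h0.symm⟩
    filter_upwards [near x hx hxT.1, pos hu x hx hux] with y hy huy hyT
    exact hy (hYC hyT.1) (huy (hYC hyT.1)) hyT.2.ge
  refine ja.disjoint hZc h.hZB fun x hx hxT => ?_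
  have hux : 0 < u x := lt_of_le_of_ne (mZ hx).2.1 fun h0 =>
    Set.disjoint_left.1 d2 hx ⟨hxT, h0.symm⟩
  have hvx : 0 < v x := lt_of_le_of_ne (mZ hx).2.2 fun h0 =>
    Set.disjoint_left.1 d3 hx ⟨hxT, h0.symm⟩
  filter_upwards [near x hx hxT, pos hu x hx hux, pos hv x hx hvx] with y hy huy hvy hyT
  exact hy (hYC hyT) (huy (hYC hyT)) (hvy (hYC hyT))

/-- **the region of a circle misses safe sets** -/
theorem disjoint_circle {C B : Set E} {u : E → ℝ} {X c : Set E} {Z Z' : Set E}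
    (h : CG C B u X c Z Z') (hu : ContinuousOn u C) {Y : Set E} (hYC : Y ⊆ C)
    (hYX : Disjoint X Y) (ja : JoinedB Y B) (ju : JoinedB {x | x ∈ Y ∧ u x = 0} B) :
    Disjoint Z Y := by
  have hZc : IsClosed Z := h.hZ.isClosed
  have hZ'c : IsClosed Z' := by
    obtain ⟨R, -, -, -, hR⟩ := h.hZ'
    exact hR.isClosed
  have mZ : ∀ {x}, x ∈ Z → x ∈ C ∧ 0 ≤ u x := fun {x} hx => by
    have : x ∈ Z ∪ Z' := Or.inl hx
    rw [h.un] at this; exact this
  have near : ∀ x ∈ Z, x ∈ Y → ∀ᶠ y in 𝓝 x, y ∈ C → 0 ≤ u y → y ∈ Z := by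
    intro x hx hxY
    have hxZ' : x ∉ Z' := fun h1 => by
      have : x ∈ Z ∩ Z' := ⟨hx, h1⟩
      rw [h.int] at this
      exact Set.disjoint_left.1 hYX this hxY
    filter_upwards [hZ'c.isOpen_compl.mem_nhds hxZ'] with y hy h1 h2
    have : y ∈ Z ∪ Z' := by rw [h.un]; exact ⟨h1, h2⟩
    exact this.resolve_right hy
  have d2 : Disjoint Z {x | x ∈ Y ∧ u x = 0} := by
    refine ju.disjoint hZc h.hZB fun x hx hxT => ?_
    filter_upwards [near x hx hxT.1] with y hy hyT
    exact hy (hYC hyT.1) hyT.2.ge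
  refine ja.disjoint hZc h.hZB fun x hx hxT => ?_
  have hux : 0 < u x := lt_of_le_of_ne (mZ hx).2 fun h0 =>
    Set.disjoint_left.1 d2 hx ⟨hxT, h0.symm⟩
  have h1 := (hu x (mZ hx).1).eventually (lt_mem_nhds hux)
  rw [eventually_nhdsWithin_iff] at h1
  filter_upwards [near x hx hxT, h1] with y hy huy hyT
  exact hy (hYC hyT) (huy (hYC hyT)).le

namespace Safe

variable {D : Data E ι} {u v : E → ℝ} {Y : Set E}

/-- the level sets of the shifted functions -/
theorem lev_eq {Y : Set E} {w : E → ℝ} {s k : ℝ} (hs : s = 1 ∨ s = -1) :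
    {x | x ∈ Y ∧ s * (w x - k) = 0} = {x | x ∈ Y ∧ w x = k} := by
  ext x
  refine and_congr_right fun _ => ?_
  rcases hs with rfl | rfl
  · rw [one_mul, sub_eq_zero]
  · rw [neg_one_mul, neg_eq_zero, sub_eq_zero]

theorem disjoint_bigon (hY : Safe D u v Y) {s t k l : ℝ} (hs : s = 1 ∨ s = -1)
    (ht : t = 1 ∨ t = -1) (hk : k ∈ D.a) (hl : l ∈ D.b) {X α β : Set E} {p q : E} {Z Z' l₀ : Set E}
    (h : BG D.U D.B (fun x => s * (u x - k)) (fun x => t * (v x - l)) X α β p q Z Z' l₀)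
    (hu : ContinuousOn u D.U) (hv : ContinuousOn v D.U) (hYX : Disjoint X Y) : Disjoint Z Y := by
  refine P073.H579.disjoint_bigon h (continuousOn_const.mul (hu.sub continuousOn_const))
    (continuousOn_const.mul (hv.sub continuousOn_const)) hY.sub hYX hY.all ?_ ?_ ?_
  · rw [lev_eq hs]; exact hY.ju k hk
  · rw [lev_eq ht]; exact hY.jv l hl
  · have e : {x | x ∈ Y ∧ s * (u x - k) = 0 ∧ t * (v x - l) = 0} =
        {x | x ∈ Y ∧ u x = k ∧ v x = l} := by
      ext x
      have h1 : s * (u x - k) = 0 ↔ u x = k := by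
        rcases hs with rfl | rfl
        · rw [one_mul, sub_eq_zero]
        · rw [neg_one_mul, neg_eq_zero, sub_eq_zero]
      have h2 : t * (v x - l) = 0 ↔ v x = l := by
        rcases ht with rfl | rfl
        · rw [one_mul, sub_eq_zero]
        · rw [neg_one_mul, neg_eq_zero, sub_eq_zero]
      simp only [mem_ofPred_eq, h1, h2]
    rw [e]; exact hY.juv k hk l hl

theorem disjoint_circle (hY : Safe D u v Y) {s k : ℝ} (hs : s = 1 ∨ s = -1) (hk : k ∈ D.a)
    {X c : Set E} {Z Z' : Set E} (h : CG D.U D.B (fun x => s * (u x - k)) X c Z Z')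
    (hu : ContinuousOn u D.U) (hYX : Disjoint X Y) : Disjoint Z Y := by
  refine P073.H579.disjoint_circle h (continuousOn_const.mul (hu.sub continuousOn_const))
    hY.sub hYX hY.all ?_
  rw [lev_eq hs]; exact hY.ju k hk

end Safe

/-! ### The process -/

/-- **one step**, nothing changes on `Y` -/
def StepY {D : Data E ι} {J : Type*} [Fintype J] (F : J → Face D) (Y : Set E) : Prop :=
  ∀ u v, State D u v → Safe D u v Y → ∀ j K, CleanDisc (F j).C ((F j).tr u v) K →
    Disjoint (D.M (F j).i₀) Y →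
    ∃ u' v', State D u' v' ∧ Rel D u v u' v' ∧ Less F u' v' u v ∧ EqOn u' u Y ∧ EqOn v' v Y

/-- no clean discs in faces without crossings and circles -/
theorem not_cleanDisc {D : Data E ι} {u v : E → ℝ} (F : Face D) (hoff : Off D F.i₀ u v)
    (hcirc : NoCirc D F.i₀ u v) (K : Set P) : ¬ CleanDisc F.C (F.tr u v) K := by
  intro hK
  have hmem : ∀ {z}, z ∈ F.C → F.ch z ∈ D.M F.i₀ ∧ F.ch z ∈ D.U := fun {z} hz =>
    ⟨F.ch_mem hz, F.subU (F.ch_mem hz)⟩
  have hKC : frontier K ⊆ F.C :=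
    (hK.disc.isClosed.frontier_subset.trans hK.int).trans interior_subset
  rcases hK.bd with ⟨i, h1, -⟩ | ⟨a, b, p, q, -, -, ha, hb, hab, -, -, -⟩
  · have hci : IsCircle (F.ch '' frontier K) := by
      rw [← F.hom_toFun]
      exact IsCircle.image hK.disc.frontier_isCircle F.hom hKC
    have h2 := hcirc _ hci
    cases i
    · apply h2.1
      rintro _ ⟨z, hz, rfl⟩
      have h3 := h1 hz
      rw [Face.mem_tr_false] at h3
      exact ⟨hmem h3.1, h3.2⟩
    · apply h2.2
      rintro _ ⟨z, hz, rfl⟩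
      have h3 := h1 hz
      rw [Face.mem_tr_true] at h3
      exact ⟨hmem h3.1, h3.2⟩
  · have hp : p ∈ a ∩ F.tr u v true := by rw [hab]; exact Or.inl rfl
    have h1 := ha hp.1
    have h2 := hp.2
    rw [Face.mem_tr_false] at h1
    rw [Face.mem_tr_true] at h2
    exact Set.disjoint_left.1 hoff (show F.ch p ∈ Tu D F.i₀ u from ⟨hmem h1.1, h1.2⟩)
      ⟨hmem h1.1, h2.2⟩

/-- **(E3) with (LOC)**: nothing changes on `Y` -/
theorem exists_good_safe {D : Data E ι} (hD : D.Ok) {J : Type*} [Fintype J] (F : J → Face D)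
    {Y : Set E} (hstep : StepY F Y) {u v : E → ℝ} (h : State D u v) (hY : Safe D u v Y)
    (hF : ∀ j, ¬ Disjoint (D.M (F j).i₀) Y → Off D (F j).i₀ u v ∧ NoCirc D (F j).i₀ u v) :
    ∃ u' v', State D u' v' ∧ Rel D u v u' v' ∧ (∀ j, Good ((F j).tr u' v')) ∧
      EqOn u' u Y ∧ EqOn v' v Y := by
  -- lexicographic induction
  have key : ∀ n m : ℕ, ∀ u v : E → ℝ, State D u v → Safe D u v Y →
      (∀ j, ¬ Disjoint (D.M (F j).i₀) Y → Off D (F j).i₀ u v ∧ NoCirc D (F j).i₀ u v) →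
      nX F u v = n → nC F u v = m →
      ∃ u' v', State D u' v' ∧ Rel D u v u' v' ∧ (∀ j, Good ((F j).tr u' v')) ∧
      EqOn u' u Y ∧ EqOn v' v Y := by
    intro n
    induction n using Nat.strong_induction_on with
    | _ n ihn =>
      intro m
      induction m using Nat.strong_induction_on with
      | _ m ihm =>
        intro u v h hY hF hn hm
        by_cases hg : ∀ j, Good ((F j).tr u v)
        · exact ⟨u, v, h, Rel.refl D u v, hg, fun _ _ => rfl, fun _ _ => rfl⟩
        · push Not at hg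
          obtain ⟨j, hj⟩ := hg
          obtain ⟨K, hK⟩ := (good_or_cleanDisc (h.web hD (F j))).resolve_left hj
          have hdis : Disjoint (D.M (F j).i₀) Y := by
            by_contra hnd
            obtain ⟨h1, h2⟩ := hF j hnd
            exact not_cleanDisc (F j) h1 h2 K hK
          obtain ⟨u', v', h1, h2, h3, h4, h5⟩ := hstep u v h hY j K hK hdis
          have hY' : Safe D u' v' Y := hY.congr h4 h5
          have hF' : ∀ j, ¬ Disjoint (D.M (F j).i₀) Y →
              Off D (F j).i₀ u' v' ∧ NoCirc D (F j).i₀ u' v' := fun j hj => by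
            obtain ⟨k1, k2⟩ := hF j hj
            exact ⟨h2.off _ k1, h2.circ _ k1 k2⟩
          have h6 : ∃ u'' v'', State D u'' v'' ∧ Rel D u' v' u'' v'' ∧
              (∀ j, Good ((F j).tr u'' v'')) ∧ EqOn u'' u' Y ∧ EqOn v'' v' Y := by
            rcases h3 with h3 | ⟨h3, h3'⟩
            · exact ihn _ (hn ▸ h3) _ u' v' h1 hY' hF' rfl rfl
            · rcases h3.lt_or_eq with h5 | h5
              · exact ihn _ (hn ▸ h5) _ u' v' h1 hY' hF' rfl rfl
              · exact ihm _ (hm ▸ h3') u' v' h1 hY' hF' (h5.trans hn) rfl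
          obtain ⟨u'', v'', k1, k2, k3, k4, k5⟩ := h6
          exact ⟨u'', v'', k1, h2.trans k2, k3, fun x hx => (k4 hx).trans (h4 hx),
            fun x hx => (k5 hx).trans (h5 hx)⟩
  exact key _ _ u v h hY hF rfl rfl

/-- the step without the clause on `Y` -/
theorem StepY.stepP {D : Data E ι} {J : Type*} [Fintype J] {F : J → Face D} (h : StepY F ∅) :
    StepP F := by
  intro u v hs j K hK
  obtain ⟨u', v', h1, h2, h3, -, -⟩ := h u v hs (Safe.empty D u v) j K hK (disjoint_empty _)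
  exact ⟨u', v', h1, h2, h3⟩

end P073.H579
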