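import Vale.Agent.P073.H341.Uncond
import Vale.Agent.P073.PR.Faces
import Vale.Agent.P073.TR.OneDim2

/-!
# P073, H579: the model of two families of sheets: the coordinate planes in a box
-/

open Set Metric Topology Filter

namespace P073.H579

open P073 P073.H341

theorem mem_frontier_box {n : ℕ} {a b y : Fin n → ℝ} :
    y ∈ frontier (Icc a b) ↔ y ∈ Icc a b ∧ ∃ k, y k = a k ∨ y k = b k := by
  rw [isClosed_Icc.frontier_eq, interior_Icc_pi']
  constructor
  · rintro ⟨h, h2⟩
    refine ⟨h, ?_⟩
    by_contra h3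
    push Not at h3
    exact h2 fun k => ⟨lt_of_le_of_ne (h.1 k) (Ne.symm (h3 k).1), lt_of_le_of_ne (h.2 k) (h3 k).2⟩
  · rintro ⟨h, k, hk⟩
    refine ⟨h, fun h2 => ?_⟩
    have := h2 k
    rcases hk with hk | hk
    · exact absurd this.1 (by rw [hk]; exact lt_irrefl _)
    · exact absurd this.2 (by rw [hk]; exact lt_irrefl _)

theorem exists_others (i : Fin 3) : ∃ j k : Fin 3, j ≠ k ∧ i ≠ j ∧ i ≠ k ∧
    ∀ l, l = i ∨ l = j ∨ l = k := by
  fin_cases i
  · exact ⟨1, 2, by decide⟩
  · exact ⟨0, 2, by decide⟩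
  · exact ⟨0, 1, by decide⟩

theorem exists_third {i j : Fin 3} (hij : i ≠ j) : ∃ k : Fin 3, i ≠ k ∧ j ≠ k ∧
    ∀ l, l = i ∨ l = j ∨ l = k := by
  fin_cases i <;> fin_cases j <;>
    first
    | exact absurd rfl hij
    | exact ⟨0, by decide⟩
    | exact ⟨1, by decide⟩
    | exact ⟨2, by decide⟩

variable {lo hi : Fin 3 → ℝ}

/-- the coordinate sheets of a box -/
def sheet (lo hi : Fin 3 → ℝ) (i : Fin 3) (c : ℝ) : Set (Fin 3 → ℝ) := {y | y ∈ Icc lo hi ∧ y i = c}

theorem conBall_sheet (h : ∀ l, lo l < hi l) {i : Fin 3} {c : ℝ} (hc : lo i < c ∧ c < hi i) :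
    ConBall 2 (sheet lo hi i c) (sheet lo hi i c ∩ frontier (Icc lo hi)) := by
  obtain ⟨j, k, hjk, hij, hik, hall⟩ := exists_others i
  have h1 := conBall_face hjk (fun _ => c) (a := ![lo j, lo k]) (b := ![hi j, hi k]) (by
    intro l
    fin_cases l
    · exact h j
    · exact h k)
  have e1 : faceMap j k (fun _ => c) '' Icc ![lo j, lo k] ![hi j, hi k] = sheet lo hi i c := by
    rw [faceMap_image_Icc hjk]
    ext x
    simp only [Matrix.cons_val_zero, Matrix.cons_val_one, sheet, mem_ofPred_eq]
    constructor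
    · rintro ⟨hj, hk, h2⟩
      have hi' := h2 i hij hik
      refine ⟨⟨fun l => ?_, fun l => ?_⟩, hi'⟩
      · rcases hall l with rfl | rfl | rfl
        · rw [hi']; exact hc.1.le
        · exact hj.1
        · exact hk.1
      · rcases hall l with rfl | rfl | rfl
        · rw [hi']; exact hc.2.le
        · exact hj.2
        · exact hk.2
    · rintro ⟨h2, h3⟩
      refine ⟨⟨h2.1 j, h2.2 j⟩, ⟨h2.1 k, h2.2 k⟩, fun l hl hl' => ?_⟩
      rcases hall l with rfl | rfl | rfl
      · exact h3
      · exact absurd rfl hl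
      · exact absurd rfl hl'
  have e2 : faceMap j k (fun _ => c) '' frontier (Icc ![lo j, lo k] ![hi j, hi k]) =
      sheet lo hi i c ∩ frontier (Icc lo hi) := by
    apply Subset.antisymm
    · rintro _ ⟨v, hv, rfl⟩
      have hv1 : faceMap j k (fun _ => c) v ∈ sheet lo hi i c := by
        rw [← e1]
        exact ⟨v, isClosed_Icc.frontier_subset hv, rfl⟩
      refine ⟨hv1, mem_frontier_box.2 ⟨hv1.1, ?_⟩⟩
      rw [frontier_Icc_fin2] at hv
      have ej : faceMap j k (fun _ => c) v j = v 0 := by rw [faceMap_apply, if_pos rfl]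
      have ek : faceMap j k (fun _ => c) v k = v 1 := by
        rw [faceMap_apply, if_neg hjk.symm, if_pos rfl]
      rcases hv.2 with h2 | h2 | h2 | h2
      · exact ⟨j, Or.inl (by rw [ej, h2]; rfl)⟩
      · exact ⟨j, Or.inr (by rw [ej, h2]; rfl)⟩
      · exact ⟨k, Or.inl (by rw [ek, h2]; rfl)⟩
      · exact ⟨k, Or.inr (by rw [ek, h2]; rfl)⟩
    · rintro x ⟨hx, hx2⟩
      have hx' := hx
      rw [← e1] at hx'
      obtain ⟨v, hv, rfl⟩ := hx'
      refine ⟨v, ?_, rfl⟩
      rw [frontier_Icc_fin2]
      refine ⟨hv, ?_⟩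
      have ej : faceMap j k (fun _ => c) v j = v 0 := by rw [faceMap_apply, if_pos rfl]
      have ek : faceMap j k (fun _ => c) v k = v 1 := by
        rw [faceMap_apply, if_neg hjk.symm, if_pos rfl]
      obtain ⟨l, hl⟩ := (mem_frontier_box.1 hx2).2
      rcases hall l with rfl | rfl | rfl
      · exfalso
        rw [hx.2] at hl
        rcases hl with hl | hl
        · exact absurd hl hc.1.ne'
        · exact absurd hl hc.2.ne
      · rw [ej] at hl
        rcases hl with hl | hl
        · exact Or.inl hl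
        · exact Or.inr (Or.inl hl)
      · rw [ek] at hl
        rcases hl with hl | hl
        · exact Or.inr (Or.inr (Or.inl hl))
        · exact Or.inr (Or.inr (Or.inr hl))
  rw [e1, e2] at h1
  exact h1

/-- the point with coordinates `c`, `d` in the directions `i`, `j` -/
def pt (i j : Fin 3) (c d : ℝ) (w : Fin 3 → ℝ) : Fin 3 → ℝ :=
  fun l => if l = i then c else if l = j then d else w l

theorem conBall_line (h : ∀ l, lo l < hi l) {i j : Fin 3} (hij : i ≠ j) {c d : ℝ}
    (hc : lo i < c ∧ c < hi i) (hd : lo j < d ∧ d < hi j) :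
    ConBall 1 (sheet lo hi i c ∩ sheet lo hi j d)
      (sheet lo hi i c ∩ sheet lo hi j d ∩ frontier (Icc lo hi)) := by
  obtain ⟨k, hik, hjk, hall⟩ := exists_third hij
  have hne : pt i j c d lo ≠ pt i j c d hi := by
    intro he
    have := congrFun he k
    simp only [pt, if_neg hik.symm, if_neg hjk.symm] at this
    exact absurd this (h k).ne
  have pi_ : ∀ w, pt i j c d w i = c := fun w => by simp [pt]
  have pj_ : ∀ w, pt i j c d w j = d := fun w => by simp [pt, hij.symm]
  have pk_ : ∀ w, pt i j c d w k = w k := fun w => by simp [pt, hik.symm, hjk.symm]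
  have h1 := TR.OneDim.conBall_segment hne
  have e1 : segment ℝ (pt i j c d lo) (pt i j c d hi) = sheet lo hi i c ∩ sheet lo hi j d := by
    apply Subset.antisymm
    · rintro _ ⟨s, t, hs, ht, hst, rfl⟩
      have ei : (s • pt i j c d lo + t • pt i j c d hi) i = c := by
        simp only [Pi.add_apply, Pi.smul_apply, smul_eq_mul, pi_]
        rw [← add_mul, hst, one_mul]
      have ej : (s • pt i j c d lo + t • pt i j c d hi) j = d := by
        simp only [Pi.add_apply, Pi.smul_apply, smul_eq_mul, pj_]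
        rw [← add_mul, hst, one_mul]
      have ek : (s • pt i j c d lo + t • pt i j c d hi) k = s * lo k + t * hi k := by
        simp only [Pi.add_apply, Pi.smul_apply, smul_eq_mul, pk_]
      have hI : s • pt i j c d lo + t • pt i j c d hi ∈ Icc lo hi := by
        have hk := h k
        have hs1 : s = 1 - t := by linarith
        have ht1 : t = 1 - s := by linarith
        constructor <;> intro l <;> rcases hall l with rfl | rfl | rfl
        · rw [ei]; exact hc.1.le
        · rw [ej]; exact hd.1.le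
        · rw [ek]; rw [hs1]; nlinarith [mul_nonneg ht (sub_nonneg.2 hk.le)]
        · rw [ei]; exact hc.2.le
        · rw [ej]; exact hd.2.le
        · rw [ek]; rw [ht1]; nlinarith [mul_nonneg hs (sub_nonneg.2 hk.le)]
      exact ⟨⟨hI, ei⟩, hI, ej⟩
    · rintro x ⟨⟨hx, hxi⟩, -, hxj⟩
      have hk := h k
      have hk' : 0 < hi k - lo k := sub_pos.2 hk
      refine ⟨(hi k - x k) / (hi k - lo k), (x k - lo k) / (hi k - lo k),
        div_nonneg (sub_nonneg.2 (hx.2 k)) hk'.le, div_nonneg (sub_nonneg.2 (hx.1 k)) hk'.le, ?_, ?_⟩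
      · rw [← add_div]
        rw [div_eq_one_iff_eq hk'.ne']
        ring
      · funext l
        have hsum : (hi k - x k) / (hi k - lo k) + (x k - lo k) / (hi k - lo k) = 1 := by
          rw [← add_div]
          rw [div_eq_one_iff_eq hk'.ne']
          ring
        simp only [Pi.add_apply, Pi.smul_apply, smul_eq_mul]
        rcases hall l with rfl | rfl | rfl
        · rw [pi_, pi_, ← add_mul, hsum, one_mul, hxi]
        · rw [pj_, pj_, ← add_mul, hsum, one_mul, hxj]
        · rw [pk_, pk_]
          field_simp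
          ring
  have e2 : ({pt i j c d lo, pt i j c d hi} : Set (Fin 3 → ℝ)) =
      sheet lo hi i c ∩ sheet lo hi j d ∩ frontier (Icc lo hi) := by
    apply Subset.antisymm
    · rintro x (rfl | rfl)
      · have hm : pt i j c d lo ∈ sheet lo hi i c ∩ sheet lo hi j d := by
          rw [← e1]; exact left_mem_segment _ _ _
        exact ⟨hm, mem_frontier_box.2 ⟨hm.1.1, k, Or.inl (pk_ lo)⟩⟩
      · have hm : pt i j c d hi ∈ sheet lo hi i c ∩ sheet lo hi j d := by
          rw [← e1]; exact right_mem_segment _ _ _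
        exact ⟨hm, mem_frontier_box.2 ⟨hm.1.1, k, Or.inr (pk_ hi)⟩⟩
    · rintro x ⟨⟨⟨hx, hxi⟩, -, hxj⟩, hxf⟩
      obtain ⟨l, hl⟩ := (mem_frontier_box.1 hxf).2
      rcases hall l with rfl | rfl | rfl
      · exfalso
        rw [hxi] at hl
        rcases hl with hl | hl
        · exact absurd hl hc.1.ne'
        · exact absurd hl hc.2.ne
      · exfalso
        rw [hxj] at hl
        rcases hl with hl | hl
        · exact absurd hl hd.1.ne'
        · exact absurd hl hd.2.ne
      · rcases hl with hl | hl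
        · left
          funext l'
          rcases hall l' with rfl | rfl | rfl
          · rw [pi_, hxi]
          · rw [pj_, hxj]
          · rw [pk_, hl]
        · right
          rw [mem_singleton_iff]
          funext l'
          rcases hall l' with rfl | rfl | rfl
          · rw [pi_, hxi]
          · rw [pj_, hxj]
          · rw [pk_, hl]
  rw [e1, e2] at h1
  exact h1

/-- **the model** -/
theorem twoFam_box (h : ∀ l, lo l < hi l) {i j : Fin 3} (hij : i ≠ j) {a b : Finset ℝ}
    (ha : ∀ k ∈ a, lo i < k ∧ k < hi i) (hb : ∀ k ∈ b, lo j < k ∧ k < hi j) :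
    TwoFam 1 (Icc lo hi) (frontier (Icc lo hi)) a (sheet lo hi i) b (sheet lo hi j) where
  hC := conBall_Icc_pi three_ne_zero h
  hS := fun k hk => conBall_sheet h (ha k hk)
  hSC := fun k _ x hx => hx.1
  hSd := fun k _ k' _ hkk => by
    rw [Set.disjoint_left]
    rintro x ⟨_, h1⟩ ⟨_, h2⟩
    exact hkk (h1.symm.trans h2)
  hT := fun k hk => conBall_sheet h (hb k hk)
  hTC := fun k _ x hx => hx.1
  hTd := fun k _ k' _ hkk => by
    rw [Set.disjoint_left]
    rintro x ⟨_, h1⟩ ⟨_, h2⟩
    exact hkk (h1.symm.trans h2)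
  hX := fun k hk l hl _ => conBall_line h hij (ha k hk) (hb l hl)

theorem line_nonempty (h : ∀ l, lo l < hi l) {i j : Fin 3} (hij : i ≠ j) {c d : ℝ}
    (hc : lo i < c ∧ c < hi i) (hd : lo j < d ∧ d < hi j) :
    (sheet lo hi i c ∩ sheet lo hi j d ∩ frontier (Icc lo hi)).Nonempty :=
  (conBall_line h hij hc hd).bdry_nonempty'

/-- the model sheets cross -/
theorem crosses_box {i j : Fin 3} (hij : i ≠ j) {c : ℝ} (hc : lo i < c ∧ c < hi i) (d : ℝ) :
    Crosses (Icc lo hi) (sheet lo hi i c) (sheet lo hi j d) := by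
  refine ⟨fun y => y i - c, by fun_prop, fun x hx => ?_, ?_⟩
  · rw [sub_eq_zero]
    exact ⟨fun h => ⟨hx, h⟩, fun h => h.2⟩
  · rintro x ⟨⟨hx, hxi⟩, -, hxj⟩
    have key : ∀ s : ℝ, (∀ᶠ t in 𝓝[>] (0:ℝ), lo i ≤ c + t * s ∧ c + t * s ≤ hi i) := by
      intro s
      apply Filter.Eventually.filter_mono nhdsWithin_le_nhds
      have h1 : ContinuousAt (fun t : ℝ => c + t * s) 0 := by fun_prop
      have h2 := h1.eventually_const_lt (u := lo i) (by simpa using hc.1)
      have h3 := h1.eventually_lt_const (u := hi i) (by simpa using hc.2)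
      filter_upwards [h2, h3] with t h4 h5
      exact ⟨h4.le, h5.le⟩
    have cl : ∀ s : ℝ, Tendsto (fun t : ℝ => Function.update x i (c + t * s)) (𝓝[>] 0) (𝓝 x) := by
      intro s
      have h1 : ContinuousAt (fun t : ℝ => Function.update x i (c + t * s)) 0 :=
        (continuous_const.update i (by fun_prop)).continuousAt
      have h2 : Function.update x i (c + 0 * s) = x := by
        rw [zero_mul, add_zero, ← hxi, Function.update_eq_self]
      have h3 := h1.tendsto
      rw [h2] at h3
      exact h3.mono_left nhdsWithin_le_nhds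
    have hmem : ∀ s : ℝ, ∀ᶠ t in 𝓝[>] (0:ℝ), Function.update x i (c + t * s) ∈ sheet lo hi j d := by
      intro s
      filter_upwards [key s] with t ht
      refine ⟨⟨fun l => ?_, fun l => ?_⟩, ?_⟩
      · by_cases hl : l = i
        · rw [hl, Function.update_self]; exact ht.1
        · rw [Function.update_of_ne hl]; exact hx.1 l
      · by_cases hl : l = i
        · rw [hl, Function.update_self]; exact ht.2
        · rw [Function.update_of_ne hl]; exact hx.2 l
      · rw [Function.update_of_ne hij.symm]; exact hxj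
    constructor
    · apply mem_closure_of_tendsto (cl 1)
      filter_upwards [hmem 1, self_mem_nhdsWithin] with t ht h0
      refine ⟨ht, ?_⟩
      show 0 < Function.update x i (c + t * 1) i - c
      rw [Function.update_self]
      have : (0:ℝ) < t := h0
      linarith
    · apply mem_closure_of_tendsto (cl (-1))
      filter_upwards [hmem (-1), self_mem_nhdsWithin] with t ht h0
      refine ⟨ht, ?_⟩
      show Function.update x i (c + t * (-1)) i - c < 0
      rw [Function.update_self]
      have : (0:ℝ) < t := h0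
      linarith

/-- images of two families -/
theorem TwoFam.image {E F : Type*} [NormedAddCommGroup E] [NormedSpace ℝ E]
    [NormedAddCommGroup F] [NormedSpace ℝ F] {ι κ : Type*} {n : ℕ} {C B : Set E} {K : Finset ι}
    {S : ι → Set E} {L : Finset κ} {T : κ → Set E} (h : TwoFam n C B K S L T) {X : Set E}
    {Y : Set F} (Φ : ConHomeo X Y) (hC : C ⊆ X) :
    TwoFam n (Φ.toFun '' C) (Φ.toFun '' B) K (fun k => Φ.toFun '' S k) L
      (fun l => Φ.toFun '' T l) := by
  have hB : B ⊆ X := h.hC.1.trans hC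
  have hint : ∀ {Z Z' : Set E}, Z ⊆ X → Z' ⊆ X → Φ.toFun '' (Z ∩ Z') =
      Φ.toFun '' Z ∩ Φ.toFun '' Z' := fun hZ hZ' =>
    (Φ.injOn.image_inter hZ hZ')
  have hdis : ∀ {Z Z' : Set E}, Z ⊆ X → Z' ⊆ X → Disjoint Z Z' →
      Disjoint (Φ.toFun '' Z) (Φ.toFun '' Z') := by
    intro Z Z' hZ hZ' hd
    rw [disjoint_iff_inter_eq_empty, ← hint hZ hZ', disjoint_iff_inter_eq_empty.1 hd, image_empty]
  refine ⟨h.hC.image Φ hC, fun k hk => ?_, fun k hk => image_mono (h.hSC k hk),
    fun k hk k' hk' hkk => hdis ((h.hSC k hk).trans hC) ((h.hSC k' hk').trans hC)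
      (h.hSd k hk k' hk' hkk), fun l hl => ?_, fun l hl => image_mono (h.hTC l hl),
    fun l hl l' hl' hll => hdis ((h.hTC l hl).trans hC) ((h.hTC l' hl').trans hC)
      (h.hTd l hl l' hl' hll), fun k hk l hl hne => ?_⟩
  · rw [← hint ((h.hSC k hk).trans hC) hB]
    exact (h.hS k hk).image Φ ((h.hSC k hk).trans hC)
  · rw [← hint ((h.hTC l hl).trans hC) hB]
    exact (h.hT l hl).image Φ ((h.hTC l hl).trans hC)
  · have s1 : S k ∩ T l ⊆ X := inter_subset_left.trans ((h.hSC k hk).trans hC)
    rw [← hint ((h.hSC k hk).trans hC) ((h.hTC l hl).trans hC)] at hne ⊢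
    rw [← hint s1 hB]
    exact (h.hX k hk l hl (image_nonempty.1 hne)).image Φ s1

end P073.H579
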