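import Vale.Agent.P073.H579.State
import Vale.Agent.P073.H579.Box

/-!
# P073, H579: **(S0)** the initial state in a box and the final homeomorphism

`h : ConHomeo Ω Λ`, a box `Icc lo hi ⊆ Λ`, two coordinates `i ≠ j`, finite sets of levels `a`, `b`.
`BoxOk.init`: the pair `(h_i, h_j)` is a state. `BoxOk.final`: from a state `(u, v)` one gets a
conical homeomorphism from `h⁻¹ (Icc lo hi)` onto the box, equal to `h` on the boundary, whose
coordinates `i`, `j` have the same levels (and the same signs) as `u`, `v`.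
-/

open Set Metric Topology Filter

namespace P073.H579

open P073.TR P073.SCH P073.H339 P073.H341

variable {E : Type*} [NormedAddCommGroup E] [NormedSpace ℝ E] {ι : Type*} {Ω : Set E}
  {Λ : Set (Fin 3 → ℝ)}

/-- the data of a box -/
def boxData (h : ConHomeo Ω Λ) (M : ι → Set E) (lo hi : Fin 3 → ℝ) (i j : Fin 3)
    (a b : Finset ℝ) : Data E ι where
  M := M
  W := Ω
  U := h.invFun '' Icc lo hi
  B := h.invFun '' frontier (Icc lo hi)
  a := a
  b := b
  u₀ := fun x => h.toFun x i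
  v₀ := fun x => h.toFun x j

/-- the hypotheses for a box -/
structure BoxOk (h : ConHomeo Ω Λ) (M : ι → Set E) (lo hi : Fin 3 → ℝ) (i j : Fin 3)
    (a b : Finset ℝ) : Prop where
  isOpen : IsOpen Ω
  cone : ∀ m, ∀ x ∈ Ω, LocConeAt (M m) x
  lt : ∀ l, lo l < hi l
  sub : Icc lo hi ⊆ Λ
  ij : i ≠ j
  a_mem : ∀ k ∈ a, lo i < k ∧ k < hi i
  b_mem : ∀ k ∈ b, lo j < k ∧ k < hi j
  iU : ∃ m, M m = h.invFun '' Icc lo hi
  iB : ∃ m, M m = h.invFun '' frontier (Icc lo hi)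
  regu : ∀ x ∈ h.invFun '' Icc lo hi, h.toFun x i ∈ a →
    ∃ (σ : ℝ →ₗ[ℝ] E) (r : ℝ), FlowBox (fun x => h.toFun x i) M x σ r
  regv : ∀ x ∈ h.invFun '' Icc lo hi, h.toFun x j ∈ b →
    ∃ (σ : ℝ →ₗ[ℝ] E) (r : ℝ), FlowBox (fun x => h.toFun x j) M x σ r
  reguv : ∀ x ∈ h.invFun '' Icc lo hi, h.toFun x i ∈ a → h.toFun x j ∈ b →
    ∃ (σ : ℝ × ℝ →ₗ[ℝ] E) (r : ℝ), FlowBox (fun x => (h.toFun x i, h.toFun x j)) M x σ r

namespace BoxOk

variable {h : ConHomeo Ω Λ} {M : ι → Set E} {lo hi : Fin 3 → ℝ} {i j : Fin 3} {a b : Finset ℝ}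

theorem frontier_sub : frontier (Icc lo hi) ⊆ Icc lo hi := isClosed_Icc.frontier_subset

theorem mem_U (H : BoxOk h M lo hi i j a b) {x : E} (hx : x ∈ h.invFun '' Icc lo hi) :
    x ∈ Ω ∧ h.toFun x ∈ Icc lo hi := by
  obtain ⟨y, hy, rfl⟩ := hx
  refine ⟨h.mapsTo_inv (H.sub hy), ?_⟩
  rw [h.right_inv (H.sub hy)]; exact hy

theorem mem_B (H : BoxOk h M lo hi i j a b) {x : E} (hx : x ∈ h.invFun '' frontier (Icc lo hi)) :
    x ∈ Ω ∧ h.toFun x ∈ frontier (Icc lo hi) := by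
  obtain ⟨y, hy, rfl⟩ := hx
  have hy' := H.sub (frontier_sub hy)
  refine ⟨h.mapsTo_inv hy', ?_⟩
  rw [h.right_inv hy']; exact hy

theorem image_sheet (H : BoxOk h M lo hi i j a b) (l : Fin 3) (c : ℝ) :
    h.symm.toFun '' sheet lo hi l c = {x | x ∈ h.invFun '' Icc lo hi ∧ h.toFun x l = c} := by
  ext x
  constructor
  · rintro ⟨y, ⟨hy, hyc⟩, rfl⟩
    refine ⟨⟨y, hy, rfl⟩, ?_⟩
    show h.toFun (h.invFun y) l = c
    rw [h.right_inv (H.sub hy)]; exact hyc
  · rintro ⟨⟨y, hy, rfl⟩, hc⟩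
    rw [h.right_inv (H.sub hy)] at hc
    exact ⟨y, ⟨hy, hc⟩, rfl⟩

theorem ok (H : BoxOk h M lo hi i j a b) : (boxData h M lo hi i j a b).Ok where
  isOpen := H.isOpen
  UW := fun _ hx => (H.mem_U hx).1
  cone := H.cone
  ball := (conBall_Icc_pi three_ne_zero H.lt).image h.symm H.sub
  iU := H.iU
  iB := H.iB

theorem conical_coord (h : ConHomeo Ω Λ) (l : Fin 3) : ConicalOn (fun x => h.toFun x l) Ω :=
  h.conical.linear_comp (LinearMap.proj l : (Fin 3 → ℝ) →ₗ[ℝ] ℝ)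

theorem cont_coord (h : ConHomeo Ω Λ) (l : Fin 3) : ContinuousOn (fun x => h.toFun x l) Ω :=
  (continuous_apply l).comp_continuousOn h.cont

/-- **the initial state** -/
theorem init (H : BoxOk h M lo hi i j a b) :
    State (boxData h M lo hi i j a b) (fun x => h.toFun x i) (fun x => h.toFun x j) where
  conu := conical_coord h i
  contu := cont_coord h i
  conv := conical_coord h j
  contv := cont_coord h j
  regu := H.regu
  regv := H.regv
  reguv := H.reguv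
  two := by
    have h1 := TwoFam.image (twoFam_box H.lt H.ij H.a_mem H.b_mem) h.symm H.sub
    have e1 : (fun k => h.symm.toFun '' sheet lo hi i k) =
        fun k => {x | x ∈ h.invFun '' Icc lo hi ∧ h.toFun x i = k} := by
      funext k; exact H.image_sheet i k
    have e2 : (fun k => h.symm.toFun '' sheet lo hi j k) =
        fun k => {x | x ∈ h.invFun '' Icc lo hi ∧ h.toFun x j = k} := by
      funext k; exact H.image_sheet j k
    rw [e1, e2] at h1
    exact h1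
  off := ⟨∅, isCompact_empty, empty_subset _, fun x _ => ⟨rfl, rfl⟩⟩

/-- signs from levels -/
theorem sign_aux {U : Set E} {lo hi : Fin 3 → ℝ} (Φ : ConHomeo U (Icc lo hi)) {u : E → ℝ}
    (hu : ContinuousOn u U) {l : Fin 3} {k : ℝ} (hk : lo l < k ∧ k < hi l)
    (hlt : ∀ m, lo m < hi m) (h0 : ∀ x ∈ U, (Φ.toFun x l = k ↔ u x = k))
    (hB : ∀ x ∈ U, Φ.toFun x ∈ frontier (Icc lo hi) → u x = Φ.toFun x l) :
    ∀ x ∈ U, (Φ.toFun x l < k ↔ u x < k) ∧ (k < Φ.toFun x l ↔ k < u x) := by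
  have conv : ∀ s : Set (Fin 3 → ℝ), Convex ℝ s → s ⊆ Icc lo hi →
      IsPreconnected (Φ.invFun '' s) := fun s hs hsub =>
    hs.isPreconnected.image _ (Φ.cont_inv.mono hsub)
  have lem : ∀ x ∈ U, Φ.toFun x l < k → u x < k := by
    intro x hx hxk
    set s : Set (Fin 3 → ℝ) := {y | y ∈ Icc lo hi ∧ y l < k} with hs
    have hsc : Convex ℝ s := (convex_Icc lo hi).inter
      (convex_halfSpace_lt (LinearMap.isLinear (LinearMap.proj l : (Fin 3 → ℝ) →ₗ[ℝ] ℝ)) k)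
    have hss : s ⊆ Icc lo hi := fun y hy => hy.1
    have hpre := conv s hsc hss
    have hsub : Φ.invFun '' s ⊆ U := by
      rintro _ ⟨y, hy, rfl⟩
      exact Φ.mapsTo_inv hy.1
    have hlo : lo ∈ s := ⟨⟨le_refl _, fun m => (hlt m).le⟩, hk.1⟩
    have hlo2 : u (Φ.invFun lo) < k := by
      have h1 : Φ.toFun (Φ.invFun lo) = lo := Φ.right_inv hlo.1
      have h2 := hB (Φ.invFun lo) (Φ.mapsTo_inv hlo.1) (by
        rw [h1]; exact mem_frontier_box.2 ⟨hlo.1, l, Or.inl rfl⟩)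
      rw [h2, h1]; exact hk.1
    by_contra hux
    have hxs : x ∈ Φ.invFun '' s := ⟨Φ.toFun x, ⟨Φ.mapsTo hx, hxk⟩, Φ.left_inv hx⟩
    have hne : ∀ z ∈ Φ.invFun '' s, u z - k ≠ 0 := by
      rintro z hz h3
      have hzU := hsub hz
      obtain ⟨y, hy, rfl⟩ := hz
      have h4 := (h0 _ hzU).2 (by linarith)
      rw [Φ.right_inv hy.1] at h4
      exact hy.2.ne h4
    have hux' : 0 < u x - k := by
      rcases (not_lt.1 hux).lt_or_eq with h5 | h5
      · linarith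
      · exact absurd (by rw [← h5, sub_self]) (hne x hxs)
    exact sign_const (f := fun z => u z - k) hpre ((hu.mono hsub).sub continuousOn_const) hne hxs
      ⟨lo, hlo, rfl⟩ hux' (sub_neg.2 hlo2)
  have lem' : ∀ x ∈ U, k < Φ.toFun x l → k < u x := by
    intro x hx hxk
    set s : Set (Fin 3 → ℝ) := {y | y ∈ Icc lo hi ∧ k < y l} with hs
    have hsc : Convex ℝ s := (convex_Icc lo hi).inter
      (convex_halfSpace_gt (LinearMap.isLinear (LinearMap.proj l : (Fin 3 → ℝ) →ₗ[ℝ] ℝ)) k)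
    have hss : s ⊆ Icc lo hi := fun y hy => hy.1
    have hpre := conv s hsc hss
    have hsub : Φ.invFun '' s ⊆ U := by
      rintro _ ⟨y, hy, rfl⟩
      exact Φ.mapsTo_inv hy.1
    have hhi : hi ∈ s := ⟨⟨fun m => (hlt m).le, le_refl _⟩, hk.2⟩
    have hhi2 : k < u (Φ.invFun hi) := by
      have h1 : Φ.toFun (Φ.invFun hi) = hi := Φ.right_inv hhi.1
      have h2 := hB (Φ.invFun hi) (Φ.mapsTo_inv hhi.1) (by
        rw [h1]; exact mem_frontier_box.2 ⟨hhi.1, l, Or.inr rfl⟩)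
      rw [h2, h1]; exact hk.2
    by_contra hux
    have hxs : x ∈ Φ.invFun '' s := ⟨Φ.toFun x, ⟨Φ.mapsTo hx, hxk⟩, Φ.left_inv hx⟩
    have hne : ∀ z ∈ Φ.invFun '' s, u z - k ≠ 0 := by
      rintro z hz h3
      have hzU := hsub hz
      obtain ⟨y, hy, rfl⟩ := hz
      have h4 := (h0 _ hzU).2 (by linarith)
      rw [Φ.right_inv hy.1] at h4
      exact hy.2.ne' h4
    have hux' : u x - k < 0 := by
      rcases (not_lt.1 hux).lt_or_eq with h5 | h5
      · linarith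
      · exact absurd (by rw [h5, sub_self]) (hne x hxs)
    exact sign_const (f := fun z => u z - k) hpre ((hu.mono hsub).sub continuousOn_const) hne
      ⟨hi, hhi, rfl⟩ hxs (sub_pos.2 hhi2) hux'
  intro x hx
  constructor
  · refine ⟨lem x hx, fun h1 => ?_⟩
    by_contra h2
    rcases (not_lt.1 h2).lt_or_eq with h3 | h3
    · exact absurd (lem' x hx h3) (not_lt.2 h1.le)
    · exact h1.ne ((h0 x hx).1 h3.symm)
  · refine ⟨lem' x hx, fun h1 => ?_⟩
    by_contra h2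
    rcases (not_lt.1 h2).lt_or_eq with h3 | h3
    · exact absurd (lem x hx h3) (not_lt.2 h1.le)
    · exact h1.ne' ((h0 x hx).1 h3)

/-- **the final homeomorphism** -/
theorem final (H : BoxOk h M lo hi i j a b) {u v : E → ℝ}
    (hs : State (boxData h M lo hi i j a b) u v) :
    ∃ g : ConHomeo (h.invFun '' Icc lo hi) (Icc lo hi),
      EqOn g.toFun h.toFun (h.invFun '' frontier (Icc lo hi)) ∧
      (∀ k ∈ a, ∀ x ∈ h.invFun '' Icc lo hi, (g.toFun x i = k ↔ u x = k) ∧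
        (g.toFun x i < k ↔ u x < k) ∧ (k < g.toFun x i ↔ k < u x)) ∧
      ∀ k ∈ b, ∀ x ∈ h.invFun '' Icc lo hi, (g.toFun x j = k ↔ v x = k) ∧
        (g.toFun x j < k ↔ v x < k) ∧ (k < g.toFun x j ↔ k < v x) := by
  set U := h.invFun '' Icc lo hi with hU
  set B := h.invFun '' frontier (Icc lo hi) with hB
  have hball : ConBall 3 U B := H.ok.ball
  -- the boundary homeomorphism
  have himg : h.toFun '' B = frontier (Icc lo hi) := by
    apply Subset.antisymm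
    · rintro _ ⟨x, hx, rfl⟩
      exact (H.mem_B hx).2
    · intro y hy
      exact ⟨h.invFun y, ⟨y, hy, rfl⟩, h.right_inv (H.sub (frontier_sub hy))⟩
  have hBΩ : B ⊆ Ω := fun x hx => (H.mem_B hx).1
  let φ : ConHomeo B (frontier (Icc lo hi)) :=
    (h.restr hball.conicalSet_bdry hBΩ).cast rfl himg
  have hφ : ∀ x, φ.toFun x = h.toFun x := fun x => rfl
  obtain ⟨K, -, hKU, hK⟩ := hs.off
  have hoff : ∀ x ∈ B, u x = h.toFun x i ∧ v x = h.toFun x j := by
    intro x hx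
    exact hK x (fun h1 => (hKU h1).2 hx)
  have hmodel := twoFam_box H.lt H.ij H.a_mem H.b_mem
  have eS : ∀ {w : E → ℝ} {l : Fin 3} (k : ℝ), (∀ x ∈ B, w x = h.toFun x l) →
      φ.toFun '' ({x | x ∈ U ∧ w x = k} ∩ B) = sheet lo hi l k ∩ frontier (Icc lo hi) := by
    intro w l k hw
    apply Subset.antisymm
    · rintro _ ⟨x, ⟨⟨hxU, hxk⟩, hxB⟩, rfl⟩
      refine ⟨⟨(H.mem_U hxU).2, ?_⟩, (H.mem_B hxB).2⟩
      rw [hφ, ← hw x hxB, hxk]
    · rintro y ⟨⟨hy, hyk⟩, hyf⟩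
      have hx : h.invFun y ∈ B := ⟨y, hyf, rfl⟩
      refine ⟨h.invFun y, ⟨⟨⟨y, hy, rfl⟩, ?_⟩, hx⟩, h.right_inv (H.sub hy)⟩
      show w (h.invFun y) = k
      rw [hw _ hx, h.right_inv (H.sub hy)]; exact hyk
  obtain ⟨Φ, h1, h2, h3⟩ := two_three hs.two hmodel
    (fun k hk l _ _ => crosses_box H.ij (H.a_mem k hk) l) φ
    (fun k _ => eS k (fun x hx => (hoff x hx).1)) (fun l _ => eS l (fun x hx => (hoff x hx).2))
    (fun k hk l hl => by
      have h4 := line_nonempty H.lt H.ij (H.a_mem k hk) (H.b_mem l hl)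
      refine ⟨fun _ => h4.mono inter_subset_left, fun _ => ?_⟩
      obtain ⟨y, ⟨⟨hy, hyi⟩, -, hyj⟩, hyf⟩ := h4
      have hx : h.invFun y ∈ B := ⟨y, hyf, rfl⟩
      have e1 : u (h.invFun y) = k := by
        rw [(hoff _ hx).1, h.right_inv (H.sub hy)]; exact hyi
      have e2 : v (h.invFun y) = l := by
        rw [(hoff _ hx).2, h.right_inv (H.sub hy)]; exact hyj
      exact ⟨h.invFun y, ⟨⟨y, hy, rfl⟩, e1⟩, ⟨y, hy, rfl⟩, e2⟩)
  have lev : ∀ {w : E → ℝ} {l : Fin 3} {k : ℝ}, Φ.toFun '' {x | x ∈ U ∧ w x = k} =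
      sheet lo hi l k → ∀ x ∈ U, (Φ.toFun x l = k ↔ w x = k) := by
    intro w l k he x hx
    constructor
    · intro hxk
      have : Φ.toFun x ∈ sheet lo hi l k := ⟨Φ.mapsTo hx, hxk⟩
      rw [← he] at this
      obtain ⟨z, ⟨hzU, hzk⟩, hz⟩ := this
      rwa [← Φ.injOn hzU hx hz]
    · intro hxk
      have : Φ.toFun x ∈ Φ.toFun '' {x | x ∈ U ∧ w x = k} := ⟨x, ⟨hx, hxk⟩, rfl⟩
      rw [he] at this
      exact this.2
  have hΦB : ∀ x ∈ U, Φ.toFun x ∈ frontier (Icc lo hi) → x ∈ B := by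
    intro x hx hf
    have h5 : Φ.toFun '' B = frontier (Icc lo hi) := by
      rw [← φ.image_eq]
      exact image_congr fun z hz => h1 hz
    rw [← h5] at hf
    obtain ⟨z, hz, hzx⟩ := hf
    rwa [← Φ.injOn (hball.1 hz) hx hzx]
  have hUΩ : U ⊆ Ω := fun x hx => (H.mem_U hx).1
  refine ⟨Φ, fun x hx => h1 hx, fun k hk x hx => ?_, fun k hk x hx => ?_⟩
  · have h6 := lev (h2 k hk)
    have h7 := sign_aux Φ (hs.contu.mono hUΩ) (H.a_mem k hk) H.lt h6
      (fun z hz hzf => by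
        have hzB := hΦB z hz hzf
        rw [(hoff z hzB).1, h1 hzB, hφ]) x hx
    exact ⟨h6 x hx, h7.1, h7.2⟩
  · have h6 := lev (h3 k hk)
    have h7 := sign_aux Φ (hs.contv.mono hUΩ) (H.b_mem k hk) H.lt h6
      (fun z hz hzf => by
        have hzB := hΦB z hz hzf
        rw [(hoff z hzB).2, h1 hzB, hφ]) x hx
    exact ⟨h6 x hx, h7.1, h7.2⟩

end BoxOk

end P073.H579
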