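import Vale.Agent.P073.H579.FaceMet

/-!
# P073, H579: **(PFACE-ABS)** the face map from any homeomorphism onto the filled set

`Ψ : C → Fil n n C fn` is any conical homeomorphism. `Z i x := (Ψ x).2 i` are the band coordinates,
`(Ψ x).1` is the collapse. If on the boundary `B` the prescribed map `G` has the band coordinates
`Z i` or `1 - Z i` over every end point of an arc, then `xi ∘ Ψ` is equal to `G` on `B`.
-/

set_option linter.unusedSectionVars false

open Set Metric Topology Filter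

namespace P073.H579

open P073.H31

variable {E : Type*} [NormedAddCommGroup E] [NormedSpace ℝ E]

section

variable {m n : ℕ} {C B : Set E} {h : E → Fin m → ℝ} {k : Fin m → ℝ → ℝ} {L : Fin m → Finset ℝ}
  {fn : ℕ → E → ℝ} {cd : ℕ → Fin m} {lev ε : ℕ → ℝ} {lo hi : Fin m → ℝ → ℝ}

/-- **(PFACE-ABS)** -/
theorem exists_pfaceAbs (hF : FaceIn n C h (fun j => (L j : Set ℝ)) fn cd lev ε)
    (hI : ∀ j, Ins1 (k j) (L j : Set ℝ) (lo j) (hi j)) (hCp : IsPreconnected C)
    (hBC : B ⊆ C) (hBp : IsPreconnected B) (Ψ : ConHomeo C (Fil n n C fn))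
    (hΨB : ∀ x ∈ B, (Ψ.toFun x).1 ∈ B) (hfin : {c | c ∈ B ∧ ∃ j, h c j ∈ L j}.Finite)
    (hnc : ∀ c ∈ B, ∃ x ∈ B, (Ψ.toFun x).1 ≠ c) {G : E → Fin m → ℝ} (hG : ContinuousOn G B)
    (hGk : ∀ x ∈ B, prodK k (G x) = h (Ψ.toFun x).1)
    (hGa : ∀ i : Fin n, ∀ c ∈ B, fn i c = 0 →
      (∀ x ∈ B, (Ψ.toFun x).1 = c → G x (cd i) = lo (cd i) (lev i) +
        (hi (cd i) (lev i) - lo (cd i) (lev i)) * (Ψ.toFun x).2 i) ∨
      ∀ x ∈ B, (Ψ.toFun x).1 = c → G x (cd i) = hi (cd i) (lev i) -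
        (hi (cd i) (lev i) - lo (cd i) (lev i)) * (Ψ.toFun x).2 i) :
    ∃ Φ : ConHomeo C (preQ k h C), EqOn Φ.toFun G B ∧
      (∀ x ∈ C, prodK k (Φ.toFun x) = h (Ψ.toFun x).1) ∧
      ∀ j, ∀ a ∈ L j, ∀ x ∈ C, ∀ x' ∈ C,
        |rho (lo j) (hi j) a (Φ.toFun x j) - rho (lo j) (hi j) a (Φ.toFun x' j)| ≤
          ∑ i : Fin n, if cd i = j ∧ lev i = a then
            (hi (cd i) (lev i) - lo (cd i) (lev i)) *
              |(Ψ.toFun x).2 i - (Ψ.toFun x').2 i| else 0 := by
  classical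
  set X := FaceIn.xi hF hI with hX
  have hΦk : ∀ x ∈ C, prodK k (X.toFun (Ψ.toFun x)) = h (Ψ.toFun x).1 :=
    fun x hx => FaceIn.prodK_xi hF hI (Ψ.mapsTo hx)
  have hcont : ContinuousOn (fun x => X.toFun (Ψ.toFun x)) C :=
    X.cont.comp Ψ.cont fun x hx => Ψ.mapsTo hx
  -- agreement off the levels
  have off : ∀ x ∈ B, ∀ j, h (Ψ.toFun x).1 j ∉ L j → X.toFun (Ψ.toFun x) j = G x j := by
    intro x hx j hj
    have e1 : k j (X.toFun (Ψ.toFun x) j) = h (Ψ.toFun x).1 j := congrFun (hΦk x (hBC hx)) j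
    have e2 : k j (G x j) = h (Ψ.toFun x).1 j := congrFun (hGk x hx) j
    exact (hI j).inj _ _ (e1.trans e2.symm) (by rw [e1]; exact hj)
  -- the boundary values
  have hbd : EqOn (fun x => X.toFun (Ψ.toFun x)) G B := by
    intro x hx
    funext j
    show X.toFun (Ψ.toFun x) j = G x j
    by_cases hj : h (Ψ.toFun x).1 j ∈ L j
    swap
    · exact off x hx j hj
    set c := (Ψ.toFun x).1 with hc
    have hcB : c ∈ B := hΨB x hx
    obtain ⟨i, hi', hcd, hfn⟩ := hF.cov c (hBC hcB) j hj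
    subst hcd
    have hlt := (hI (cd i)).lt _ (hF.mem i hi')
    have hd : 0 < hi (cd i) (lev i) - lo (cd i) (lev i) := by linarith
    -- the formula for `Φ` over `c`
    have hform : ∀ y ∈ B, (Ψ.toFun y).1 = c → X.toFun (Ψ.toFun y) (cd i) =
        if ε i = 1 then lo (cd i) (lev i) + (hi (cd i) (lev i) - lo (cd i) (lev i)) *
          (Ψ.toFun y).2 ⟨i, hi'⟩
        else hi (cd i) (lev i) - (hi (cd i) (lev i) - lo (cd i) (lev i)) *
          (Ψ.toFun y).2 ⟨i, hi'⟩ := by
      intro y hy hyc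
      exact FaceIn.xi_arc hF hI (Ψ.mapsTo (hBC hy)) ⟨i, hi'⟩ (by show fn i _ = 0; rw [hyc]; exact hfn)
    -- a boundary point of the fibre
    set J : Set E := {y | y ∈ B ∧ (Ψ.toFun y).1 = c} with hJ
    have hfst : ContinuousOn (fun y => (Ψ.toFun y).1) B :=
      continuous_fst.comp_continuousOn (Ψ.cont.mono hBC)
    obtain ⟨x₀, hx₀, hx₀c⟩ : ∃ x₀ ∈ J, x₀ ∈ closure (B \ J) := by
      by_contra hcon
      push Not at hcon
      -- `J` is open and closed in `B`
      have hpB : PreconnectedSpace B := isPreconnected_iff_preconnectedSpace.1 hBp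
      have hcl : IsClosed (Subtype.val ⁻¹' J : Set B) := by
        have h1 : Continuous fun y : B => (Ψ.toFun y.1).1 := continuousOn_iff_continuous_domRestrict.1 hfst
        have h2 : (Subtype.val ⁻¹' J : Set B) = (fun y : B => (Ψ.toFun y.1).1) ⁻¹' {c} := by
          ext y
          simp only [mem_preimage, hJ, mem_ofPred_eq, mem_singleton_iff, y.2, true_and]
        rw [h2]; exact isClosed_singleton.preimage h1
      have hop : IsOpen (Subtype.val ⁻¹' J : Set B) := by
        have h2 : (Subtype.val ⁻¹' J : Set B) = Subtype.val ⁻¹' (closure (B \ J))ᶜ := by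
          ext y
          simp only [mem_preimage, mem_compl_iff]
          constructor
          · intro h3; exact hcon _ h3
          · intro h3
            by_contra h4
            exact h3 (subset_closure ⟨y.2, h4⟩)
        rw [h2]
        exact isClosed_closure.isOpen_compl.preimage continuous_subtype_val
      have huniv : (Subtype.val ⁻¹' J : Set B) = univ :=
        IsClopen.eq_univ ⟨hcl, hop⟩ ⟨⟨x, hx⟩, ⟨hx, rfl⟩⟩
      obtain ⟨y, hy, hyc⟩ := hnc c hcB
      have : (⟨y, hy⟩ : B) ∈ (Subtype.val ⁻¹' J : Set B) := by rw [huniv]; trivial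
      exact hyc this.2
    -- near `x₀` the points of `B \ J` are off the levels
    set Xs : Set E := {c | c ∈ B ∧ ∃ j, h c j ∈ L j} with hXs
    have hev : ∀ᶠ y in 𝓝[B \ J] x₀, (Ψ.toFun y).1 ∉ Xs := by
      have h1 : ∀ᶠ y in 𝓝[B] x₀, ∀ c' ∈ Xs, c' ≠ c → (Ψ.toFun y).1 ≠ c' := by
        rw [Filter.eventually_all_finite hfin]
        intro c' _
        by_cases hcc : c' = c
        · exact Eventually.of_forall fun y h2 => absurd hcc h2
        · have h2 : (Ψ.toFun x₀).1 ≠ c' := by rw [hx₀.2]; exact Ne.symm hcc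
          filter_upwards [(hfst x₀ hx₀.1).eventually_ne h2] with y hy _
          exact hy
      have h2 := (h1.filter_mono (nhdsWithin_mono x₀ (sdiff_subset : B \ J ⊆ B))).and
        self_mem_nhdsWithin
      filter_upwards [h2] with y hy hyX
      obtain ⟨a1, a2, a3⟩ := hy
      by_cases hcc : (Ψ.toFun y).1 = c
      · exact a3 ⟨a2, hcc⟩
      · exact a1 _ hyX hcc rfl
    have : (𝓝[B \ J] x₀).NeBot := mem_closure_iff_nhdsWithin_neBot.1 hx₀c
    -- `Φ = G` at `x₀`
    have heq : X.toFun (Ψ.toFun x₀) (cd i) = G x₀ (cd i) := by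
      have t1 : Tendsto (fun y => X.toFun (Ψ.toFun y) (cd i)) (𝓝[B \ J] x₀)
          (𝓝 (X.toFun (Ψ.toFun x₀) (cd i))) := by
        have h1 : ContinuousWithinAt (fun y => X.toFun (Ψ.toFun y)) (B \ J) x₀ :=
          (hcont x₀ (hBC hx₀.1)).mono (sdiff_subset.trans hBC)
        exact ((continuous_apply (cd i)).tendsto _).comp h1
      have t2 : Tendsto (fun y => G y (cd i)) (𝓝[B \ J] x₀) (𝓝 (G x₀ (cd i))) := by
        have h1 : ContinuousWithinAt G (B \ J) x₀ := (hG x₀ hx₀.1).mono sdiff_subset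
        exact ((continuous_apply (cd i)).tendsto _).comp h1
      refine tendsto_nhds_unique_of_eventuallyEq t1 t2 ?_
      filter_upwards [hev, self_mem_nhdsWithin] with y hy hyB
      exact off y hyB.1 _ fun h3 => hy ⟨hΨB y hyB.1, _, h3⟩
    -- the band coordinate at `x₀` is `0` or `1`
    have hZ : (Ψ.toFun x₀).2 ⟨i, hi'⟩ = 0 ∨ (Ψ.toFun x₀).2 ⟨i, hi'⟩ = 1 := by
      have h1 : ContinuousWithinAt (fun y => (Ψ.toFun y).2 ⟨i, hi'⟩) (B \ J) x₀ := by
        have h2 : ContinuousOn (fun y => (Ψ.toFun y).2 ⟨i, hi'⟩) C :=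
          ((continuous_apply _).comp continuous_snd).comp_continuousOn Ψ.cont
        exact (h2 x₀ (hBC hx₀.1)).mono (sdiff_subset.trans hBC)
      have h2 : ∀ᶠ y in 𝓝[B \ J] x₀, (Ψ.toFun y).2 ⟨i, hi'⟩ ∈ ({0, 1} : Set ℝ) := by
        filter_upwards [hev, self_mem_nhdsWithin] with y hy hyB
        have hyF := Ψ.mapsTo (hBC hyB.1)
        rcases lt_trichotomy (fn i (Ψ.toFun y).1) 0 with h3 | h3 | h3
        · exact Or.inl ((hyF.2 ⟨i, hi'⟩).2.1 hi' h3)
        · exfalso
          refine hy ⟨hΨB y hyB.1, cd i, ?_⟩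
          rw [hF.on i hi' _ hyF.1 h3]; exact hF.mem i hi'
        · exact Or.inr ((hyF.2 ⟨i, hi'⟩).2.2.1 hi' h3)
      have h3 : IsClosed ({0, 1} : Set ℝ) := (toFinite _).isClosed
      exact h3.mem_of_tendsto h1 h2
    have hf0 := hform x₀ hx₀.1 hx₀.2
    have hfx := hform x hx hc.symm
    rcases hGa ⟨i, hi'⟩ c hcB hfn with h2 | h2
    · have g0 := h2 x₀ hx₀.1 hx₀.2
      have gx := h2 x hx hc.symm
      by_cases hε : ε i = 1
      · rw [hfx, if_pos hε]; exact gx.symm
      · exfalso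
        rw [if_neg hε] at hf0
        rw [heq, g0] at hf0
        rcases hZ with hz | hz
        · rw [hz] at hf0; simp only [mul_zero, add_zero, sub_zero] at hf0; linarith
        · rw [hz] at hf0; simp only [mul_one] at hf0; linarith
    · have g0 := h2 x₀ hx₀.1 hx₀.2
      have gx := h2 x hx hc.symm
      by_cases hε : ε i = 1
      · exfalso
        rw [if_pos hε] at hf0
        rw [heq, g0] at hf0
        rcases hZ with hz | hz
        · rw [hz] at hf0; simp only [mul_zero, add_zero, sub_zero] at hf0; linarith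
        · rw [hz] at hf0; simp only [mul_one] at hf0; linarith
      · rw [hfx, if_neg hε]; exact gx.symm
  refine ⟨Ψ.trans X, hbd, hΦk, fun j a ha x hx x' hx' => ?_⟩
  have hpre : IsPreconnected (Fil n n C fn) := by
    rw [← Ψ.image_eq]; exact hCp.image _ Ψ.cont
  have h1 := FaceIn.abs_rho_xi_le hF hI hpre j ha (Ψ.mapsTo hx) (Ψ.mapsTo hx')
  exact h1

end

end P073.H579
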