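import Vale.Agent.P073.H579.HFace
import Vale.Agent.P073.H579.PFaceAbs

/-!
# P073, H579: **(HFACE-ABS)** the face map with prescribed edge maps, for any `Ψ`

Given the output of `exists_GB`, `exists_colp`, `exists_posIn` (the glued edge maps `G`, the
collapse `π`, the positions) and ANY conical homeomorphism `Ψ : C → Fil` with `(Ψ x).1 = π x` on the
boundary and with the boundary band coordinates `ze x` or `1 - ze x`, there is a face map with these
edge maps and with `bandD ≤ ∑ om |Z i x - Z i y|`, `Z i x = (Ψ x).2 i`.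
-/

set_option linter.unusedSectionVars false

open Set Metric Topology Filter

namespace P073.H579

open P073.H31 P073.H155 Gon

variable {E : Type*} [NormedAddCommGroup E] [NormedSpace ℝ E]

section

variable {m n : ℕ} {v : ℕ → E} {h : E → Fin m → ℝ} {k : Fin m → ℝ → ℝ} {L : Fin m → Finset ℝ}
  {lo hi om : Fin m → ℝ → ℝ}

/-- **(HFACE-ABS)** -/
theorem exists_hfaceAbs {A : Type*} [Finite A] [Inhabited (Fin m)] {C : Set E}
    {S : A → Set E} {cd : A → Fin m} {lev : A → ℝ} {col : A → Bool}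
    (HF : FacePat C (bd n v) h (fun j => (L j : Set ℝ)) S cd lev col)
    (hdis : ∀ α β, α ≠ β → cd α = cd β → Disjoint (S α) (S β))
    (hinj : InjOn h C) (hc : ContinuousOn h C) (hk : ConicalOn h C)
    (H : HIn n v h k L lo hi) (hom : ∀ j, ∀ c ∈ L j, 0 < om j c)
    {Φe : ∀ i : Fin n, ConHomeo (seg v i) (preQ k h (seg v i))}
    {G : ConHomeo (bd n v) (preQ k h (bd n v))}
    (hG : ∀ i : Fin n, EqOn G.toFun (Φe i).toFun (seg v i)) {π : E → E}
    (hπ : Colp h k L n v G.toFun π) {X : Finset E}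
    (hX : ∀ x, x ∈ X ↔ x ∈ bd n v ∧ ∃ j, h x j ∈ L j) {S2 S3 : E → ℝ} {ze : E → ℝ → ℝ}
    (hS23 : ∀ x ∈ X, S2 x ≤ S3 x ∧ 0 ≤ S2 x ∧ S3 x ≤ n) (hClp : Clp n v X S2 S3 π)
    (hGz : ∀ x ∈ X, ∀ j, h x j ∈ L j →
      (∀ T ∈ Icc (S2 x) (S3 x), G.toFun (cv n v T) j =
        lo j (h x j) + (hi j (h x j) - lo j (h x j)) * ze x T) ∨
      ∀ T ∈ Icc (S2 x) (S3 x), G.toFun (cv n v T) j =
        hi j (h x j) - (hi j (h x j) - lo j (h x j)) * ze x T)
    {n' : ℕ} (e : Fin n' ≃ A) {fn : ℕ → E → ℝ} {b₀ : E} (hb₀ : b₀ ∈ bd n v)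
    (hfn : ∀ i : Fin n', IsFn C (bd n v) S b₀ (e i) (fn i)) (Ψ : ConHomeo C (Fil n' n' C fn))
    (hΨπ : ∀ x ∈ bd n v, (Ψ.toFun x).1 = π x)
    (hΨz : ∀ i : Fin n', ∀ x ∈ X, x ∈ S (e i) →
      (∀ T ∈ Icc (S2 x) (S3 x), (Ψ.toFun (cv n v T)).2 i = ze x T) ∨
      ∀ T ∈ Icc (S2 x) (S3 x), (Ψ.toFun (cv n v T)).2 i = 1 - ze x T) :
    ∃ Φ : ConHomeo C (preQ k h C), (∀ i : Fin n, EqOn Φ.toFun (Φe i).toFun (seg v i)) ∧
      (∀ x ∈ C, prodK k (Φ.toFun x) = h (Ψ.toFun x).1) ∧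
      (∀ j, ∀ c ∈ L j, ∀ x ∈ C, ∀ y ∈ C,
        |rho (lo j) (hi j) c (Φ.toFun x j) - rho (lo j) (hi j) c (Φ.toFun y j)| ≤
          ∑ i : Fin n', if cd (e i) = j ∧ lev (e i) = c then (hi j c - lo j c) *
            |(Ψ.toFun x).2 i - (Ψ.toFun y).2 i| else 0) ∧
      ∀ x ∈ C, ∀ y ∈ C, bandD L lo hi om (Φ.toFun x) (Φ.toFun y) ≤
        ∑ i : Fin n', om (cd (e i)) (lev (e i)) * |(Ψ.toFun x).2 i - (Ψ.toFun y).2 i| := by
  classical
  have hBC : bd n v ⊆ C := HF.pat.hC.1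
  obtain ⟨cd', lev', ε, hF, hcl⟩ := HF.exists_faceIn hdis hinj hc hk hb₀ e hfn
  have hlev : ∀ α, ∀ x ∈ S α, h x (cd α) = lev α := by
    intro α x hx
    have h1 : x ∈ ⋃ (β) (_ : cd β = cd α ∧ lev β = lev α), S β :=
      mem_iUnion₂.2 ⟨α, ⟨rfl, rfl⟩, hx⟩
    rw [HF.eq (cd α) (lev α) (HF.mem α)] at h1
    exact h1.2
  have hn0 : (0:ℝ) ≤ n := Nat.cast_nonneg _
  have hBp : IsPreconnected (bd n v) :=
    isPreconnected_Icc.image _ (continuous_cv n v).continuousOn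
  have hCp : IsPreconnected C := by
    obtain ⟨-, φ, -⟩ := HF.pat.hC
    have h1 : C = φ.symm.toFun '' closedBall 0 1 := φ.symm.image_eq.symm
    rw [h1]
    exact (convex_closedBall _ _).isPreconnected.image _ φ.symm.cont
  have hΨB : ∀ x ∈ bd n v, (Ψ.toFun x).1 ∈ bd n v := fun x hx => by
    rw [hΨπ x hx, ← hπ.im]; exact mem_image_of_mem _ hx
  have hXs : {c | c ∈ bd n v ∧ ∃ j, h c j ∈ L j} = (X : Set E) := by
    ext x; rw [Finset.mem_coe, hX]; rfl
  -- the fibres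
  have hfib : ∀ x ∈ X, ∀ y ∈ bd n v, π y = x → ∃ T ∈ Icc (S2 x) (S3 x), cv n v T = y := by
    intro x hx y hy hyx
    have h0 := hS23 x hx
    have h1 : S2 x ∈ Icc (S2 x) (S3 x) := ⟨le_refl _, h0.1⟩
    have h2 := hClp.const x hx (S2 x) h1
    have hB : cv n v (S2 x) ∈ bd n v := mem_image_of_mem _ ⟨h0.2.1, h0.1.trans h0.2.2⟩
    rcases hClp.inj y hy (cv n v (S2 x)) hB (hyx.trans h2.symm) with h3 | ⟨x', hx', ⟨T, hT, hTy⟩, -⟩
    · exact ⟨S2 x, h1, h3.symm⟩
    · have h3 := hClp.const x' hx' T hT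
      rw [hTy, hyx] at h3
      subst h3
      exact ⟨T, hT, hTy⟩
  have hnc : ∀ c ∈ bd n v, ∃ x ∈ bd n v, (Ψ.toFun x).1 ≠ c := by
    intro c _
    by_contra hcon
    push Not at hcon
    -- then the polygon is one point
    have h1 : ∀ w ∈ bd n v, w = c := by
      intro w hw
      rw [← hπ.im] at hw
      obtain ⟨x, hx, rfl⟩ := hw
      rw [← hΨπ x hx]; exact hcon x hx
    have h2 := h1 _ (H.gon.seg_sub H.gon.hn (left_mem_segment ℝ (v 0) (v 1)))
    have h3 := h1 _ (H.gon.seg_sub H.gon.hn (right_mem_segment ℝ (v 0) (v 1)))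
    exact H.gon.ne H.gon.hn (h2.trans h3.symm)
  obtain ⟨Φ, hΦG, hΦk, hband⟩ := exists_pfaceAbs (k := k) (lo := lo) (hi := hi) hF H.hI hCp hBC hBp
    Ψ hΨB (by rw [hXs]; exact X.finite_toSet) hnc (G := G.toFun) G.cont
    (fun x hx => by rw [hΨπ x hx]; exact hπ.eq x hx)
    (by
      intro i c hcB hfc
      have hcS : c ∈ S (e i) := ((hfn i).zero c (hBC hcB)).1 hfc
      have hcl' := hcl i
      have hhc := hlev (e i) c hcS
      have hj : h c (cd (e i)) ∈ L (cd (e i)) := by rw [hhc]; exact HF.mem _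
      have hcX : c ∈ X := (hX c).2 ⟨hcB, _, hj⟩
      rw [hcl'.1, hcl'.2]
      have key : ∀ x ∈ bd n v, (Ψ.toFun x).1 = c → ∃ T ∈ Icc (S2 c) (S3 c), cv n v T = x :=
        fun x hx hxc => hfib c hcX x hx (by rw [← hΨπ x hx]; exact hxc)
      rcases hGz c hcX (cd (e i)) hj with h1 | h1 <;> rcases hΨz i c hcX hcS with h2 | h2
      · left
        intro x hx hxc
        obtain ⟨T, hT, rfl⟩ := key x hx hxc
        rw [h1 T hT, h2 T hT, hhc]
      · right
        intro x hx hxc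
        obtain ⟨T, hT, rfl⟩ := key x hx hxc
        rw [h1 T hT, h2 T hT, hhc]; ring
      · right
        intro x hx hxc
        obtain ⟨T, hT, rfl⟩ := key x hx hxc
        rw [h1 T hT, h2 T hT, hhc]
      · left
        intro x hx hxc
        obtain ⟨T, hT, rfl⟩ := key x hx hxc
        rw [h1 T hT, h2 T hT, hhc]; ring)
  have hband' : ∀ j, ∀ c ∈ L j, ∀ x ∈ C, ∀ y ∈ C,
      |rho (lo j) (hi j) c (Φ.toFun x j) - rho (lo j) (hi j) c (Φ.toFun y j)| ≤
        ∑ i : Fin n', if cd (e i) = j ∧ lev (e i) = c then (hi j c - lo j c) *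
          |(Ψ.toFun x).2 i - (Ψ.toFun y).2 i| else 0 := by
    intro j c hc' x hx y hy
    refine (hband j c hc' x hx y hy).trans (le_of_eq ?_)
    refine Finset.sum_congr rfl fun i _ => ?_
    have hcl' := hcl i
    rw [hcl'.1, hcl'.2]
    by_cases h4 : cd (e i) = j ∧ lev (e i) = c
    · rw [if_pos h4, if_pos h4, h4.1, h4.2]
    · rw [if_neg h4, if_neg h4]
  refine ⟨Φ, fun i x hx => ?_, hΦk, hband', fun x hx y hy => ?_⟩
  · rw [hΦG (H.gon.seg_sub i.2 hx)]
    exact hG i hx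
  unfold bandD
  have h1 : ∀ j, ∀ c ∈ L j, om j c / (hi j c - lo j c) *
      |rho (lo j) (hi j) c (Φ.toFun x j) - rho (lo j) (hi j) c (Φ.toFun y j)| ≤
      ∑ i : Fin n', if cd (e i) = j ∧ lev (e i) = c then
        om (cd (e i)) (lev (e i)) * |(Ψ.toFun x).2 i - (Ψ.toFun y).2 i| else 0 := by
    intro j c hc'
    have h2 := hband' j c hc' x hx y hy
    have hlt := (H.hI j).lt c hc'
    have hd : 0 < hi j c - lo j c := by linarith
    have h3 : 0 ≤ om j c / (hi j c - lo j c) := div_nonneg (hom j c hc').le hd.le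
    refine (mul_le_mul_of_nonneg_left h2 h3).trans (le_of_eq ?_)
    rw [Finset.mul_sum]
    refine Finset.sum_congr rfl fun i _ => ?_
    by_cases h4 : cd (e i) = j ∧ lev (e i) = c
    · rw [if_pos h4, if_pos h4, ← mul_assoc, div_mul_cancel₀ _ hd.ne', h4.1, h4.2]
    · rw [if_neg h4, if_neg h4, mul_zero]
  calc ∑ j, ∑ c ∈ L j, om j c / (hi j c - lo j c) *
        |rho (lo j) (hi j) c (Φ.toFun x j) - rho (lo j) (hi j) c (Φ.toFun y j)|
      ≤ ∑ j, ∑ c ∈ L j, ∑ i : Fin n', if cd (e i) = j ∧ lev (e i) = c then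
          om (cd (e i)) (lev (e i)) * |(Ψ.toFun x).2 i - (Ψ.toFun y).2 i| else 0 :=
        Finset.sum_le_sum fun j _ => Finset.sum_le_sum fun c hc' => h1 j c hc'
    _ = _ := by
        rw [Finset.sum_congr rfl fun j _ => Finset.sum_comm, Finset.sum_comm]
        refine Finset.sum_congr rfl fun i _ => ?_
        rw [Finset.sum_eq_single (cd (e i)), Finset.sum_eq_single (lev (e i))]
        · rw [if_pos ⟨rfl, rfl⟩]
        · intro c _ hne
          rw [if_neg fun h4 => hne h4.2.symm]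
        · intro h4
          exact absurd (HF.mem (e i)) h4
        · intro j _ hne
          refine Finset.sum_eq_zero fun c _ => ?_
          rw [if_neg fun h4 => hne h4.1.symm]
        · intro h4; exact absurd (Finset.mem_univ _) h4

end

end P073.H579
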