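import Vale.Agent.P073.H227.RowsO

/-!
# P073, H579, [OSC-TOP]: the numbers of the faces which are not listed, in slots

* `oscH h k`: the oscillation of `h` on the face `k`;
* `SupNum`: all tiny numbers of the stages, below given numbers of the faces; `row_supNum`;
* `supRow_of`: `SupRow` from a statement about one face, with the bound `c₂ * oscH h k`.
-/

open Set Metric Topology Filter MeasureTheory
open scoped ENNReal

set_option linter.unusedSectionVars false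

namespace Vale.Agent.P073.H579.K3

open _root_.P073 _root_.P073.Net _root_.P073.PA691 _root_.P073.H236 _root_.P073.H579
open _root_.P073.H142 _root_.P073.H429
open _root_.P073.H345 (PK PB_sub_PK PLev tg)
open _root_.P073.H880.RP
open Vale.Agent.P073.St (V)
open Vale.Agent.P073.H471 Vale.Agent.P073.H267
open Vale.Agent.P073.H267.K3
open Vale.Agent.P073.H73 (Mesh)
open Vale.Agent.P073.H193 (Edges edges)
open Vale.Agent.P073.H926
open Vale.Agent.P073.H238.K3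
open Vale.Agent.P073.H233 (Xp Ev OscEst FHyp Tol)
open Vale.Agent.P073.H227 (SupF OscA Unl SupRow)
open Vale.Agent.P073.Top880

variable {c₀ n δ : ℝ} {j : ℕ} {Ω Λ : Set V} {v w : V} {ρ : V → ℝ} {M : Mesh Ω}
  {h : ConHomeo Ω Λ} {J₀ J : Set (ℕ × (Fin 3 → ℤ))} {P Z : Set M.ι} {K : BoxCx Λ w}

/-! ### The oscillation of the input -/

/-- **the oscillation of the input on a face** -/
noncomputable def oscH (h : ConHomeo Ω Λ) (k : M.κ) : ℝ := diam (h.toFun '' M.F k)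

theorem bdd_img (h : ConHomeo Ω Λ) (k : M.κ) : Bornology.IsBounded (h.toFun '' M.F k) :=
  ((H193.pgn_of_fat (M.fat k)).cpt.image_of_continuousOn
    (h.cont.mono (H193.mesh_sub M k))).isBounded

theorem norm_le_oscH (h : ConHomeo Ω Λ) {k : M.κ} {x y : V} (hx : x ∈ M.F k) (hy : y ∈ M.F k) :
    ‖h.toFun x - h.toFun y‖ ≤ oscH h k := by
  rw [← dist_eq_norm]
  exact dist_le_diam_of_mem (bdd_img h k) (mem_image_of_mem _ hx) (mem_image_of_mem _ hy)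

theorem oscH_pos (h : ConHomeo Ω Λ) (k : M.κ) : 0 < oscH h k := by
  obtain ⟨x, hx, y, hy, hxy⟩ : ∃ x ∈ M.F k, ∃ y ∈ M.F k, x ≠ y := by
    by_contra hcon
    push Not at hcon
    have T := (_root_.P073.H142.exists_fstar (edges M) k).some
    obtain ⟨e, he⟩ : ∃ e : (edges M).ε, (edges M).seg e ⊆ M.F k := ⟨_, T.C.sub 0⟩
    exact (edges M).ne e (hcon _ (he (left_mem_segment ℝ _ _)) _ (he (right_mem_segment ℝ _ _)))
  have h1 : h.toFun x ≠ h.toFun y := fun h2 =>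
    hxy (h.injOn (H193.mesh_sub M k hx) (H193.mesh_sub M k hy) h2)
  exact (norm_pos_iff.2 (sub_ne_zero.2 h1)).trans_le (norm_le_oscH h hx hy)

theorem oscH_le (h : ConHomeo Ω Λ) {k : M.κ} {i : M.ι} {b : ℝ} (hb : 0 ≤ b)
    (H : FHyp M h.toFun i k b) (hk : M.F k ⊆ M.Q i) : oscH h k ≤ b := by
  refine diam_le_of_forall_dist_le hb ?_
  rintro _ ⟨x, hx, rfl⟩ _ ⟨y, hy, rfl⟩
  rw [dist_eq_norm]
  exact H.1 x (hk hx) y (hk hy)

/-! ### The numbers -/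

section defs

variable {D : KIn3 c₀ n j δ v w ρ M h J₀ J P Z} {C : Cells ρ w K} {C₀ μT : ℝ} {Ys : Set M.κ}
  {sc : Sharp} {X : S1 D C C₀ μT} {Y₂ : S2 X} {Y₃ : S3 Y₂ Ys sc} {Y₄ : S4 Y₃}

/-- **the numbers of the faces which are not listed**: all tiny numbers of the stages are below
given numbers `o` of the faces -/
structure SupNum (Y₅ : S5 Y₄) (o : M.κ → ℝ) : Prop where
  d : ∀ (b : pB C J₀) k, (h.toFun '' M.F k ∩ (D.G C).TB false b.1).Nonempty → X.εd b ≤ o k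
  m : ∀ s k, (X.h1.toFun '' M.F k ∩ PK (D.G C) s).Nonempty → Y₂.muP s ≤ o k
  mX : ∀ s k, (h.toFun '' M.F k ∩ PX (D.G C) s).Nonempty → Y₂.muP s ≤ o k
  mS : ∀ s, Y₂.muP s ≤ (D.G C).oS s / 4
  e4 : ∀ (s : (D.dat C).S₀) k, (X.h1.toFun '' M.F k ∩ PK (D.G C) s.1).Nonempty → Y₄.ε s ≤ o k
  sg : ∀ (b : pG C J₀) k, (Y₄.f5.toFun '' M.F k ∩ (D.B C).E b.1).Nonempty →
    Y₅.ς b * (ebe (D.W C) b.1 - eal (D.W C) b.1) ≤ o k
  sg' : ∀ (b : pG C J₀) k, (Y₄.f5.toFun '' M.F k ∩ (D.B C).E b.1).Nonempty → Y₅.ς b ≤ o k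
  sgT : ∀ b : pG C J₀, Y₅.ς b * (ebe (D.W C) b.1 - eal (D.W C) b.1) ≤ (D.B C).T b.1 / 4
  e5 : ∀ (b : pG C J₀) k, (Y₄.f5.toFun '' M.F k ∩
      YB ((YS (D.G C)).add (rT (D.G C)) (rT_pos (D.G C)) (fun e k => (YS_p_lt (D.G C) e k).le)
      fun e k => (YS_q_lt (D.G C) e k).le) b.1).Nonempty → 16 * Y₅.ε b ≤ o k
  q : ∀ s, 1 - n / 2048 ≤ Y₄.q s
  r : ∀ s, 1 - n / 2048 ≤ Y₄.r s
  μ0 : ∀ b, 0 ≤ Y₅.μ b
  μ1 : ∀ b, Y₅.μ b ≤ n / 1024
  μu : ∀ b : pG C J₀, Y₅.μ b * (ebe (D.W C) b.1 - eal (D.W C) b.1) = n / 1024 * (D.G C).uT b.1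

/-- the tube is compact -/
theorem isCompact_E {S : Rad K} {W : Wid K S} (B : Boxes W) (e : K.G) : IsCompact (B.E e) := by
  have h1 : B.E e = Icc (fun k => if k = K.dir e then K.w (K.a e) (K.dir e) + W.wv (K.a e) / 2
      else K.w (K.a e) k - B.T e) (fun k => if k = K.dir e then
      K.w (K.b e) (K.dir e) - W.wv (K.b e) / 2 else K.w (K.a e) k + B.T e) := by
    ext y
    constructor
    · rintro ⟨⟨h1, h2⟩, h3⟩
      refine ⟨fun k => ?_, fun k => ?_⟩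
      · by_cases hk : k = K.dir e
        · simp only [hk, if_true]; exact h1
        · have := (abs_le.1 (h3 k hk)).1
          simp only [hk, if_false]; linarith
      · by_cases hk : k = K.dir e
        · simp only [hk, if_true]; exact h2
        · have := (abs_le.1 (h3 k hk)).2
          simp only [hk, if_false]; linarith
    · rintro ⟨h1, h2⟩
      refine ⟨⟨?_, ?_⟩, fun k hk => ?_⟩
      · have := h1 (K.dir e)
        simpa using this
      · have := h2 (K.dir e)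
        simpa using this
      · have h3 := h1 k
        have h4 := h2 k
        simp only [hk, if_false] at h3 h4
        rw [abs_le]
        constructor <;> linarith
  rw [h1]
  exact isCompact_Icc

theorem E_sub_Λ {S : Rad K} {W : Wid K S} (B : Boxes W) (e : K.G) : B.E e ⊆ Λ := fun _ hy =>
  S.tube_sub e (se_subset e (Ze_subset (B.E_subset e hy)))

end defs

/-- **the numbers, in slots** -/
theorem row_supNum (D : KIn3 c₀ n j δ v w ρ M h J₀ J P Z) (C : Cells ρ w K) {C₀ μT : ℝ}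
    {Ys : Set M.κ} {sc : Sharp} {o : M.κ → ℝ} (ho : ∀ k, 0 < o k) :
    RowP D C C₀ μT Ys sc fun Y₅ => SupNum Y₅ o := by
  classical
  have hlf : ∀ X ⊆ Ω, IsCompact X → {a | (M.F a ∩ X).Nonempty}.Finite :=
    fun X hX hXc => M.ffin X hX hXc
  -- slot (1)
  obtain ⟨td, htd, Hd⟩ := Vale.Agent.P073.H669.exists_le_of_finite
    (R := fun (b : pB C J₀) k => (h.toFun '' M.F k ∩ (D.G C).TB false b.1).Nonempty)
    (fun b => H669.face_fin h isCompact_Icc (Geo.TB_sub b.1)) (f := o) ho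
  -- slot (2)
  obtain ⟨tm, htm, Hm⟩ := exists_PX (D.G C) h (A := M.F) (H193.mesh_sub M) hlf ho
  -- slot (6)
  choose t4 ht4 H4 using fun X : S1 D C C₀ μT => Vale.Agent.P073.H669.exists_le_of_finite
      (R := fun (s : K.S) k => (X.h1.toFun '' M.F k ∩ PK (D.G C) s).Nonempty)
      (H31.K3.finite_faces_PK (D.G C) X.h1) (f := o) ho
  -- slot (7)
  choose t5 ht5 H5 using fun (X : S1 D C C₀ μT) (Y₂ : S2 X) (Y₃ : S3 Y₂ Ys sc) (Y₄ : S4 Y₃) =>
    H253.Tube.exists_epsb (D := D) (C := C) Y₄.f5 J₀ (t := fun k => o k / 16)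
      fun k => by have := ho k; positivity
  choose t6 ht6 H6 using fun (X : S1 D C C₀ μT) (Y₂ : S2 X) (Y₃ : S3 Y₂ Ys sc) (Y₄ : S4 Y₃) =>
    H253.Tube.exists_eb Y₄.f5 (fun b : pG C J₀ => (D.B C).E b.1) (fun b => isCompact_E _ _)
      (fun b => E_sub_Λ _ _) (M := M) ho
  have hab : ∀ b : pG C J₀, 0 < ebe (D.W C) b.1 - eal (D.W C) b.1 := fun b => by
    have := eal_lt_ebe (D.W C) b.1
    linarith
  refine ⟨{ (Slots.one : Slots D C C₀ μT Ys sc) with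
    εd := td
    εd0 := htd
    m := fun _ s => min (tm s) ((D.G C).oS s / 4)
    m0 := fun _ s => lt_min (htm s) (by
      have h1 := D.ω3S_oS C s
      have h2 := D.ω3S_pos C s
      linarith)
    tol4 := fun {X} _ _ _ _ s => t4 X s.1
    tol40 := fun {X} _ _ _ _ s => ht4 X s.1
    tol5 := fun Y₄ _ _ b => min (t5 _ _ _ Y₄ b) (min (t6 _ _ _ Y₄ b)
      (min (t6 _ _ _ Y₄ b) ((D.B C).T b.1 / 4) / (ebe (D.W C) b.1 - eal (D.W C) b.1)))
    tol50 := fun Y₄ _ _ b => lt_min (ht5 _ _ _ Y₄ b) (lt_min (ht6 _ _ _ Y₄ b)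
      (div_pos (lt_min (ht6 _ _ _ Y₄ b) (by have := (D.B C).T_pos b.1; positivity)) (hab b))) }, ?_⟩
  intro N X Y₂ Y₃ Y₄ Y₅ H
  have hε5 : ∀ b, Y₅.ε b ≤ min (t5 X Y₂ Y₃ Y₄ b) (min (t6 X Y₂ Y₃ Y₄ b)
      (min (t6 X Y₂ Y₃ Y₄ b) ((D.B C).T b.1 / 4) /
        (ebe (D.W C) b.1 - eal (D.W C) b.1))) := fun b => H.ε5 b
  have hς : ∀ b : pG C J₀, Y₅.ς b * (ebe (D.W C) b.1 - eal (D.W C) b.1) ≤
      min (t6 X Y₂ Y₃ Y₄ b) ((D.B C).T b.1 / 4) := fun b => by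
    have h1 := (Y₅.ςε b).trans ((hε5 b).trans ((min_le_right _ _).trans (min_le_right _ _)))
    rwa [le_div_iff₀ (hab b)] at h1
  have hmm : ∀ s, Y₂.muP s ≤ min (tm s) ((D.G C).oS s / 4) := fun s => H.muP s
  have h6 : ∀ (b : pG C J₀) k, (Y₄.f5.toFun '' M.F k ∩ (D.B C).E b.1).Nonempty →
      t6 X Y₂ Y₃ Y₄ b ≤ o k := fun b k hk => by
    have h1 := H6 X Y₂ Y₃ Y₄ b k hk
    have h2 := ht6 X Y₂ Y₃ Y₄ b
    have hd : 0 ≤ diam (M.F k) := diam_nonneg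
    nlinarith
  refine ⟨fun b k hk => (H.εd b).trans (Hd b k hk), fun s k hk => ?_, fun s k hk =>
    ((hmm s).trans (min_le_left _ _)).trans (Hm s k hk), fun s => (hmm s).trans (min_le_right _ _),
    fun s k hk => (H.ε4 s).trans (H4 X s.1 k hk), fun b k hk => ?_, fun b k hk => ?_,
    fun b => (hς b).trans (min_le_right _ _), fun b k hk => ?_, fun s => (H.q4 s).ge,
    fun s => (H.r4 s).ge, fun b => ?_, fun b => ?_, fun b => ?_⟩
  · refine ((hmm s).trans (min_le_left _ _)).trans (Hm s k ?_)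
    obtain ⟨_, ⟨x, hx, rfl⟩, hxs⟩ := hk
    exact ⟨_, ⟨x, hx, rfl⟩, PX_of_PK X (H193.mesh_sub M k hx) hxs⟩
  · exact ((hς b).trans (min_le_left _ _)).trans (h6 b k hk)
  · exact ((Y₅.ςε b).trans ((hε5 b).trans ((min_le_right _ _).trans (min_le_left _ _)))).trans
      (h6 b k hk)
  · have h1 := (hε5 b).trans (min_le_left _ _)
    have h2 := H5 X Y₂ Y₃ Y₄ b k hk
    have h3 := ht5 X Y₂ Y₃ Y₄ b
    have hd : 0 ≤ diam (M.F k) := diam_nonneg
    nlinarith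
  · rw [H.μ5]
    exact (H212.K3.muT_pos D C b.1).le
  · rw [H.μ5]
    exact H212.K3.muT_le D C b.1
  · rw [H.μ5]
    exact H212.K3.muT_len D C b.1

/-! ### The row -/

/-- **one face which is not listed** -/
def SupLoc (C₀ κ c₂ : ℝ) : Prop :=
  ∀ {c₀ n δ : ℝ} {j : ℕ} {Ω Λ : Set V} {v w : V} {ρ : V → ℝ} {M : Mesh Ω} {h : ConHomeo Ω Λ}
    {J₀ J : Set (ℕ × (Fin 3 → ℤ))} {P Z : Set M.ι} {K : BoxCx Λ w}
    (D : KIn3 c₀ n j δ v w ρ M h J₀ J P Z) (C : Cells ρ w K) (Ys : Set M.κ) {p μ r ν : ℝ}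
    {sc : Sharp}, Cn p μ r sc ν n δ → J = J₀ → (∀ t ∈ J₀, ∀ t' ∈ J₀, t'.1 = t.1) →
    ∀ {S : Slots D C C₀ (n / 128) Ys sc} {N : RTn M C J₀} {X : S1 D C C₀ (n / 128)} {Y₂ : S2 X}
      {Y₃ : S3 Y₂ Ys sc} {Y₄ : S4 Y₃} (Y₅ : S5 Y₄), Ok5 S N Y₅ →
      SupNum Y₅ (fun k => κ * oscH h k) →
      ∀ k, (∀ i ∈ P, ¬ M.F k ⊆ M.Q i) → Unl Y₃ k →
        Ev (D.B C) (Xp C J₀) (20 / (1 / μN n)) M Y₅.f.toFun (.inl k)
          (OscEst Y₅.f.toFun k (c₂ * oscH h k))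

/-- **the row of the faces which are not listed** from the statement about one face -/
theorem supRow_of {C₀ κ c₂ : ℝ} (hκ : 0 < κ) (hc₂ : 0 ≤ c₂) (H : SupLoc C₀ κ c₂) : SupRow C₀ := by
  refine ⟨c₂, fun c hc => ?_⟩
  intro c₀ n δ j Ω Λ v w ρ M h J₀ J P Z K D C Ys p μ r ν sc HN ε om εL lam osc hε T hJ hm
  obtain ⟨S, hS⟩ := row_supNum D C (C₀ := C₀) (μT := n / 128) (Ys := Ys) (sc := sc)
    (o := fun k => κ * oscH h k) fun k => mul_pos hκ (oscH_pos h k)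
  refine ⟨S, fun {N X Y₂ Y₃ Y₄} Y₅ h5 k hP hU i hi => ?_⟩
  refine ⟨c₂ * oscH h k, fun b hb HF => ?_, H D C Ys HN hJ hm Y₅ h5 (hS Y₅ h5) k hP hU⟩
  exact mul_le_mul hc (oscH_le h hb.le HF hi) (oscH_pos h k).le (hc₂.trans hc)

end Vale.Agent.P073.H579.K3
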