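import Vale.Agent.P073.H579.ActT
import Vale.Agent.P073.H155.Own
import Vale.Agent.P073.H805.E3Box
import Vale.Agent.P073.H238.TFace

/-!
# P073, H579: **[OWN-MESH]**, the hypothesis `hedge` of `H345.exists_stage2`

`exists_own_box`: one edge of the mesh in the full part of a box (H155 `exists_own`). `hedge_act`:
hypothesis `hedge` for `GEd`; `hedge_T`: for `H238.GE`.
-/

set_option linter.unusedSectionVars false

open Set Metric Topology Filter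

namespace P073.H579

open P073 P073.TR P073.SCH P073.H236 P073.H345
open Vale.Agent.P073.St (V)
open Vale.Agent.P073.H73 (Mesh)
open Vale.Agent.P073.H193 (Edges Cyc)
open Vale.Agent.P073.H155 (vv)

variable {γ : Type*} {Ω Λ : Set V}

/-- the vertices on an edge are its end points -/
theorem vert_seg {M : Mesh Ω} (E : Edges M) {e : E.ε} {x : V} (hx : x ∈ E.seg e)
    (hv : x ∈ E.verts) : x = E.a e ∨ x = E.b e := by
  have key : ∀ e', x ∈ E.seg e' → (x = E.a e' ∨ x = E.b e') → x = E.a e ∨ x = E.b e := by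
    intro e' h1 h2
    by_cases h3 : e = e'
    · subst h3; exact h2
    · have := (E.meet e e' h3 ⟨hx, h1⟩).1
      simpa using this
  rcases hv with ⟨e', rfl⟩ | ⟨e', rfl⟩
  · exact key e' (left_mem_segment ℝ _ _) (Or.inl rfl)
  · exact key e' (right_mem_segment ℝ _ _) (Or.inr rfl)

/-- **one edge of the mesh in the full part of a box** -/
theorem exists_own_box {M : Mesh Ω} {E : Edges M} {h : ConHomeo Ω Λ} {B : γ → BX 3}
    (H : H345.Fam Λ B) {κ : V → V} (hκ : IsQ B κ) {g : γ} {e : E.ε}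
    (hin : InB (B g) (h.toFun '' E.seg e))
    (hr : ∀ m < (B g).N, ∀ x ∈ E.seg e, h.toFun x (B g).j = (B g).a m →
      H805.Reg (fun x => h.toFun x (B g).j) (fam M E) x) {om : Fin 3 → ℝ → ℝ}
    (hom : ∀ j, ∀ c ∈ LQ (B g) j, 0 < om j c) {mu : ℝ} (hmu : mu ∈ Ioc (0:ℝ) (1 / 4)) :
    ∃ (X : Finset V) (Φ : ConHomeo (E.seg e) (Pre κ Λ h (E.seg e))) (s1 s2 s3 s4 : V → ℝ),
      (∀ x, x ∈ X ↔ CrsPt (E.a e) (E.b e) h.toFun (LQ (B g)) x) ∧
      (∀ x ∈ E.seg e, x ∈ E.verts → κ (Φ.toFun x) = h.toFun x) ∧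
      EdgeNum (E.a e) (E.b e) h.toFun (kQ (B g)) (LQ (B g)) (loQ (B g)) (hiQ (B g)) om
        (8 * (∑ x ∈ X, omX h.toFun (LQ (B g)) om x) / ‖E.b e - E.a e‖) Φ.toFun s1 s2 s3 s4 ∧
      H155.Slots (E.a e) (E.b e) mu X (omX h.toFun (LQ (B g)) om) s1 s2 s3 s4 := by
  have heΩ : E.seg e ⊆ Ω := E.seg_sub_Ω e
  have hZ : Zone κ Λ h (kQ (B g)) (E.seg e) := zone_of_isQ H hκ hin
  have hr' : ∀ x ∈ segment ℝ (E.a e) (E.b e), ∀ j, h.toFun x j ∈ LQ (B g) j →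
      H805.Reg (fun y => h.toFun y j) (fam M E) x := by
    intro x hx j hj
    obtain ⟨rfl, m, hm, hma⟩ := mem_LQ.1 hj
    exact hr m hm x hx hma.symm
  have hvn : ∀ x ∈ E.verts, x ∈ E.seg e → ∀ j, h.toFun x j ∉ LQ (B g) j := by
    intro x hx hxe j hj
    exact not_reg_singleton (M := fam M E) (t := Sum.inr (Sum.inr ⟨x, hx⟩)) rfl (hr' x hxe j hj)
  obtain ⟨X, Φ, s1, s2, s3, s4, hX, ha, hb, hE, hSl, -, -⟩ := H155.exists_own (E.ne e)
    (h := h.toFun) (k := kQ (B g)) (L := LQ (B g)) (lo := loQ (B g)) (hi := hiQ (B g)) (om := om)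
    (mu := mu) (h.injOn.mono heΩ) (h.cont.mono heΩ)
    (h.conical.mono (Convex.conicalSet (convex_segment _ _)) heΩ) (ins1_Q (B g))
    (hvn _ (Or.inl ⟨e, rfl⟩) (left_mem_segment ℝ _ _))
    (hvn _ (Or.inr ⟨e, rfl⟩) (right_mem_segment ℝ _ _))
    (fun x hx j hj => by
      obtain ⟨σ, r, hb⟩ := hr' x hx j hj
      have h1 := H805.crosses_of_box hb (m := Sum.inr (Sum.inl e)) (n := Sum.inr (Sum.inl e)) hx hx
      rw [inter_self] at h1
      exact h1)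
    (fun x hx j j' h1 h2 => (mem_LQ.1 h1).1.trans (mem_LQ.1 h2).1.symm)
    hom hmu
  refine ⟨X, Φ.cast rfl (hZ.pre_eq Subset.rfl).symm, s1, s2, s3, s4, hX, fun x hx hxv => ?_, hE,
    hSl⟩
  have h1 : κ (Φ.toFun x) = prodK (kQ (B g)) (Φ.toFun x) := by
    refine hZ.eq Subset.rfl ?_
    rw [hZ.pre_eq Subset.rfl]
    exact Φ.mapsTo hx
  show κ (Φ.toFun x) = h.toFun x
  rw [h1]
  rcases vert_seg E hx hxv with rfl | rfl
  · exact ha
  · exact hb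

/-- **[OWN-MESH]**: the hypothesis `hedge` of `exists_stage2`, for `GEd` -/
theorem hedge_act {M : Mesh Ω} {E : Edges M} {h : ConHomeo Ω Λ} {B : γ → BX 3}
    (H : H345.Fam Λ B) (hreg : RegB M E h B) {κ : V → V} (hκ : IsQ B κ)
    {Ac : γ → M.κ → Prop} (hAc : ∀ g k, Ac g k → FAct M h B g k) {We : E.ε → ℝ}
    (hWe : ∀ g e, EAct E Ac g e → ∀ Y : Finset V,
      (∀ x ∈ Y, CrsPt (E.a e) (E.b e) h.toFun (LQ (B g)) x) →
        ∑ x ∈ Y, omX h.toFun (LQ (B g)) (omQ (B g)) x ≤ We e) :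
    ∀ k ∈ actF Ac, ∀ e, E.seg e ⊆ M.F k → ∃ Φ : ConHomeo (E.seg e) (Pre κ Λ h (E.seg e)),
      GEd E h B Ac We e Φ.toFun ∧ ∀ x ∈ E.seg e, x ∈ E.verts → κ (Φ.toFun x) = h.toFun x := by
  rintro k ⟨g, hg⟩ e he
  have hF := hAc g k hg
  obtain ⟨X, Φ, s1, s2, s3, s4, hX, hv, hE, -⟩ := exists_own_box H hκ (e := e)
    (hF.1.mono (image_mono he)) (fun m hm x hx hxm => hF.reg hreg m hm x (he hx) hxm)
    (om := omQ (B g)) (fun _ _ _ => omQ_pos _ _) (mu := 1 / 4) (by norm_num)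
  refine ⟨Φ, fun g' hg' => ?_, hv⟩
  by_cases hgg : g' = g
  · subst hgg
    refine ⟨s1, s2, s3, s4, hE.mono_La ?_ fun j c _ => ?_⟩
    · unfold laE
      refine div_le_div_of_nonneg_right ?_ (norm_nonneg _)
      exact mul_le_mul_of_nonneg_left (hWe g' e hg' X fun x hx => (hX x).1 hx) (by norm_num)
    · have h1 := hiQ_sub_loQ (B := B g') j c
      have h2 := (B g').lvs.c0
      linarith
  · obtain ⟨k', hk', he'⟩ := hg'
    refine ⟨s1, s2, s3, s4, EdgeNum.of_empty (fun x hx => hgg ?_) _ _ _ _⟩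
    obtain ⟨hxs, m, hm, hma⟩ := crsPt_Q.1 hx
    exact eq_of_level H ((hAc g' k' hk').1 _ ⟨x, he' hxs, rfl⟩).1 (hF.1 _ ⟨x, he hxs, rfl⟩).1 hm
      hma.symm

/-- the hypothesis `hedge` of `exists_stage2`, for `H238.GE` (same hypotheses as `H238.hface_T`,
`La e = 8 * We e / |e|`) -/
theorem hedge_T {M : Mesh Ω} {E : Edges M} {h : ConHomeo Ω Λ} {B : γ → BX 3} {κ : V → V}
    (H : H345.Fam Λ B) (hκ : IsQ B κ) (hreg : RegB M E h B) {Z : γ → Set V}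
    (hZ : ∀ g g', g ≠ g' → Disjoint (Z g) (Z g')) {om : γ → Fin 3 → ℝ → ℝ}
    (hom : ∀ g j, ∀ c ∈ Vale.Agent.P073.H238.LB (B g) j, 0 < om g j c) {We : E.ε → ℝ}
    {Act : Set M.κ}
    (hAct : ∀ k ∈ Act, ∃ g, (∀ x ∈ M.F k, Vale.Agent.P073.H238.FullO (B g) (h.toFun x) ∧
      h.toFun x ∈ Z g))
    (hWe : ∀ k ∈ Act, ∀ e, E.seg e ⊆ M.F k → ∀ g, h.toFun '' E.seg e ⊆ Z g → ∀ Y : Finset V,
      (∀ x ∈ Y, CrsPt (E.a e) (E.b e) h.toFun (Vale.Agent.P073.H238.LB (B g)) x) →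
      ∑ x ∈ Y, omX h.toFun (Vale.Agent.P073.H238.LB (B g)) (om g) x ≤ We e) :
    ∀ k ∈ Act, ∀ e, E.seg e ⊆ M.F k → ∃ Φ : ConHomeo (E.seg e) (Pre κ Λ h (E.seg e)),
      Vale.Agent.P073.H238.GE E h.toFun B Z om (laE E We) e Φ.toFun ∧
        ∀ x ∈ E.seg e, x ∈ E.verts → κ (Φ.toFun x) = h.toFun x := by
  intro k hk e he
  obtain ⟨g, hg⟩ := hAct k hk
  have hLB : Vale.Agent.P073.H238.LB (B g) = LQ (B g) := rfl
  have hkB : Vale.Agent.P073.H238.kB (B g) = kQ (B g) := by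
    funext j
    unfold Vale.Agent.P073.H238.kB kQ
    split_ifs <;> rfl
  have hin : InB (B g) (h.toFun '' E.seg e) := by
    rintro _ ⟨x, hx, rfl⟩
    exact ⟨(hg x (he hx)).1.mem, (hg x (he hx)).1.2⟩
  have hr : ∀ m < (B g).N, ∀ x ∈ E.seg e, h.toFun x (B g).j = (B g).a m →
      H805.Reg (fun x => h.toFun x (B g).j) (fam M E) x := fun m hm x hx hxm =>
    hreg k g ⟨h.toFun x, (hin _ ⟨x, hx, rfl⟩).1, x, he hx, rfl⟩ m hm x (he hx) hxm
  obtain ⟨X, Φ, s1, s2, s3, s4, hX, hv, hE, -⟩ := exists_own_box H hκ (e := e) hin hr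
    (om := om g) (fun j c hc => hom g j c (hLB ▸ hc)) (mu := 1 / 4) (by norm_num)
  refine ⟨Φ, fun g' hg' => ?_, hv⟩
  have hgg : g' = g := by
    by_contra hne
    have h1 := left_mem_segment ℝ (E.a e) (E.b e)
    exact Set.disjoint_left.1 (hZ g' g hne) (hg' ⟨_, h1, rfl⟩) (hg _ (he h1)).2
  subst hgg
  refine ⟨s1, s2, s3, s4, ?_⟩
  rw [hLB, hkB]
  refine hE.mono_La ?_ fun j c _ => ?_
  · unfold laE
    refine div_le_div_of_nonneg_right ?_ (norm_nonneg _)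
    exact mul_le_mul_of_nonneg_left (hWe k hk e he g' hg' X fun x hx => (hX x).1 hx) (by norm_num)
  · have h1 := hiQ_sub_loQ (B := B g') j c
    have h2 := (B g').lvs.c0
    linarith

end P073.H579
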