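import Vale.Agent.P073.H579.T12W

/-!
# P073, H579: STAGES 1 and 2 of ROUND T with general weights `We ≥ WeW`

The edges of given cells may need larger numbers than the crossing weights. `stage2We`,
`exists_t12We`: `stage2W`, `exists_t12W` for every `We ≥ WeW`; `offT`: the faces which miss all
supports.
-/

set_option linter.unusedSectionVars false

open Set Metric Topology Filter
open scoped ENNReal

namespace P073.H579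

open P073 P073.TR P073.SCH P073.H236 P073.H345
open Vale.Agent.P073.St (V)
open Vale.Agent.P073.H73 (Mesh)
open Vale.Agent.P073.H193 (Edges Cyc)

/-- larger weights -/
theorem GEd.mono {γ : Type*} {Ω Λ : Set V} {M : Mesh Ω} {E : Edges M} {h : ConHomeo Ω Λ}
    {B : γ → BX 3} {Ac : γ → M.κ → Prop} {We We' : E.ε → ℝ} {e : E.ε} {f : V → V}
    (H : GEd E h B Ac We e f) (hle : We e ≤ We' e) : GEd E h B Ac We' e f := by
  intro g hg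
  obtain ⟨s1, s2, s3, s4, h1⟩ := H g hg
  refine ⟨s1, s2, s3, s4, h1.mono_La ?_ fun j c hc => ((ins1_Q (B g) j).lt c hc).le⟩
  unfold laE
  gcongr

end P073.H579

namespace Vale.Agent.P073.H669.TLv

open _root_.P073 _root_.P073.TR _root_.P073.Net _root_.P073.PA691
open _root_.P073.PR720 (LF)
open Vale.Agent.P073.St (V)
open Vale.Agent.P073.H471 Vale.Agent.P073.H267 Vale.Agent.P073.H267.Geo
open Vale.Agent.P073.H73 (Mesh)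
open Vale.Agent.P073.H193 (Edges Cyc)
open Vale.Agent.P073.H155 (vv)
open Vale.Agent.P073.H238 (oT marg TAct TProt skel mesh_sub)
open Vale.Agent.P073.H579 (TStageW PWall skelW skel_subW exists_tstageW)
open _root_.P073.H345 (fam Fam RegB Out2 Miss IsQ)
open _root_.P073.H236 (BX)
open _root_.P073.H155 (Giv exists_stage2G)
open _root_.P073.H579 (actF GEd GFd Pre InsMap fam_comp regB_comp)

variable {Ω Λ : Set V} {v : V} {K : BoxCx Λ v} {S : Rad K} {Wd : Wid K S} {B : Boxes Wd}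
  {G : Geo B} {M : Mesh Ω} {E : Edges M} {h h' : ConHomeo Ω Λ} {ω : TBx K → ℝ}
  {T : TBx K → Finset (ℝ × ℝ)} {η : ℝ} {τ : Type*} {A : τ → Set V} {C : Set ℝ} {εE : E.ε → ℝ}
  {δ : TBx K → ℝ} {Pr W : Set M.ι} {Act₀ : Set M.κ} {G₀ : Set (TBx K)}

/-- the faces which miss all supports -/
def offT (G : Geo B) (M : Mesh Ω) (h : ConHomeo Ω Λ) (G₀ : Set (TBx K)) : Set M.κ :=
  {k | ∀ x ∈ M.F k, ∀ b ∈ G₀, h.toFun x ∉ G.TB false b}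

variable (L : TLv G E h ω T η A C εE δ)

theorem offT_sub {c : TBx K → ℝ} (hc0 : ∀ b, 0 < c b) (hc : ∀ b, c b ≤ δ b / 8)
    (O : TStageW G M h h' Pr W Act₀ G₀ L.lev ω) :
    offT G M h G₀ ⊆ Miss M h' fun b : G₀ => L.bxQ c hc0 hc b.1 :=
  fun _ hk => L.mem_missW hc0 hc O fun b hb x hx => hk x hx b hb

/-- **STAGE 2** after STAGE 1, with given cells, general weights -/
theorem stage2We (hΩ : IsOpen Ω) (hΛ : IsOpen Λ)
    (O : TStageW G M h h' Pr W Act₀ G₀ L.lev ω)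
    (hosc : ∀ b ∈ G₀, ∀ k, ∀ x ∈ M.F k, ∀ y ∈ M.F k, h.toFun x ∈ G.TB false b →
      dist (h.toFun x) (h.toFun y) ≤ ω b)
    (Cy : ∀ k, Cyc E k) {ctr : M.κ → V} {r0 R : M.κ → ℝ}
    (hS : ∀ k, _root_.P073.H155.Star ((Cy k).n + 1) (vv (Cy k)) (ctr k) (r0 k) (R k) (M.F k))
    {Gv : Set M.ι} (hGv : ∀ k ∈ Act₀, (∃ x ∈ M.F k, ∃ b ∈ G₀, h.toFun x ∈ G.TB false b) →
      ∀ j ∈ Gv, ¬ M.F k ⊆ M.Q j) :
    ∃ c₀ : TBx K → ℝ, (∀ b, 0 < c₀ b) ∧ ∀ (c : TBx K → ℝ) (hc0 : ∀ b, 0 < c b)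
      (hc : ∀ b, c b ≤ δ b / 8), (∀ b ∈ G₀, c b ≤ c₀ b) →
      ∀ κ, IsQ (fun b : G₀ => L.bxQ c hc0 hc b.1) κ → InsMap κ Λ Λ →
      ∀ We : E.ε → ℝ, (∀ e, L.WeW G₀ h' e ≤ We e) →
      ∀ Ψ : ∀ j ∈ Gv, ConHomeo (M.Q j) (Pre κ Λ h' (M.Q j)),
      Giv M E h' κ (actF (L.AcW Act₀ G₀ h')) (offT G M h G₀)
        (GEd E h' (fun b : G₀ => L.bxQ c hc0 hc b.1) (L.AcW Act₀ G₀ h') We) Gv Ψ →
      ∃ g : ConHomeo Ω Λ, Out2 M E h' κ (actF (L.AcW Act₀ G₀ h'))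
        (GEd E h' (fun b : G₀ => L.bxQ c hc0 hc b.1) (L.AcW Act₀ G₀ h') We)
        (GFd E (fun b : G₀ => L.bxQ c hc0 hc b.1) (L.AcW Act₀ G₀ h') We ctr r0 R) g ∧
        (∀ k ∈ offT G M h G₀, EqOn g.toFun h'.toFun (M.F k)) ∧
        ∀ j hj, EqOn g.toFun (Ψ j hj).toFun (M.Q j) := by
  classical
  have hd0 : ∀ b, 0 < δ b / 8 := fun b => by have := L.δ0 b; positivity
  have hdd : ∀ b, δ b / 8 ≤ δ b / 8 := fun b => le_rfl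
  have hneF : ∀ k, (M.F k).Nonempty := by
    intro k
    obtain ⟨φ, -⟩ := (M.fat k).chart
    exact ⟨_, φ.mapsTo (show ((0:ℝ), (0:ℝ)) ∈ Vale.Agent.P073.H73.usq from
      ⟨⟨le_rfl, zero_le_one⟩, ⟨le_rfl, zero_le_one⟩⟩)⟩
  have hMi := L.offT_sub hd0 hdd O
  obtain ⟨c₀, hc₀, H⟩ := exists_stage2G hΩ M E h' (B := fun b : G₀ => L.bxQ _ hd0 hdd b.1)
    (fam_comp (L.fam345 hd0 hdd hΛ) Subtype.val_injective)
    (L.regBG O hd0 hdd hosc) (actF (L.AcW Act₀ G₀ h'))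
    (offT G M h G₀) Gv hMi
    (by
      rintro k ⟨b, hk⟩ hm
      exact L.not_missW O hd0 hdd hk Subset.rfl (hneF k) (hMi hm) Subset.rfl)
    (by
      rintro k ⟨b, hk⟩ e he l hl
      exact L.not_missW O hd0 hdd hk he ⟨_, left_mem_segment ℝ _ _⟩ (hMi hl))
    (by
      rintro k ⟨b, hk⟩ j hj
      obtain ⟨x, hx, hxb, -⟩ := O.act b.1 k hk.2
      exact hGv k hk.1 ⟨x, hx, b.1, b.2, TB_true_subset b.1 hxb⟩ j hj)
  refine ⟨fun b => if hb : b ∈ G₀ then c₀ ⟨b, hb⟩ else 1, fun b => ?_,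
    fun c hc0 hc hcc κ hκ hI We hWe Ψ hΨ => ?_⟩
  · dsimp only
    split_ifs with hb
    · exact hc₀ _
    · exact one_pos
  refine H (fun b => c b.1) (fun b => hc0 b.1) (fun b => hc b.1) (fun b => ?_) κ hκ hI _ _ Ψ hΨ
    (fun k hk e he _ => ?_) ?_
  · have h1 := hcc b.1 b.2
    dsimp only at h1
    rwa [dif_pos b.2] at h1
  · obtain ⟨Φ, h1, h2⟩ := L.hedgeW O hc0 hc hΛ hosc hκ k hk e he
    exact ⟨Φ, h1.mono (hWe e), h2⟩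
  intro k hk Φe hGE _ hv
  exact _root_.P073.H579.hface_act hΩ (fam_comp (L.fam345 hc0 hc hΛ) Subtype.val_injective)
    (L.regBG O hc0 hc hosc) hκ
    (fun b k hk => L.factW O hc0 hc hk) (fun b k hk σ hσ hs => L.hnoW O hc0 hc hk hσ hs) Cy hS
    (fun e => (L.WeW_nonneg G₀ h' e).trans (hWe e))
    (fun b e hA Y hY => (L.hWeW O hc0 hc hA Y hY).trans (hWe e)) hk Φe hGE hv

/-- **[T12-3]**, general weights: STAGE 1 and STAGE 2 of ROUND T, in the boxes `G₀`, with given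
cells -/
theorem exists_t12We (hΩ : IsOpen Ω) (hΛ : IsOpen Λ) {G₀ : Set (TBx K)} {Pr : Set M.ι}
    (R' : PWall G M h Pr G₀)
    (hosc : ∀ b ∈ G₀, ∀ k, ∀ x ∈ M.F k, ∀ y ∈ M.F k, h.toFun x ∈ G.TB false b →
      dist (h.toFun x) (h.toFun y) ≤ ω b)
    (Cy : ∀ k, Cyc E k) {ctr : M.κ → V} {r0 R : M.κ → ℝ}
    (hS : ∀ k, _root_.P073.H155.Star ((Cy k).n + 1) (vv (Cy k)) (ctr k) (r0 k) (R k) (M.F k))
    {W : Set M.ι} {Act₀ : Set M.κ} (hA : ∀ k ∈ Act₀, ∀ i ∈ Pr, ¬ M.F k ⊆ M.Q i)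
    (hW : ∀ k ∈ Act₀, ∀ i ∈ W, ¬ M.F k ⊆ M.Q i) :
    ∃ h' : ConHomeo Ω Λ, TStageW G M h h' Pr W Act₀ G₀ L.lev ω ∧
      ∀ (Gv : Set M.ι), (∀ k ∈ Act₀, (∃ x ∈ M.F k, ∃ b ∈ G₀, h.toFun x ∈ G.TB false b) →
        ∀ j ∈ Gv, ¬ M.F k ⊆ M.Q j) →
      ∃ c₀ : TBx K → ℝ, (∀ b, 0 < c₀ b) ∧ ∀ (c : TBx K → ℝ) (hc0 : ∀ b, 0 < c b)
      (hc : ∀ b, c b ≤ δ b / 8), (∀ b ∈ G₀, c b ≤ c₀ b) →
      ∀ κ, IsQ (fun b : G₀ => L.bxQ c hc0 hc b.1) κ → InsMap κ Λ Λ →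
      ∀ We : E.ε → ℝ, (∀ e, L.WeW G₀ h' e ≤ We e) →
      ∀ Ψ : ∀ j ∈ Gv, ConHomeo (M.Q j) (Pre κ Λ h' (M.Q j)),
      Giv M E h' κ (actF (L.AcW Act₀ G₀ h')) (offT G M h G₀)
        (GEd E h' (fun b : G₀ => L.bxQ c hc0 hc b.1) (L.AcW Act₀ G₀ h') We) Gv Ψ →
      ∃ g : ConHomeo Ω Λ, Out2 M E h' κ (actF (L.AcW Act₀ G₀ h'))
        (GEd E h' (fun b : G₀ => L.bxQ c hc0 hc b.1) (L.AcW Act₀ G₀ h') We)
        (GFd E (fun b : G₀ => L.bxQ c hc0 hc b.1) (L.AcW Act₀ G₀ h') We ctr r0 R) g ∧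
        (∀ k ∈ offT G M h G₀, EqOn g.toFun h'.toFun (M.F k)) ∧
        ∀ j hj, EqOn g.toFun (Ψ j hj).toFun (M.Q j) := by
  obtain ⟨h', O⟩ := exists_tstageW hΩ hΛ (L.levG hosc) R' hA hW
  exact ⟨h', O, fun Gv hGv => L.stage2We hΩ hΛ O hosc Cy hS hGv⟩

end Vale.Agent.P073.H669.TLv
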