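import Vale.Agent.P073.H236.GOut5
import Vale.Agent.P073.H579.RTW

/-!
# P073, H579: **[ROUNDT-S]**, ROUND T of `K3C` in one theorem: STAGES 1, 2, 3 for the boxes of `G₀`,
with given cells `Gv`

`We`: any weights `≥ WeW`. `stage3S`: the staircases of the full windows, output `T3OutS`.
`stage3G`: ANY later staircase `S` (general targets), output `T3OutG`. `exists_roundTS`: STAGES 1, 2.
-/

set_option linter.unusedSectionVars false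

open Set Metric Topology Filter

namespace Vale.Agent.P073.H669.TLv

open _root_.P073 _root_.P073.Net _root_.P073.PA691 _root_.P073.H579 _root_.P073.H236
open _root_.P073.PR720 (LF)
open _root_.P073.H345 (IsQ Out2 Miss Fam)
open Vale.Agent.P073.St (V)
open Vale.Agent.P073.H471 Vale.Agent.P073.H267
open Vale.Agent.P073.H73 (Mesh)
open Vale.Agent.P073.H193 (Edges Cyc)
open Vale.Agent.P073.H155 (vv)
open _root_.P073.H155 (Giv)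
open Vale.Agent.P073.H238 (oT TMid TMid_sub TAct skel mesh_sub TProt)
open Vale.Agent.P073.H579 (TStageW PWall)

variable {Ω Λ : Set V} {v : V} {K : BoxCx Λ v} {S₀ : Rad K} {Wd : Wid K S₀} {B : Boxes Wd}
  {G : Geo B} {M : Mesh Ω} {E : Edges M} {h h' : ConHomeo Ω Λ} {ω : TBx K → ℝ}
  {T : TBx K → Finset (ℝ × ℝ)} {η : ℝ} {τ : Type*} {A : τ → Set V} {C : Set ℝ} {εE : E.ε → ℝ}
  {δ : TBx K → ℝ} {Pr W : Set M.ι} {Act₀ : Set M.κ} {G₀ : Set (TBx K)} {κ : V → V}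
  {g : ConHomeo Ω Λ}

/-- the constants of the cones -/
noncomputable def lfE {M : Mesh Ω} (E : Edges M) (We : E.ε → ℝ) (r0 R : M.κ → ℝ) (k : M.κ)
    (e : E.ε) : ℝ :=
  156 * (1 + R k / r0 k) * (laE E We e + (∑ e ∈ (E.fin_face k).toFinset, We e) / r0 k)

theorem laE_nonneg {We : E.ε → ℝ} (hWe : ∀ e, 0 ≤ We e) (e : E.ε) : 0 ≤ laE E We e :=
  div_nonneg (mul_nonneg (by norm_num) (hWe e)) (norm_nonneg _)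

theorem lfE_nonneg {We : E.ε → ℝ} (hWe : ∀ e, 0 ≤ We e) {r0 R : M.κ → ℝ} (hr0 : ∀ k, 0 < r0 k)
    (hR : ∀ k, 0 ≤ R k) (k : M.κ) (e : E.ε) : 0 ≤ lfE E We r0 R k e := by
  have a1 := hr0 k
  have a2 := hR k
  have a3 := laE_nonneg hWe e
  have a4 : 0 ≤ ∑ e ∈ (E.fin_face k).toFinset, We e := Finset.sum_nonneg fun e _ => hWe e
  unfold lfE
  positivity

variable {L : TLv G E h ω T η A C εE δ} {c : TBx K → ℝ} {hc0 : ∀ b, 0 < c b}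
  {hc : ∀ b, c b ≤ δ b / 8} {We : E.ε → ℝ} {O : M.κ → V} {r0 R : M.κ → ℝ}

/-- the good edge and face maps of STAGE 2 -/
def OutW (L : TLv G E h ω T η A C εE δ) {c : TBx K → ℝ} (hc0 : ∀ b, 0 < c b)
    (hc : ∀ b, c b ≤ δ b / 8) (Act₀ : Set M.κ) (G₀ : Set (TBx K)) (We : E.ε → ℝ) (O : M.κ → V)
    (r0 R : M.κ → ℝ) (h' : ConHomeo Ω Λ) (κ : V → V) (g : ConHomeo Ω Λ) : Prop :=
  Out2 M E h' κ (actF (L.AcW Act₀ G₀ h'))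
    (GEd E h' (fun b : G₀ => L.bxQ c hc0 hc b.1) (L.AcW Act₀ G₀ h') We)
    (GFd E (fun b : G₀ => L.bxQ c hc0 hc b.1) (L.AcW Act₀ G₀ h') We O r0 R) g

/-- edges of active faces, after STAGE 2 -/
theorem OutW.edgeS (hg : OutW L hc0 hc Act₀ G₀ We O r0 R h' κ g) (ed : E.ε) (b : TBx K)
    (hb : b ∈ G₀) (k : M.κ) (hk0 : k ∈ Act₀) (hT : TAct G M h' L.lev b k)
    (hed : E.seg ed ⊆ M.F k) :
    ∃ f : V → V, EqOn g.toFun f (E.seg ed) ∧ ∃ s1 s2 s3 s4 : V → ℝ,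
      EdgeNum (E.a ed) (E.b ed) h'.toFun (kQ (L.bxQ c hc0 hc b)) (LQ (L.bxQ c hc0 hc b))
        (loQ (L.bxQ c hc0 hc b)) (hiQ (L.bxQ c hc0 hc b)) (omQ (L.bxQ c hc0 hc b))
        (laE E We ed) f s1 s2 s3 s4 := by
  have hA : L.AcW Act₀ G₀ h' ⟨b, hb⟩ k := ⟨hk0, hT⟩
  obtain ⟨f, hf1, hf2⟩ := hg.edge k ⟨⟨b, hb⟩, hA⟩ ed hed
  exact ⟨f, hf2, hf1 ⟨b, hb⟩ ⟨k, hA, hed⟩⟩

/-- active faces, after STAGE 2 -/
theorem OutW.faceS (hg : OutW L hc0 hc Act₀ G₀ We O r0 R h' κ g) (k : M.κ) (hk0 : k ∈ Act₀)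
    (b : TBx K) (hb : b ∈ G₀) (hT : TAct G M h' L.lev b k) :
    ∃ Φ : V → V, EqOn g.toFun Φ (M.F k) ∧ ∀ e, E.seg e ⊆ M.F k →
      ∀ x ∈ coneSetAt (O k) (E.seg e), ∀ y ∈ coneSetAt (O k) (E.seg e),
      bandD (LQ (L.bxQ c hc0 hc b)) (loQ (L.bxQ c hc0 hc b)) (hiQ (L.bxQ c hc0 hc b))
        (omQ (L.bxQ c hc0 hc b)) (Φ x) (Φ y) ≤ lfE E We r0 R k e * ‖x - y‖ := by
  have hA : L.AcW Act₀ G₀ h' ⟨b, hb⟩ k := ⟨hk0, hT⟩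
  obtain ⟨Φ, hΦ1, hΦ2⟩ := hg.face k ⟨⟨b, hb⟩, hA⟩
  exact ⟨Φ.toFun, hΦ2, (hΦ1 ⟨b, hb⟩ hA).1⟩

/-- paths in the active faces, after STAGE 2 -/
theorem OutW.pathS (hg : OutW L hc0 hc Act₀ G₀ We O r0 R h' κ g) (k : M.κ) (hk0 : k ∈ Act₀)
    (b : TBx K) (hb : b ∈ G₀) (hT : TAct G M h' L.lev b k) :
    ∀ x ∈ M.F k, ∀ y ∈ M.F k, ∃ γ : ℝ → V, ContinuousOn γ (Icc 0 3) ∧
      MapsTo γ (Icc 0 3) (M.F k) ∧ γ 0 = x ∧ γ 3 = y ∧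
      H880.cvar (fun s t => ENNReal.ofReal (bandD (LQ (L.bxQ c hc0 hc b))
        (loQ (L.bxQ c hc0 hc b)) (hiQ (L.bxQ c hc0 hc b)) (omQ (L.bxQ c hc0 hc b))
        (g.toFun (γ s)) (g.toFun (γ t)))) 0 3 ≤
        ENNReal.ofReal (8 * ∑ e ∈ (E.fin_face k).toFinset, We e) := by
  have hA : L.AcW Act₀ G₀ h' ⟨b, hb⟩ k := ⟨hk0, hT⟩
  obtain ⟨Φ, hΦ1, hΦ2⟩ := hg.face k ⟨⟨b, hb⟩, hA⟩
  intro x hx y hy
  obtain ⟨γ, g1, g2, g3, g4, g5⟩ := (hΦ1 ⟨b, hb⟩ hA).2 x hx y hy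
  refine ⟨γ, g1, g2, g3, g4, (H880.cvar_congr fun s hs t ht _ => le_of_eq ?_).trans g5⟩
  rw [hΦ2 (g2 hs), hΦ2 (g2 ht)]

theorem OutW.gEdG (hg : OutW L hc0 hc Act₀ G₀ We O r0 R h' κ g) :
    GEdG G M E h' G₀ Act₀ (fun b : G₀ => L.bxQ c hc0 hc b.1) g (laE E We) := by
  rintro ed b ⟨k, hk0, hk, hed⟩
  exact hg.edgeS ed b.1 b.2 k hk0 (actB_iff.1 hk) hed

theorem OutW.gFdG (hO : ∀ k, O k ∈ M.F k) (hg : OutW L hc0 hc Act₀ G₀ We O r0 R h' κ g) :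
    GFdG G M E h' G₀ Act₀ (fun b : G₀ => L.bxQ c hc0 hc b.1) g O (lfE E We r0 R) := by
  intro k hk0 b hk e he x hx y hy
  obtain ⟨Φ, hΦ1, hΦ2⟩ := hg.faceS k hk0 b.1 b.2 (actB_iff.1 hk)
  rw [hΦ1 (cone_sub (hO k) he hx), hΦ1 (cone_sub (hO k) he hy)]
  exact hΦ2 e he x hx y hy

/-- **STAGE 3, full windows** -/
theorem stage3S (D : St2W L hc0 hc Pr W Act₀ G₀ h' κ g) (hO : ∀ k, O k ∈ M.F k)
    (hr0 : ∀ k, 0 < r0 k) (hR : ∀ k, 0 ≤ R k) (hWe : ∀ e, 0 ≤ We e)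
    (hg : OutW L hc0 hc Act₀ G₀ We O r0 R h' κ g)
    (hmiss : ∀ k ∈ offT G M h G₀, EqOn g.toFun h'.toFun (M.F k))
    (hcω : ∀ b ∈ G₀, c b ≤ 18 * ω b)
    (hom : ∀ b ∈ G₀, ∀ y q, y ∈ G.TB false b → y ∈ K.cube q → 1024 * ω b ≤ G.om q)
    (hcmp : ∀ k, (∃ x ∈ M.F k, ∃ b ∈ G₀, h.toFun x ∈ G.TB false b) →
      ∀ x ∈ M.F k, ∀ x' ∈ M.F k, ∀ q q', h.toFun x ∈ K.cube q →
      h.toFun x' ∈ K.cube q' → 4096 * ‖h.toFun x - h.toFun x'‖ ≤ G.om q ∧ G.om q' ≤ 4 * G.om q)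
    (hdsp : ∀ b, dsp (T b) (δ b) + δ b + 60 * ω b ≤ 62 * ω b) :
    ∃ Lam1 : M.κ → ℝ, (∀ k, 0 ≤ Lam1 k) ∧
      (∀ k, ∀ x ∈ M.F k, ∀ y ∈ M.F k, ‖g.toFun x - g.toFun y‖ ≤ Lam1 k * ‖x - y‖) ∧
      ∀ (σ e₁ : TBx K → ℝ) (ε : M.κ → ℝ) (εe : E.ε → ℝ), (∀ b, 0 < σ b) → (∀ b, 0 < e₁ b) →
        (∀ k, 0 < ε k) → (∀ e, 0 < εe e) →
        ∃ (e : TBx K → ℝ) (he : ∀ b, 0 < e b) (he8 : ∀ b, e b ≤ δ b / 8), (∀ b, e b ≤ e₁ b) ∧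
          (∀ b, ∑ p ∈ (L.bfam hc0 hc e (fun b => 62 * ω b) he he8 hdsp).sl b,
            (p.2 - p.1) ≤ σ b) ∧
          (∀ k b, InT G M h ω b k → e b / c b * Lam1 k ≤ ε k) ∧
          ∀ S : ConHomeo Λ Λ, ((L.bfam hc0 hc e (fun b => 62 * ω b) he he8 hdsp).comp
            (Subtype.val : G₀ → TBx K) Subtype.val_injective).IsS S →
          T3OutS G M E h (g.trans S) ω G₀ Act₀ O (fun e => laE E We e + εe e)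
            (fun k e => lfE E We r0 R k e + ε k) Lam1
            (L.bfam hc0 hc e (fun b => 62 * ω b) he he8 hdsp).sl :=
  exists_t3outS D hmiss hom hcmp hdsp hcω hO (laE_nonneg hWe) (lfE_nonneg hWe hr0 hR)
    hg.edgeS hg.faceS

/-- **STAGE 3, any staircase** -/
theorem stage3G (D : St2W L hc0 hc Pr W Act₀ G₀ h' κ g) (hO : ∀ k, O k ∈ M.F k)
    (hr0 : ∀ k, 0 < r0 k) (hR : ∀ k, 0 ≤ R k) (hWe : ∀ e, 0 ≤ We e)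
    (hg : OutW L hc0 hc Act₀ G₀ We O r0 R h' κ g)
    (hmiss : ∀ k ∈ offT G M h G₀, EqOn g.toFun h'.toFun (M.F k))
    {Ks : G₀ → Set V} (hKs : ∀ b : G₀, (L.bxQ c hc0 hc b.1).K ⊆ Ks b)
    (hKT : ∀ b : G₀, Ks b ⊆ G.TB false b.1)
    (hcω : ∀ b ∈ G₀, c b ≤ ω b) {m : ℝ} (hm : 13 ≤ m) :
    ∃ Lam1 : M.κ → ℝ, (∀ k, 0 ≤ Lam1 k) ∧
      (∀ k, ∀ x ∈ M.F k, ∀ y ∈ M.F k, ‖g.toFun x - g.toFun y‖ ≤ Lam1 k * ‖x - y‖) ∧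
      ∀ (ε : M.κ → ℝ) (εe : E.ε → ℝ), (∀ k, 0 < ε k) → (∀ e, 0 < εe e) →
        ∃ io₀ : G₀ → ℝ, (∀ b, 0 < io₀ b) ∧
          ∀ (q : ℝ) (io lo hi r : G₀ → ℝ)
            (τ : ∀ b : G₀, TG (Bsm G (fun b : G₀ => L.bxQ c hc0 hc b.1) b))
            (S : ConHomeo Λ Λ), 0 ≤ q →
            (∀ b, io b ≤ io₀ b) → (∀ b, (τ b).Wt q (io b) (lo b) (hi b)) →
            (∀ b : G₀, lo b ≤ G.tlo true b.1 b.1.ax + (m - 13) * ω b.1) →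
            (∀ b : G₀, G.thi true b.1 b.1.ax - (m - 13) * ω b.1 ≤ hi b) →
            (∀ b, IsF (τ b) S) →
            Mv Ks r S.toFun → (∀ b, 12 * ω b.1 ≤ r b) →
            (∀ b : G₀, ∀ y ∈ G.TB false b.1, ∀ p, y ∈ K.cube p → 16 * r b ≤ G.om p) →
            (∀ k, (∃ x ∈ M.F k, ∃ b ∈ G₀, h.toFun x ∈ G.TB false b) →
              ∀ x ∈ M.F k, ∀ x' ∈ M.F k, ∀ p p', h.toFun x ∈ K.cube p →
              h.toFun x' ∈ K.cube p' →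
              4 * ‖h.toFun x - h.toFun x'‖ ≤ G.om p ∧ G.om p' ≤ 4 * G.om p) →
            T3OutG G M E h (g.trans S) ω m G₀ Act₀ O (fun e => q * laE E We e + εe e)
              (fun k e => q * lfE E We r0 R k e + ε k) Lam1 (fun b => (τ b).sl) :=
  (D.st2G hKs hKT).exists_t3outG hm (fun b => hcω b.1 b.2) hmiss hO
    (laE_nonneg hWe) (lfE_nonneg hWe hr0 hR) hg.gEdG (hg.gFdG hO)

/-- **[ROUNDT-S]: ROUND T of `K3C`.** `h'`: after STEP S (levels cleaned on the faces of `Act₀`,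
nothing changed on the cells of `W` off the levels), `κ` the insertion map, `g` the lift with the
given maps `Ψ` on the cells of `Gv`; then STAGE 3 by `stage3S` or `stage3G`. -/
theorem exists_roundTS (L : TLv G E h ω T η A C εE δ) (hΩ : IsOpen Ω) (hΛ : IsOpen Λ)
    {G₀ : Set (TBx K)} {Pr : Set M.ι} (R' : PWall G M h Pr G₀)
    (hosc : ∀ b ∈ G₀, ∀ k, ∀ x ∈ M.F k, ∀ y ∈ M.F k, h.toFun x ∈ G.TB false b →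
      dist (h.toFun x) (h.toFun y) ≤ ω b)
    (Cy : ∀ k, Cyc E k) {O : M.κ → V} {r0 R : M.κ → ℝ}
    (hSt : ∀ k, _root_.P073.H155.Star ((Cy k).n + 1) (vv (Cy k)) (O k) (r0 k) (R k) (M.F k))
    {W : Set M.ι} {Act₀ : Set M.κ} (hA : ∀ k ∈ Act₀, ∀ i ∈ Pr, ¬ M.F k ⊆ M.Q i)
    (hW : ∀ k ∈ Act₀, ∀ i ∈ W, ¬ M.F k ⊆ M.Q i) :
    ∃ h' : ConHomeo Ω Λ, TStageW G M h h' Pr W Act₀ G₀ L.lev ω ∧
      ∀ (Gv : Set M.ι), (∀ k ∈ Act₀, (∃ x ∈ M.F k, ∃ b ∈ G₀, h.toFun x ∈ G.TB false b) →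
        ∀ j ∈ Gv, ¬ M.F k ⊆ M.Q j) →
      ∃ c₀ : TBx K → ℝ, (∀ b, 0 < c₀ b) ∧ ∀ (c : TBx K → ℝ) (hc0 : ∀ b, 0 < c b)
      (hc : ∀ b, c b ≤ δ b / 8), (∀ b ∈ G₀, c b ≤ c₀ b) →
      ∃ κ, IsQ (fun b : G₀ => L.bxQ c hc0 hc b.1) κ ∧ InsMap κ Λ Λ ∧
      ∀ We : E.ε → ℝ, (∀ e, L.WeW G₀ h' e ≤ We e) →
      ∀ Ψ : ∀ j ∈ Gv, ConHomeo (M.Q j) (Pre κ Λ h' (M.Q j)),
      Giv M E h' κ (actF (L.AcW Act₀ G₀ h')) (offT G M h G₀)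
        (GEd E h' (fun b : G₀ => L.bxQ c hc0 hc b.1) (L.AcW Act₀ G₀ h') We) Gv Ψ →
      ∃ g : ConHomeo Ω Λ, St2W L hc0 hc Pr W Act₀ G₀ h' κ g ∧
        OutW L hc0 hc Act₀ G₀ We O r0 R h' κ g ∧
        (∀ k ∈ offT G M h G₀, EqOn g.toFun h'.toFun (M.F k)) ∧
        ∀ j hj, EqOn g.toFun (Ψ j hj).toFun (M.Q j) := by
  obtain ⟨h', OS, H⟩ := L.exists_t12We hΩ hΛ R' hosc Cy hSt hA hW
  refine ⟨h', OS, fun Gv hGv => ?_⟩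
  obtain ⟨c₀, hc₀, H2⟩ := H Gv hGv
  refine ⟨c₀, hc₀, fun c hc0 hc hcc => ?_⟩
  obtain ⟨κ, hκ, hI, -⟩ := (fam_comp (L.fam345 hc0 hc hΛ)
    (Subtype.val_injective : Function.Injective (Subtype.val : G₀ → TBx K))).exists_isQ
  refine ⟨κ, hκ, hI, fun We hWe Ψ hΨ => ?_⟩
  obtain ⟨g, hg, h1, h2⟩ := H2 c hc0 hc hcc κ hκ hI We hWe Ψ hΨ
  exact ⟨g, ⟨hΩ, hΛ, hosc, OS, hκ, hg.img_face, hg.img_edge, hg.img_cell, hg.vert⟩, hg, h1, h2⟩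

end Vale.Agent.P073.H669.TLv
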