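import Vale.Agent.P073.H238.RT0
import Vale.Agent.P073.H238.RoundT
import Vale.Agent.P073.H579.RTS
import Vale.Agent.P073.H926.RelCor

/-!
# P073, H579: **[RT-NUM]**, the numbers of ROUND T for `K3C`

`lipE`: the best Lipschitz constant on an edge; `bN`: the number of an edge; `weN`: the weights
(`≥ WeW`, and `≥ C₁ * lipE * |e|` on the edges of given cells); `tnum3_of`: `TNum3`.
-/

set_option linter.unusedSectionVars false

open Set Metric Topology Filter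
open scoped ENNReal

namespace P073.H579

open P073 P073.Net P073.PA691
open Vale.Agent.P073.St (V)
open Vale.Agent.P073.H73 (Mesh onSeg)
open Vale.Agent.P073.H193 (Edges)
open P073.H267 (tvE lenE)
open Vale.Agent.P073.H238 (bE lenE_ne_top)

variable {Ω Λ : Set V} {M : Mesh Ω}

/-- the best Lipschitz constant of `h` on the edge `e` -/
noncomputable def lipE (E : Edges M) (h : V → V) (e : E.ε) : ℝ :=
  sInf {L : ℝ | ∀ x ∈ E.seg e, ∀ y ∈ E.seg e, ‖h x - h y‖ ≤ L * ‖x - y‖}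

theorem edge_pos (E : Edges M) (e : E.ε) : 0 < ‖E.b e - E.a e‖ :=
  norm_pos_iff.2 (sub_ne_zero.2 (E.ne e).symm)

theorem lipE_bdd (E : Edges M) (h : V → V) (e : E.ε) :
    (0:ℝ) ∈ lowerBounds {L : ℝ | ∀ x ∈ E.seg e, ∀ y ∈ E.seg e, ‖h x - h y‖ ≤ L * ‖x - y‖} := by
  intro L hL
  have h1 := hL (E.b e) (right_mem_segment ℝ _ _) (E.a e) (left_mem_segment ℝ _ _)
  have h2 := edge_pos E e
  by_contra hlt
  push Not at hlt
  have h3 : L * ‖E.b e - E.a e‖ < 0 := mul_neg_of_neg_of_pos hlt h2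
  linarith [norm_nonneg (h (E.b e) - h (E.a e))]

theorem lipE_nonneg (E : Edges M) (h : V → V) (e : E.ε) : 0 ≤ lipE E h e :=
  Real.sInf_nonneg fun _ hL => lipE_bdd E h e hL

theorem lipE_le (E : Edges M) {h : V → V} {e : E.ε} {L : ℝ}
    (hL : ∀ x ∈ E.seg e, ∀ y ∈ E.seg e, ‖h x - h y‖ ≤ L * ‖x - y‖) : lipE E h e ≤ L :=
  csInf_le ⟨0, lipE_bdd E h e⟩ hL

theorem lipE_spec (hΩ : IsOpen Ω) (E : Edges M) (h : ConHomeo Ω Λ) (e : E.ε) :
    ∀ x ∈ E.seg e, ∀ y ∈ E.seg e, ‖h.toFun x - h.toFun y‖ ≤ lipE E h.toFun e * ‖x - y‖ := by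
  intro x hx y hy
  obtain ⟨C, -, hC⟩ := Vale.Agent.P073.H471.exists_lip_compact hΩ h.conical h.cont
    (E.isCompact_seg e) (E.seg_sub_Ω e)
  rcases eq_or_ne x y with rfl | hne
  · simp
  have h0 : 0 < ‖x - y‖ := norm_pos_iff.2 (sub_ne_zero.2 hne)
  rw [← div_le_iff₀ h0]
  refine le_csInf ⟨C, hC⟩ fun L hL => ?_
  rw [div_le_iff₀ h0]
  exact hL x hx y hy

theorem lipE_pos (hΩ : IsOpen Ω) (E : Edges M) (h : ConHomeo Ω Λ) (e : E.ε) :
    0 < lipE E h.toFun e := by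
  have h1 := lipE_spec hΩ E h e (E.b e) (right_mem_segment ℝ _ _) (E.a e) (left_mem_segment ℝ _ _)
  have h2 : 0 < ‖h.toFun (E.b e) - h.toFun (E.a e)‖ := by
    rw [norm_pos_iff, sub_ne_zero]
    intro h3
    exact (E.ne e) (h.left_inv.injOn (E.seg_sub_Ω e (left_mem_segment ℝ _ _))
      (E.seg_sub_Ω e (right_mem_segment ℝ _ _)) h3.symm)
  have h3 := edge_pos E e
  by_contra hlt
  push Not at hlt
  have h4 : lipE E h.toFun e * ‖E.b e - E.a e‖ ≤ 0 := mul_nonpos_of_nonpos_of_nonneg hlt h3.le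
  linarith

/-- the length is at most `2 lipE |e|` -/
theorem lenE_le_lipE (hΩ : IsOpen Ω) (E : Edges M) (h : ConHomeo Ω Λ) (e : E.ε) :
    lenE E h.toFun e ≤ ENNReal.ofReal (2 * (lipE E h.toFun e * ‖E.b e - E.a e‖)) := by
  have h0 := lipE_nonneg E h.toFun e
  have hmem : ∀ t ∈ Icc (0:ℝ) 1, E.a e + t • (E.b e - E.a e) ∈ E.seg e := by
    intro t ht
    show _ ∈ segment ℝ _ _
    rw [segment_eq_image']
    exact ⟨t, ht, rfl⟩
  refine (len_le_var _ _).trans ?_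
  rw [ENNReal.ofReal_mul zero_le_two, show ENNReal.ofReal 2 = 2 by norm_num]
  refine mul_le_mul_right ?_ _
  set C : NNReal := ⟨lipE E h.toFun e * ‖E.b e - E.a e‖, mul_nonneg h0 (norm_nonneg _)⟩ with hC
  have h1 : LipschitzOnWith C (onSeg h.toFun (E.a e, E.b e)) (Icc 0 1) := by
    refine LipschitzOnWith.of_dist_le_mul fun s hs t ht => ?_
    rw [dist_eq_norm, dist_eq_norm]
    refine (lipE_spec hΩ E h e _ (hmem s hs) _ (hmem t ht)).trans (le_of_eq ?_)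
    have h2 : E.a e + s • (E.b e - E.a e) - (E.a e + t • (E.b e - E.a e)) =
        (s - t) • (E.b e - E.a e) := by module
    rw [h2, norm_smul]
    show _ = lipE E h.toFun e * ‖E.b e - E.a e‖ * ‖s - t‖
    ring
  have h2 : eVariationOn (onSeg h.toFun (E.a e, E.b e)) (Icc 0 1) ≤
      C * eVariationOn (fun t : ℝ => t) (Icc (0:ℝ) 1) :=
    h1.comp_eVariationOn_le (g := fun t : ℝ => t) (s := Icc (0:ℝ) 1) (mapsTo_id _)
  have h3 : eVariationOn (fun t : ℝ => t) (Icc (0:ℝ) 1) ≤ 1 := by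
    have h4 := MonotoneOn.eVariationOn_eq (f := fun t : ℝ => t) (s := Icc (0:ℝ) 1)
      (monotone_id.monotoneOn _) (left_mem_Icc.2 zero_le_one) (right_mem_Icc.2 zero_le_one)
    rw [inter_self] at h4
    rw [h4]
    simp
  refine (h2.trans (mul_le_mul_right h3 _)).trans ?_
  rw [mul_one, ENNReal.ofReal_eq_coe_nnreal (mul_nonneg h0 (norm_nonneg _))]
  exact le_rfl

/-- maps of constant speed -/
theorem lipE_le_lenE (E : Edges M) (h : ConHomeo Ω Λ) (e : E.ε) {c : ℝ}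
    (hc : ∀ x ∈ E.seg e, ∀ y ∈ E.seg e, ‖h.toFun x - h.toFun y‖ = c * ‖x - y‖) :
    lipE E h.toFun e * ‖E.b e - E.a e‖ ≤ (lenE E h.toFun e).toReal := by
  have h0 := edge_pos E e
  have h1 := lipE_le E fun x hx y hy => (hc x hx y hy).le
  have h2 := hc (E.b e) (right_mem_segment ℝ _ _) (E.a e) (left_mem_segment ℝ _ _)
  refine (mul_le_mul_of_nonneg_right h1 h0.le).trans ?_
  rw [← h2, ← ENNReal.ofReal_le_iff_le_toReal (lenE_ne_top E h e)]
  refine le_trans ?_ (_root_.P073.H926.var_le_len _ _)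
  have h3 := eVariationOn.edist_le (onSeg h.toFun (E.a e, E.b e))
    (right_mem_Icc.2 (zero_le_one : (0:ℝ) ≤ 1)) (left_mem_Icc.2 zero_le_one)
  rw [edist_dist, dist_eq_norm] at h3
  refine le_trans (ENNReal.ofReal_le_ofReal (le_of_eq ?_)) h3
  unfold onSeg
  simp

/-! ### the numbers -/

/-- the edge lies in a cell of `Wl` -/
def InCell (E : Edges M) (Wl : Set M.ι) (e : E.ε) : Prop := ∃ i ∈ Wl, E.seg e ⊆ M.Q i

open Classical in
/-- **the number of the edge** -/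
noncomputable def bN (E : Edges M) (h : V → V) (ε : E.ε → ℝ) (Wl : Set M.ι) (e : E.ε) : ℝ :=
  if InCell E Wl e then lipE E h e * ‖E.b e - E.a e‖ else bE E h ε e

/-- the tiny numbers for the levels -/
noncomputable def εN (E : Edges M) (h : V → V) (ε : E.ε → ℝ) (C₅ : ℝ) (e : E.ε) : ℝ :=
  min (ε e) (lipE E h e * ‖E.b e - E.a e‖) / (8 * (1 + C₅))

theorem bN_pos (hΩ : IsOpen Ω) (E : Edges M) (h : ConHomeo Ω Λ) {ε : E.ε → ℝ}
    (hε : ∀ e, 0 < ε e) (Wl : Set M.ι) (e : E.ε) : 0 < bN E h.toFun ε Wl e := by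
  unfold bN
  split_ifs
  · exact mul_pos (lipE_pos hΩ E h e) (edge_pos E e)
  · exact add_pos_of_nonneg_of_pos ENNReal.toReal_nonneg (hε e)

theorem εN_pos (hΩ : IsOpen Ω) (E : Edges M) (h : ConHomeo Ω Λ) {ε : E.ε → ℝ}
    (hε : ∀ e, 0 < ε e) {C₅ : ℝ} (hC₅ : 0 ≤ C₅) (e : E.ε) : 0 < εN E h.toFun ε C₅ e :=
  div_pos (lt_min (hε e) (mul_pos (lipE_pos hΩ E h e) (edge_pos E e))) (by linarith)

theorem εN_le (E : Edges M) (h : V → V) {ε : E.ε → ℝ} {C₅ : ℝ} (hC₅ : 0 ≤ C₅) (e : E.ε) :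
    εN E h ε C₅ e * (8 * (1 + C₅)) ≤ ε e ∧
      εN E h ε C₅ e * (8 * (1 + C₅)) ≤ lipE E h e * ‖E.b e - E.a e‖ := by
  have h1 : (8 * (1 + C₅)) ≠ 0 := by positivity
  unfold εN
  rw [div_mul_cancel₀ _ h1]
  exact ⟨min_le_left _ _, min_le_right _ _⟩

section tnum

variable {E : Edges M} {h : ConHomeo Ω Λ} {ε : E.ε → ℝ} {Wl : Set M.ι} {C₀ : ℝ}
  {T : ∀ k, H142.FStar E k}

/-- the constants of the edges -/
noncomputable def LaN (E : Edges M) (C₀ : ℝ) (b : E.ε → ℝ) (e : E.ε) : ℝ :=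
  C₀ * b e / ‖E.b e - E.a e‖

/-- the constants of the cones of the faces -/
noncomputable def LfN {E : Edges M} (T : ∀ k, H142.FStar E k) (C₀ : ℝ) (b : E.ε → ℝ) (k : M.κ)
    (e : E.ε) : ℝ :=
  (T k).con (C₀ * (1 + (T k).R / (T k).rho)) b e

/-- **`TNum3`** -/
theorem tnum3_of (hΩ : IsOpen Ω) (hC₀ : 0 ≤ C₀) (hε : ∀ e, 0 < ε e) :
    Vale.Agent.P073.H238.K3.TNum3 M E h.toFun T C₀ ε Wl (bN E h.toFun ε Wl)
      (LaN E C₀ (bN E h.toFun ε Wl)) (LfN T C₀ (bN E h.toFun ε Wl)) where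
  b_pos := bN_pos hΩ E h hε Wl
  b_le := by
    intro e he
    have h1 : ¬ InCell E Wl e := fun ⟨i, hi, h2⟩ => he i hi h2
    unfold bN
    rw [if_neg h1, bE, ENNReal.ofReal_add ENNReal.toReal_nonneg (hε e).le,
      ENNReal.ofReal_toReal (lenE_ne_top E h e)]
  b_lip := by
    intro e i hi he L _ hL
    unfold bN
    rw [if_pos ⟨i, hi, he⟩]
    exact mul_le_mul_of_nonneg_right (lipE_le E fun x hx y hy => hL x (he hx) y (he hy))
      (norm_nonneg _)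
  La_nonneg := fun e => div_nonneg (mul_nonneg hC₀ (bN_pos hΩ E h hε Wl e).le) (norm_nonneg _)
  La_le := fun e => by
    unfold LaN
    rw [div_mul_cancel₀ _ (edge_pos E e).ne']
  Lf_nonneg := fun k e => by
    have h1 := (T k).star.rho0
    have h2 := (T k).R0
    have h3 := (bN_pos hΩ E h hε Wl e).le
    have h4 : 0 ≤ ∑ e ∈ (E.fin_face k).toFinset, bN E h.toFun ε Wl e :=
      Finset.sum_nonneg fun e _ => (bN_pos hΩ E h hε Wl e).le
    unfold LfN H142.FStar.con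
    positivity
  Lf_le := fun k e _ => le_rfl

end tnum

/-! ### comparison with the constants of STAGE 3 -/

section cmp

variable {E : Edges M} {b We : E.ε → ℝ} {T : ∀ k, H142.FStar E k} {C₀ W Q q : ℝ}

/-- the tiny number of the edge -/
noncomputable def εeN (E : Edges M) (b : E.ε → ℝ) (e : E.ε) : ℝ := b e / ‖E.b e - E.a e‖

open Classical in
/-- the tiny number of the face -/
noncomputable def εkN (T : ∀ k, H142.FStar E k) (b : E.ε → ℝ) (k : M.κ) : ℝ :=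
  if 0 < ∑ e ∈ (E.fin_face k).toFinset, b e then
    (∑ e ∈ (E.fin_face k).toFinset, b e) / (T k).rho else 1

theorem εeN_pos (hb : ∀ e, 0 < b e) (e : E.ε) : 0 < εeN E b e := div_pos (hb e) (edge_pos E e)

theorem εkN_pos (k : M.κ) : 0 < εkN T b k := by
  unfold εkN
  split_ifs with h1
  · exact div_pos h1 (T k).star.rho0
  · exact one_pos

/-- **edges** -/
theorem laE_le_LaN (hb : ∀ e, 0 < b e) (hW0 : 0 ≤ W) (hWe0 : ∀ e, 0 ≤ We e)
    (hWe : ∀ e, We e ≤ W * b e)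
    (hq0 : 0 ≤ q) (hq : q ≤ Q) (hC₀ : 1248 * (Q * W) + 1 ≤ C₀) (e : E.ε) :
    q * laE E We e + εeN E b e ≤ LaN E C₀ b e := by
  have h0 := edge_pos E e
  have h1 := hb e
  unfold laE LaN εeN
  rw [← mul_div_assoc, ← add_div]
  refine div_le_div_of_nonneg_right ?_ h0.le
  have h2 : q * (8 * We e) ≤ Q * (8 * (W * b e)) :=
    mul_le_mul hq (by linarith [hWe e]) (by linarith [hWe0 e]) (hq0.trans hq)
  have h3 : 0 ≤ Q * W := mul_nonneg (hq0.trans hq) hW0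
  have h4 : 0 ≤ Q * W * b e := mul_nonneg h3 h1.le
  have h5 : (1248 * (Q * W) + 1) * b e ≤ C₀ * b e := mul_le_mul_of_nonneg_right hC₀ h1.le
  nlinarith

/-- **cones of faces** -/
theorem lfE_le_LfN (hb : ∀ e, 0 < b e) (hW0 : 0 ≤ W) (hWe0 : ∀ e, 0 ≤ We e)
    (hWe : ∀ e, We e ≤ W * b e)
    (hq0 : 0 ≤ q) (hq : q ≤ Q) (hC₀ : 1248 * (Q * W) + 1 ≤ C₀) {k : M.κ} {e : E.ε}
    (he : E.seg e ⊆ M.F k) :
    q * Vale.Agent.P073.H669.TLv.lfE E We (fun k => (T k).rho) (fun k => (T k).R) k e +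
      εkN T b k ≤ LfN T C₀ b k e := by
  have hQ : 0 ≤ Q := hq0.trans hq
  have hrho := (T k).star.rho0
  have hmem : e ∈ (E.fin_face k).toFinset := by rw [Finite.mem_toFinset]; exact he
  have hS : 0 < ∑ e ∈ (E.fin_face k).toFinset, b e := Finset.sum_pos (fun e _ => hb e) ⟨e, hmem⟩
  have h1 : εkN T b k = (∑ e ∈ (E.fin_face k).toFinset, b e) / (T k).rho := by
    unfold εkN; exact if_pos hS
  have h2 : laE E We e ≤ 8 * W * (b e / ‖E.b e - E.a e‖) := by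
    unfold laE
    rw [← mul_div_assoc]
    exact div_le_div_of_nonneg_right (by linarith [hWe e]) (norm_nonneg _)
  have h3 : (∑ e ∈ (E.fin_face k).toFinset, We e) / (T k).rho ≤
      W * ((∑ e ∈ (E.fin_face k).toFinset, b e) / (T k).rho) := by
    rw [← mul_div_assoc]
    refine div_le_div_of_nonneg_right ?_ hrho.le
    rw [Finset.mul_sum]
    exact Finset.sum_le_sum fun e _ => hWe e
  have h4 : 0 ≤ b e / ‖E.b e - E.a e‖ := div_nonneg (hb e).le (norm_nonneg _)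
  have h5 : 0 ≤ (∑ e ∈ (E.fin_face k).toFinset, b e) / (T k).rho := div_nonneg hS.le hrho.le
  have h6 : 0 ≤ (T k).R / (T k).rho := div_nonneg (T k).R0 hrho.le
  have h7 : 0 ≤ laE E We e := div_nonneg (by linarith [hWe0 e]) (norm_nonneg _)
  have h8 : 0 ≤ (∑ e ∈ (E.fin_face k).toFinset, We e) / (T k).rho :=
    div_nonneg (Finset.sum_nonneg fun e _ => hWe0 e) hrho.le
  rw [h1]
  show q * (156 * (1 + (T k).R / (T k).rho) * (laE E We e +
      (∑ e ∈ (E.fin_face k).toFinset, We e) / (T k).rho)) + _ ≤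
    C₀ * (1 + (T k).R / (T k).rho) * (b e / ‖E.b e - E.a e‖ +
      (∑ e ∈ (E.fin_face k).toFinset, b e) / (T k).rho)
  set r := (T k).R / (T k).rho
  set u := b e / ‖E.b e - E.a e‖
  set s := (∑ e ∈ (E.fin_face k).toFinset, b e) / (T k).rho
  set l := laE E We e
  set t := (∑ e ∈ (E.fin_face k).toFinset, We e) / (T k).rho
  have e1 : 156 * (1 + r) * (l + t) ≤ 156 * (1 + r) * (8 * W * u + W * s) :=
    mul_le_mul_of_nonneg_left (add_le_add h2 h3) (by positivity)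
  have e2 : q * (156 * (1 + r) * (l + t)) ≤ Q * (156 * (1 + r) * (8 * W * u + W * s)) :=
    mul_le_mul hq e1 (by positivity) hQ
  have e3 : 0 ≤ (1 + r) * (u + s) := by positivity
  have e4 : (1248 * (Q * W) + 1) * ((1 + r) * (u + s)) ≤ C₀ * ((1 + r) * (u + s)) :=
    mul_le_mul_of_nonneg_right hC₀ e3
  have e5 : 0 ≤ Q * W * ((1 + r) * s) := by positivity
  have e6 : 0 ≤ (1 + r) * u := by positivity
  have e7 : 0 ≤ r * s := by positivity
  nlinarith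

end cmp

end P073.H579

namespace Vale.Agent.P073.H669.TLv

open _root_.P073 _root_.P073.TR _root_.P073.Net _root_.P073.PA691 _root_.P073.H579
open Vale.Agent.P073.St (V)
open Vale.Agent.P073.H471 Vale.Agent.P073.H267 Vale.Agent.P073.H267.Geo
open Vale.Agent.P073.H73 (Mesh)
open Vale.Agent.P073.H193 (Edges)
open Vale.Agent.P073.H579 (TStageW)
open Vale.Agent.P073.H238 (bE lenE_ne_top)
open _root_.P073.H236 (dsp)
open _root_.P073.H267 (tvE lenE)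

variable {Ω Λ : Set V} {v : V} {K : BoxCx Λ v} {S : Rad K} {Wd : Wid K S} {B : Boxes Wd}
  {G : Geo B} {M : Mesh Ω} {E : Edges M} {h h' : ConHomeo Ω Λ} {ω : TBx K → ℝ}
  {T : TBx K → Finset (ℝ × ℝ)} {η : ℝ} {τ : Type*} {A : τ → Set V} {C : Set ℝ} {εE : E.ε → ℝ}
  {δ : TBx K → ℝ} {Pr W Wl Gl : Set M.ι} {Act₀ : Set M.κ} {G₀ : Set (TBx K)} {C₁ : ℝ}

variable (L : TLv G E h ω T η A C εE δ)

open Classical in
/-- **the weights of the edges**; `Gl`: the given cells which meet the boxes -/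
noncomputable def weN (Gl : Set M.ι) (C₁ : ℝ) (G₀ : Set (TBx K)) (h' : ConHomeo Ω Λ) (e : E.ε) :
    ℝ :=
  L.WeW G₀ h' e + if InCell E Gl e then C₁ * (lipE E h.toFun e * ‖E.b e - E.a e‖) else 0

theorem weN_ge (hC₁ : 0 ≤ C₁) (e : E.ε) : L.WeW G₀ h' e ≤ L.weN Gl C₁ G₀ h' e := by
  unfold weN
  have h1 := mul_nonneg hC₁ (mul_nonneg (lipE_nonneg E h.toFun e) (norm_nonneg (E.b e - E.a e)))
  split_ifs <;> linarith

theorem weN_nonneg (hC₁ : 0 ≤ C₁) (e : E.ε) : 0 ≤ L.weN Gl C₁ G₀ h' e :=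
  (L.WeW_nonneg G₀ h' e).trans (L.weN_ge hC₁ e)

/-- the edges of the given cells -/
theorem weN_given {e : E.ε} (he : InCell E Gl e) :
    C₁ * (lipE E h.toFun e * ‖E.b e - E.a e‖) ≤ L.weN Gl C₁ G₀ h' e := by
  unfold weN
  rw [if_pos he]
  linarith [L.WeW_nonneg G₀ h' e]

section

variable (O : TStageW G M h h' Pr W Act₀ G₀ L.lev ω)
include O

/-- the weights against the length -/
theorem ofReal_WeW_le {μ' : ℝ} (hμ' : μ' ≤ 1 / 4) (hη : η ≤ 1 / 32)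
    (hεE : ∀ e, 0 ≤ εE e)
    (hb : ∀ b ∈ G₀, 60 * ω b + dsp (T b) (δ b) ≤ μ' * (G.thi true b b.ax - G.tlo true b b.ax))
    (e : E.ε) : ENNReal.ofReal (L.WeW G₀ h' e) ≤ ENNReal.ofReal 3 * lenE E h.toFun e +
      ENNReal.ofReal (2 * εE e) := by
  have hi1 : (1 - μ')⁻¹ ≤ 4 / 3 := by
    rw [inv_le_comm₀ (by linarith) (by norm_num)]
    linarith
  have hi2 : (1 - 2 * η)⁻¹ ≤ 16 / 15 := by
    rw [inv_le_comm₀ (by linarith) (by norm_num)]
    linarith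
  have hi1' : (0:ℝ) ≤ (1 - μ')⁻¹ := inv_nonneg.2 (by linarith)
  have hi2' : (0:ℝ) ≤ (1 - 2 * η)⁻¹ := inv_nonneg.2 (by linarith)
  refine (L.WeW_le O (by linarith) hb e).trans ?_
  rw [mul_add, ← mul_assoc, ← ENNReal.ofReal_mul hi1', ← mul_assoc,
    ← ENNReal.ofReal_mul hi1', show (2:ℝ≥0∞) = ENNReal.ofReal 2 by simp,
    ← ENNReal.ofReal_mul (mul_nonneg hi1' hi2')]
  refine add_le_add (mul_le_mul' (ENNReal.ofReal_le_ofReal ?_) le_rfl)
    (ENNReal.ofReal_le_ofReal ?_)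
  · have : (1 - μ')⁻¹ * (1 - 2 * η)⁻¹ ≤ 4 / 3 * (16 / 15) :=
      mul_le_mul hi1 hi2 hi2' (by norm_num)
    linarith
  · have := hεE e
    nlinarith

/-- the weights against the length, real numbers -/
theorem WeW_le_len {μ' : ℝ} (hμ' : μ' ≤ 1 / 4) (hη : η ≤ 1 / 32) (hεE : ∀ e, 0 ≤ εE e)
    (hb : ∀ b ∈ G₀, 60 * ω b + dsp (T b) (δ b) ≤ μ' * (G.thi true b b.ax - G.tlo true b b.ax))
    (e : E.ε) : L.WeW G₀ h' e ≤ 3 * (lenE E h.toFun e).toReal + 2 * εE e := by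
  have h1 := L.ofReal_WeW_le O hμ' hη hεE hb e
  have h2 := hεE e
  have h3 : 0 ≤ (lenE E h.toFun e).toReal := ENNReal.toReal_nonneg
  rw [← ENNReal.ofReal_le_ofReal_iff (by positivity), ENNReal.ofReal_add (by positivity)
    (by positivity), ENNReal.ofReal_mul (p := 3) (by norm_num),
    ENNReal.ofReal_toReal (lenE_ne_top E h e)]
  exact h1

/-- **the weights against the numbers** -/
theorem weN_le (hΩ : IsOpen Ω) {ε : E.ε → ℝ} (hε : ∀ e, 0 < ε e) {C₅ : ℝ} (hC₅ : 0 ≤ C₅)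
    (hC₁ : 0 ≤ C₁) {μ' : ℝ} (hμ' : μ' ≤ 1 / 4) (hη : η ≤ 1 / 32)
    (hεE : εE = εN E h.toFun ε C₅)
    (hb : ∀ b ∈ G₀, 60 * ω b + dsp (T b) (δ b) ≤ μ' * (G.thi true b b.ax - G.tlo true b b.ax))
    (hP : ∀ e, InCell E Gl e → ¬ InCell E Wl e →
      ∃ c : ℝ, ∀ x ∈ E.seg e, ∀ y ∈ E.seg e, ‖h.toFun x - h.toFun y‖ = c * ‖x - y‖) (e : E.ε) :
    L.weN Gl C₁ G₀ h' e ≤ (7 + C₁) * bN E h.toFun ε Wl e := by
  classical
  have h0 : ∀ e, 0 ≤ εE e := fun e => by rw [hεE]; exact (εN_pos hΩ E h hε hC₅ e).le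
  have h1 := L.WeW_le_len O hμ' hη h0 hb e
  have h2 := εN_le E h.toFun (ε := ε) hC₅ e
  have h3 : εE e = εN E h.toFun ε C₅ e := by rw [hεE]
  have h4 := (εN_pos hΩ E h hε hC₅ e).le
  have h5 : (0:ℝ) ≤ lipE E h.toFun e * ‖E.b e - E.a e‖ :=
    mul_nonneg (lipE_nonneg E h.toFun e) (norm_nonneg _)
  have h6 : (lenE E h.toFun e).toReal ≤ 2 * (lipE E h.toFun e * ‖E.b e - E.a e‖) :=
    ENNReal.toReal_le_of_le_ofReal (by positivity) (lenE_le_lipE hΩ E h e)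
  have h7 : 8 * εN E h.toFun ε C₅ e ≤ εN E h.toFun ε C₅ e * (8 * (1 + C₅)) := by
    have := mul_nonneg h4 hC₅
    nlinarith
  have h8 := hε e
  have h9 : 0 ≤ (lenE E h.toFun e).toReal := ENNReal.toReal_nonneg
  rw [h3] at h1
  unfold weN bN
  by_cases hW : InCell E Wl e
  · rw [if_pos hW]
    have h10 : (if InCell E Gl e then C₁ * (lipE E h.toFun e * ‖E.b e - E.a e‖) else 0) ≤
        C₁ * (lipE E h.toFun e * ‖E.b e - E.a e‖) := by
      split_ifs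
      · exact le_rfl
      · exact mul_nonneg hC₁ h5
    linarith
  · rw [if_neg hW]
    by_cases hG : InCell E Gl e
    · rw [if_pos hG]
      obtain ⟨c, hc⟩ := hP e hG hW
      have h10 := lipE_le_lenE E h e hc
      have h11 := mul_le_mul_of_nonneg_left h10 hC₁
      have h12 := mul_nonneg hC₁ h8.le
      unfold bE
      linarith
    · rw [if_neg hG]
      have h10 := mul_nonneg hC₁ h9
      have h12 := mul_nonneg hC₁ h8.le
      unfold bE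
      linarith

end

end Vale.Agent.P073.H669.TLv

namespace P073.H236

open P073 P073.Net P073.PA691 P073.H579
open Vale.Agent.P073.St (V)
open Vale.Agent.P073.H471 Vale.Agent.P073.H267
open Vale.Agent.P073.H73 (Mesh)
open Vale.Agent.P073.H193 (Edges)

/-- larger constants -/
theorem T3OutG.mono {Ω Λ : Set V} {v : V} {K : BoxCx Λ v} {S₀ : Rad K} {W : Wid K S₀}
    {B : Boxes W} {G : Geo B} {M : Mesh Ω} {E : Edges M} {h h1 : ConHomeo Ω Λ} {ω : TBx K → ℝ}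
    {m : ℝ} {G₀ : Set (TBx K)} {Act₀ : Set M.κ} {O : M.κ → V} {La La' : E.ε → ℝ}
    {Lf Lf' : M.κ → E.ε → ℝ} {Lam1 : M.κ → ℝ} {sl : G₀ → Finset (ℝ × ℝ)}
    (H : T3OutG G M E h h1 ω m G₀ Act₀ O La Lf Lam1 sl) (hLa : ∀ e, La e ≤ La' e)
    (hLf : ∀ k e, E.seg e ⊆ M.F k → Lf k e ≤ Lf' k e) :
    T3OutG G M E h h1 ω m G₀ Act₀ O La' Lf' Lam1 sl where
  sl_le := H.sl_le
  ends := H.ends
  near := H.near
  off := H.off
  vi := H.vi
  vert := H.vert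
  deep := H.deep
  cone := fun k hk b hb e he x hx y hy => (H.cone k hk b hb e he x hx y hy).trans
    (mul_le_mul_of_nonneg_right (hLf k e he) (norm_nonneg _))
  elip := fun k hk b hb e he x hx y hy => (H.elip k hk b hb e he x hx y hy).trans
    (mul_le_mul_of_nonneg_right (hLa e) (norm_nonneg _))
  lip := H.lip
  circ := H.circ
  edge := by
    intro e he b s hs hT hsl
    obtain ⟨t1, t2, s2, s3, ψ, a1, a2, a3, a4, a5, a6, a7, a8, a9, a10, a11, a12, a13⟩ :=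
      H.edge e he b s hs hT hsl
    refine ⟨t1, t2, s2, s3, ψ, a1, a2, a3, a4, a5, a6, a7, a8, a9, a10, a11, a12,
      fun s' hs' s'' hs'' => (a13 s' hs' s'' hs'').trans ?_⟩
    have := hLa e
    gcongr

end P073.H236

namespace Vale.Agent.P073.H238.K3

open _root_.P073 _root_.P073.Net _root_.P073.PA691 _root_.P073.H236 _root_.P073.H579
open Vale.Agent.P073.St (V)
open Vale.Agent.P073.H471 Vale.Agent.P073.H267 Vale.Agent.P073.H267.Geo
open Vale.Agent.P073.H73 (Mesh)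
open Vale.Agent.P073.H193 (Edges)
open Vale.Agent.P073.H304 (Nb In Zmax)
open Vale.Agent.P073.H926

variable {c₀ n δ : ℝ} {j : ℕ} {Ω Λ : Set V} {v w : V} {ρ : V → ℝ} {M : Mesh Ω} {h : ConHomeo Ω Λ}
  {J₀ J : Set (ℕ × (Fin 3 → ℤ))} {P Z : Set M.ι} {K : BoxCx Λ w}

/-- protected cells: `h` has constant speed -/
theorem sim_prot (D : KIn3 c₀ n j δ v w ρ M h J₀ J P Z) {i : M.ι} (hi : i ∈ P) :
    ∃ c : ℝ, 0 < c ∧ ∀ x ∈ M.Q i, ∀ y ∈ M.Q i, ‖h.toFun x - h.toFun y‖ = c * ‖x - y‖ := by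
  obtain ⟨t, -, a, r, s, hr, hs, -, hx⟩ := D.inp.prot i hi
  have hη : (0:ℝ) < 1 - 1 / 2 ^ j := by
    have := D.η_le_one
    linarith
  set c : ℝ := (1 - 1 / 2 ^ j) / 2 / 2 ^ t.1 / r with hc
  have hc0 : 0 < c := by positivity
  refine ⟨c, hc0, fun x hxQ y hyQ => ?_⟩
  have h1 : ∀ l, ‖(h.toFun x - h.toFun y) l‖ = c * ‖(x - y) l‖ := by
    intro l
    rw [Pi.sub_apply, Pi.sub_apply, hx x hxQ l, hx y hyQ l]
    have h2 : ∀ z : ℝ, z + c * s l * (x l - a l) - (z + c * s l * (y l - a l)) =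
        c * s l * (x l - y l) := fun z => by ring
    rw [h2, norm_mul, norm_mul, Real.norm_of_nonneg hc0.le]
    have h3 : ‖s l‖ = 1 := by
      rcases hs l with h4 | h4 <;> rw [h4] <;> simp
    rw [h3, mul_one]
  refine le_antisymm ?_ ?_
  · refine (pi_norm_le_iff_of_nonneg (by positivity)).2 fun l => ?_
    rw [h1 l]
    exact mul_le_mul_of_nonneg_left (norm_le_pi_norm (x - y) l) hc0.le
  · rw [← le_div_iff₀' hc0]
    refine (pi_norm_le_iff_of_nonneg (by positivity)).2 fun l => ?_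
    rw [le_div_iff₀' hc0, ← h1 l]
    exact norm_le_pi_norm (h.toFun x - h.toFun y) l

/-- edges of protected cells -/
theorem sim_edge (D : KIn3 c₀ n j δ v w ρ M h J₀ J P Z) (C : Cells ρ w K) (E : Edges M) (e : E.ε)
    (he : InCell E (P ∪ Wc D C) e) (he' : ¬ InCell E (Wc D C) e) :
    ∃ c : ℝ, ∀ x ∈ E.seg e, ∀ y ∈ E.seg e, ‖h.toFun x - h.toFun y‖ = c * ‖x - y‖ := by
  obtain ⟨i, hi | hi, hei⟩ := he
  · obtain ⟨c, -, hc⟩ := sim_prot D hi
    exact ⟨c, fun x hx y hy => hc x (hei hx) y (hei hy)⟩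
  · exact absurd ⟨i, hi, hei⟩ he'

/-- **[RT-NUM]** all numbers of ROUND T: `bN`, `LaN`, `LfN` do not depend on the levels -/
theorem rt_num (D : KIn3 c₀ n j δ v w ρ M h J₀ J P Z) (C : Cells ρ w K) {E : Edges M}
    {T : ∀ k, H142.FStar E k} {C₀ C₁ C₅ Q : ℝ} (hC₁ : 0 ≤ C₁) (hC₅ : 0 ≤ C₅)
    (hC₀ : 1248 * (Q * (7 + C₁)) + 1 ≤ C₀) {ε : E.ε → ℝ} (hε : ∀ e, 0 < ε e)
    {τ : Type*} {Tt : TBx K → Finset (ℝ × ℝ)} {η : ℝ} {A : τ → Set V} {Cs : Set ℝ}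
    {δ' : TBx K → ℝ}
    (L : Vale.Agent.P073.H669.TLv (D.G C) E h (ω3T δ C) Tt η A Cs
      (εN E h.toFun ε C₅) δ') (hη : η ≤ 1 / 32) {μ' : ℝ} (hμ' : μ' ≤ 1 / 4)
    {G₀ : Set (TBx K)} {Pr W : Set M.ι} {Act₀ : Set M.κ} {h' : ConHomeo Ω Λ}
    (O : Vale.Agent.P073.H579.TStageW (D.G C) M h h' Pr W Act₀ G₀ L.lev (ω3T δ C))
    (hb : ∀ b ∈ G₀, 60 * ω3T δ C b + dsp (Tt b) (δ' b) ≤
      μ' * ((D.G C).thi true b b.ax - (D.G C).tlo true b b.ax)) :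
    (∀ e, L.WeW G₀ h' e ≤ L.weN (P ∪ Wc D C) C₁ G₀ h' e) ∧
    (∀ e, ∀ i ∈ P ∪ Wc D C, E.seg e ⊆ M.Q i →
      C₁ * (lipE E h.toFun e * ‖E.b e - E.a e‖) ≤ L.weN (P ∪ Wc D C) C₁ G₀ h' e) ∧
    (∀ q, 0 ≤ q → q ≤ Q → ∀ e, q * laE E (L.weN (P ∪ Wc D C) C₁ G₀ h') e +
      εeN E (bN E h.toFun ε (Wc D C)) e ≤ LaN E C₀ (bN E h.toFun ε (Wc D C)) e) ∧
    (∀ q, 0 ≤ q → q ≤ Q → ∀ k e, E.seg e ⊆ M.F k →
      q * Vale.Agent.P073.H669.TLv.lfE E (L.weN (P ∪ Wc D C) C₁ G₀ h') (fun k => (T k).rho)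
        (fun k => (T k).R) k e + εkN T (bN E h.toFun ε (Wc D C)) k ≤
        LfN T C₀ (bN E h.toFun ε (Wc D C)) k e) := by
  have hΩ : IsOpen Ω := D.bΩ.1
  have hb0 : ∀ e, 0 < bN E h.toFun ε (Wc D C) e := bN_pos hΩ E h hε _
  have hW0 : (0:ℝ) ≤ 7 + C₁ := by linarith
  have h1 : ∀ e, 0 ≤ L.weN (P ∪ Wc D C) C₁ G₀ h' e := L.weN_nonneg hC₁
  have h2 : ∀ e, L.weN (P ∪ Wc D C) C₁ G₀ h' e ≤ (7 + C₁) * bN E h.toFun ε (Wc D C) e :=
    L.weN_le O hΩ hε hC₅ hC₁ hμ' hη rfl hb (sim_edge D C E)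
  exact ⟨L.weN_ge hC₁, fun e i hi he => L.weN_given ⟨i, hi, he⟩,
    fun q hq0 hq e => laE_le_LaN hb0 hW0 h1 h2 hq0 hq hC₀ e,
    fun q hq0 hq k e he => lfE_le_LfN hb0 hW0 h1 h2 hq0 hq hC₀ he⟩

end Vale.Agent.P073.H238.K3
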