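import Vale.Agent.P073.H236.SA4
import Vale.Agent.P073.H926.RTDat
import Vale.Agent.P073.H579.RTNum

/-!
# P073, H579: **[RT-ASM]**, STAGES 1, 2, 3 of ROUND T for the data of `K3C`

`exists_rt12`: `exists_roundTS` for `D : KIn3`, `C : Cells`; `rt3`: `T3OutG` for the staircases
`RTS` of H236, with the numbers `LaN`, `LfN`, which do not depend on the levels.
-/

open Set Metric Topology Filter
open scoped ENNReal

namespace Vale.Agent.P073.H238.K3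

open _root_.P073 _root_.P073.Net _root_.P073.PA691 _root_.P073.H236 _root_.P073.H579
open Vale.Agent.P073.St (V)
open Vale.Agent.P073.H471 Vale.Agent.P073.H267 Vale.Agent.P073.H267.Geo
open Vale.Agent.P073.H73 (Mesh)
open Vale.Agent.P073.H193 (Edges Cyc)
open Vale.Agent.P073.H304 (Nb In Zmax)
open Vale.Agent.P073.H926
open Vale.Agent.P073.H579 (TStageW)
open Vale.Agent.P073.H669 (TLv)
open Vale.Agent.P073.H669.TLv (OutW offT lfE)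
open _root_.P073.H345 (IsQ)
open _root_.P073.H155 (Giv)
open _root_.P073.H142 (FStar)
open _root_.P073.H196 (FixD)

variable {c₀ n δ : ℝ} {j : ℕ} {Ω Λ : Set V} {v w : V} {ρ : V → ℝ} {M : Mesh Ω} {h : ConHomeo Ω Λ}
  {J₀ J : Set (ℕ × (Fin 3 → ℤ))} {P Z : Set M.ι} {K : BoxCx Λ w}

/-- the faces of `Act` which meet the boxes are in no given cell -/
theorem act_gv (D : KIn3 c₀ n j δ v w ρ M h J₀ J P Z) (C : Cells ρ w K) :
    ∀ k ∈ Act D C, (∃ x ∈ M.F k, ∃ b ∈ pB C J₀, h.toFun x ∈ (D.G C).TB false b) →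
      ∀ j ∈ Gv D C, ¬ M.F k ⊆ M.Q j := by
  rintro k hk ⟨x, hx, b, hb, hxb⟩ j (hj | hj) hsub
  · exact hk j hj hsub
  · exact hj x (hsub hx) b hb hxb

/-- **STAGES 1 and 2 of ROUND T of `K3C`** -/
theorem exists_rt12 (D : KIn3 c₀ n j δ v w ρ M h J₀ J P Z) (C : Cells ρ w K) {E : Edges M}
    (T : ∀ k, FStar E k) {Tt : TBx K → Finset (ℝ × ℝ)} {η : ℝ} {τ : Type*} {A : τ → Set V}
    {Cs : Set ℝ} {εE : E.ε → ℝ} {δ' : TBx K → ℝ}
    (L : TLv (D.G C) E h (ω3T δ C) Tt η A Cs εE δ') :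
    ∃ h' : ConHomeo Ω Λ, TStageW (D.G C) M h h' P (P ∪ Wc D C) (Act D C) (pB C J₀) L.lev
      (ω3T δ C) ∧
      ∃ c₀ : TBx K → ℝ, (∀ b, 0 < c₀ b) ∧ ∀ (c : TBx K → ℝ) (hc0 : ∀ b, 0 < c b)
      (hc : ∀ b, c b ≤ δ' b / 8), (∀ b ∈ pB C J₀, c b ≤ c₀ b) →
      ∃ κ, IsQ (fun b : pB C J₀ => L.bxQ c hc0 hc b.1) κ ∧ InsMap κ Λ Λ ∧
      ∀ We : E.ε → ℝ, (∀ e, L.WeW (pB C J₀) h' e ≤ We e) →
      ∀ Ψ : ∀ j ∈ Gv D C, ConHomeo (M.Q j) (Pre κ Λ h' (M.Q j)),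
      Giv M E h' κ (actF (L.AcW (Act D C) (pB C J₀) h')) (offT (D.G C) M h (pB C J₀))
        (GEd E h' (fun b : pB C J₀ => L.bxQ c hc0 hc b.1) (L.AcW (Act D C) (pB C J₀) h') We)
        (Gv D C) Ψ →
      ∃ g : ConHomeo Ω Λ, St2W L hc0 hc P (P ∪ Wc D C) (Act D C) (pB C J₀) h' κ g ∧
        OutW L hc0 hc (Act D C) (pB C J₀) We (fun k => (T k).O) (fun k => (T k).rho)
          (fun k => (T k).R) h' κ g ∧
        (∀ k ∈ offT (D.G C) M h (pB C J₀), EqOn g.toFun h'.toFun (M.F k)) ∧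
        ∀ j hj, EqOn g.toFun (Ψ j hj).toFun (M.Q j) := by
  obtain ⟨h', O, H⟩ := L.exists_roundTS D.bΩ.1 D.bΛ.1 (G₀ := pB C J₀) (Pr := P) (D.rt_wall C)
    (D.rt_osc C) (fun k => (T k).C) (O := fun k => (T k).O) (r0 := fun k => (T k).rho)
    (R := fun k => (T k).R) (fun k => (T k).star) (W := P ∪ Wc D C) (Act₀ := Act D C)
    (D.rt_act C) (fun k hk i hi => hk i hi)
  exact ⟨h', O, H (Gv D C) (act_gv D C)⟩

section lev

variable {v' : V} {K' : BoxCx Λ v'} {S : Rad K'} {Wd : Wid K' S} {B : Boxes Wd} {G : Geo B}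
  {E : Edges M} {ω : TBx K' → ℝ} {Tt : TBx K' → Finset (ℝ × ℝ)} {η : ℝ} {τ : Type*}
  {A : τ → Set V} {Cs : Set ℝ} {εE : E.ε → ℝ} {δ' : TBx K' → ℝ}

/-- the displacement is at least the length of a cell -/
theorem _root_.Vale.Agent.P073.H669.TLv.dsp_ge (L : TLv G E h ω Tt η A Cs εE δ') (b : TBx K') :
    δ' b ≤ dsp (Tt b) (δ' b) := by
  have h1 := (L.cells b).disp_nonneg 0 (L.pos b)
  have h2 := (L.cells b).disp_le 0 (L.pos b)
  have h3 := L.δ0 b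
  unfold dsp
  have h4 : (2 * ((Tt b).card : ℝ) + 1) * δ' b = 2 * (Tt b).card * δ' b + δ' b := by ring
  rw [h4]
  linarith

/-- the first level -/
theorem _root_.Vale.Agent.P073.H669.TLv.first_le (L : TLv G E h ω Tt η A Cs εE δ') (b : TBx K') :
    L.a b 0 ≤ G.tlo true b b.ax + 30 * ω b + dsp (Tt b) (δ' b) := by
  have h1 := (L.cells b).disp_le 0 (L.pos b)
  have h2 := (L.cells b).lt_a (L.δ0 b) L.η4 0
  have h3 := L.δ0 b
  have h4 : dsp (Tt b) (δ' b) = ∑ p ∈ Tt b, (p.2 - p.1) + 2 * (Tt b).card * δ' b + δ' b := by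
    unfold dsp; ring
  rw [h4]
  push_cast at h1
  linarith [h2.2]

/-- the last level -/
theorem _root_.Vale.Agent.P073.H669.TLv.le_last (L : TLv G E h ω Tt η A Cs εE δ') (b : TBx K') :
    G.thi true b b.ax - 30 * ω b - dsp (Tt b) (δ' b) - δ' b ≤ L.a b (L.N b - 1) := by
  have hN := L.pos b
  have h1 := (L.cells b).disp_nonneg (L.N b - 1) (by omega)
  have h2 := (L.cells b).lt_a (L.δ0 b) L.η4 (L.N b - 1)
  have h3 := L.δ0 b
  have h4 := (L.cells b).le_num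
  have h5 : ((L.N b - 1 : ℕ) : ℝ) = L.N b - 1 := by
    rw [Nat.cast_sub (by omega : 1 ≤ L.N b)]; simp
  rw [h5] at h1
  unfold dsp
  linarith [h2.1]

end lev

/-- **STAGE 3 of ROUND T of `K3C`**: `T3OutG` for the staircases of H236 -/
theorem rt3 (D : KIn3 c₀ n j δ v w ρ M h J₀ J P Z) (C : Cells ρ w K) {E : Edges M}
    (T : ∀ k, FStar E k) {C₀ C₁ C₅ : ℝ} (hC₁ : 0 ≤ C₁) (hC₅ : 0 ≤ C₅)
    (hC₀ : 1248 * (2 * (7 + C₁)) + 1 ≤ C₀) {ε : E.ε → ℝ} (hε : ∀ e, 0 < ε e)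
    {Tt : TBx K → Finset (ℝ × ℝ)} {η : ℝ} {τ : Type*} {A : τ → Set V}
    {Cs : Set ℝ} {δ' : TBx K → ℝ}
    {L : TLv (D.G C) E h (ω3T δ C) Tt η A Cs (εN E h.toFun ε C₅) δ'} (hη : η ≤ 1 / 32) {μ' : ℝ}
    (hμ' : μ' ≤ 1 / 4)
    (hb : ∀ b ∈ pB C J₀, 60 * ω3T δ C b + dsp (Tt b) (δ' b) ≤
      μ' * ((D.G C).thi true b b.ax - (D.G C).tlo true b b.ax))
    {c : TBx K → ℝ} {hc0 : ∀ b, 0 < c b} {hc : ∀ b, c b ≤ δ' b / 8}
    (hcω : ∀ b ∈ pB C J₀, c b ≤ ω3T δ C b) {h' : ConHomeo Ω Λ} {κ : V → V} {g : ConHomeo Ω Λ}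
    (D2 : St2W L hc0 hc P (P ∪ Wc D C) (Act D C) (pB C J₀) h' κ g)
    (hg : OutW L hc0 hc (Act D C) (pB C J₀) (L.weN (P ∪ Wc D C) C₁ (pB C J₀) h')
      (fun k => (T k).O) (fun k => (T k).rho) (fun k => (T k).R) h' κ g)
    (hmiss : ∀ k ∈ offT (D.G C) M h (pB C J₀), EqOn g.toFun h'.toFun (M.F k)) :
    ∃ Lam1 : M.κ → ℝ, (∀ k, 0 ≤ Lam1 k) ∧
      (∀ k, ∀ x ∈ M.F k, ∀ y ∈ M.F k, ‖g.toFun x - g.toFun y‖ ≤ Lam1 k * ‖x - y‖) ∧
      ∃ e₀ : pB C J₀ → ℝ, (∀ b, 0 < e₀ b) ∧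
        ∀ (e : TBx K → ℝ) (he : ∀ b, 0 < e b) (he2 : ∀ b, 2 * e b < δ' b)
          (V₀ : pB C J₀ → Finset ℝ)
          (X : FixD (F1 L hc0 hc he he2 (pB C J₀)) V₀) (Hα H₁ Tf : ConHomeo Λ Λ),
          RTS L hc0 hc he he2 X Hα H₁ Tf → SNum X → (∀ b : pB C J₀, e b.1 ≤ e₀ b) →
          T3OutG (D.G C) M E h (g.trans ((Hα.trans H₁).trans Tf)) (ω3T δ C) 64 (pB C J₀)
            (Act D C) (fun k => (T k).O) (LaN E C₀ (bN E h.toFun ε (Wc D C)))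
            (LfN T C₀ (bN E h.toFun ε (Wc D C))) Lam1
            (fun b => (tgR L hc0 hc he he2 X b).sl) := by
  have hΩ : IsOpen Ω := D.bΩ.1
  have hb0 : ∀ e, 0 < bN E h.toFun ε (Wc D C) e := bN_pos hΩ E h hε _
  obtain ⟨-, -, hLa, hLf⟩ := rt_num D C (T := T) hC₁ hC₅ hC₀ hε L hη hμ' D2.O hb
  obtain ⟨Lam1, hL0, hL, H⟩ := Vale.Agent.P073.H669.TLv.stage3G D2 (O := fun k => (T k).O)
    (r0 := fun k => (T k).rho) (R := fun k => (T k).R) (fun k => (T k).mem)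
    (fun k => (T k).star.rho0) (fun k => (T k).R0) (L.weN_nonneg hC₁) hg hmiss
    (Ks := fun b => rtK (D.G C) (ω3T δ C) b.1 60)
    (fun b => by rw [bxQ_K]; exact rtK_mono L (by norm_num))
    (fun b => rtK_sub L (by norm_num)) hcω (m := 64) (by norm_num)
  obtain ⟨io₀, hio0, H2⟩ := H (εkN T (bN E h.toFun ε (Wc D C)))
    (εeN E (bN E h.toFun ε (Wc D C))) εkN_pos (εeN_pos hb0)
  refine ⟨Lam1, hL0, hL, fun b => io₀ b * c b.1 / 2, fun b => by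
    have := hio0 b
    have := hc0 b.1
    positivity, fun e he he2 V₀ X Hα H₁ Tf HR N hle => ?_⟩
  have hω0 : ∀ b : TBx K, 0 < ω3T δ C b := L.ω0
  have hio : ∀ b : pB C J₀, 2 * (e b.1 / c b.1) ≤ io₀ b := by
    intro b
    have h1 := hle b
    have h2 := hc0 b.1
    have h3 : e b.1 / c b.1 ≤ io₀ b / 2 := by
      rw [div_le_iff₀ h2]
      linarith
    linarith
  have hwt : ∀ b : pB C J₀, (tgR L hc0 hc he he2 X b).Wt 2 (2 * (e b.1 / c b.1))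
      (L.a b.1 0 - c b.1) (L.a b.1 (L.N b.1 - 1) + c b.1) := by
    intro b
    have h1 := tgR_wt L hc0 hc he he2 X N.eps b
    rwa [mul_one] at h1
  have hlo : ∀ b : pB C J₀, L.a b.1 0 - c b.1 ≤
      (D.G C).tlo true b.1 b.1.ax + (64 - 13) * ω3T δ C b.1 := by
    intro b
    have h1 := L.first_le b.1
    have h2 := N.hω b
    have h3 := hω0 b.1
    have h4 := L.δ0 b.1
    have h5 := hc0 b.1
    linarith
  have hhi : ∀ b : pB C J₀, (D.G C).thi true b.1 b.1.ax - (64 - 13) * ω3T δ C b.1 ≤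
      L.a b.1 (L.N b.1 - 1) + c b.1 := by
    intro b
    have h1 := L.le_last b.1
    have h2 := N.hω b
    have h3 := hω0 b.1
    have h4 := L.δ0 b.1
    have h5 := hc0 b.1
    have h6 := L.dsp_ge b.1
    linarith
  have hr : ∀ b : pB C J₀, 12 * ω3T δ C b.1 ≤ 21 * ω3T δ C b.1 := fun b => by
    have := hω0 b.1
    linarith
  have hr2 : ∀ b : pB C J₀, 21 * ω3T δ C b.1 ≤ 262144 * ω3T δ C b.1 := fun b => by
    have := hω0 b.1
    linarith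
  have key := H2 2 (fun b => 2 * (e b.1 / c b.1)) (fun b => L.a b.1 0 - c b.1)
    (fun b => L.a b.1 (L.N b.1 - 1) + c b.1) (fun b => 21 * ω3T δ C b.1)
    (fun b => tgR L hc0 hc he he2 X b) ((Hα.trans H₁).trans Tf) (by norm_num)
    hio hwt hlo hhi HR.isF (HR.mv N) hr (D.rt_omr C hr2) (D.rt_cmpG C)
  exact key.mono (fun e => hLa 2 (by norm_num) le_rfl e)
    fun k e he => hLf 2 (by norm_num) le_rfl k e he

end Vale.Agent.P073.H238.K3
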