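import Vale.Agent.P073.H579.Arcs
import Vale.Agent.P073.H341.Uncond
import Vale.Agent.P073.GB371.Cut

/-!
# P073, H579: the two sides of a proper arc (sheet) which is locally a regular level

`FlowBox.exists_conn`: near a regular point each of the two sides of the level is connected.
`Cut.sides_of_box`: if the proper sheet `S` of the ball `C` is near `x` the level `{u = u x}`, then
the two pieces of `C` are near `x` the two sides of the level.
-/

open Set Metric Topology Filter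

namespace P073.H579

open P073.TR P073.SCH P073.H339 P073.H341

variable {E : Type*} [NormedAddCommGroup E] [NormedSpace ℝ E] {ι : Type*}

theorem FlowBox.neg {u : E → ℝ} {M : ι → Set E} {x : E} {σ : ℝ →ₗ[ℝ] E} {r : ℝ}
    (h : FlowBox u M x σ r) : FlowBox (fun y => - u y) M x (-σ) r where
  pos := h.pos
  add := fun w s hw hs => by
    have h1 := h.add w (-s) hw (by rwa [norm_neg])
    show - u (x + w + (-σ) s) = - u (x + w) + s
    have h2 : (-σ) s = σ (-s) := by rw [map_neg]; rfl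
    rw [h2, h1]; ring
  iff := fun i w s hw hs => by
    have h1 := h.iff i w (-s) hw (by rwa [norm_neg])
    have h2 : (-σ) s = σ (-s) := by rw [map_neg]; rfl
    rw [h2]; exact h1

/-- near a regular point the upper side of the level is connected -/
theorem FlowBox.exists_conn {u : E → ℝ} {M : ι → Set E} {x : E} {σ : ℝ →ₗ[ℝ] E} {r : ℝ}
    (h : FlowBox u M x σ r) {i : ι} (hx : x ∈ M i) (hM : LocConeAt (M i) x)
    (hu : ConicalAt u x) (hc : ContinuousAt u x) {O : Set E} (hO : O ∈ 𝓝 x) :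
    ∃ O' ∈ 𝓝 x, ∃ A ⊆ O, IsPreconnected A ∧ (∀ y ∈ A, y ∈ M i ∧ u x < u y) ∧
      ∀ y ∈ O', y ∈ M i → u x < u y → y ∈ A := by
  obtain ⟨ρ, hρ, H⟩ := locConeAt_level hu hM rfl
  obtain ⟨ε, hε, hεO⟩ := Metric.mem_nhds_iff.1 hO
  have hσc : Continuous σ := σ.continuous_of_finiteDimensional
  -- small translations
  obtain ⟨s₀, hs₀, hs₀'⟩ : ∃ s₀ > 0, ∀ s : ℝ, |s| < s₀ →
      ‖σ s‖ < min (min r ρ) ε / 4 ∧ |s| < r := by
    have h1 : ContinuousAt (fun s : ℝ => ‖σ s‖) 0 := hσc.norm.continuousAt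
    have hpos : 0 < min (min r ρ) ε / 4 := by
      have := lt_min (lt_min h.pos hρ) hε
      linarith
    have h2 := h1.eventually_lt_const (u := min (min r ρ) ε / 4) (by simpa using hpos)
    obtain ⟨δ, hδ, hb⟩ := Metric.nhds_basis_ball.mem_iff.1 h2
    refine ⟨min δ r, lt_min hδ h.pos, fun s hs => ⟨hb ?_, hs.trans_le (min_le_right _ _)⟩⟩
    rw [mem_ball_zero_iff, Real.norm_eq_abs]
    exact hs.trans_le (min_le_left _ _)
  set m := min (min r ρ) ε with hm
  have hmr : m ≤ r := (min_le_left _ _).trans (min_le_left _ _)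
  have hmρ : m ≤ ρ := (min_le_left _ _).trans (min_le_right _ _)
  have hmε : m ≤ ε := min_le_right _ _
  have hmpos : 0 < m := lt_min (lt_min h.pos hρ) hε
  -- the ray
  set R : Set E := (fun s => x + σ s) '' Ioo 0 s₀ with hR
  have hRpre : IsPreconnected R :=
    isPreconnected_Ioo.image _ (continuous_const.add hσc).continuousOn
  have hRprop : ∀ s ∈ Ioo (0:ℝ) s₀, x + σ s ∈ M i ∧ u (x + σ s) = u x + s ∧ x + σ s ∈ O := by
    intro s hs
    have hs' : |s| < s₀ := by rw [abs_of_pos hs.1]; exact hs.2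
    obtain ⟨h1, h2⟩ := hs₀' s hs'
    have h3 := h.add 0 s (by simpa using h.pos) (by rwa [Real.norm_eq_abs])
    have h4 := h.iff i 0 s (by simpa using h.pos) (by rwa [Real.norm_eq_abs])
    rw [add_zero] at h3 h4
    refine ⟨h4.2 hx, h3, hεO ?_⟩
    rw [mem_ball_iff_norm, add_sub_cancel_left]
    linarith
  -- the neighbourhood
  have hO' : {y | dist y x < m / 4 ∧ |u y - u x| < s₀} ∈ 𝓝 x := by
    have h1 : ContinuousAt (fun y => |u y - u x|) x := (hc.sub continuousAt_const).abs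
    have h2 := h1.eventually_lt_const (u := s₀) (by simpa using hs₀)
    filter_upwards [h2, ball_mem_nhds x (show 0 < m / 4 by linarith)] with y h3 h4
    exact ⟨h4, h3⟩
  set K : E → Set E := fun y => segment ℝ (x + σ (u y - u x)) y with hK
  have hKprop : ∀ y, dist y x < m / 4 → |u y - u x| < s₀ → y ∈ M i → u x < u y →
      ∀ z ∈ K y, z ∈ O ∧ z ∈ M i ∧ u x < u z := by
    intro y hy1 hy2 hyM hyu z hz
    set s := u y - u x with hs
    have hspos : 0 < s := sub_pos.2 hyu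
    obtain ⟨h1, h2⟩ := hs₀' s hy2
    have hn : ‖y - x - σ s‖ < m / 2 := by
      have : ‖y - x‖ < m / 4 := by rwa [dist_eq_norm] at hy1
      calc ‖y - x - σ s‖ ≤ ‖y - x‖ + ‖σ s‖ := norm_sub_le _ _
        _ < m / 2 := by linarith
    have hs2 : ‖s‖ < r := by rwa [Real.norm_eq_abs]
    have h3 := h.add (y - x - σ s) s (by linarith) hs2
    have h4 := h.iff i (y - x - σ s) s (by linarith) hs2
    have e1 : x + (y - x - σ s) + σ s = y := by abel
    rw [e1] at h3 h4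
    have hlev : x + (y - x - σ s) ∈ {y | y ∈ M i ∧ u y = u x} := ⟨h4.1 hyM, by linarith⟩
    obtain ⟨a, b, ha, hb, hab, rfl⟩ := hz
    have e2 : a • (x + σ s) + b • y = x + b • (y - x - σ s) + σ s := by
      have ha' : a = 1 - b := by linarith
      rw [ha']
      module
    have hb1 : b ≤ 1 := by linarith
    have hin : x + b • (y - x - σ s) ∈ {y | y ∈ M i ∧ u y = u x} := by
      rcases hb.lt_or_eq with hb0 | hb0
      · exact (H _ (by linarith) b ⟨hb0, hb1⟩).2 hlev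
      · rw [← hb0, zero_smul, add_zero]
        exact ⟨hx, rfl⟩
    have hbn : ‖b • (y - x - σ s)‖ < m / 2 := by
      rw [norm_smul, Real.norm_of_nonneg hb]
      calc b * ‖y - x - σ s‖ ≤ 1 * ‖y - x - σ s‖ :=
            mul_le_mul_of_nonneg_right hb1 (norm_nonneg _)
        _ < m / 2 := by linarith
    have h5 := h.add (b • (y - x - σ s)) s (by linarith) hs2
    have h6 := h.iff i (b • (y - x - σ s)) s (by linarith) hs2
    rw [e2]
    refine ⟨hεO ?_, h6.2 hin.1, ?_⟩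
    · rw [mem_ball_iff_norm]
      have e3 : x + b • (y - x - σ s) + σ s - x = b • (y - x - σ s) + σ s := by abel
      rw [e3]
      calc ‖b • (y - x - σ s) + σ s‖ ≤ ‖b • (y - x - σ s)‖ + ‖σ s‖ := norm_add_le _ _
        _ < ε := by linarith
    · rw [h5, hin.2]; linarith
  set Y : Set E := {y | (dist y x < m / 4 ∧ |u y - u x| < s₀) ∧ y ∈ M i ∧ u x < u y} with hY
  refine ⟨_, hO', R ∪ ⋃ y ∈ Y, K y, ?_, ?_, ?_, ?_⟩
  · apply union_subset
    · rintro _ ⟨s, hs, rfl⟩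
      exact (hRprop s hs).2.2
    · refine iUnion₂_subset fun y hy z hz => ?_
      exact (hKprop y hy.1.1 hy.1.2 hy.2.1 hy.2.2 z hz).1
  · -- connectedness
    have e : R ∪ ⋃ y ∈ Y, K y = ⋃₀ (insert R ((fun y => R ∪ K y) '' Y)) := by
      ext z
      simp only [mem_union, mem_iUnion, mem_sUnion, mem_insert_iff, mem_image, exists_prop]
      constructor
      · rintro (h1 | ⟨y, hy, hz⟩)
        · exact ⟨R, Or.inl rfl, h1⟩
        · exact ⟨_, Or.inr ⟨y, hy, rfl⟩, Or.inr hz⟩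
      · rintro ⟨s, rfl | ⟨y, hy, rfl⟩, hz⟩
        · exact Or.inl hz
        · rcases hz with hz | hz
          · exact Or.inl hz
          · exact Or.inr ⟨y, hy, hz⟩
    rw [e]
    have hmid : x + σ (s₀ / 2) ∈ R := ⟨s₀ / 2, ⟨by linarith, by linarith⟩, rfl⟩
    refine isPreconnected_sUnion (x + σ (s₀ / 2)) _ ?_ ?_
    · rintro s (rfl | ⟨y, hy, rfl⟩)
      · exact hmid
      · exact Or.inl hmid
    · rintro s (rfl | ⟨y, hy, rfl⟩)
      · exact hRpre
      · have hyR : x + σ (u y - u x) ∈ R := by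
          refine ⟨u y - u x, ⟨sub_pos.2 hy.2.2, ?_⟩, rfl⟩
          have := hy.1.2
          rwa [abs_of_pos (sub_pos.2 hy.2.2)] at this
        exact IsPreconnected.union _ hyR (left_mem_segment _ _ _) hRpre
          (convex_segment _ _).isPreconnected
  · rintro z (⟨s, hs, rfl⟩ | hz)
    · have h1 := hRprop s hs
      refine ⟨h1.1, ?_⟩
      rw [h1.2.1]
      have := hs.1
      linarith
    · obtain ⟨y, hy, hz⟩ := mem_iUnion₂.1 hz
      exact (hKprop y hy.1.1 hy.1.2 hy.2.1 hy.2.2 z hz).2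
  · intro y hy hyM hyu
    exact Or.inr (mem_iUnion₂.2 ⟨y, ⟨hy, hyM, hyu⟩, right_mem_segment _ _ _⟩)

/-- the lower side -/
theorem FlowBox.exists_conn' {u : E → ℝ} {M : ι → Set E} {x : E} {σ : ℝ →ₗ[ℝ] E} {r : ℝ}
    (h : FlowBox u M x σ r) {i : ι} (hx : x ∈ M i) (hM : LocConeAt (M i) x)
    (hu : ConicalAt u x) (hc : ContinuousAt u x) {O : Set E} (hO : O ∈ 𝓝 x) :
    ∃ O' ∈ 𝓝 x, ∃ A ⊆ O, IsPreconnected A ∧ (∀ y ∈ A, y ∈ M i ∧ u y < u x) ∧
      ∀ y ∈ O', y ∈ M i → u y < u x → y ∈ A := by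
  have hu' : ConicalAt (fun y => - u y) x := by
    obtain ⟨r, hr, H⟩ := hu
    refine ⟨r, hr, fun v hv t ht => ?_⟩
    have := H v hv t ht
    show - u (x + t • v) = - u x + t • (- u (x + v) - - u x)
    rw [this]
    simp only [smul_eq_mul]
    ring
  obtain ⟨O', hO', A, h1, h2, h3, h4⟩ := FlowBox.exists_conn (FlowBox.neg h) hx hM hu' hc.neg hO
  refine ⟨O', hO', A, h1, h2, fun y hy => ?_, fun y hy hyM hyu => h4 y hy hyM ?_⟩
  · have := h3 y hy
    exact ⟨this.1, by linarith [this.2]⟩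
  · show - u x < - u y
    linarith

/-- **the two pieces of a ball cut along a sheet which is a regular level near `x`** -/
theorem sides_of_box {n : ℕ} {C B S B₁ B₂ C₁ C₂ : Set E} (hcut : Cut n C B S B₁ B₂ C₁ C₂)
    {u : E → ℝ} {M : ι → Set E} {x : E} {σ : ℝ →ₗ[ℝ] E} {r : ℝ} (h : FlowBox u M x σ r) {i : ι}
    (hi : M i = C) (hx : x ∈ S) (hM : LocConeAt (M i) x) (hu : ConicalAt u x)
    (hc : ContinuousAt u x) (hnear : ∀ᶠ y in 𝓝 x, y ∈ C → (y ∈ S ↔ u y = u x)) :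
    (∀ᶠ y in 𝓝 x, y ∈ C → (u x < u y → y ∈ C₂ \ S) ∧ (u y < u x → y ∈ C₁ \ S)) ∨
      ∀ᶠ y in 𝓝 x, y ∈ C → (u x < u y → y ∈ C₁ \ S) ∧ (u y < u x → y ∈ C₂ \ S) := by
  have hxM : x ∈ M i := by rw [hi]; exact hcut.hDC hx
  obtain ⟨O₁, hO₁, A, hAO, hApre, hA, hA'⟩ := FlowBox.exists_conn h hxM hM hu hc hnear
  obtain ⟨O₂, hO₂, A', hAO', hApre', hB, hB'⟩ := FlowBox.exists_conn' h hxM hM hu hc hnear
  have sA : A ⊆ C₁ \ S ∨ A ⊆ C₂ \ S := by
    refine hcut.side hApre (fun y hy => hi ▸ (hA y hy).1) ?_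
    rw [Set.disjoint_left]
    intro y hy hyS
    have hyC : y ∈ C := hi ▸ (hA y hy).1
    have := (hAO hy hyC).1 hyS
    exact (hA y hy).2.ne' this
  have sB : A' ⊆ C₁ \ S ∨ A' ⊆ C₂ \ S := by
    refine hcut.side hApre' (fun y hy => hi ▸ (hB y hy).1) ?_
    rw [Set.disjoint_left]
    intro y hy hyS
    have hyC : y ∈ C := hi ▸ (hB y hy).1
    have := (hAO' hy hyC).1 hyS
    exact (hB y hy).2.ne this
  -- both sides cannot be in the same piece
  have no : ∀ {B₁ B₂ C₁ C₂ : Set E}, Cut n C B S B₁ B₂ C₁ C₂ → A ⊆ C₁ \ S → A' ⊆ C₁ \ S →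
      False := by
    intro B₁ B₂ C₁ C₂ hcut h1 h2
    have hx2 : x ∈ C₂ := hcut.symm.D_sub hx
    have hcl := hcut.hC₂.subset_closure_diff hx2
    have hev : ∀ᶠ y in 𝓝 x, y ∈ C → y ∉ S → y ∈ C₁ \ S := by
      filter_upwards [hO₁, hO₂, hnear] with y hy1 hy2 hy3 hyC hyS
      rcases lt_trichotomy (u y) (u x) with h4 | h4 | h4
      · exact h2 (hB' y hy2 (hi.symm ▸ hyC) h4)
      · exact absurd ((hy3 hyC).2 h4) hyS
      · exact h1 (hA' y hy1 (hi.symm ▸ hyC) h4)
    obtain ⟨y, hy, hyC2, hyn⟩ := mem_closure_iff_nhds.1 hcl _ hev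
    have hyS : y ∉ S := fun h' => hyn (Or.inr h')
    have := hy (hcut.symm.C₁_sub hyC2) hyS
    exact hyS (hcut.not_both this.1 hyC2)
  have fin : ∀ {C₁ C₂ : Set E}, A ⊆ C₂ \ S → A' ⊆ C₁ \ S →
      ∀ᶠ y in 𝓝 x, y ∈ C → (u x < u y → y ∈ C₂ \ S) ∧ (u y < u x → y ∈ C₁ \ S) := by
    intro C₁ C₂ h1 h2
    filter_upwards [hO₁, hO₂] with y hy1 hy2 hyC
    exact ⟨fun h3 => h1 (hA' y hy1 (hi.symm ▸ hyC) h3), fun h3 => h2 (hB' y hy2 (hi.symm ▸ hyC) h3)⟩
  rcases sA with sA | sA <;> rcases sB with sB | sB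
  · exact (no hcut sA sB).elim
  · exact Or.inr (fin sA sB)
  · exact Or.inl (fin sA sB)
  · exact (no hcut.symm sA sB).elim

/-- **the defining function of a proper arc in a disc** (or of a proper sheet in a ball) -/
theorem exists_fn {n : ℕ} {C B S B₁ B₂ C₁ C₂ : Set E} (hcut : Cut n C B S B₁ B₂ C₁ C₂) :
    ∃ f : E → ℝ, ContinuousOn f C ∧ (∀ x ∈ C, (f x = 0 ↔ x ∈ S)) ∧
      (∀ x ∈ C, (f x < 0 ↔ x ∈ C₁ \ S)) ∧ ∀ x ∈ C, (0 < f x ↔ x ∈ C₂ \ S) := by
  classical
  have hSne : S.Nonempty := hcut.hD.nonempty'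
  have hScl : IsClosed S := hcut.hD.isClosed
  have hd : ∀ x, infDist x S = 0 ↔ x ∈ S := fun x => (hScl.mem_iff_infDist_zero hSne).symm
  set f : E → ℝ := fun x => if x ∈ C₁ then - infDist x S else infDist x S with hf
  have f1 : ∀ x ∈ C₁, f x = - infDist x S := fun x hx => by simp only [hf, if_pos hx]
  have f2 : ∀ x ∈ C₂, f x = infDist x S := by
    intro x hx
    by_cases hx1 : x ∈ C₁
    · have hxS : x ∈ S := hcut.not_both hx1 hx
      rw [f1 x hx1, (hd x).2 hxS, neg_zero]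
    · simp only [hf, if_neg hx1]
  have hpos : ∀ x, x ∉ S → 0 < infDist x S := fun x hx =>
    lt_of_le_of_ne infDist_nonneg fun h => hx ((hd x).1 h.symm)
  refine ⟨f, ?_, fun x hx => ?_, fun x hx => ?_, fun x hx => ?_⟩
  · rw [← hcut.hCu]
    refine ContinuousOn.union_of_isClosed ?_ ?_ hcut.hC₁.isClosed hcut.hC₂.isClosed
    · exact ((continuous_infDist_pt S).neg.continuousOn).congr f1
    · exact ((continuous_infDist_pt S).continuousOn).congr f2
  · rw [← hcut.hCu] at hx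
    rcases hx with hx | hx
    · rw [f1 x hx, neg_eq_zero, hd]
    · rw [f2 x hx, hd]
  · rw [← hcut.hCu] at hx
    rcases hx with hx | hx
    · rw [f1 x hx]
      constructor
      · intro h
        refine ⟨hx, fun hxS => ?_⟩
        rw [(hd x).2 hxS] at h
        simp at h
      · rintro ⟨_, hxS⟩
        linarith [hpos x hxS]
    · rw [f2 x hx]
      constructor
      · intro h
        exact absurd h (not_lt.2 infDist_nonneg)
      · rintro ⟨h1, hxS⟩
        exact absurd (hcut.not_both h1 hx) hxS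
  · rw [← hcut.hCu] at hx
    rcases hx with hx | hx
    · rw [f1 x hx]
      constructor
      · intro h
        have : (0:ℝ) ≤ infDist x S := infDist_nonneg
        linarith
      · rintro ⟨h1, hxS⟩
        exact absurd (hcut.not_both hx h1) hxS
    · rw [f2 x hx]
      constructor
      · intro h
        refine ⟨hx, fun hxS => ?_⟩
        rw [(hd x).2 hxS] at h
        exact lt_irrefl _ h
      · rintro ⟨_, hxS⟩
        exact hpos x hxS

theorem sign_const_real {K : Set ℝ} (hK : IsPreconnected K) {f : ℝ → ℝ} (hf : ContinuousOn f K)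
    (h0 : ∀ x ∈ K, f x ≠ 0) {x y : ℝ} (hx : x ∈ K) (hy : y ∈ K) (hx' : 0 < f x)
    (hy' : f y < 0) : False := sign_const hK hf h0 hx hy hx' hy'

/-- a function without zeros on an arc except at an inner point where it takes both signs -/
theorem opp_ends {T : Set E} {p q x : E} (hT : IsArc T p q) (hx : x ∈ T) (hxp : x ≠ p)
    (hxq : x ≠ q) {f : E → ℝ} (hf : ContinuousOn f T) (h0 : ∀ y ∈ T, f y = 0 → y = x)
    (hpos : x ∈ closure {y | y ∈ T ∧ 0 < f y}) (hneg : x ∈ closure {y | y ∈ T ∧ f y < 0}) :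
    (0 < f p ∧ f q < 0) ∨ (f p < 0 ∧ 0 < f q) := by
  have hpT := hT.left_mem
  have hqT := hT.right_mem
  obtain ⟨φ, hp, hq⟩ := hT
  have hx' : x ∈ φ.toFun '' Icc 0 1 := by rw [φ.image_eq]; exact hx
  obtain ⟨t, ht, htx⟩ := hx'
  have ht0 : 0 < t := lt_of_le_of_ne ht.1 (fun h => hxp (by rw [← htx, ← h, hp]))
  have ht1 : t < 1 := lt_of_le_of_ne ht.2 (fun h => hxq (by rw [← htx, h, hq]))
  have h0I : (0:ℝ) ∈ Icc (0:ℝ) 1 := ⟨le_refl _, zero_le_one⟩
  have h1I : (1:ℝ) ∈ Icc (0:ℝ) 1 := ⟨zero_le_one, le_refl _⟩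
  set g : ℝ → ℝ := fun s => f (φ.toFun s) with hg
  have hgc : ContinuousOn g (Icc 0 1) := hf.comp φ.cont φ.mapsTo
  have hg0 : ∀ s ∈ Icc (0:ℝ) 1, s ≠ t → g s ≠ 0 := by
    intro s hs hst h
    have := h0 _ (φ.mapsTo hs) h
    exact hst (φ.injOn hs ht (this.trans htx.symm))
  have left : ∀ s ∈ Ico (0:ℝ) t, (0 < g s ↔ 0 < g 0) := by
    intro s hs
    have hsub : Ico (0:ℝ) t ⊆ Icc 0 1 := fun y hy => ⟨hy.1, hy.2.le.trans ht.2⟩
    have hne : ∀ y ∈ Ico (0:ℝ) t, g y ≠ 0 := fun y hy => hg0 y (hsub hy) hy.2.ne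
    have h00 : (0:ℝ) ∈ Ico (0:ℝ) t := ⟨le_refl _, ht0⟩
    constructor
    · intro h
      by_contra h2
      exact sign_const_real isPreconnected_Ico (hgc.mono hsub) hne hs h00 h
        (lt_of_le_of_ne (not_lt.1 h2) (hne 0 h00))
    · intro h
      by_contra h2
      exact sign_const_real isPreconnected_Ico (hgc.mono hsub) hne h00 hs h
        (lt_of_le_of_ne (not_lt.1 h2) (hne s hs))
  have right : ∀ s ∈ Ioc t (1:ℝ), (0 < g s ↔ 0 < g 1) := by
    intro s hs
    have hsub : Ioc t (1:ℝ) ⊆ Icc 0 1 := fun y hy => ⟨ht.1.trans hy.1.le, hy.2⟩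
    have hne : ∀ y ∈ Ioc t (1:ℝ), g y ≠ 0 := fun y hy => hg0 y (hsub hy) hy.1.ne'
    have h11 : (1:ℝ) ∈ Ioc t (1:ℝ) := ⟨ht1, le_refl _⟩
    constructor
    · intro h
      by_contra h2
      exact sign_const_real isPreconnected_Ioc (hgc.mono hsub) hne hs h11 h
        (lt_of_le_of_ne (not_lt.1 h2) (hne 1 h11))
    · intro h
      by_contra h2
      exact sign_const_real isPreconnected_Ioc (hgc.mono hsub) hne h11 hs h
        (lt_of_le_of_ne (not_lt.1 h2) (hne s hs))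
  -- points of both signs
  obtain ⟨y, hyT, hy⟩ : {y | y ∈ T ∧ 0 < f y}.Nonempty := closure_nonempty_iff.1 ⟨x, hpos⟩
  obtain ⟨z, hzT, hz⟩ : {y | y ∈ T ∧ f y < 0}.Nonempty := closure_nonempty_iff.1 ⟨x, hneg⟩
  have par : ∀ y ∈ T, ∃ s ∈ Icc (0:ℝ) 1, φ.toFun s = y := by
    intro y hy
    have : y ∈ φ.toFun '' Icc 0 1 := by rw [φ.image_eq]; exact hy
    exact this
  obtain ⟨a, ha, rfl⟩ := par y hyT
  obtain ⟨b, hb, rfl⟩ := par z hzT
  have hy' : 0 < g a := hy
  have hz' : g b < 0 := hz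
  have gt : g t = 0 := by
    by_contra h
    have hxT : f x ≠ 0 := by rw [← htx]; exact h
    rcases lt_or_gt_of_ne hxT with h2 | h2
    · have h3 : ∀ᶠ w in 𝓝 x, w ∈ T → f w < 0 := by
        have := (hf x hx).eventually_lt_const h2
        rwa [eventually_nhdsWithin_iff] at this
      obtain ⟨w, hw, hwT, hw2⟩ := mem_closure_iff_nhds.1 hpos _ h3
      exact absurd (hw hwT) (not_lt.2 hw2.le)
    · have h3 : ∀ᶠ w in 𝓝 x, w ∈ T → 0 < f w := by
        have := (hf x hx).eventually_const_lt h2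
        rwa [eventually_nhdsWithin_iff] at this
      obtain ⟨w, hw, hwT, hw2⟩ := mem_closure_iff_nhds.1 hneg _ h3
      exact absurd (hw hwT) (not_lt.2 hw2.le)
  have hat : a ≠ t := fun h => by rw [h, gt] at hy'; exact lt_irrefl _ hy'
  have hbt : b ≠ t := fun h => by rw [h, gt] at hz'; exact lt_irrefl _ hz'
  have g0 : g 0 = f p := by simp only [hg, hp]
  have g1 : g 1 = f q := by simp only [hg, hq]
  have n0 : g 0 ≠ 0 := hg0 0 h0I ht0.ne
  have n1 : g 1 ≠ 0 := hg0 1 h1I ht1.ne'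
  rw [← g0, ← g1]
  rcases lt_or_gt_of_ne hat with h1 | h1
  · have k1 : 0 < g 0 := (left a ⟨ha.1, h1⟩).1 hy'
    rcases lt_or_gt_of_ne hbt with h2 | h2
    · exact absurd ((left b ⟨hb.1, h2⟩).2 k1) (not_lt.2 hz'.le)
    · left
      refine ⟨k1, lt_of_le_of_ne (not_lt.1 fun h => ?_) n1⟩
      exact absurd ((right b ⟨h2, hb.2⟩).2 h) (not_lt.2 hz'.le)
  · have k1 : 0 < g 1 := (right a ⟨h1, ha.2⟩).1 hy'
    rcases lt_or_gt_of_ne hbt with h2 | h2
    · right
      refine ⟨lt_of_le_of_ne (not_lt.1 fun h => ?_) n0, k1⟩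
      exact absurd ((left b ⟨hb.1, h2⟩).2 h) (not_lt.2 hz'.le)
    · exact absurd ((right b ⟨h2, hb.2⟩).2 k1) (not_lt.2 hz'.le)

end P073.H579
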