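import Vale.Agent.P073.H579.SupSlot
import Vale.Agent.P073.H227.OscSup

/-!
# P073, H579, [OSC-TOP]: the row of the faces which are not listed

`supRow : 1 ≤ C₀ → SupRow C₀`, from `H227.osc_sup` and the slots `row_supNum`.
-/

open Set Metric Topology Filter MeasureTheory
open scoped ENNReal

set_option linter.unusedSectionVars false

namespace Vale.Agent.P073.H579.K3

open _root_.P073 _root_.P073.Net _root_.P073.PA691 _root_.P073.H236 _root_.P073.H579
open Vale.Agent.P073.H471 Vale.Agent.P073.H267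
open Vale.Agent.P073.H267.K3
open Vale.Agent.P073.H227 (SupRow)

/-- **one face which is not listed** -/
theorem supLoc {C₀ : ℝ} (hC₀ : 0 ≤ C₀) : SupLoc C₀ 1 (12 * C₀ + 100) := by
  intro c₀ n δ j Ω Λ v w ρ M h J₀ J P Z K D C Ys p μ r ν sc _ hJ hm S N X Y₂ Y₃ Y₄ Y₅ _ H k hP hU
  refine H227.osc_sup Y₅ hJ hm hC₀ hP hU (oscH_pos h k)
    (fun x hx y hy => norm_le_oscH h hx hy) (fun b hb => ?_) (fun s _ hs => ?_)
    (fun s _ => H.mS s) (fun b hb => ?_) H.sgT H.μ0 H.μ1 H.μu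
  · obtain ⟨z, hz, hzb⟩ := hb
    exact (H.d b k ⟨_, ⟨z, hz, rfl⟩, hzb⟩).trans_eq (one_mul _)
  · obtain ⟨z, hz, hzs⟩ := hs
    exact (H.m s k ⟨_, ⟨z, hz, rfl⟩, hzs⟩).trans_eq (one_mul _)
  · obtain ⟨x, hx, hxb⟩ := hb
    exact (H.sg b k ⟨_, ⟨x, hx, rfl⟩, Y₅.lay.KE b hxb⟩).trans_eq (one_mul _)

/-- **the row of the faces which are not listed** -/
theorem supRow {C₀ : ℝ} (hC₀ : 1 ≤ C₀) : SupRow C₀ :=
  supRow_of one_pos (by positivity) (supLoc (by positivity))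

end Vale.Agent.P073.H579.K3
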