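import Vale.Agent.P073.H579.Web4
import Vale.Agent.P073.TR.Square

/-!
# P073, H579: the traces of regular levels on a flat face form a web
-/

open Set Metric Topology Filter

namespace P073.H579

open P073.TR P073.SCH P073.H339

section pull

variable {E G : Type*} [NormedAddCommGroup E] [NormedSpace ℝ E]
  [NormedAddCommGroup G] [NormedSpace ℝ G]

/-- flow boxes on a flat face: the pull back by an affine chart -/
theorem FlowBox.pull [FiniteDimensional ℝ G] {ι : Type*} {u : E → G} {M : ι → Set E} {i₀ : ι}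
    {L : P →ₗ[ℝ] E} (hL : Function.Injective L) {o : E} {C : Set P}
    (hC : M i₀ = (fun w => o + L w) '' C) {z : P} (hz : z ∈ C) {σ : G →ₗ[ℝ] E} {r : ℝ}
    (h : FlowBox u M (o + L z) σ r) :
    ∃ (σ' : G →ₗ[ℝ] P) (r' : ℝ), (∀ s, L (σ' s) = σ s) ∧
      FlowBox (fun w => u (o + L w)) (fun i => (fun w => o + L w) ⁻¹' M i) z σ' r' := by
  obtain ⟨K, hK⟩ := LinearMap.exists_leftInverse_of_injective L (LinearMap.ker_eq_bot.2 hL)
  have hKL : ∀ w, K (L w) = w := fun w => by
    have := LinearMap.congr_fun hK w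
    simpa using this
  -- small vectors
  have hrange : ∀ s : G, ∃ w, L w = σ s := by
    have hsmall : ∀ s : G, ‖s‖ < r → ∃ w, L w = σ s := by
      intro s hs
      have h1 := (h.iff i₀ 0 s (by rw [norm_zero]; exact h.pos) hs).2 (by
        rw [add_zero, hC]; exact ⟨z, hz, rfl⟩)
      rw [add_zero, hC] at h1
      obtain ⟨w, _, hw⟩ := h1
      refine ⟨w - z, ?_⟩
      have h2 : o + L w = o + L z + σ s := hw
      rw [map_sub]
      have h3 : L w = L z + σ s := by
        rw [add_assoc] at h2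
        exact add_left_cancel h2
      rw [h3]; abel
    intro s
    by_cases hs : s = 0
    · exact ⟨0, by rw [hs, map_zero, map_zero]⟩
    · have hn := norm_pos_iff.2 hs
      set c := r / (2 * ‖s‖) with hc
      have hcp : 0 < c := div_pos h.pos (by positivity)
      obtain ⟨w, hw⟩ := hsmall (c • s) (by
        rw [norm_smul, Real.norm_of_nonneg hcp.le, hc]
        have : r / (2 * ‖s‖) * ‖s‖ = r / 2 := by field_simp
        rw [this]
        exact half_lt_self h.pos)
      refine ⟨c⁻¹ • w, ?_⟩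
      rw [map_smul, hw, map_smul, smul_smul, inv_mul_cancel₀ hcp.ne', one_smul]
  have hσ : ∀ s, L (K (σ s)) = σ s := by
    intro s
    obtain ⟨w, hw⟩ := hrange s
    rw [← hw, hKL]
  have hLc : Continuous L := L.continuous_of_finiteDimensional
  obtain ⟨δ, hδ, hδ'⟩ : ∃ δ > 0, ∀ w : P, ‖w‖ < δ → ‖L w‖ < r := by
    have h1 : ContinuousAt (fun w : P => ‖L w‖) 0 := hLc.norm.continuousAt
    have h2 := h1.eventually_lt_const (u := r) (by simpa using h.pos)
    obtain ⟨δ, hδ, hb⟩ := Metric.nhds_basis_ball.mem_iff.1 h2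
    exact ⟨δ, hδ, fun w hw => hb (mem_ball_zero_iff.2 hw)⟩
  have hre : ∀ w s, o + L (z + w + (K.comp σ) s) = o + L z + L w + σ s := by
    intro w s
    rw [map_add, map_add, LinearMap.comp_apply, hσ]
    abel
  have hre' : ∀ w, o + L (z + w) = o + L z + L w := by
    intro w
    rw [map_add]; abel
  refine ⟨K.comp σ, min δ r, fun s => hσ s, lt_min hδ h.pos, ?_, ?_⟩
  · intro w s hw hs
    show u (o + L (z + w + (K.comp σ) s)) = u (o + L (z + w)) + s
    rw [hre, hre']
    exact h.add (L w) s (hδ' w (hw.trans_le (min_le_left _ _))) (hs.trans_le (min_le_right _ _))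
  · intro i w s hw hs
    show o + L (z + w + (K.comp σ) s) ∈ M i ↔ o + L (z + w) ∈ M i
    rw [hre, hre']
    exact h.iff i (L w) s (hδ' w (hw.trans_le (min_le_left _ _))) (hs.trans_le (min_le_right _ _))

/-- conical maps composed with an affine chart -/
theorem ConicalAt.comp_chart {F : Type*} [NormedAddCommGroup F] [NormedSpace ℝ F] {u : E → F}
    {L : P →ₗ[ℝ] E} {o : E} {z : P} (h : ConicalAt u (o + L z)) :
    ConicalAt (fun w => u (o + L w)) z := by
  obtain ⟨r, hr, H⟩ := h
  have hLc : Continuous L := L.continuous_of_finiteDimensional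
  have h1 : ContinuousAt (fun w : P => ‖L w‖) 0 := hLc.norm.continuousAt
  have h2 := h1.eventually_lt_const (u := r) (by simpa using hr)
  obtain ⟨δ, hδ, hb⟩ := Metric.nhds_basis_closedBall.mem_iff.1 h2
  refine ⟨δ, hδ, fun v hv t ht => ?_⟩
  have h3 : ‖L v‖ < r := hb (mem_closedBall_zero_iff.2 hv)
  have h4 := H (L v) h3.le t ht
  show u (o + L (z + t • v)) = u (o + L z) + t • (u (o + L (z + v)) - u (o + L z))
  have e1 : o + L (z + t • v) = o + L z + t • L v := by rw [map_add, map_smul]; abel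
  have e2 : o + L (z + v) = o + L z + L v := by rw [map_add]; abel
  rw [e1, e2]
  exact h4

end pull

/-- the trace of the levels `La` of `u` -/
def trace (C : Set P) (u : P → ℝ) (La : Set ℝ) : Set P := {x | x ∈ C ∧ u x ∈ La}

/-- hypotheses for one family in the plane -/
structure Reg1 (C : Set P) (u : P → ℝ) (La : Set ℝ) : Prop where
  cont : ∀ x ∈ C, ContinuousAt u x
  con : ∀ x ∈ C, ConicalAt u x
  fin : La.Finite
  box : ∀ x ∈ C, u x ∈ La → ∃ (σ : ℝ →ₗ[ℝ] P) (r : ℝ), FlowBox u (fun _ : Unit => C) x σ r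

theorem Reg1.near {C : Set P} {u : P → ℝ} {La : Set ℝ} (h : Reg1 C u La) {x : P} (hx : x ∈ C)
    (hu : u x ∈ La) : ∀ᶠ y in 𝓝 x, (y ∈ trace C u La ↔ y ∈ {y | y ∈ C ∧ u y = u x}) := by
  have h1 : (La \ {u x})ᶜ ∈ 𝓝 (u x) :=
    (h.fin.subset sdiff_subset).isClosed.isOpen_compl.mem_nhds (fun h => h.2 rfl)
  filter_upwards [(h.cont x hx).eventually h1] with y hy
  constructor
  · rintro ⟨h2, h3⟩
    refine ⟨h2, ?_⟩
    by_contra h4
    exact hy ⟨h3, h4⟩
  · rintro ⟨h2, h3⟩
    refine ⟨h2, ?_⟩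
    rw [h3]; exact hu

theorem Reg1.dirs_eq {C : Set P} {u : P → ℝ} {La : Set ℝ} (h : Reg1 C u La) {x : P} (hx : x ∈ C)
    (hu : u x ∈ La) : dirs (trace C u La) x = dirs {y | y ∈ C ∧ u y = u x} x :=
  DM.dirs_congr (h.near hx hu)

theorem Reg1.ncard {C : Set P} {u : P → ℝ} {La : Set ℝ} (h : Reg1 C u La) (hC : Convex ℝ C)
    (hi : (interior C).Nonempty) {x : P} (hx : x ∈ trace C u La) :
    (x ∈ interior C → (dirs (trace C u La) x).ncard = 2) ∧
      (x ∉ interior C → (dirs (trace C u La) x).ncard = 1) := by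
  obtain ⟨hxC, hu⟩ := hx
  obtain ⟨σ, r, hb⟩ := h.box x hxC hu
  have h2 : Module.finrank ℝ P = 2 := by simp
  rw [h.dirs_eq hxC hu]
  refine ⟨fun hxi => ?_, fun hxi => ?_⟩
  · exact dirs_level_two h2 hb (h.con x hxC) rfl (mem_interior_iff_mem_nhds.1 hxi)
  · exact dirs_level_one h2 (M := fun _ : Unit => C) (i := ()) rfl hb (h.con x hxC) rfl hC hi hxC hxi

theorem Reg1.curve {C : Set P} {u : P → ℝ} {La : Set ℝ} (h : Reg1 C u La) (hC : Convex ℝ C)
    (hi : (interior C).Nonempty) (hc : IsCompact C) (hl : LocCone C) : Curve (trace C u La) := by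
  refine ⟨?_, ?_, ?_⟩
  · have h1 : trace C u La = C ∩ u ⁻¹' La := rfl
    rw [h1]
    have hcu : ContinuousOn u C := fun x hx => (h.cont x hx).continuousWithinAt
    exact hc.of_isClosed_subset (hcu.preimage_isClosed_of_isClosed hc.isClosed h.fin.isClosed)
      inter_subset_left
  · rintro x ⟨hx, hu⟩
    exact (locConeAt_congr (h.near hx hu)).2 (locConeAt_level (h.con x hx) (hl x) rfl)
  · intro x hx
    by_cases hxi : x ∈ interior C
    · exact Or.inr ((h.ncard hC hi hx).1 hxi)
    · exact Or.inl ((h.ncard hC hi hx).2 hxi)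

/-- flow boxes of a pair give straight crosses -/
theorem cross_of_box {C : Set P} {u v : P → ℝ} {La Lb : Set ℝ} (h1 : Reg1 C u La)
    (h2 : Reg1 C v Lb) {x : P} (hx : x ∈ C) (hu : u x ∈ La) (hv : v x ∈ Lb)
    {σ : ℝ × ℝ →ₗ[ℝ] P} {r : ℝ}
    (hb : FlowBox (fun y => (u y, v y)) (fun _ : Unit => C) x σ r) :
    CrossAt (trace C u La) (trace C v Lb) x := by
  have hinj : Function.Injective σ := by
    rw [← LinearMap.ker_eq_bot, LinearMap.ker_eq_bot']
    intro s hs
    by_contra h0
    have hn := norm_pos_iff.2 h0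
    set c := r / (2 * ‖s‖) with hc
    have hcp : 0 < c := div_pos hb.pos (by positivity)
    have h3 : ‖c • s‖ < r := by
      rw [norm_smul, Real.norm_of_nonneg hcp.le, hc]
      have : r / (2 * ‖s‖) * ‖s‖ = r / 2 := by field_simp
      rw [this]
      exact half_lt_self hb.pos
    have h4 := hb.add 0 (c • s) (by rw [norm_zero]; exact hb.pos) h3
    rw [map_smul, hs, smul_zero, add_zero] at h4
    have h5 : c • s = 0 := by
      have := h4.symm
      rwa [add_eq_left] at this
    rcases smul_eq_zero.1 h5 with h6 | h6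
    · exact hcp.ne' h6
    · exact h0 h6
  -- the inverse
  have hsurj : Function.Surjective σ := LinearMap.injective_iff_surjective.1 hinj
  let eqv : (ℝ × ℝ) ≃ₗ[ℝ] P := LinearEquiv.ofBijective σ ⟨hinj, hsurj⟩
  have heqv : ∀ s, eqv s = σ s := fun s => rfl
  have hsymm : ∀ y, σ (eqv.symm y) = y := fun y => by rw [← heqv, LinearEquiv.apply_symm_apply]
  have hcont : Continuous eqv.symm := LinearMap.continuous_of_finiteDimensional eqv.symm.toLinearMap
  have hsmall : ∀ᶠ y in 𝓝 x, ‖eqv.symm (y - x)‖ < r := by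
    have hc : ContinuousAt (fun y : P => ‖eqv.symm (y - x)‖) x := by
      apply Continuous.continuousAt
      exact (hcont.comp (continuous_id.sub continuous_const)).norm
    exact hc.eventually_lt_const (by simpa using hb.pos)
  have hval : ∀ᶠ y in 𝓝 x, y ∈ C ∧ u y = u x + (eqv.symm (y - x)).1 ∧
      v y = v x + (eqv.symm (y - x)).2 := by
    filter_upwards [hsmall] with y hy
    have h3 := hb.add 0 (eqv.symm (y - x)) (by rw [norm_zero]; exact hb.pos) hy
    have h4 := hb.iff () 0 (eqv.symm (y - x)) (by rw [norm_zero]; exact hb.pos) hy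
    rw [add_zero, hsymm, add_sub_cancel] at h3 h4
    exact ⟨h4.2 hx, congrArg Prod.fst h3, congrArg Prod.snd h3⟩
  have hd0 : σ (0, 1) ≠ 0 := fun h => by
    have := hinj (h.trans (map_zero σ).symm)
    exact one_ne_zero (congrArg Prod.snd this)
  have he0 : σ (1, 0) ≠ 0 := fun h => by
    have := hinj (h.trans (map_zero σ).symm)
    exact one_ne_zero (congrArg Prod.fst this)
  have nd := norm_pos_iff.2 hd0
  have ne := norm_pos_iff.2 he0
  have hne : ∀ a b : ℝ, b ≠ 0 → a • σ (1, 0) ≠ b • σ (0, 1) := by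
    intro a b hb' h
    rw [← map_smul, ← map_smul] at h
    have := congrArg Prod.snd (hinj h)
    simp only [Prod.smul_mk, smul_eq_mul, mul_zero, mul_one] at this
    exact hb' this.symm
  refine ⟨‖σ (0, 1)‖⁻¹ • σ (0, 1), ‖σ (1, 0)‖⁻¹ • σ (1, 0), ?_, ?_, ?_, ?_, ?_, ?_⟩
  · rw [norm_smul, norm_inv, norm_norm, inv_mul_cancel₀ nd.ne']
  · rw [norm_smul, norm_inv, norm_norm, inv_mul_cancel₀ ne.ne']
  · exact hne _ _ (inv_ne_zero nd.ne')
  · rw [← neg_smul]
    exact hne _ _ (neg_ne_zero.2 (inv_ne_zero nd.ne'))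
  · -- the first family
    filter_upwards [h1.near hx hu, hval] with y hy1 hy2
    rw [hy1]
    constructor
    · rintro ⟨_, h3⟩
      have h4 : (eqv.symm (y - x)).1 = 0 := by
        have := hy2.2.1
        rw [h3] at this
        linarith
      refine ⟨(eqv.symm (y - x)).2 * ‖σ (0, 1)‖, ?_⟩
      have h5 : y - x = (eqv.symm (y - x)).2 • σ (0, 1) := by
        rw [← map_smul]
        have : (eqv.symm (y - x)).2 • ((0, 1) : ℝ × ℝ) = eqv.symm (y - x) := by
          apply Prod.ext
          · rw [h4, Prod.smul_fst, smul_zero]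
          · rw [Prod.smul_snd, smul_eq_mul, mul_one]
        rw [this, hsymm]
      rw [smul_smul, mul_assoc, mul_inv_cancel₀ nd.ne', mul_one, ← h5]
      abel
    · rintro ⟨t, ht⟩
      refine ⟨hy2.1, ?_⟩
      have h5 : eqv.symm (y - x) = (0, t * ‖σ (0, 1)‖⁻¹) := by
        apply hinj
        rw [hsymm, ht, add_sub_cancel_left, smul_smul, ← map_smul]
        congr 1
        simp
      rw [hy2.2.1, h5, add_zero]
  · filter_upwards [h2.near hx hv, hval] with y hy1 hy2
    rw [hy1]
    constructor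
    · rintro ⟨_, h3⟩
      have h4 : (eqv.symm (y - x)).2 = 0 := by
        have := hy2.2.2
        rw [h3] at this
        linarith
      refine ⟨(eqv.symm (y - x)).1 * ‖σ (1, 0)‖, ?_⟩
      have h5 : y - x = (eqv.symm (y - x)).1 • σ (1, 0) := by
        rw [← map_smul]
        have : (eqv.symm (y - x)).1 • ((1, 0) : ℝ × ℝ) = eqv.symm (y - x) := by
          apply Prod.ext
          · rw [Prod.smul_fst, smul_eq_mul, mul_one]
          · rw [h4, Prod.smul_snd, smul_zero]
        rw [this, hsymm]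
      rw [smul_smul, mul_assoc, mul_inv_cancel₀ ne.ne', mul_one, ← h5]
      abel
    · rintro ⟨t, ht⟩
      refine ⟨hy2.1, ?_⟩
      have h5 : eqv.symm (y - x) = (t * ‖σ (1, 0)‖⁻¹, 0) := by
        apply hinj
        rw [hsymm, ht, add_sub_cancel_left, smul_smul, ← map_smul]
        congr 1
        simp
      rw [hy2.2.2, h5, add_zero]

/-- the two families of traces -/
def traces (C : Set P) (w : Bool → P → ℝ) (L : Bool → Set ℝ) (i : Bool) : Set P :=
  trace C (w i) (L i)

/-- **Regular levels form a web.** -/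
theorem web_traces {C : Set P} {w : Bool → P → ℝ} {L : Bool → Set ℝ} (hC : Convex ℝ C)
    (hi : (interior C).Nonempty) (hc : IsCompact C) (hl : LocCone C)
    (h : ∀ i, Reg1 C (w i) (L i))
    (h2 : ∀ x ∈ C, w false x ∈ L false → w true x ∈ L true →
      ∃ (σ : ℝ × ℝ →ₗ[ℝ] P) (r : ℝ), FlowBox (fun y => (w false y, w true y))
        (fun _ : Unit => C) x σ r) : Web C (traces C w L) := by
  refine ⟨hC, hc.isClosed, fun i x hx => hx.1, fun i => (h i).curve hC hi hc hl, ?_, ?_⟩
  · intro i x hx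
    have h3 := (h i).ncard hC hi hx
    constructor
    · intro hxf
      exact h3.2 hxf.2
    · intro h4
      refine ⟨subset_closure hx.1, fun h5 => ?_⟩
      have := h3.1 h5
      unfold traces at h4
      omega
  · rintro x ⟨hx, hu⟩ ⟨_, hv⟩
    obtain ⟨σ, r, hb⟩ := h2 x hx hu hv
    exact cross_of_box (h false) (h true) hx hu hv hb

end P073.H579
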