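import Vale.Agent.P073.H579.BoxPar

/-!
# P073, H579: **[T2-FACE]**, the hypothesis `hface` of `H345.exists_stage2` for the active faces

`FAct`: faces in the full part of a box, with a level point. `Ac`: the chosen active faces.
`GEd`, `GFd`: the good edge and face maps. `hface_act`: the hypothesis `hface`.
-/

set_option linter.unusedSectionVars false

open Set Metric Topology Filter

namespace P073.H579

open P073 P073.TR P073.SCH P073.H236 P073.H345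
open Vale.Agent.P073.St (V)
open Vale.Agent.P073.H73 (Mesh)
open Vale.Agent.P073.H193 (Edges Cyc)
open Vale.Agent.P073.H155 (vv)

variable {γ : Type*} {Ω Λ : Set V}

/-- the face lies in the full part of the box and contains a level point -/
def FAct (M : Mesh Ω) (h : ConHomeo Ω Λ) (B : γ → BX 3) (g : γ) (k : M.κ) : Prop :=
  InB (B g) (h.toFun '' M.F k) ∧ ∃ x ∈ M.F k, ∃ m < (B g).N, h.toFun x (B g).j = (B g).a m

/-- an edge of a chosen face (`Ac g k`: the face `k` is chosen, for the box `g`) -/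
def EAct {M : Mesh Ω} (E : Edges M) (Ac : γ → M.κ → Prop) (g : γ) (e : E.ε) : Prop :=
  ∃ k, Ac g k ∧ E.seg e ⊆ M.F k

/-- the chosen faces -/
def actF {M : Mesh Ω} (Ac : γ → M.κ → Prop) : Set M.κ := {k | ∃ g, Ac g k}

/-- level points are not in other boxes -/
theorem eq_of_level {B : γ → BX 3} (H : H345.Fam Λ B) {g g' : γ} {y : V} (hg : y ∈ (B g).K)
    (hg' : y ∈ (B g').K) {m : ℕ} (hm : m < (B g).N) (hy : y (B g).j = (B g).a m) : g = g' := by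
  by_contra hne
  have h1 := (B g).lvs.first_le hm
  have h2 := (B g).lvs.le_last hm
  have h3 := (B g).lvs.c0
  rcases H.dis g g' hne y hg hg' with h4 | h4 <;> linarith

theorem FAct.uniq {M : Mesh Ω} {h : ConHomeo Ω Λ} {B : γ → BX 3} (H : H345.Fam Λ B) {g g' : γ}
    {k : M.κ} (h1 : FAct M h B g k) (h2 : FAct M h B g' k) : g = g' := by
  obtain ⟨h3, x, hx, m, hm, hxm⟩ := h1
  exact eq_of_level H (h3 _ ⟨x, hx, rfl⟩).1 (h2.1 _ ⟨x, hx, rfl⟩).1 hm hxm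

/-- the levels are regular: `RegB` on an active face -/
theorem FAct.reg {M : Mesh Ω} {E : Edges M} {h : ConHomeo Ω Λ} {B : γ → BX 3}
    (hreg : RegB M E h B) {g : γ} {k : M.κ} (hk : FAct M h B g k) :
    ∀ m < (B g).N, ∀ x ∈ M.F k, h.toFun x (B g).j = (B g).a m →
      H805.Reg (fun x => h.toFun x (B g).j) (fam M E) x := by
  obtain ⟨h3, x, hx, -⟩ := hk
  exact hreg k g ⟨_, (h3 _ ⟨x, hx, rfl⟩).1, x, hx, rfl⟩

/-- the bound for the edge maps -/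
noncomputable def laE {M : Mesh Ω} (E : Edges M) (We : E.ε → ℝ) (e : E.ε) : ℝ :=
  8 * We e / ‖E.b e - E.a e‖

/-- good edge maps: the numbers of the edge, for every box in which the edge is active -/
def GEd {M : Mesh Ω} (E : Edges M) (h : ConHomeo Ω Λ) (B : γ → BX 3) (Ac : γ → M.κ → Prop)
    (We : E.ε → ℝ) (e : E.ε) (f : V → V) : Prop :=
  ∀ g, EAct E Ac g e → ∃ s1 s2 s3 s4 : V → ℝ, EdgeNum (E.a e) (E.b e) h.toFun (kQ (B g))
    (LQ (B g)) (loQ (B g)) (hiQ (B g)) (omQ (B g)) (laE E We e) f s1 s2 s3 s4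

/-- good face maps: the cone inequality and the paths -/
def GFd {M : Mesh Ω} (E : Edges M) (B : γ → BX 3) (Ac : γ → M.κ → Prop) (We : E.ε → ℝ)
    (O : M.κ → V) (r0 R : M.κ → ℝ) (k : M.κ) (f : V → V) : Prop :=
  ∀ g, Ac g k →
    (∀ e, E.seg e ⊆ M.F k → ∀ x ∈ coneSetAt (O k) (E.seg e), ∀ y ∈ coneSetAt (O k) (E.seg e),
      bandD (LQ (B g)) (loQ (B g)) (hiQ (B g)) (omQ (B g)) (f x) (f y) ≤
        156 * (1 + R k / r0 k) * (laE E We e + (∑ e ∈ (E.fin_face k).toFinset, We e) / r0 k) *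
          ‖x - y‖) ∧
    ∀ x ∈ M.F k, ∀ y ∈ M.F k, ∃ γ : ℝ → V, ContinuousOn γ (Icc 0 3) ∧
      MapsTo γ (Icc 0 3) (M.F k) ∧ γ 0 = x ∧ γ 3 = y ∧
      H880.cvar (fun s t => ENNReal.ofReal (bandD (LQ (B g)) (loQ (B g)) (hiQ (B g))
        (omQ (B g)) (f (γ s)) (f (γ t)))) 0 3 ≤
        ENNReal.ofReal (8 * ∑ e ∈ (E.fin_face k).toFinset, We e)

/-- **[T2-FACE]**: the hypothesis `hface` of `exists_stage2` -/
theorem hface_act (hΩ : IsOpen Ω) {M : Mesh Ω} {E : Edges M} {h : ConHomeo Ω Λ} {B : γ → BX 3}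
    (H : H345.Fam Λ B) (hreg : RegB M E h B) {κ : V → V} (hκ : IsQ B κ)
    {Ac : γ → M.κ → Prop} (hAc : ∀ g k, Ac g k → FAct M h B g k)
    (hno : ∀ g k, Ac g k → ∀ σ : Set V, IsCircle σ → σ ⊆ M.F k →
      ¬ ∀ x ∈ σ, ∃ m < (B g).N, (B g).a m = h.toFun x (B g).j)
    (Cy : ∀ k, Cyc E k) {O : M.κ → V} {r0 R : M.κ → ℝ}
    (hS : ∀ k, P073.H155.Star ((Cy k).n + 1) (vv (Cy k)) (O k) (r0 k) (R k) (M.F k))
    {We : E.ε → ℝ} (hWe0 : ∀ e, 0 ≤ We e)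
    (hWe : ∀ g e, EAct E Ac g e → ∀ Y : Finset V,
      (∀ x ∈ Y, CrsPt (E.a e) (E.b e) h.toFun (LQ (B g)) x) →
        ∑ x ∈ Y, omX h.toFun (LQ (B g)) (omQ (B g)) x ≤ We e)
    {k : M.κ} (hk : k ∈ actF Ac)
    (Φe : ∀ e, E.seg e ⊆ M.F k → ConHomeo (E.seg e) (Pre κ Λ h (E.seg e)))
    (hGE : ∀ e he, GEd E h B Ac We e (Φe e he).toFun)
    (hv : ∀ e he, ∀ x ∈ E.seg e, x ∈ E.verts → κ ((Φe e he).toFun x) = h.toFun x) :
    ∃ Φ : ConHomeo (M.F k) (Pre κ Λ h (M.F k)), GFd E B Ac We O r0 R k Φ.toFun ∧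
      ∀ e he, EqOn Φ.toFun (Φe e he).toFun (E.seg e) := by
  obtain ⟨g, hgA⟩ := hk
  have hg := hAc g k hgA
  obtain ⟨A, hA, S, cd, lev, col, h1, h2⟩ := exists_pat_box hΩ (h := h) (E := E) (B g)
    (fun m hm x hx hxm => hg.reg hreg m hm x hx hxm) (fun σ hσ hs => hno g k hgA σ hσ hs)
  obtain ⟨Φ, hΦ1, hΦ2, hΦ3⟩ := hface_mesh_path (Cy k) (hS k) (zone_of_isQ H hκ hg.1)
    (ins1_Q (B g)) h1 h2
    (fun x hx hxk j hj => by
      obtain ⟨rfl, m, hm, hma⟩ := mem_LQ.1 hj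
      exact hreg.vert hx (hg.1 _ ⟨x, hxk, rfl⟩).1 hm hma.symm)
    (om := omQ (B g)) (fun _ _ _ => omQ_pos _ _) (La := laE E We) (We := We)
    (fun e => div_nonneg (mul_nonneg (by norm_num) (hWe0 e)) (norm_nonneg _))
    (fun e he Y hY => hWe g e ⟨k, hgA, he⟩ Y hY) Φe (fun e he => hGE e he g ⟨k, hgA, he⟩) hv
  refine ⟨Φ, fun g' hg' => ?_, hΦ2⟩
  obtain rfl := hg.uniq H (hAc g' k hg')
  exact ⟨hΦ1, hΦ3⟩

/-! ### edges -/

theorem EdgeNum.of_empty {m : ℕ} {a b : V} {h : V → Fin m → ℝ} {k : Fin m → ℝ → ℝ}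
    {L : Fin m → Finset ℝ} {lo hi om : Fin m → ℝ → ℝ} {La : ℝ} {f : V → Fin m → ℝ}
    (H : ∀ x, ¬ CrsPt a b h L x) (s1 s2 s3 s4 : V → ℝ) :
    EdgeNum a b h k L lo hi om La f s1 s2 s3 s4 where
  a1 := fun x hx => absurd hx (H x)
  a2 := fun x hx => absurd hx (H x)
  a3 := fun x hx => absurd hx (H x)
  a4 := fun x hx => absurd hx (H x)
  a5 := fun x hx => absurd hx (H x)
  dis := fun x _ hx _ _ => absurd hx (H x)
  fib := fun x hx => absurd hx (H x)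
  g1 := fun x hx j hj => absurd ⟨hx, j, hj⟩ (H x)
  g2 := fun x hx j hj => absurd ⟨hx, j, hj⟩ (H x)
  lip := fun x hx j hj => absurd ⟨hx, j, hj⟩ (H x)

theorem EdgeNum.mono_La {m : ℕ} {a b : V} {h : V → Fin m → ℝ} {k : Fin m → ℝ → ℝ}
    {L : Fin m → Finset ℝ} {lo hi om : Fin m → ℝ → ℝ} {La La' : ℝ} {f : V → Fin m → ℝ}
    {s1 s2 s3 s4 : V → ℝ} (H : EdgeNum a b h k L lo hi om La f s1 s2 s3 s4) (hLa : La ≤ La')
    (hlo : ∀ j, ∀ c ∈ L j, lo j c ≤ hi j c) :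
    EdgeNum a b h k L lo hi om La' f s1 s2 s3 s4 where
  a1 := H.a1
  a2 := H.a2
  a3 := H.a3
  a4 := H.a4
  a5 := H.a5
  dis := H.dis
  fib := H.fib
  g1 := fun x hx j hj => (H.g1 x hx j hj).trans (by
    have h1 := H.a2 x ⟨hx, j, hj⟩
    exact mul_le_mul_of_nonneg_right (mul_le_mul_of_nonneg_right hLa (norm_nonneg _))
      (by linarith))
  g2 := fun x hx j hj => (H.g2 x hx j hj).trans (by
    have h1 := H.a4 x ⟨hx, j, hj⟩
    exact mul_le_mul_of_nonneg_right (mul_le_mul_of_nonneg_right hLa (norm_nonneg _))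
      (by linarith))
  lip := fun x hx j hj s hs s' hs' => (H.lip x hx j hj s hs s' hs').trans (by
    have h1 := hlo j _ hj
    exact mul_le_mul_of_nonneg_left (mul_le_mul_of_nonneg_right (mul_le_mul_of_nonneg_right hLa
      (norm_nonneg _)) (abs_nonneg _)) (by linarith))

end P073.H579
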