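import Vale.Agent.P073.H579.HFaceP
import Vale.Agent.P073.Net.NH2a

/-!
# P073, H579: **[EDGE-ANY]** every edge map has the numbers of an edge map, with some constant
-/

set_option linter.unusedSectionVars false

open Set Metric Topology Filter

namespace P073.H579

variable {E : Type*} [NormedAddCommGroup E] [NormedSpace ℝ E]

section

variable {m : ℕ} {a b : E} {h : E → Fin m → ℝ} {k : Fin m → ℝ → ℝ} {L : Fin m → Finset ℝ}
  {lo hi om : Fin m → ℝ → ℝ}

/-- fibres of product maps are connected -/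
theorem isConnected_fibre (hI : ∀ j, Ins1 (k j) (L j : Set ℝ) (lo j) (hi j)) (c : Fin m → ℝ) :
    IsConnected {y : Fin m → ℝ | prodK k y = c} := by
  have h1 : {y : Fin m → ℝ | prodK k y = c} = Set.pi univ fun j => k j ⁻¹' {c j} := by
    ext y
    simp only [mem_setOf_eq, Set.mem_pi, mem_univ, true_implies, mem_preimage, mem_singleton_iff]
    exact ⟨fun H j => congrFun H j, fun H => funext H⟩
  rw [h1]
  refine ⟨?_, isPreconnected_univ_pi fun j => ?_⟩
  · choose y hy using fun j => (hI j).surj (c j)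
    exact ⟨y, fun j _ => hy j⟩
  · exact (OrdConnected.preimage_mono (f := k j) ordConnected_singleton
      (hI j).mono).isPreconnected

/-- the parameter interval of the fibre over a crossing point -/
theorem exists_fibre_Icc (hab : a ≠ b) (hinj : InjOn h (segment ℝ a b))
    (hI : ∀ j, Ins1 (k j) (L j : Set ℝ) (lo j) (hi j))
    (Φ : ConHomeo (segment ℝ a b) (preQ k h (segment ℝ a b)))
    (ha : prodK k (Φ.toFun a) = h a) (hb : prodK k (Φ.toFun b) = h b)
    (hva : ∀ j, h a j ∉ L j) (hvb : ∀ j, h b j ∉ L j) {x : E} (hx : CrsPt a b h L x) :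
    ∃ s2 s3 : ℝ, 0 < s2 ∧ s2 < s3 ∧ s3 < 1 ∧ ∀ s ∈ Icc (0:ℝ) 1,
      (prodK k (Φ.toFun (AffineMap.lineMap a b s)) = h x ↔ s2 ≤ s ∧ s ≤ s3) := by
  obtain ⟨hxs, j, hj⟩ := hx
  have hsg : ∀ s ∈ Icc (0:ℝ) 1, (AffineMap.lineMap a b s : E) ∈ segment ℝ a b := fun s hs => by
    rw [segment_eq_image_lineMap]; exact mem_image_of_mem _ hs
  set T : Set ℝ := {s | s ∈ Icc (0:ℝ) 1 ∧ prodK k (Φ.toFun (AffineMap.lineMap a b s)) = h x}
    with hT
  have hFpre : {y : Fin m → ℝ | prodK k y = h x} ⊆ preQ k h (segment ℝ a b) := fun y hy => by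
    show prodK k y ∈ h '' segment ℝ a b
    rw [show prodK k y = h x from hy]; exact mem_image_of_mem _ hxs
  have hps : ∀ y ∈ preQ k h (segment ℝ a b), (segC hab).invFun (Φ.invFun y) ∈ Icc (0:ℝ) 1 ∧
      Φ.toFun (AffineMap.lineMap a b ((segC hab).invFun (Φ.invFun y))) = y := fun y hy => by
    have h1 := Φ.mapsTo_inv hy
    refine ⟨(segC hab).mapsTo_inv h1, ?_⟩
    rw [← segC_toFun hab, (segC hab).right_inv h1, Φ.right_inv hy]
  have hTi : T = (fun y => (segC hab).invFun (Φ.invFun y)) '' {y | prodK k y = h x} := by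
    ext s
    constructor
    · rintro ⟨hs, h1⟩
      refine ⟨_, h1, ?_⟩
      show (segC hab).invFun (Φ.invFun (Φ.toFun (AffineMap.lineMap a b s))) = s
      rw [Φ.left_inv (hsg s hs), ← segC_toFun hab, (segC hab).left_inv hs]
    · rintro ⟨y, hy, rfl⟩
      obtain ⟨h1, h2⟩ := hps y (hFpre hy)
      exact ⟨h1, by
        show prodK k (Φ.toFun (AffineMap.lineMap a b ((segC hab).invFun (Φ.invFun y)))) = h x
        rw [h2]; exact hy⟩
  have hTc : IsConnected T := by
    rw [hTi]
    refine (isConnected_fibre hI (h x)).image _ ?_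
    exact ((segC hab).cont_inv.comp Φ.cont_inv fun y hy => Φ.mapsTo_inv hy).mono hFpre
  have hTK : IsCompact T := by
    have h1 : ContinuousOn (fun s : ℝ => prodK k (Φ.toFun (AffineMap.lineMap a b s))) (Icc 0 1) :=
      (continuous_prodK fun j => (hI j).cont).comp_continuousOn
        (Φ.cont.comp (continuous_lineMap a b).continuousOn hsg)
    have h2 : T = Icc (0:ℝ) 1 ∩ (fun s : ℝ => prodK k (Φ.toFun (AffineMap.lineMap a b s))) ⁻¹'
        {h x} := rfl
    rw [h2]
    exact isCompact_Icc.of_isClosed_subset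
      (h1.preimage_isClosed_of_isClosed isClosed_Icc isClosed_singleton) inter_subset_left
  have hTI := eq_Icc_of_connected_compact hTc hTK
  have hne := hTc.nonempty
  have h2m : sInf T ∈ T := hTK.sInf_mem hne
  have h3m : sSup T ∈ T := hTK.sSup_mem hne
  have hv : ∀ z ∈ segment ℝ a b, (∀ j, h z j ∉ L j) → prodK k (Φ.toFun z) = h z →
      prodK k (Φ.toFun z) ≠ h x := fun z hz hzv hzk hzx => by
    rw [hzk] at hzx
    rw [← congrFun hzx j] at hj
    exact hzv j hj
  have hlt : sInf T < sSup T := by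
    by_contra hcon
    have h4 : T.Subsingleton := by
      rw [hTI]; exact subsingleton_Icc_of_ge (not_lt.1 hcon)
    obtain ⟨y0, hy0⟩ := (isConnected_fibre hI (h x)).nonempty
    have hfl : ∀ t, lo j (h x j) ≤ t → t ≤ hi j (h x j) →
        prodK k (Function.update y0 j t) = h x := fun t h1 h2 => by
      funext l
      by_cases hl : l = j
      · subst hl
        show k l (Function.update y0 l t l) = _
        rw [Function.update_self]
        exact ((hI l).flat _ hj t).2 ⟨h1, h2⟩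
      · show k l (Function.update y0 j t l) = _
        rw [Function.update_of_ne hl]
        exact congrFun hy0 l
    have hlh := (hI j).lt _ hj
    have h5 := hfl (lo j (h x j)) le_rfl hlh.le
    have h6 := hfl (hi j (h x j)) hlh.le le_rfl
    have h7 : ∀ y, prodK k y = h x → (segC hab).invFun (Φ.invFun y) ∈ T := fun y hy => by
      rw [hTi]; exact ⟨y, hy, rfl⟩
    have h8 := h4 (h7 _ h5) (h7 _ h6)
    have h9 := (hps _ (hFpre h5)).2
    rw [h8, (hps _ (hFpre h6)).2] at h9
    have h10 := congrFun h9 j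
    rw [Function.update_self, Function.update_self] at h10
    linarith
  refine ⟨sInf T, sSup T, ?_, hlt, ?_, fun s hs => ?_⟩
  · refine lt_of_le_of_ne h2m.1.1 fun h0 => ?_
    have h4 := h2m.2
    rw [← h0, AffineMap.lineMap_apply_zero] at h4
    exact hv a (left_mem_segment ℝ a b) hva ha h4
  · refine lt_of_le_of_ne h3m.1.2 fun h0 => ?_
    have h4 := h3m.2
    rw [h0, AffineMap.lineMap_apply_one] at h4
    exact hv b (right_mem_segment ℝ a b) hvb hb h4
  · constructor
    · intro h4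
      have h5 : s ∈ T := ⟨hs, h4⟩
      rw [hTI] at h5
      exact h5
    · intro h4
      have h5 : s ∈ T := by rw [hTI]; exact h4
      exact h5.2

/-- **[EDGE-ANY]** every edge map has the numbers of an edge map, with some constant -/
theorem exists_edgeNum_any (hab : a ≠ b) (hinj : InjOn h (segment ℝ a b))
    (hI : ∀ j, Ins1 (k j) (L j : Set ℝ) (lo j) (hi j)) (hfin : {x | CrsPt a b h L x}.Finite)
    (Φ : ConHomeo (segment ℝ a b) (preQ k h (segment ℝ a b)))
    (ha : prodK k (Φ.toFun a) = h a) (hb : prodK k (Φ.toFun b) = h b)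
    (hva : ∀ j, h a j ∉ L j) (hvb : ∀ j, h b j ∉ L j) :
    ∃ (La : ℝ) (s1 s2 s3 s4 : E → ℝ), 0 ≤ La ∧
      EdgeNum a b h k L lo hi om La Φ.toFun s1 s2 s3 s4 := by
  classical
  have hsg : ∀ s ∈ Icc (0:ℝ) 1, (AffineMap.lineMap a b s : E) ∈ segment ℝ a b := fun s hs => by
    rw [segment_eq_image_lineMap]; exact mem_image_of_mem _ hs
  choose! s2 s3 h0 h23 h1 hf using fun x (hx : CrsPt a b h L x) =>
    exists_fibre_Icc hab hinj hI Φ ha hb hva hvb hx
  have hdis : ∀ x y, CrsPt a b h L x → CrsPt a b h L y → x ≠ y → s3 x < s2 y ∨ s3 y < s2 x := by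
    intro x y hx hy hxy
    by_contra hcon
    push Not at hcon
    have hs : max (s2 x) (s2 y) ∈ Icc (0:ℝ) 1 := by
      have := h0 x hx
      have := h23 x hx
      have := h1 x hx
      have := h23 y hy
      have := h1 y hy
      exact ⟨le_max_of_le_left (by linarith), max_le (by linarith) (by linarith)⟩
    have h4 := (hf x hx _ hs).2 ⟨le_max_left _ _, max_le (h23 x hx).le hcon.1⟩
    have h5 := (hf y hy _ hs).2 ⟨le_max_right _ _, max_le hcon.2 (h23 y hy).le⟩
    exact hxy (hinj hx.1 hy.1 (h4.symm.trans h5))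
  set X := hfin.toFinset with hX
  have hXm : ∀ x, x ∈ X ↔ CrsPt a b h L x := fun x => by rw [hX, Finite.mem_toFinset]; rfl
  -- the size of the free pieces
  obtain ⟨ε, hε, hε1, hε2⟩ : ∃ ε : ℝ, 0 < ε ∧ (∀ x ∈ X, ε < s2 x ∧ s3 x + ε < 1) ∧
      ∀ x ∈ X, ∀ y ∈ X, x ≠ y → s3 x + ε ≤ s2 y - ε ∨ s3 y + ε ≤ s2 x - ε := by
    have e1 : ∀ᶠ ε : ℝ in 𝓝[>] 0, ∀ x ∈ X, ε < s2 x ∧ s3 x + ε < 1 := by
      refine (Finset.eventually_all X).2 fun x hx => ?_
      have hx' := (hXm x).1 hx
      have h4 : ∀ᶠ ε : ℝ in 𝓝 0, ε < s2 x ∧ s3 x + ε < 1 := by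
        have h5 := h1 x hx'
        refine (eventually_lt_nhds (h0 x hx')).and ?_
        filter_upwards [eventually_lt_nhds (show (0:ℝ) < 1 - s3 x by linarith)] with t ht
        linarith
      exact h4.filter_mono nhdsWithin_le_nhds
    have e2 : ∀ᶠ ε : ℝ in 𝓝[>] 0, ∀ x ∈ X, ∀ y ∈ X, x ≠ y →
        s3 x + ε ≤ s2 y - ε ∨ s3 y + ε ≤ s2 x - ε := by
      refine (Finset.eventually_all X).2 fun x hx => (Finset.eventually_all X).2 fun y hy => ?_
      by_cases hxy : x = y
      · exact Eventually.of_forall fun _ h => absurd hxy h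
      have h4 : ∀ᶠ ε : ℝ in 𝓝 0, s3 x + ε ≤ s2 y - ε ∨ s3 y + ε ≤ s2 x - ε := by
        rcases hdis x y ((hXm x).1 hx) ((hXm y).1 hy) hxy with h5 | h5
        · filter_upwards [eventually_lt_nhds (show (0:ℝ) < (s2 y - s3 x) / 2 by linarith)] with t ht
          exact Or.inl (by linarith)
        · filter_upwards [eventually_lt_nhds (show (0:ℝ) < (s2 x - s3 y) / 2 by linarith)] with t ht
          exact Or.inr (by linarith)
      exact (h4.filter_mono nhdsWithin_le_nhds).mono fun _ h _ => h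
    obtain ⟨ε, ⟨h4, h5⟩, h6⟩ := ((e1.and e2).and self_mem_nhdsWithin).exists
    exact ⟨ε, h6, h4, h5⟩
  -- the Lipschitz constant
  have hcon : ConicalOn (fun s : ℝ => Φ.toFun (AffineMap.lineMap a b s)) (Icc (0:ℝ) 1) :=
    Φ.conical.comp (conicalOn_lineMap a b) hsg (continuous_lineMap a b).continuousOn
  obtain ⟨K, hK⟩ := P073.Net.conical_lipschitz zero_le_one hcon
  have hba : 0 < ‖b - a‖ := norm_pos_iff.2 (sub_ne_zero.2 hab.symm)
  obtain ⟨La, hLa0, hLa⟩ : ∃ La : ℝ, 0 ≤ La ∧ ∀ j, ∀ c ∈ L j,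
      om j c ≤ La * (‖b - a‖ * ε) ∧ om j c * K ≤ (hi j c - lo j c) * (La * ‖b - a‖) := by
    have e1 : ∀ᶠ La : ℝ in atTop, ∀ j, ∀ c ∈ L j,
        om j c ≤ La * (‖b - a‖ * ε) ∧ om j c * K ≤ (hi j c - lo j c) * (La * ‖b - a‖) := by
      refine eventually_all.2 fun j => (Finset.eventually_all (L j)).2 fun c hc => ?_
      have hlh : 0 < hi j c - lo j c := by linarith [(hI j).lt c hc]
      have h4 := (tendsto_id.atTop_mul_const (show 0 < ‖b - a‖ * ε by positivity)
        ).eventually_ge_atTop (om j c)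
      have h5 := (tendsto_id.atTop_mul_const
        (show 0 < (hi j c - lo j c) * ‖b - a‖ by positivity)).eventually_ge_atTop (om j c * K)
      filter_upwards [h4, h5] with t ht ht'
      refine ⟨ht, ht'.trans (le_of_eq ?_)⟩
      simp only [id]
      ring
    obtain ⟨La, h4, h5⟩ := ((eventually_ge_atTop (0:ℝ)).and e1).exists
    exact ⟨La, h4, h5⟩
  refine ⟨La, fun x => s2 x - ε, s2, s3, fun x => s3 x + ε, hLa0, ?_⟩
  have hc : ∀ {x}, x ∈ segment ℝ a b → ∀ {j}, h x j ∈ L j → CrsPt a b h L x :=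
    fun hx j hj => ⟨hx, j, hj⟩
  refine ⟨fun x hx => ?_, fun x _ => by linarith, h23, fun x _ => by linarith, fun x hx => ?_,
    fun x y hx hy hxy => hε2 x ((hXm x).2 hx) y ((hXm y).2 hy) hxy, hf, fun x hx j hj => ?_,
    fun x hx j hj => ?_, fun x hx j hj s hs s' hs' => ?_⟩
  · linarith [(hε1 x ((hXm x).2 hx)).1]
  · exact (hε1 x ((hXm x).2 hx)).2
  · refine (hLa j _ hj).1.trans (le_of_eq ?_)
    ring
  · refine (hLa j _ hj).1.trans (le_of_eq ?_)
    ring
  · have hxc := hc hx hj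
    have hI1 : ∀ t ∈ Icc (s2 x) (s3 x), t ∈ Icc (0:ℝ) 1 := fun t ht => by
      have := h0 x hxc
      have := h1 x hxc
      exact ⟨by linarith [ht.1], by linarith [ht.2]⟩
    have h4 := hK.dist_le_mul s (hI1 s hs) s' (hI1 s' hs')
    rw [dist_eq_norm, Real.dist_eq] at h4
    have h5 : |Φ.toFun (AffineMap.lineMap a b s) j - Φ.toFun (AffineMap.lineMap a b s') j| ≤
        K * |s - s'| := (norm_le_pi_norm (Φ.toFun (AffineMap.lineMap a b s) -
        Φ.toFun (AffineMap.lineMap a b s')) j).trans h4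
    by_cases hom : 0 ≤ om j (h x j)
    · calc om j (h x j) * |Φ.toFun (AffineMap.lineMap a b s) j -
            Φ.toFun (AffineMap.lineMap a b s') j| ≤ om j (h x j) * (K * |s - s'|) :=
            mul_le_mul_of_nonneg_left h5 hom
        _ = om j (h x j) * K * |s - s'| := by ring
        _ ≤ (hi j (h x j) - lo j (h x j)) * (La * ‖b - a‖) * |s - s'| :=
            mul_le_mul_of_nonneg_right (hLa j _ hj).2 (abs_nonneg _)
        _ = _ := by ring
    · have h6 : om j (h x j) * |Φ.toFun (AffineMap.lineMap a b s) j -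
            Φ.toFun (AffineMap.lineMap a b s') j| ≤ 0 :=
        mul_nonpos_of_nonpos_of_nonneg (not_le.1 hom).le (abs_nonneg _)
      refine h6.trans ?_
      have h7 := (hI j).lt _ hj
      exact mul_nonneg (by linarith) (mul_nonneg (mul_nonneg hLa0 hba.le) (abs_nonneg _))

end

end P073.H579
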