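import Vale.Agent.P073.H579.EdgeMap
import Vale.Agent.P073.H805.FB

/-!
# P073, H579: **(OWN-MESH)**, part A: crossing points of regular levels on a segment
-/

set_option linter.unusedSectionVars false

open Set Metric Topology Filter

namespace P073.H579

open P073.TR

variable {E : Type*} [NormedAddCommGroup E] [NormedSpace ℝ E]

/-- **a flow box preserves a segment**: the point is inside, and the function is affine along the
segment near the point -/
theorem exists_cross_of_flowBox {ι : Type*} {M : ι → Set E} {u : E → ℝ} {x : E} {σ : ℝ →ₗ[ℝ] E} {r : ℝ}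
    (hb : FlowBox u M x σ r) {i : ι} {a b : E} (hab : a ≠ b) (hM : M i = segment ℝ a b)
    (hx : x ∈ segment ℝ a b) :
    ∃ t ∈ Ioo (0:ℝ) 1, AffineMap.lineMap a b t = x ∧ ∃ q : ℝ, q ≠ 0 ∧
      ∀ᶠ s in 𝓝 t, u (AffineMap.lineMap a b s) = u x + q * (s - t) := by
  have hr := hb.pos
  have h0 : ‖(0:E)‖ < r := by rw [norm_zero]; exact hr
  have hinj : Function.Injective (AffineMap.lineMap a b : ℝ → E) := AffineMap.lineMap_injective ℝ hab
  obtain ⟨t, ht, rfl⟩ : ∃ t ∈ Icc (0:ℝ) 1, AffineMap.lineMap a b t = x := by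
    rw [segment_eq_image_lineMap] at hx
    obtain ⟨t, ht, h⟩ := hx
    exact ⟨t, ht, h⟩
  set x : E := AffineMap.lineMap a b t with hxd
  have hmem : ∀ s : ℝ, |s| < r → x + σ s ∈ segment ℝ a b := by
    intro s hs
    have h1 := hb.iff i 0 s h0 (by rw [Real.norm_eq_abs]; exact hs)
    rw [add_zero, hM] at h1
    exact h1.2 hx
  have hval : ∀ s : ℝ, |s| < r → u (x + σ s) = u x + s := by
    intro s hs
    have h1 := hb.add 0 s h0 (by rw [Real.norm_eq_abs]; exact hs)
    rwa [add_zero] at h1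
  have hline : ∀ s : ℝ, (AffineMap.lineMap a b s : E) = x + (s - t) • (b - a) := by
    intro s
    rw [hxd]
    simp only [AffineMap.lineMap_apply, vsub_eq_sub, vadd_eq_add]
    rw [sub_smul]; abel
  have hr2 : |r / 2| < r := by rw [abs_of_pos (by linarith)]; linarith
  -- the direction of the flow
  obtain ⟨t', ht', he'⟩ : ∃ t' ∈ Icc (0:ℝ) 1, AffineMap.lineMap a b t' = x + σ (r / 2) := by
    have h1 := hmem (r / 2) hr2
    rw [segment_eq_image_lineMap] at h1
    exact h1
  obtain ⟨t'', ht'', he''⟩ : ∃ t'' ∈ Icc (0:ℝ) 1, AffineMap.lineMap a b t'' = x + σ (-(r / 2)) := by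
    have h1 := hmem (-(r / 2)) (by rw [abs_neg]; exact hr2)
    rw [segment_eq_image_lineMap] at h1
    exact h1
  have hne : t' ≠ t := by
    rintro rfl
    have h1 := hval (r / 2) hr2
    rw [← he'] at h1
    have h2 : u x = u x + r / 2 := h1
    linarith
  have hσ1 : σ (r / 2) = (t' - t) • (b - a) := by
    have h1 := hline t'
    rw [he'] at h1
    exact add_left_cancel h1
  have hsum : t'' = t - (t' - t) := by
    apply hinj
    rw [he'', map_neg, hσ1, hline, ← sub_eq_add_neg, sub_eq_add_neg, ← neg_smul]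
    congr 2
    ring
  have htI : t ∈ Ioo (0:ℝ) 1 := by
    rcases lt_or_gt_of_ne hne with h | h
    · exact ⟨by linarith [ht'.1], by linarith [ht''.2]⟩
    · exact ⟨by linarith [ht''.1], by linarith [ht'.2]⟩
  set c : ℝ := (t' - t) / (r / 2) with hc
  have hc0 : c ≠ 0 := div_ne_zero (sub_ne_zero.2 hne) (by linarith : r / 2 ≠ 0)
  have hσ : ∀ s : ℝ, σ s = (s * c) • (b - a) := by
    intro s
    have h1 : s = (s / (r / 2)) • (r / 2) := by
      rw [smul_eq_mul, div_mul_cancel₀ _ (by linarith : r / 2 ≠ 0)]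
    rw [h1, map_smul, hσ1, smul_smul]
    congr 1
    rw [hc, smul_eq_mul]
    field_simp
  refine ⟨t, htI, rfl, c⁻¹, inv_ne_zero hc0, ?_⟩
  have hev : ∀ᶠ s in 𝓝 t, |c⁻¹ * (s - t)| < r := by
    have h1 : ContinuousAt (fun s : ℝ => |c⁻¹ * (s - t)|) t := by fun_prop
    refine h1.eventually (Iio_mem_nhds ?_)
    simp only [sub_self, mul_zero, abs_zero]
    exact hr
  filter_upwards [hev] with s hs
  rw [← hval _ hs, hσ, hline]
  congr 3
  field_simp

/-- two-dimensional flow boxes do not preserve a segment -/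
theorem not_reg2_segment {ι : Type*} {M : ι → Set E} {u : E → ℝ × ℝ} {x : E} {i : ι} {a b : E}
    (hab : a ≠ b) (hM : M i = segment ℝ a b) (hx : x ∈ segment ℝ a b) : ¬ H805.Reg u M x := by
  rintro ⟨σ, r, hb⟩
  have hr := hb.pos
  have h0 : ‖(0:E)‖ < r := by rw [norm_zero]; exact hr
  obtain ⟨t, ht, hxt⟩ : ∃ t ∈ Icc (0:ℝ) 1, AffineMap.lineMap a b t = x := by
    rw [segment_eq_image_lineMap] at hx
    obtain ⟨t, ht, h⟩ := hx
    exact ⟨t, ht, h⟩
  have key : ∀ s : ℝ × ℝ, ‖s‖ < r → ∃ c : ℝ, σ s = c • (b - a) ∧ u (x + σ s) = u x + s := by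
    intro s hs
    have h1 := hb.iff i 0 s h0 hs
    rw [add_zero, hM] at h1
    have h2 := h1.2 hx
    rw [segment_eq_image_lineMap] at h2
    obtain ⟨t', ht', h3⟩ := h2
    have h4 := hb.add 0 s h0 hs
    rw [add_zero] at h4
    refine ⟨t' - t, ?_, h4⟩
    rw [← hxt] at h3
    simp only [AffineMap.lineMap_apply, vsub_eq_sub, vadd_eq_add] at h3
    have h5 : σ s = t' • (b - a) + a - (t • (b - a) + a) := by rw [h3]; abel
    rw [h5, sub_smul]; abel
  obtain ⟨c1, h1, e1⟩ := key (r / 2, 0) (by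
    rw [Prod.norm_def, norm_zero, Real.norm_eq_abs, abs_of_pos (by linarith), max_eq_left
      (by linarith)]; linarith)
  obtain ⟨c2, h2, e2⟩ := key (0, r / 2) (by
    rw [Prod.norm_def, norm_zero, Real.norm_eq_abs, abs_of_pos (by linarith), max_eq_right
      (by linarith)]; linarith)
  -- a relation between the two directions
  have hc1 : c1 ≠ 0 := by
    rintro rfl
    rw [h1, zero_smul, add_zero] at e1
    have := congrArg Prod.fst e1
    simp only [Prod.fst_add] at this
    linarith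
  have hc2 : c2 ≠ 0 := by
    rintro rfl
    rw [h2, zero_smul, add_zero] at e2
    have := congrArg Prod.snd e2
    simp only [Prod.snd_add] at this
    linarith
  set δ : ℝ := min 1 (|c2| / |c1|) with hδ
  have hδ0 : 0 < δ := lt_min one_pos (div_pos (abs_pos.2 hc2) (abs_pos.2 hc1))
  have hδ1 : δ ≤ 1 := min_le_left _ _
  -- `δ • (r/2, 0)` and `(δ c1 / c2) • (0, r/2)` have the same image
  have hq : |δ * c1 / c2| ≤ 1 := by
    rw [abs_div, abs_mul, abs_of_pos hδ0, div_le_one (abs_pos.2 hc2)]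
    calc δ * |c1| ≤ |c2| / |c1| * |c1| := mul_le_mul_of_nonneg_right (min_le_right _ _)
          (abs_nonneg _)
      _ = |c2| := div_mul_cancel₀ _ (abs_pos.2 hc1).ne'
  have g1 : ‖((δ * (r / 2), 0) : ℝ × ℝ)‖ < r := by
    rw [Prod.norm_def, norm_zero, Real.norm_eq_abs, abs_of_pos (by positivity), max_eq_left
      (by positivity)]
    nlinarith
  have g2 : ‖((0, (δ * c1 / c2) * (r / 2)) : ℝ × ℝ)‖ < r := by
    rw [Prod.norm_def, norm_zero, Real.norm_eq_abs, abs_mul, abs_of_pos (show 0 < r / 2 by linarith),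
      max_eq_right (by positivity)]
    nlinarith [abs_nonneg (δ * c1 / c2)]
  obtain ⟨-, -, f1⟩ := key _ g1
  obtain ⟨-, -, f2⟩ := key _ g2
  have k1 : σ (δ * (r / 2), 0) = (δ * c1) • (b - a) := by
    have : ((δ * (r / 2), 0) : ℝ × ℝ) = δ • (r / 2, (0:ℝ)) := by
      rw [Prod.smul_mk, smul_eq_mul, smul_zero]
    rw [this, map_smul, h1, smul_smul]
  have k2 : σ (0, (δ * c1 / c2) * (r / 2)) = (δ * c1) • (b - a) := by
    have : ((0, (δ * c1 / c2) * (r / 2)) : ℝ × ℝ) = (δ * c1 / c2) • ((0:ℝ), r / 2) := by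
      rw [Prod.smul_mk, smul_eq_mul, mul_zero, smul_eq_mul]
    rw [this, map_smul, h2, smul_smul, div_mul_cancel₀ _ hc2]
  rw [k1] at f1
  rw [k2, f1] at f2
  have := congrArg Prod.fst f2
  simp only [Prod.fst_add] at this
  nlinarith

end P073.H579
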