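import Vale.Agent.P073.H579.EdgeAny
import Vale.Agent.P073.H579.ActP
import Vale.Agent.P073.H155.FatStar

/-!
# P073, H579: **[FACE-ANY]** face maps with arbitrary edge maps and polygonal paths

`PathP`: any two points of a chosen face are joined by a polygonal path in the face, along which
the variation of the bands is at most `8 ∑ We`. `PAct.hface_any`: the face map exists for ARBITRARY
edge maps. `GFPC`: `GFP` with polygonal paths; `PAct.hface_two`: two classes of faces, `Ak` (with the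
cone inequality) and the larger class `Ak'` (only paths).
-/

set_option linter.unusedSectionVars false

open Set Metric Topology Filter

namespace P073.H579

open P073 P073.TR P073.SCH P073.H236 P073.H345
open Vale.Agent.P073.St (V)
open Vale.Agent.P073.H73 (Mesh)
open Vale.Agent.P073.H193 (Edges Cyc)
open Vale.Agent.P073.H155 (vv)

/-- **[FACE-ANY]** for a face of a mesh: arbitrary edge maps, polygonal paths -/
theorem hface_mesh_any {Ω Λ Λ' : Set V} {M : Mesh Ω} (Ed : Edges M) {h : ConHomeo Ω Λ} {κ : V → V}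
    {k₀ : M.κ} {k : Fin 3 → ℝ → ℝ} {L : Fin 3 → Finset ℝ} {lo hi om : Fin 3 → ℝ → ℝ}
    (Z : Zone κ Λ' h k (M.F k₀)) (hI : ∀ j, Ins1 (k j) (L j : Set ℝ) (lo j) (hi j))
    {A : Type*} [Finite A] {S : A → Set V} {cd : A → Fin 3} {lev : A → ℝ} {col : A → Bool}
    (HF : FacePat (M.F k₀) (intrinsicFrontier ℝ (M.F k₀)) h.toFun (fun j => (L j : Set ℝ)) S cd
      lev col)
    (hdis : ∀ α β, α ≠ β → cd α = cd β → Disjoint (S α) (S β))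
    (hv : ∀ x ∈ Ed.verts, x ∈ M.F k₀ → ∀ j, h.toFun x j ∉ L j)
    (hom : ∀ j, ∀ c ∈ L j, 0 < om j c) {We : Ed.ε → ℝ}
    (hWe : ∀ e, Ed.seg e ⊆ M.F k₀ → ∀ Y : Finset V,
      (∀ x ∈ Y, CrsPt (Ed.a e) (Ed.b e) h.toFun L x) → ∑ x ∈ Y, omX h.toFun L om x ≤ We e)
    (Φe : ∀ e, Ed.seg e ⊆ M.F k₀ → ConHomeo (Ed.seg e) (Pre κ Λ' h (Ed.seg e)))
    (hend : ∀ e he, ∀ x ∈ Ed.seg e, x ∈ Ed.verts → κ ((Φe e he).toFun x) = h.toFun x) :
    ∃ Φ : ConHomeo (M.F k₀) (Pre κ Λ' h (M.F k₀)),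
      (∀ e he, EqOn Φ.toFun (Φe e he).toFun (Ed.seg e)) ∧
      ∀ x ∈ M.F k₀, ∀ y ∈ M.F k₀, ∃ γ : ℝ → V, ContinuousOn γ (Icc 0 3) ∧
        ConicalOn γ (Icc 0 3) ∧ MapsTo γ (Icc 0 3) (M.F k₀) ∧ γ 0 = x ∧ γ 3 = y ∧
        H880.cvar (fun s t => ENNReal.ofReal
          (bandD L lo hi om (Φ.toFun (γ s)) (Φ.toFun (γ t)))) 0 3 ≤
          ENNReal.ofReal (8 * ∑ e ∈ (Ed.fin_face k₀).toFinset, We e) := by
  classical
  obtain ⟨Cy⟩ := Vale.Agent.P073.H193.exists_cyc Ed k₀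
  obtain ⟨O, r0, R, -, hS, -⟩ := Vale.Agent.P073.H155.exists_star Cy
  have hFΩ : M.F k₀ ⊆ Ω := Vale.Agent.P073.H193.mesh_sub M k₀
  have hbd : Gon.bd (Cy.n + 1) (vv Cy) = intrinsicFrontier ℝ (M.F k₀) :=
    Vale.Agent.P073.H155.cv_vv_image Cy
  have hsegB : ∀ e, Ed.seg e ⊆ M.F k₀ → Ed.seg e ⊆ intrinsicFrontier ℝ (M.F k₀) := by
    intro e he x hx
    obtain ⟨i, rfl⟩ := Cy.surj e he
    have hof : Fin.ofNat (Cy.n + 1) (i : ℕ) = i := by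
      apply Fin.ext
      simp [Fin.ofNat, Nat.mod_eq_of_lt i.2]
    have hvv : vv Cy i = Cy.v i := by unfold vv; rw [hof]
    have hvv1 : vv Cy (i + 1) = Cy.v (i + 1) := by
      rw [Vale.Agent.P073.H155.vv_succ, hof]
    have hseg : Gon.seg (vv Cy) i = Ed.seg (Cy.c i) := by
      rw [Gon.seg, hvv, hvv1, Cy.seg]
    rw [← hseg] at hx
    have hgon : Gon (Cy.n + 1) (vv Cy) := ⟨hS.hn, hS.clo, hS.inj⟩
    rw [← hbd]
    exact hgon.seg_sub i.2 hx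
  have hfin : {x | x ∈ intrinsicFrontier ℝ (M.F k₀) ∧ ∃ j, h.toFun x j ∈ L j}.Finite := by
    have h1 : {x | x ∈ intrinsicFrontier ℝ (M.F k₀) ∧ ∃ j, h.toFun x j ∈ L j} ⊆
        ⋃ α, S α ∩ intrinsicFrontier ℝ (M.F k₀) := by
      rintro x ⟨hx, j, hj⟩
      have h2 : x ∈ {y | y ∈ M.F k₀ ∧ h.toFun y j = h.toFun x j} := ⟨HF.pat.hC.1 hx, rfl⟩
      rw [← HF.eq j (h.toFun x j) hj] at h2
      obtain ⟨α, -, h4⟩ := mem_iUnion₂.1 h2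
      exact mem_iUnion.2 ⟨α, h4, hx⟩
    refine (finite_iUnion fun α => ?_).subset h1
    obtain ⟨p, q, -, hpq⟩ := exists_ends (HF.pat.hS α)
    rw [hpq]; exact toFinite _
  have hnum : ∀ e, ∃ La : ℝ, 0 ≤ La ∧ ∀ he : Ed.seg e ⊆ M.F k₀, ∃ s1 s2 s3 s4 : V → ℝ,
      EdgeNum (Ed.a e) (Ed.b e) h.toFun k L lo hi om La (Φe e he).toFun s1 s2 s3 s4 := by
    intro e
    by_cases he : Ed.seg e ⊆ M.F k₀
    · have hpre : Pre κ Λ' h (Ed.seg e) = preQ k h.toFun (segment ℝ (Ed.a e) (Ed.b e)) :=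
        Z.pre_eq he
      have hcr : ∀ x ∈ Ed.seg e, x ∈ Ed.verts → prodK k ((Φe e he).toFun x) = h.toFun x :=
        fun x hx hxv => by
          rw [← hend e he x hx hxv]
          exact (Z.eq he ((Φe e he).mapsTo hx)).symm
      have hVa : Ed.a e ∈ Ed.verts := Or.inl ⟨e, rfl⟩
      have hVb : Ed.b e ∈ Ed.verts := Or.inr ⟨e, rfl⟩
      have hma : Ed.a e ∈ Ed.seg e := left_mem_segment ℝ _ _
      have hmb : Ed.b e ∈ Ed.seg e := right_mem_segment ℝ _ _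
      obtain ⟨La, s1, s2, s3, s4, h0, hE⟩ := exists_edgeNum_any (om := om) (Ed.ne e)
        (h := h.toFun) (h.injOn.mono (he.trans hFΩ)) hI
        (hfin.subset fun x hx => ⟨hsegB e he hx.1, hx.2⟩)
        ((Φe e he).cast rfl hpre) (hcr _ hma hVa) (hcr _ hmb hVb)
        (hv _ hVa (he hma)) (hv _ hVb (he hmb))
      exact ⟨La, h0, fun _ => ⟨s1, s2, s3, s4, hE⟩⟩
    · exact ⟨0, le_rfl, fun he' => absurd he' he⟩
  choose La hLa hLn using hnum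
  obtain ⟨Φ, -, h2, h3⟩ := hface_mesh_pathC Cy hS Z hI HF hdis hv hom hLa hWe Φe
    (fun e he => hLn e he) hend
  exact ⟨Φ, h2, h3⟩

variable {σ : Type*} {Ω Λ Λ' : Set V} {M : Mesh Ω} {E : Edges M} {h : ConHomeo Ω Λ} {κ : V → V}
  {Ak Ak' : σ → M.κ → Prop} {kP : σ → Fin 3 → ℝ → ℝ} {LP : σ → Fin 3 → Finset ℝ}
  {loP hiP omP : σ → Fin 3 → ℝ → ℝ} {La We mu : E.ε → ℝ} {O : M.κ → V} {r0 R : M.κ → ℝ}

/-- polygonal paths in the chosen faces -/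
def PathP {M : Mesh Ω} (E : Edges M) (Ak : σ → M.κ → Prop) (LP : σ → Fin 3 → Finset ℝ)
    (loP hiP omP : σ → Fin 3 → ℝ → ℝ) (We : E.ε → ℝ) (k : M.κ) (f : V → V) : Prop :=
  ∀ s, Ak s k → ∀ x ∈ M.F k, ∀ y ∈ M.F k, ∃ γ : ℝ → V, ContinuousOn γ (Icc 0 3) ∧
    ConicalOn γ (Icc 0 3) ∧ MapsTo γ (Icc 0 3) (M.F k) ∧ γ 0 = x ∧ γ 3 = y ∧
    H880.cvar (fun s' t => ENNReal.ofReal (bandD (LP s) (loP s) (hiP s) (omP s)
      (f (γ s')) (f (γ t)))) 0 3 ≤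
      ENNReal.ofReal (8 * ∑ e ∈ (E.fin_face k).toFinset, We e)

/-- `GFP` with polygonal paths -/
def GFPC {M : Mesh Ω} (E : Edges M) (Ak : σ → M.κ → Prop) (LP : σ → Fin 3 → Finset ℝ)
    (loP hiP omP : σ → Fin 3 → ℝ → ℝ) (La We : E.ε → ℝ) (O : M.κ → V) (r0 R : M.κ → ℝ) (k : M.κ)
    (f : V → V) : Prop :=
  GFP E Ak LP loP hiP omP La We O r0 R k f ∧ PathP E Ak LP loP hiP omP We k f

/-- fewer faces -/
theorem PAct.mono (P : PAct M E h κ Λ' Ak' kP LP loP hiP omP) (hA : ∀ s k, Ak s k → Ak' s k) :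
    PAct M E h κ Λ' Ak kP LP loP hiP omP where
  ins := P.ins
  om := P.om
  uniq := fun s s' e ⟨k, hk, he⟩ ⟨k', hk', he'⟩ =>
    P.uniq s s' e ⟨k, hA s k hk, he⟩ ⟨k', hA s' k' hk', he'⟩
  zone := fun s k hk => P.zone s k (hA s k hk)
  pat := fun s k hk => P.pat s k (hA s k hk)
  vert := fun s k hk => P.vert s k (hA s k hk)
  one := fun s k hk => P.one s k (hA s k hk)
  cross := fun s k hk => P.cross s k (hA s k hk)

/-- **[FACE-ANY]**: arbitrary edge maps, polygonal paths -/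
theorem PAct.hface_any (P : PAct M E h κ Λ' Ak kP LP loP hiP omP)
    (hWe : ∀ s e, EAct E Ak s e → ∀ Y : Finset V,
      (∀ x ∈ Y, CrsPt (E.a e) (E.b e) h.toFun (LP s) x) →
        ∑ x ∈ Y, omX h.toFun (LP s) (omP s) x ≤ We e) :
    ∀ s k, Ak s k → ∀ Φe : ∀ e, E.seg e ⊆ M.F k → ConHomeo (E.seg e) (Pre κ Λ' h (E.seg e)),
      (∀ e he, ∀ x ∈ E.seg e, x ∈ E.verts → κ ((Φe e he).toFun x) = h.toFun x) →
      ∃ Φ : ConHomeo (M.F k) (Pre κ Λ' h (M.F k)),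
        PathP E Ak LP loP hiP omP We k Φ.toFun ∧
        ∀ e he, EqOn Φ.toFun (Φe e he).toFun (E.seg e) := by
  intro s k hk Φe hv
  obtain ⟨A, hA, S, cd, lev, col, h1, h2⟩ := P.pat s k hk
  obtain ⟨Φ, hΦ2, hΦ3⟩ := hface_mesh_any E (P.zone s k hk) (P.ins s) h1 h2
    (P.vert s k hk) (P.om s) (fun e he Y hY => hWe s e ⟨k, hk, he⟩ Y hY) Φe hv
  refine ⟨Φ, fun s' hs' => ?_, hΦ2⟩
  obtain ⟨Cy⟩ := Vale.Agent.P073.H193.exists_cyc E k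
  obtain rfl := P.uniq s s' (Cy.c 0) ⟨k, hk, Cy.sub 0⟩ ⟨k, hs', Cy.sub 0⟩
  exact hΦ3

/-- **[ACT-P]**, faces, with polygonal paths -/
theorem PAct.hfaceC (P : PAct M E h κ Λ' Ak kP LP loP hiP omP) (Cy : ∀ k, Cyc E k)
    (hS : ∀ k, P073.H155.Star ((Cy k).n + 1) (vv (Cy k)) (O k) (r0 k) (R k) (M.F k))
    (hLa : ∀ e, 0 ≤ La e)
    (hWe : ∀ s e, EAct E Ak s e → ∀ Y : Finset V,
      (∀ x ∈ Y, CrsPt (E.a e) (E.b e) h.toFun (LP s) x) →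
        ∑ x ∈ Y, omX h.toFun (LP s) (omP s) x ≤ We e) :
    ∀ s k, Ak s k → ∀ Φe : ∀ e, E.seg e ⊆ M.F k → ConHomeo (E.seg e) (Pre κ Λ' h (E.seg e)),
      (∀ e he, GEP E h Ak kP LP loP hiP omP La mu e (Φe e he).toFun) →
      (∀ e he, ∀ x ∈ E.seg e, x ∈ E.verts → κ ((Φe e he).toFun x) = h.toFun x) →
      ∃ Φ : ConHomeo (M.F k) (Pre κ Λ' h (M.F k)),
        GFPC E Ak LP loP hiP omP La We O r0 R k Φ.toFun ∧
        ∀ e he, EqOn Φ.toFun (Φe e he).toFun (E.seg e) := by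
  intro s k hk Φe hGE hv
  obtain ⟨A, hA, S, cd, lev, col, h1, h2⟩ := P.pat s k hk
  obtain ⟨Φ, hΦ1, hΦ2, hΦ3⟩ := hface_mesh_pathC (Cy k) (hS k) (P.zone s k hk) (P.ins s) h1 h2
    (P.vert s k hk) (P.om s) hLa (fun e he Y hY => hWe s e ⟨k, hk, he⟩ Y hY) Φe
    (fun e he => (hGE e he).toNum ⟨k, hk, he⟩) hv
  refine ⟨Φ, ⟨fun s' hs' => ?_, fun s' hs' => ?_⟩, hΦ2⟩
  · obtain rfl := P.uniq s s' ((Cy k).c 0) ⟨k, hk, (Cy k).sub 0⟩ ⟨k, hs', (Cy k).sub 0⟩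
    exact ⟨hΦ1, fun x hx y hy => by
      obtain ⟨γ, g1, -, g2⟩ := hΦ3 x hx y hy
      exact ⟨γ, g1, g2⟩⟩
  · obtain rfl := P.uniq s s' ((Cy k).c 0) ⟨k, hk, (Cy k).sub 0⟩ ⟨k, hs', (Cy k).sub 0⟩
    exact hΦ3

/-- **two classes of faces**: `Ak` (peeled faces: cone inequality and paths, edge maps `GEP`), and
the other faces of `Ak'` (clean passive faces: paths, ARBITRARY edge maps) -/
theorem PAct.hface_two (P : PAct M E h κ Λ' Ak' kP LP loP hiP omP) (hA : ∀ s k, Ak s k → Ak' s k)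
    (Cy : ∀ k, Cyc E k)
    (hS : ∀ k, P073.H155.Star ((Cy k).n + 1) (vv (Cy k)) (O k) (r0 k) (R k) (M.F k))
    (hLa : ∀ e, 0 ≤ La e)
    (hWe : ∀ s e, EAct E Ak' s e → ∀ Y : Finset V,
      (∀ x ∈ Y, CrsPt (E.a e) (E.b e) h.toFun (LP s) x) →
        ∑ x ∈ Y, omX h.toFun (LP s) (omP s) x ≤ We e) :
    ∀ s k, Ak' s k → ∀ Φe : ∀ e, E.seg e ⊆ M.F k → ConHomeo (E.seg e) (Pre κ Λ' h (E.seg e)),
      (∀ e he, GEP E h Ak kP LP loP hiP omP La mu e (Φe e he).toFun) →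
      (∀ e he e' he', EqOn (Φe e he).toFun (Φe e' he').toFun (E.seg e ∩ E.seg e')) →
      (∀ e he, ∀ x ∈ E.seg e, x ∈ E.verts → κ ((Φe e he).toFun x) = h.toFun x) →
      ∃ Φ : ConHomeo (M.F k) (Pre κ Λ' h (M.F k)),
        (GFP E Ak LP loP hiP omP La We O r0 R k Φ.toFun ∧
          PathP E Ak' LP loP hiP omP We k Φ.toFun) ∧
        ∀ e he, EqOn Φ.toFun (Φe e he).toFun (E.seg e) := by
  intro s k hk Φe hGE _ hv
  have hu : ∀ s', Ak' s' k → s' = s := fun s' hs' =>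
    P.uniq s' s ((Cy k).c 0) ⟨k, hs', (Cy k).sub 0⟩ ⟨k, hk, (Cy k).sub 0⟩
  by_cases hks : Ak s k
  · obtain ⟨Φ, ⟨h1, h2⟩, h3⟩ := (P.mono hA).hfaceC Cy hS hLa
      (fun s e he => hWe s e (he.imp fun k h => ⟨hA s k h.1, h.2⟩)) s k hks Φe hGE hv
    refine ⟨Φ, ⟨h1, fun s' hs' => ?_⟩, h3⟩
    obtain rfl := hu s' hs'
    exact h2 _ hks
  · obtain ⟨Φ, h2, h3⟩ := P.hface_any hWe s k hk Φe hv
    refine ⟨Φ, ⟨fun s' hs' => ?_, h2⟩, h3⟩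
    obtain rfl := hu s' (hA s' k hs')
    exact absurd hs' hks

end P073.H579
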