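import Vale.Agent.P073.H579.FaceCl3
import Vale.Agent.P073.H31.FHface

/-!
# P073, H579: **[FCL-Y]**, the clauses `FaceCl` (H193) of a face for the cost
`ρ * bandD (h3 ·) (h3 ·)`, from `GFK` and from `GFY` (H31)
-/

open Set Metric Topology Filter
open scoped ENNReal

namespace P073.FW31

open P073 P073.PA691 P073.H579
open Vale.Agent.P073.St (V)
open Vale.Agent.P073.H73 (Mesh)
open Vale.Agent.P073.H193 (Edges edges FaceCl)
open P073.H142 (FStar)
open P073.H950 (bsum)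

variable {Ω Λ : Set V} {M : Mesh Ω} {σ : Type*} {Ak : σ → M.κ → Prop}
  {LP : σ → Fin 3 → Finset ℝ} {loP hiP omP : σ → Fin 3 → ℝ → ℝ} {k : M.κ} {f : V → V} {s : σ}

/-- **`GFK ⟹ FaceCl`**, for the cost `ρ * bandD` -/
theorem GFK.faceCl {T : ∀ k, FStar (edges M) k} {La We b : (edges M).ε → ℝ} {D₁ D₂ : M.κ → ℝ}
    {C₁ C₂ ρ q : ℝ}
    (H : GFK (edges M) Ak LP loP hiP omP La We (fun k => (T k).O) (fun k => (T k).rho) D₁ D₂ k f)
    (hs : Ak s k) (hρ : 0 ≤ ρ) (hD₁ : 0 ≤ D₁ k) (hD₂ : 0 ≤ D₂ k)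
    (hb : ∀ e, (edges M).seg e ⊆ M.F k → 0 ≤ b e)
    (hLa : ∀ e, (edges M).seg e ⊆ M.F k → La e * ‖(edges M).b e - (edges M).a e‖ ≤ q * b e)
    (hWe : ∀ e, (edges M).seg e ⊆ M.F k → We e ≤ q * b e)
    (h1 : D₁ k * (ρ * q) ≤ C₁) (h2 : D₂ k * (ρ * q) ≤ C₂) {g : V → V}
    (hg : EqOn g f (M.F k)) :
    FaceCl M k (T k) b C₁ C₂ fun x y =>
      ρ * bandD (LP s) (loP s) (hiP s) (omP s) (g x) (g y) := by
  obtain ⟨hc, hp⟩ := H s hs
  have hr := (T k).star.rho0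
  have hfin : ∀ e ∈ ((edges M).fin_face k).toFinset, (edges M).seg e ⊆ M.F k :=
    fun e he => ((edges M).fin_face k).mem_toFinset.1 he
  have hSb : 0 ≤ ∑ e ∈ ((edges M).fin_face k).toFinset, b e :=
    Finset.sum_nonneg fun e he => hb e (hfin e he)
  have hSW : ∑ e ∈ ((edges M).fin_face k).toFinset, We e ≤
      q * ∑ e ∈ ((edges M).fin_face k).toFinset, b e := by
    rw [Finset.mul_sum]
    exact Finset.sum_le_sum fun e he => hWe e (hfin e he)
  refine ⟨fun e he x hx y hy => ?_, fun x hx y hy => ?_⟩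
  · have hpos := _root_.P073.H142.elen_pos (edges M) e
    have e1 := hc e he x hx y hy
    rw [hg ((T k).cone_sub he hx), hg ((T k).cone_sub he hy)]
    have e2 : La e ≤ q * (b e / ‖(edges M).b e - (edges M).a e‖) := by
      rw [← mul_div_assoc, le_div_iff₀ hpos]
      exact hLa e he
    have e3 : (∑ e ∈ ((edges M).fin_face k).toFinset, We e) / (T k).rho ≤
        q * ((∑ e ∈ ((edges M).fin_face k).toFinset, b e) / (T k).rho) := by
      rw [← mul_div_assoc]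
      exact div_le_div_of_nonneg_right hSW hr.le
    have e4 : 0 ≤ b e / ‖(edges M).b e - (edges M).a e‖ := div_nonneg (hb e he) hpos.le
    have e5 : 0 ≤ (∑ e ∈ ((edges M).fin_face k).toFinset, b e) / (T k).rho :=
      div_nonneg hSb hr.le
    have e7 : D₁ k * (La e + (∑ e ∈ ((edges M).fin_face k).toFinset, We e) / (T k).rho) ≤
        D₁ k * (q * (b e / ‖(edges M).b e - (edges M).a e‖ +
          (∑ e ∈ ((edges M).fin_face k).toFinset, b e) / (T k).rho)) :=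
      mul_le_mul_of_nonneg_left (by linarith) hD₁
    have e8 : ρ * (D₁ k * (La e + (∑ e ∈ ((edges M).fin_face k).toFinset, We e) / (T k).rho)) ≤
        C₁ * (b e / ‖(edges M).b e - (edges M).a e‖ +
          (∑ e ∈ ((edges M).fin_face k).toFinset, b e) / (T k).rho) := by
      refine (mul_le_mul_of_nonneg_left e7 hρ).trans ?_
      have := mul_le_mul_of_nonneg_right h1 (add_nonneg e4 e5)
      linarith
    calc ρ * bandD (LP s) (loP s) (hiP s) (omP s) (f x) (f y)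
        ≤ ρ * (D₁ k * (La e + (∑ e ∈ ((edges M).fin_face k).toFinset, We e) / (T k).rho) *
          ‖x - y‖) := mul_le_mul_of_nonneg_left e1 hρ
      _ = ρ * (D₁ k * (La e + (∑ e ∈ ((edges M).fin_face k).toFinset, We e) / (T k).rho)) *
          ‖x - y‖ := by ring
      _ ≤ (T k).con C₁ b e * ‖x - y‖ := mul_le_mul_of_nonneg_right e8 (norm_nonneg _)
  · obtain ⟨γ, a1, a2, a3, a4, a5⟩ := hp x hx y hy
    refine ⟨γ, a1, a2, a3, a4, ?_⟩
    have key : H880.cvar (fun t t' => ENNReal.ofReal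
        (ρ * bandD (LP s) (loP s) (hiP s) (omP s) (g (γ t)) (g (γ t')))) 0 3 ≤
        ENNReal.ofReal ρ * H880.cvar (fun t t' => ENNReal.ofReal
          (bandD (LP s) (loP s) (hiP s) (omP s) (f (γ t)) (f (γ t')))) 0 3 := by
      refine H142.cvar_mul_le fun t ht t' ht' _ => ?_
      rw [hg (a2 ht), hg (a2 ht'), ENNReal.ofReal_mul hρ]
    refine key.trans ((mul_le_mul_right a5 _).trans ?_)
    rw [← ENNReal.ofReal_mul hρ]
    refine ENNReal.ofReal_le_ofReal ?_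
    unfold bsum
    calc ρ * (D₂ k * ∑ e ∈ ((edges M).fin_face k).toFinset, We e)
        ≤ ρ * (D₂ k * (q * ∑ e ∈ ((edges M).fin_face k).toFinset, b e)) :=
          mul_le_mul_of_nonneg_left (mul_le_mul_of_nonneg_left hSW hD₂) hρ
      _ = D₂ k * (ρ * q) * ∑ e ∈ ((edges M).fin_face k).toFinset, b e := by ring
      _ ≤ C₂ * ∑ e ∈ ((edges M).fin_face k).toFinset, b e :=
          mul_le_mul_of_nonneg_right h2 hSb

/-- **`GFY ⟹ FaceCl`**, for the cost `ρ * bandD` (all faces, `k ∈ Y` or not) -/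
theorem GFY.faceCl {h : ConHomeo Ω Λ} {T : ∀ k, FStar (edges M) k}
    {La We b : (edges M).ε → ℝ} {Y : Set M.κ} {K es β ρs C₁ C₂ ρ q : ℝ}
    (H : GFY (edges M) h Ak LP loP hiP omP La We (fun k => (T k).O) (fun k => (T k).rho)
      (fun k => (T k).R) Y K es β ρs k f) (hs : Ak s k) (hρ : 0 ≤ ρ)
    (hb : ∀ e, (edges M).seg e ⊆ M.F k → 0 ≤ b e)
    (hLa : ∀ e, (edges M).seg e ⊆ M.F k → La e * ‖(edges M).b e - (edges M).a e‖ ≤ q * b e)
    (hWe : ∀ e, (edges M).seg e ⊆ M.F k → We e ≤ q * b e)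
    (h1 : DK K * (1 + (T k).R / (T k).rho) * (ρ * q) ≤ C₁) (h2 : DK K * (ρ * q) ≤ C₂)
    {g : V → V} (hg : EqOn g f (M.F k)) :
    FaceCl M k (T k) b C₁ C₂ fun x y =>
      ρ * bandD (LP s) (loP s) (hiP s) (omP s) (g x) (g y) := by
  have hDK : 0 ≤ DK K := by linarith [DK_ge K]
  have hr := (T k).star.rho0
  have hR := (T k).R0
  have h0 : 0 ≤ (T k).R / (T k).rho := div_nonneg hR hr.le
  exact GFK.faceCl (D₁ := fun k => DK K * (1 + (T k).R / (T k).rho)) (D₂ := fun _ => DK K)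
    H.2.1 hs hρ (mul_nonneg hDK (by linarith)) hDK hb hLa hWe h1 h2 hg

/-- square faces: `R = rho` -/
theorem GFY.faceCl_sqr {T : ∀ k, FStar (edges M) k} {h : ConHomeo Ω Λ}
    {La We b : (edges M).ε → ℝ} {Y : Set M.κ} {K es β ρs C₁ C₂ ρ q : ℝ}
    (H : GFY (edges M) h Ak LP loP hiP omP La We (fun k => (T k).O) (fun k => (T k).rho)
      (fun k => (T k).R) Y K es β ρs k f) (hs : Ak s k) (hρ : 0 ≤ ρ)
    {a : V} {l : Fin 3} {r : ℝ} (hr : 0 < r) (hF : M.F k = Vale.Agent.P073.H73.sqr a l r)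
    (hb : ∀ e, (edges M).seg e ⊆ M.F k → 0 ≤ b e)
    (hLa : ∀ e, (edges M).seg e ⊆ M.F k → La e * ‖(edges M).b e - (edges M).a e‖ ≤ q * b e)
    (hWe : ∀ e, (edges M).seg e ⊆ M.F k → We e ≤ q * b e)
    (h1 : 2 * DK K * (ρ * q) ≤ C₁) (h2 : DK K * (ρ * q) ≤ C₂)
    {g : V → V} (hg : EqOn g f (M.F k)) :
    FaceCl M k (T k) b C₁ C₂ fun x y =>
      ρ * bandD (LP s) (loP s) (hiP s) (omP s) (g x) (g y) := by
  obtain ⟨-, e1, e2⟩ := (T k).sq a l r hr hF
  refine GFY.faceCl H hs hρ hb hLa hWe ?_ h2 hg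
  rw [e1, e2, div_self hr.ne']
  linarith

end P073.FW31
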