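import Vale.Agent.P073.H579.Thin
import Vale.Agent.P073.H579.Rel

/-!
# P073, H579: the pattern of a good state on a face

`FacePat C B h Lv S cd lev col`: the levels `{h_j = k}`, `k ∈ Lv j`, meet the disc `(C, B)` in the
arcs `S α` with `cd α = j`, `lev α = k`; the arcs form a pattern (`ArcPat`); the level is crossed
along every arc (`TwoSided`).
-/

open Set Metric Topology Filter

namespace P073.H579

open P073.TR P073.SCH P073.H339 P073.H341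

variable {E : Type*} [NormedAddCommGroup E] [NormedSpace ℝ E] {ι : Type*}

/-- near every point of the arc `S` of the disc `(C, B)` the two sides of `S` are the two sides of
the level `k` of `w` -/
def TwoSided (C B S : Set E) (w : E → ℝ) (k : ℝ) : Prop :=
  ∀ B₁ B₂ C₁ C₂ : Set E, Cut 1 C B S B₁ B₂ C₁ C₂ →
    (∀ x ∈ S, ∀ᶠ y in 𝓝 x, y ∈ C → (k < w y → y ∈ C₂ \ S) ∧ (w y < k → y ∈ C₁ \ S)) ∨
      ∀ x ∈ S, ∀ᶠ y in 𝓝 x, y ∈ C → (k < w y → y ∈ C₁ \ S) ∧ (w y < k → y ∈ C₂ \ S)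

theorem twoSided_congr {C B S : Set E} {w w' : E → ℝ} {k : ℝ} (h : TwoSided C B S w k)
    (h1 : ∀ x ∈ C, (k < w' x ↔ k < w x)) (h2 : ∀ x ∈ C, (w' x < k ↔ w x < k)) :
    TwoSided C B S w' k := by
  intro B₁ B₂ C₁ C₂ hcut
  rcases h B₁ B₂ C₁ C₂ hcut with h3 | h3
  · left
    intro x hx
    filter_upwards [h3 x hx] with y hy hyC
    exact ⟨fun h4 => (hy hyC).1 ((h1 y hyC).1 h4), fun h4 => (hy hyC).2 ((h2 y hyC).1 h4)⟩
  · right
    intro x hx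
    filter_upwards [h3 x hx] with y hy hyC
    exact ⟨fun h4 => (hy hyC).1 ((h1 y hyC).1 h4), fun h4 => (hy hyC).2 ((h2 y hyC).1 h4)⟩

/-- the two sides along a connected arc of regular points -/
theorem twoSided_of_box {C B S : Set E} {u : E → ℝ} {M : ι → Set E} {i : ι} (hi : M i = C)
    {k : ℝ} (hS : IsPreconnected S) (hk : ∀ x ∈ S, u x = k) (hSC : S ⊆ C)
    (hbox : ∀ x ∈ S, ∃ (σ : ℝ →ₗ[ℝ] E) (r : ℝ), FlowBox u M x σ r)
    (hM : ∀ x ∈ S, LocConeAt (M i) x) (hu : ∀ x ∈ S, ConicalAt u x)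
    (hc : ∀ x ∈ S, ContinuousAt u x)
    (hnear : ∀ x ∈ S, ∀ᶠ y in 𝓝 x, y ∈ C → (y ∈ S ↔ u y = k)) : TwoSided C B S u k := by
  intro B₁ B₂ C₁ C₂ hcut
  have hloc : ∀ x ∈ S, (∀ᶠ y in 𝓝 x, y ∈ C → (k < u y → y ∈ C₂ \ S) ∧ (u y < k → y ∈ C₁ \ S)) ∨
      ∀ᶠ y in 𝓝 x, y ∈ C → (k < u y → y ∈ C₁ \ S) ∧ (u y < k → y ∈ C₂ \ S) := by
    intro x hx
    obtain ⟨σ, r, hb⟩ := hbox x hx
    have h1 := sides_of_box hcut hb hi hx (hM x hx) (hu x hx) (hc x hx)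
      (by rw [hk x hx]; exact hnear x hx)
    rwa [hk x hx] at h1
  set P1 : Set E := {x | x ∈ S ∧ ∀ᶠ y in 𝓝 x, y ∈ C → (k < u y → y ∈ C₂ \ S) ∧
    (u y < k → y ∈ C₁ \ S)} with hP1
  set P2 : Set E := {x | x ∈ S ∧ ∀ᶠ y in 𝓝 x, y ∈ C → (k < u y → y ∈ C₁ \ S) ∧
    (u y < k → y ∈ C₂ \ S)} with hP2
  -- open in `S`
  have op1 : ∀ x ∈ P1, ∀ᶠ y in 𝓝 x, y ∈ S → y ∈ P1 := by
    rintro x ⟨_, hx2⟩
    filter_upwards [eventually_eventually_nhds.2 hx2] with y hy hyS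
    exact ⟨hyS, hy⟩
  have op2 : ∀ x ∈ P2, ∀ᶠ y in 𝓝 x, y ∈ S → y ∈ P2 := by
    rintro x ⟨_, hx2⟩
    filter_upwards [eventually_eventually_nhds.2 hx2] with y hy hyS
    exact ⟨hyS, hy⟩
  -- disjoint
  have dis : ∀ x, x ∈ P1 → x ∈ P2 → False := by
    rintro x ⟨hxS, h1⟩ ⟨_, h2⟩
    obtain ⟨σ, r, hb⟩ := hbox x hxS
    have h3 := FlowBox.mem_closure_gt hb (i := i) (by rw [hi]; exact hSC hxS)
    obtain ⟨y, ⟨hy1, hy2⟩, hyM, hyu⟩ := mem_closure_iff_nhds.1 h3 _ (h1.and h2)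
    rw [hk x hxS] at hyu
    have hyC : y ∈ C := hi ▸ hyM
    have k1 := (hy1 hyC).1 hyu
    have k2 := (hy2 hyC).1 hyu
    exact k1.2 (hcut.not_both k2.1 k1.1)
  by_cases hne : ∃ x ∈ S, x ∈ P2
  · right
    obtain ⟨x₀, hx₀S, hx₀⟩ := hne
    intro x hx
    by_contra hcon
    have hxP1 : x ∈ P1 := ⟨hx, (hloc x hx).resolve_right hcon⟩
    have o1 : ∃ U, IsOpen U ∧ P1 = S ∩ U := by
      refine ⟨⋃ x ∈ P1, interior {y | y ∈ S → y ∈ P1}, isOpen_biUnion fun _ _ => isOpen_interior,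
        ?_⟩
      ext y
      simp only [mem_inter_iff, mem_iUnion, exists_prop]
      constructor
      · intro hy
        exact ⟨hy.1, y, hy, mem_interior_iff_mem_nhds.2 (op1 y hy)⟩
      · rintro ⟨hyS, z, _, hyz⟩
        exact (interior_subset hyz) hyS
    have o2 : ∃ U, IsOpen U ∧ P2 = S ∩ U := by
      refine ⟨⋃ x ∈ P2, interior {y | y ∈ S → y ∈ P2}, isOpen_biUnion fun _ _ => isOpen_interior,
        ?_⟩
      ext y
      simp only [mem_inter_iff, mem_iUnion, exists_prop]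
      constructor
      · intro hy
        exact ⟨hy.1, y, hy, mem_interior_iff_mem_nhds.2 (op2 y hy)⟩
      · rintro ⟨hyS, z, _, hyz⟩
        exact (interior_subset hyz) hyS
    obtain ⟨U, hU, hU'⟩ := o1
    obtain ⟨V, hV, hV'⟩ := o2
    have hcov : S ⊆ U ∪ V := by
      intro y hy
      rcases hloc y hy with h1 | h1
      · exact Or.inl ((hU' ▸ (⟨hy, h1⟩ : y ∈ P1) : y ∈ S ∩ U).2)
      · exact Or.inr ((hV' ▸ (⟨hy, h1⟩ : y ∈ P2) : y ∈ S ∩ V).2)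
    obtain ⟨y, hyS, hyU, hyV⟩ := hS U V hU hV hcov
      ⟨x, hx, (hU' ▸ hxP1 : x ∈ S ∩ U).2⟩ ⟨x₀, hx₀S, (hV' ▸ hx₀ : x₀ ∈ S ∩ V).2⟩
    exact dis y (hU' ▸ ⟨hyS, hyU⟩) (hV' ▸ ⟨hyS, hyV⟩)
  · left
    intro x hx
    exact (hloc x hx).resolve_right fun h => hne ⟨x, hx, hx, h⟩

/-- the arcs of the levels of the map `h` on the disc `(C, B)` -/
structure FacePat {κ : Type*} (C B : Set E) (h : E → κ → ℝ) (Lv : κ → Set ℝ) {A : Type*}
    (S : A → Set E) (cd : A → κ) (lev : A → ℝ) (col : A → Bool) : Prop where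
  pat : ArcPat C B S col
  mem : ∀ α, lev α ∈ Lv (cd α)
  eq : ∀ j, ∀ k ∈ Lv j, (⋃ (α) (_ : cd α = j ∧ lev α = k), S α) = {x | x ∈ C ∧ h x j = k}
  two : ∀ α, TwoSided C B (S α) (fun x => h x (cd α)) (lev α)

theorem FacePat.congr {κ : Type*} {C B : Set E} {h h' : E → κ → ℝ} {Lv : κ → Set ℝ} {A : Type*}
    {S : A → Set E} {cd : A → κ} {lev : A → ℝ} {col : A → Bool}
    (H : FacePat C B h Lv S cd lev col)
    (h0 : ∀ j, ∀ k ∈ Lv j, ∀ x ∈ C, (h' x j = k ↔ h x j = k) ∧ (h' x j < k ↔ h x j < k) ∧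
      (k < h' x j ↔ k < h x j)) : FacePat C B h' Lv S cd lev col where
  pat := H.pat
  mem := H.mem
  eq := fun j k hk => by
    rw [H.eq j k hk]
    ext x
    exact and_congr_right fun hx => (h0 j k hk x hx).1.symm
  two := fun α => twoSided_congr (H.two α)
    (fun x hx => (h0 (cd α) (lev α) (H.mem α) x hx).2.2)
    (fun x hx => (h0 (cd α) (lev α) (H.mem α) x hx).2.1)

/-- the end points of an arc -/
theorem exists_ends {S B : Set E} (h : ConBall 1 S (S ∩ B)) :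
    ∃ p q, IsArc S p q ∧ S ∩ B = {p, q} := by
  obtain ⟨p, q, -, hpq⟩ := GB200.exists_pair_of_conSphere h.conSphere
  rw [hpq] at h
  exact ⟨p, q, isArc_iff_conBall.2 h, hpq⟩

omit [NormedSpace ℝ E] in
/-- in a finite disjoint union of closed sets each is open -/
theorem near_component {J : Type*} [Finite J] {S : J → Set E} (hcl : ∀ j, IsClosed (S j))
    (hd : ∀ j j', j ≠ j' → Disjoint (S j) (S j')) {T : Set E} (hT : (⋃ j, S j) = T) {j : J}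
    {x : E} (hx : x ∈ S j) : ∀ᶠ y in 𝓝 x, (y ∈ S j ↔ y ∈ T) := by
  have h1 : ∀ j', j' ≠ j → ∀ᶠ y in 𝓝 x, y ∉ S j' := by
    intro j' hj'
    exact (hcl j').isOpen_compl.mem_nhds fun h => Set.disjoint_left.1 (hd j' j hj') h hx
  have h2 : ∀ᶠ y in 𝓝 x, ∀ j', j' ≠ j → y ∉ S j' := by
    rw [eventually_all]
    intro j'
    by_cases hj : j' = j
    · exact Eventually.of_forall fun _ h => absurd hj h
    · filter_upwards [h1 j' hj] with y hy _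
      exact hy
  filter_upwards [h2] with y hy
  constructor
  · intro h; exact hT ▸ mem_iUnion.2 ⟨j, h⟩
  · intro h
    rw [← hT] at h
    obtain ⟨j', hj'⟩ := mem_iUnion.1 h
    by_cases hj : j' = j
    · rwa [← hj]
    · exact absurd hj' (hy j' hj)

end P073.H579
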