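import Vale.Agent.P073.H31.PlPat
import Vale.Agent.P073.H579.FacePat

/-!
# P073, H579: **(FACE)** the filled set of a face is the preimage under the insertion map

`Ins1 k L lo hi`: one-dimensional monotone map with the flats `[lo a, hi a]` over the levels
`a ∈ L`. `FaceIn`: a face with its arcs. `exists_fil`: the filled set `Fil n n C fn` of block H31
is conically homeomorphic to `{y | (k j (y j))_j ∈ h '' C}`.
-/

set_option linter.unusedSectionVars false

open Set Metric Topology Filter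

namespace P073.H579

open P073.H31

variable {E : Type*} [NormedAddCommGroup E] [NormedSpace ℝ E]

/-- one-dimensional insertion maps -/
structure Ins1 (k : ℝ → ℝ) (L : Set ℝ) (lo hi : ℝ → ℝ) : Prop where
  mono : Monotone k
  cont : Continuous k
  con : ConicalOn k univ
  surj : Function.Surjective k
  bdd : ∃ M, ∀ t, |k t - t| ≤ M
  lt : ∀ a ∈ L, lo a < hi a
  flat : ∀ a ∈ L, ∀ t, (k t = a ↔ lo a ≤ t ∧ t ≤ hi a)
  inj : ∀ t t', k t = k t' → k t ∉ L → t = t'

theorem Ins1.id (lo hi : ℝ → ℝ) : Ins1 (fun t => t) ∅ lo hi where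
  mono := monotone_id
  cont := continuous_id
  con := conicalOn_id (IsOpen.conicalSet isOpen_univ)
  surj := Function.surjective_id
  bdd := ⟨0, fun t => by simp⟩
  lt := fun a ha => absurd ha (notMem_empty a)
  flat := fun a ha => absurd ha (notMem_empty a)
  inj := fun _ _ h _ => h

namespace Ins1

variable {k : ℝ → ℝ} {L : Set ℝ} {lo hi : ℝ → ℝ}

theorem lt_lo (h : Ins1 k L lo hi) {a t : ℝ} (ha : a ∈ L) (ht : k t < a) : t < lo a := by
  by_contra hcon
  have h1 := h.mono (not_lt.1 hcon)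
  have h2 : k (lo a) = a := (h.flat a ha _).2 ⟨le_refl _, (h.lt a ha).le⟩
  rw [h2] at h1
  linarith

theorem hi_lt (h : Ins1 k L lo hi) {a t : ℝ} (ha : a ∈ L) (ht : a < k t) : hi a < t := by
  by_contra hcon
  have h1 := h.mono (not_lt.1 hcon)
  have h2 : k (hi a) = a := (h.flat a ha _).2 ⟨(h.lt a ha).le, le_refl _⟩
  rw [h2] at h1
  linarith

end Ins1

/-- a face and its arcs -/
structure FaceIn {m : ℕ} (n : ℕ) (C : Set E) (h : E → Fin m → ℝ) (L : Fin m → Set ℝ)
    (fn : ℕ → E → ℝ) (cd : ℕ → Fin m) (lev ε : ℕ → ℝ) : Prop where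
  comp : IsCompact C
  inj : InjOn h C
  hc : ContinuousOn h C
  hk : ConicalOn h C
  fc : ∀ i < n, ContinuousOn (fn i) C
  eps : ∀ i < n, ε i = 1 ∨ ε i = -1
  mem : ∀ i < n, lev i ∈ L (cd i)
  cov : ∀ x ∈ C, ∀ j, h x j ∈ L j → ∃ i < n, cd i = j ∧ fn i x = 0
  on : ∀ i < n, ∀ x ∈ C, fn i x = 0 → h x (cd i) = lev i
  uniq : ∀ i < n, ∀ i' < n, cd i = cd i' → ∀ x ∈ C, fn i x = 0 → fn i' x = 0 → i = i'
  side : ∀ i < n, ∀ x ∈ C, fn i x = 0 → ∀ᶠ y in 𝓝 x, y ∈ C →
    (lev i < h y (cd i) → 0 < ε i * fn i y) ∧ (h y (cd i) < lev i → ε i * fn i y < 0)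

/-- the product of one-dimensional maps -/
def prodK {m : ℕ} (k : Fin m → ℝ → ℝ) (y : Fin m → ℝ) : Fin m → ℝ := fun j => k j (y j)

/-- the preimage of the image of the face -/
def preQ {m : ℕ} (k : Fin m → ℝ → ℝ) (h : E → Fin m → ℝ) (C : Set E) : Set (Fin m → ℝ) :=
  {y | prodK k y ∈ h '' C}

/-- the position in the flat of the arc `i` -/
noncomputable def thk {m : ℕ} (lo hi : Fin m → ℝ → ℝ) (cd : ℕ → Fin m) (lev ε : ℕ → ℝ) (i : ℕ)
    (y : Fin m → ℝ) : ℝ :=
  if ε i = 1 then (y (cd i) - lo (cd i) (lev i)) / (hi (cd i) (lev i) - lo (cd i) (lev i))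
  else (hi (cd i) (lev i) - y (cd i)) / (hi (cd i) (lev i) - lo (cd i) (lev i))

/-- truncation -/
noncomputable def cut01 (t : ℝ) : ℝ := max 0 (min 1 t)

theorem cut01_of_mem {t : ℝ} (h0 : 0 ≤ t) (h1 : t ≤ 1) : cut01 t = t := by
  rw [cut01, min_eq_right h1, max_eq_right h0]

theorem cut01_of_le {t : ℝ} (h0 : t ≤ 0) : cut01 t = 0 := by
  rw [cut01]; exact max_eq_left ((min_le_right _ _).trans h0)

theorem cut01_of_ge {t : ℝ} (h0 : 1 ≤ t) : cut01 t = 1 := by
  rw [cut01, min_eq_left h0]; exact max_eq_right zero_le_one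

theorem cut01_sub {t : ℝ} : cut01 (1 - t) = 1 - cut01 t := by
  rcases le_total t 0 with h | h
  · rw [cut01_of_le h, cut01_of_ge (by linarith)]; ring
  · rcases le_total 1 t with h1 | h1
    · rw [cut01_of_ge h1, cut01_of_le (by linarith)]; ring
    · rw [cut01_of_mem h h1, cut01_of_mem (by linarith) (by linarith)]

section fil

variable {m n : ℕ} {C : Set E} {h : E → Fin m → ℝ} {L : Fin m → Set ℝ} {fn : ℕ → E → ℝ}
  {cd : ℕ → Fin m} {lev ε : ℕ → ℝ} {k : Fin m → ℝ → ℝ} {lo hi : Fin m → ℝ → ℝ}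

theorem continuous_prodK (hI : ∀ j, Continuous (k j)) : Continuous (prodK k) :=
  continuous_pi fun j => (hI j).comp (continuous_apply j)

theorem conicalOn_prodK (hI : ∀ j, Ins1 (k j) (L j) (lo j) (hi j)) :
    ConicalOn (prodK k) univ := by
  intro y _
  refine conicalWithinAt_pi (IsOpen.conicalSet isOpen_univ y (mem_univ y)) fun j => ?_
  have h1 : ConicalOn (fun y : Fin m → ℝ => y j) univ :=
    conicalOn_linear (LinearMap.proj j : (Fin m → ℝ) →ₗ[ℝ] ℝ) (IsOpen.conicalSet isOpen_univ)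
  exact ((hI j).con.comp h1 (mapsTo_univ _ _) (continuous_apply j).continuousOn) y (mem_univ y)

/-- `preQ` is compact -/
theorem isCompact_preQ (hC : IsCompact (h '' C)) (hI : ∀ j, Ins1 (k j) (L j) (lo j) (hi j)) :
    IsCompact (preQ k h C) := by
  have hcl : IsClosed (preQ k h C) :=
    hC.isClosed.preimage (continuous_prodK fun j => (hI j).cont)
  obtain ⟨R, hR⟩ := hC.isBounded.exists_norm_le
  choose M hM using fun j => (hI j).bdd
  have hsub : preQ k h C ⊆ Set.pi univ fun j => Icc (-(R + M j)) (R + M j) := by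
    intro y hy j _
    have h1 := hR _ hy
    have h2 : |k j (y j)| ≤ R := (norm_le_pi_norm (prodK k y) j).trans h1
    have h3 := hM j (y j)
    rw [abs_le] at h2 h3
    constructor <;> linarith
  exact (isCompact_univ_pi fun j => isCompact_Icc).of_isClosed_subset hcl hsub

theorem conicalSet_preQ (hC : ConicalSet (h '' C)) (hI : ∀ j, Ins1 (k j) (L j) (lo j) (hi j)) :
    ConicalSet (preQ k h C) := by
  intro y hy
  obtain ⟨r, hr, H⟩ := conicalOn_prodK hI y (mem_univ y)
  obtain ⟨s, hs, H'⟩ := hC _ hy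
  have hc : ContinuousAt (prodK k) y := (continuous_prodK fun j => (hI j).cont).continuousAt
  have h1 : ∀ᶠ z in 𝓝[univ] y, prodK k z ∈ closedBall (prodK k y) s := by
    rw [nhdsWithin_univ]; exact hc (closedBall_mem_nhds _ hs)
  obtain ⟨ρ, hρ, hb⟩ := exists_radius_of_nhdsWithin h1
  refine ⟨min r ρ, lt_min hr hρ, fun v hv hyv t ht => ?_⟩
  have h2 := (H v (hv.trans (min_le_left _ _)) (mem_univ _) t ht).2
  have h3 := hb v (hv.trans (min_le_right _ _)) (mem_univ _)
  rw [mem_closedBall, dist_eq_norm] at h3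
  show prodK k (y + t • v) ∈ h '' C
  rw [h2]
  apply H' _ h3 _ t ht
  have : prodK k y + (prodK k (y + v) - prodK k y) = prodK k (y + v) := by abel
  rw [this]
  exact hyv

variable (hF : FaceIn n C h L fn cd lev ε) (hI : ∀ j, Ins1 (k j) (L j) (lo j) (hi j))

namespace FaceIn

include hF

/-- the face as a conical homeomorphism onto its image -/
noncomputable def hom : ConHomeo C (h '' C) :=
  ConHomeo.ofCompact hF.comp h hF.hc hF.inj hF.hk rfl

theorem hom_toFun : hF.hom.toFun = h := ConHomeo.ofCompact_toFun _ _ _ _ _ _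

/-- the point of the face under `y` -/
noncomputable def pt (k : Fin m → ℝ → ℝ) (y : Fin m → ℝ) : E := hF.hom.invFun (prodK k y)

theorem pt_mem {y : Fin m → ℝ} (hy : y ∈ preQ k h C) : hF.pt k y ∈ C := hF.hom.mapsTo_inv hy

theorem h_pt {y : Fin m → ℝ} (hy : y ∈ preQ k h C) : h (hF.pt k y) = prodK k y := by
  have := hF.hom.right_inv hy
  rwa [hF.hom_toFun] at this

theorem pt_eq {y : Fin m → ℝ} {x : E} (hx : x ∈ C) (hxy : h x = prodK k y) : hF.pt k y = x := by
  have h1 : hF.hom.invFun (h x) = x := by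
    have := hF.hom.left_inv hx
    rwa [hF.hom_toFun] at this
  rw [pt, ← hxy, h1]

/-- the coordinate of the arc `i` -/
noncomputable def zz (lo hi : Fin m → ℝ → ℝ) (k : Fin m → ℝ → ℝ) (i : ℕ) (y : Fin m → ℝ) : ℝ :=
  if fn i (hF.pt k y) < 0 then 0 else if 0 < fn i (hF.pt k y) then 1
  else thk lo hi cd lev ε i y

theorem zz_neg {i : ℕ} {y : Fin m → ℝ} (h1 : fn i (hF.pt k y) < 0) : hF.zz lo hi k i y = 0 :=
  if_pos h1

theorem zz_pos {i : ℕ} {y : Fin m → ℝ} (h1 : 0 < fn i (hF.pt k y)) : hF.zz lo hi k i y = 1 := by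
  rw [zz, if_neg h1.not_gt, if_pos h1]

theorem zz_zero {i : ℕ} {y : Fin m → ℝ} (h1 : fn i (hF.pt k y) = 0) :
    hF.zz lo hi k i y = thk lo hi cd lev ε i y := by
  rw [zz, if_neg (by rw [h1]; exact lt_irrefl _), if_neg (by rw [h1]; exact lt_irrefl _)]

include hI

theorem thk_mem {i : ℕ} (hi' : i < n) {y : Fin m → ℝ} (hy : k (cd i) (y (cd i)) = lev i) :
    0 ≤ thk lo hi cd lev ε i y ∧ thk lo hi cd lev ε i y ≤ 1 := by
  have h1 := ((hI (cd i)).flat _ (hF.mem i hi') _).1 hy
  have h2 := (hI (cd i)).lt _ (hF.mem i hi')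
  have h3 : 0 < hi (cd i) (lev i) - lo (cd i) (lev i) := by linarith
  rw [thk]
  split_ifs
  · exact ⟨div_nonneg (by linarith) h3.le, (div_le_one h3).2 (by linarith)⟩
  · exact ⟨div_nonneg (by linarith) h3.le, (div_le_one h3).2 (by linarith)⟩

/-- local form on the arc -/
theorem zz_near {i : ℕ} (hi' : i < n) {y₀ : Fin m → ℝ} (hy₀ : y₀ ∈ preQ k h C)
    (h0 : fn i (hF.pt k y₀) = 0) (hcont : ContinuousOn (hF.pt k) (preQ k h C)) :
    ∀ᶠ y in 𝓝 y₀, y ∈ preQ k h C → hF.zz lo hi k i y = cut01 (thk lo hi cd lev ε i y) := by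
  have hx₀ : hF.pt k y₀ ∈ C := hF.pt_mem hy₀
  have h1 := hF.side i hi' _ hx₀ h0
  have h2 : ∀ᶠ x in 𝓝[C] (hF.pt k y₀), ∀ i' ∈ Finset.range n, cd i' = cd i → i' ≠ i →
      fn i' x ≠ 0 := by
    rw [Filter.eventually_all_finset]
    intro i' hi''
    have hi'' := Finset.mem_range.1 hi''
    by_cases h3 : cd i' = cd i ∧ i' ≠ i
    · have h4 : fn i' (hF.pt k y₀) ≠ 0 := fun h5 =>
        h3.2 (hF.uniq i' hi'' i hi' h3.1 _ hx₀ h5 h0)
      filter_upwards [(hF.fc i' hi'' _ hx₀).eventually_ne h4] with x hx _ _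
      exact hx
    · filter_upwards with x h4 h5
      exact absurd ⟨h4, h5⟩ h3
  have h3 : Tendsto (hF.pt k) (𝓝[preQ k h C] y₀) (𝓝[C] (hF.pt k y₀)) :=
    tendsto_nhdsWithin_iff.2 ⟨hcont y₀ hy₀, eventually_mem_nhdsWithin.mono fun y hy => hF.pt_mem hy⟩
  have h4 := h3.eventually (h2.and (nhdsWithin_le_nhds h1))
  rw [eventually_nhdsWithin_iff] at h4
  filter_upwards [h4] with y hy hyQ
  obtain ⟨a1, a2⟩ := hy hyQ
  obtain ⟨a2, a3⟩ := a2 (hF.pt_mem hyQ)
  have hK : h (hF.pt k y) (cd i) = k (cd i) (y (cd i)) := by rw [hF.h_pt hyQ]; rfl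
  have hlt := (hI (cd i)).lt _ (hF.mem i hi')
  have hd : 0 < hi (cd i) (lev i) - lo (cd i) (lev i) := by linarith
  rcases lt_trichotomy (h (hF.pt k y) (cd i)) (lev i) with h5 | h5 | h5
  · have h6 := a3 h5
    have h7 : y (cd i) < lo (cd i) (lev i) := (hI (cd i)).lt_lo (hF.mem i hi') (by rw [← hK]; exact h5)
    rcases hF.eps i hi' with h8 | h8
    · rw [h8, one_mul] at h6
      rw [hF.zz_neg h6, thk, if_pos h8, cut01_of_le (div_nonpos_of_nonpos_of_nonneg (by linarith) hd.le)]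
    · rw [h8] at h6
      rw [hF.zz_pos (by linarith), thk, if_neg (by rw [h8]; norm_num),
        cut01_of_ge ((one_le_div hd).2 (by linarith))]
  · have h6 : fn i (hF.pt k y) = 0 := by
      obtain ⟨i', hi'', h7, h8⟩ := hF.cov _ (hF.pt_mem hyQ) (cd i) (by rw [h5]; exact hF.mem i hi')
      by_contra h9
      exact a1 i' (Finset.mem_range.2 hi'') h7 (fun h10 => h9 (h10 ▸ h8)) h8
    have h7 := thk_mem hF hI hi' (y := y) (by rw [← hK]; exact h5)
    rw [hF.zz_zero h6, cut01_of_mem h7.1 h7.2]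
  · have h6 := a2 h5
    have h7 : hi (cd i) (lev i) < y (cd i) := (hI (cd i)).hi_lt (hF.mem i hi') (by rw [← hK]; exact h5)
    rcases hF.eps i hi' with h8 | h8
    · rw [h8, one_mul] at h6
      rw [hF.zz_pos h6, thk, if_pos h8, cut01_of_ge ((one_le_div hd).2 (by linarith))]
    · rw [h8] at h6
      rw [hF.zz_neg (by linarith), thk, if_neg (by rw [h8]; norm_num),
        cut01_of_le (div_nonpos_of_nonpos_of_nonneg (by linarith) hd.le)]

/-- local form off the arc -/
theorem zz_near' {i : ℕ} (hi' : i < n) {y₀ : Fin m → ℝ} (hy₀ : y₀ ∈ preQ k h C)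
    (h0 : fn i (hF.pt k y₀) ≠ 0) (hcont : ContinuousOn (hF.pt k) (preQ k h C)) :
    ∀ᶠ y in 𝓝 y₀, y ∈ preQ k h C → hF.zz lo hi k i y = hF.zz lo hi k i y₀ := by
  have hx₀ : hF.pt k y₀ ∈ C := hF.pt_mem hy₀
  have h3 : Tendsto (hF.pt k) (𝓝[preQ k h C] y₀) (𝓝[C] (hF.pt k y₀)) :=
    tendsto_nhdsWithin_iff.2 ⟨hcont y₀ hy₀, eventually_mem_nhdsWithin.mono fun y hy => hF.pt_mem hy⟩
  rcases lt_or_gt_of_ne h0 with h1 | h1
  · have h4 := h3.eventually ((hF.fc i hi' _ hx₀).eventually (gt_mem_nhds h1))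
    rw [eventually_nhdsWithin_iff] at h4
    filter_upwards [h4] with y hy hyQ
    rw [hF.zz_neg (hy hyQ), hF.zz_neg h1]
  · have h4 := h3.eventually ((hF.fc i hi' _ hx₀).eventually (lt_mem_nhds h1))
    rw [eventually_nhdsWithin_iff] at h4
    filter_upwards [h4] with y hy hyQ
    rw [hF.zz_pos (hy hyQ), hF.zz_pos h1]

/-- `pt` is continuous and conical -/
theorem continuousOn_pt : ContinuousOn (hF.pt k) (preQ k h C) :=
  hF.hom.cont_inv.comp (continuous_prodK fun j => (hI j).cont).continuousOn fun _ hy => hy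

theorem conicalSet_Q : ConicalSet (preQ k h C) := by
  refine conicalSet_preQ ?_ hI
  have := hF.hom.conicalSet_right
  exact this

theorem conicalOn_pt : ConicalOn (hF.pt k) (preQ k h C) :=
  hF.hom.conical_inv.comp ((conicalOn_prodK hI).mono (conicalSet_Q hF hI) (subset_univ _))
    (fun _ hy => hy) (continuous_prodK fun j => (hI j).cont).continuousOn

/-- the inverse map -/
noncomputable def Th (lo hi : Fin m → ℝ → ℝ) (k : Fin m → ℝ → ℝ) (y : Fin m → ℝ) :
    E × (Fin n → ℝ) := (hF.pt k y, fun i => hF.zz lo hi k i y)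

omit hF hI in
theorem continuous_thk (i : ℕ) : Continuous (thk lo hi cd lev ε i) := by
  unfold thk
  split_ifs
  · exact ((continuous_apply _).sub continuous_const).div_const _
  · exact (continuous_const.sub (continuous_apply _)).div_const _

omit hF hI in
theorem conicalOn_thk (i : ℕ) {X : Set (Fin m → ℝ)} (hX : ConicalSet X) :
    ConicalOn (thk lo hi cd lev ε i) X := by
  have h1 : ConicalOn (fun y : Fin m → ℝ => y (cd i)) X :=
    conicalOn_linear (LinearMap.proj (cd i) : (Fin m → ℝ) →ₗ[ℝ] ℝ) hX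
  by_cases h2 : ε i = 1
  · refine ((h1.sub (conicalOn_const (lo (cd i) (lev i)) hX)).const_smul
      (hi (cd i) (lev i) - lo (cd i) (lev i))⁻¹).congr fun y _ => ?_
    simp only [thk, if_pos h2, smul_eq_mul]
    rw [div_eq_inv_mul]
  · refine (((conicalOn_const (hi (cd i) (lev i)) hX).sub h1).const_smul
      (hi (cd i) (lev i) - lo (cd i) (lev i))⁻¹).congr fun y _ => ?_
    simp only [thk, if_neg h2, smul_eq_mul]
    rw [div_eq_inv_mul]

omit hF hI in
theorem continuous_cut01 : Continuous cut01 := by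
  unfold cut01; fun_prop

omit hF hI in
theorem conicalOn_cutThk (i : ℕ) {X : Set (Fin m → ℝ)} (hX : ConicalSet X) :
    ConicalOn (fun y => cut01 (thk lo hi cd lev ε i y)) X := by
  have h1 := conicalOn_thk (lo := lo) (hi := hi) (cd := cd) (lev := lev) (ε := ε) i hX
  have h2 : ContinuousOn (thk lo hi cd lev ε i) X := (continuous_thk i).continuousOn
  exact (conicalOn_const (0:ℝ) hX).rmax ((conicalOn_const (1:ℝ) hX).rmin h1 continuousOn_const h2)
    continuousOn_const (continuous_const.min (continuous_thk i)).continuousOn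

theorem zz_cont {i : ℕ} (hi' : i < n) : ContinuousOn (hF.zz lo hi k i) (preQ k h C) := by
  intro y₀ hy₀
  by_cases h0 : fn i (hF.pt k y₀) = 0
  · have h1 := zz_near hF hI hi' hy₀ h0 (continuousOn_pt hF hI)
    have h2 : ContinuousWithinAt (fun y => cut01 (thk lo hi cd lev ε i y)) (preQ k h C) y₀ :=
      (continuous_cut01.comp (continuous_thk i)).continuousWithinAt
    refine h2.congr_of_eventuallyEq ?_ (h1.self_of_nhds hy₀)
    rw [Filter.EventuallyEq, eventually_nhdsWithin_iff]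
    exact h1
  · have h1 := zz_near' (lo := lo) (hi := hi) hF hI hi' hy₀ h0 (continuousOn_pt hF hI)
    have h2 : ContinuousWithinAt (fun _ : Fin m → ℝ => hF.zz lo hi k i y₀) (preQ k h C) y₀ :=
      continuousWithinAt_const
    refine h2.congr_of_eventuallyEq ?_ rfl
    rw [Filter.EventuallyEq, eventually_nhdsWithin_iff]
    exact h1

theorem zz_con {i : ℕ} (hi' : i < n) : ConicalOn (hF.zz lo hi k i) (preQ k h C) := by
  intro y₀ hy₀
  have hQ := conicalSet_Q hF hI
  by_cases h0 : fn i (hF.pt k y₀) = 0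
  · have h1 := zz_near hF hI hi' hy₀ h0 (continuousOn_pt hF hI)
    exact (conicalOn_cutThk i hQ y₀ hy₀).congr_nhds (Eventually.of_forall fun _ => Iff.rfl) h1
      (h1.self_of_nhds hy₀)
  · have h1 := zz_near' (lo := lo) (hi := hi) hF hI hi' hy₀ h0 (continuousOn_pt hF hI)
    exact (conicalOn_const (hF.zz lo hi k i y₀) hQ y₀ hy₀).congr_nhds
      (Eventually.of_forall fun _ => Iff.rfl) h1 rfl

theorem Th_cont : ContinuousOn (hF.Th lo hi k) (preQ k h C) :=
  (continuousOn_pt hF hI).prodMk (continuousOn_pi.2 fun i => zz_cont hF hI i.2)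

theorem Th_con : ConicalOn (hF.Th lo hi k) (preQ k h C) := by
  refine (conicalOn_pt hF hI).prodMk fun y hy => conicalWithinAt_pi (conicalSet_Q hF hI y hy)
    fun i => zz_con hF hI i.2 y hy

theorem Th_injOn : InjOn (hF.Th lo hi k) (preQ k h C) := by
  intro y hy y' hy' he
  have h1 : hF.pt k y = hF.pt k y' := congrArg Prod.fst he
  have h2 : ∀ i : Fin n, hF.zz lo hi k i y = hF.zz lo hi k i y' := fun i =>
    congrFun (congrArg Prod.snd he) i
  have h3 : prodK k y = prodK k y' := by rw [← hF.h_pt hy, ← hF.h_pt hy', h1]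
  funext j
  have h4 : k j (y j) = k j (y' j) := congrFun h3 j
  by_cases h5 : k j (y j) ∈ L j
  · have hxj : h (hF.pt k y) j = k j (y j) := by rw [hF.h_pt hy]; rfl
    obtain ⟨i, hi', hcd, hfn⟩ := hF.cov _ (hF.pt_mem hy) j (by rw [hxj]; exact h5)
    subst hcd
    have h6 := h2 ⟨i, hi'⟩
    have hlev := hF.on i hi' _ (hF.pt_mem hy) hfn
    rw [hF.zz_zero hfn, hF.zz_zero (by rw [← h1]; exact hfn)] at h6
    have hlt := (hI (cd i)).lt _ (hF.mem i hi')
    have hd : hi (cd i) (lev i) - lo (cd i) (lev i) ≠ 0 := by linarith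
    rw [thk, thk] at h6
    split_ifs at h6 with h7
    · field_simp at h6; linarith
    · field_simp at h6; linarith
  · exact (hI j).inj _ _ h4 h5

theorem Th_image : hF.Th lo hi k '' preQ k h C = Fil n n C fn := by
  apply Subset.antisymm
  · rintro _ ⟨y, hy, rfl⟩
    refine ⟨hF.pt_mem hy, fun i => ⟨?_, fun _ h1 => hF.zz_neg h1, fun _ h1 => hF.zz_pos h1,
      fun h1 => absurd i.2 (not_lt.2 h1)⟩⟩
    show 0 ≤ hF.zz lo hi k i y ∧ hF.zz lo hi k i y ≤ 1
    rcases lt_trichotomy (fn i (hF.pt k y)) 0 with h1 | h1 | h1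
    · rw [hF.zz_neg h1]; exact ⟨le_refl _, zero_le_one⟩
    · rw [hF.zz_zero h1]
      refine thk_mem hF hI i.2 ?_
      have h2 := hF.on i i.2 _ (hF.pt_mem hy) h1
      rw [hF.h_pt hy] at h2
      exact h2
    · rw [hF.zz_pos h1]; exact ⟨zero_le_one, le_refl _⟩
  · rintro ⟨x, z⟩ ⟨hx, hz⟩
    have hx : x ∈ C := hx
    -- the coordinates
    have hex : ∀ j, ∃ t, k j t = h x j ∧ ∀ i (hi' : i < n), cd i = j → fn i x = 0 →
        t = if ε i = 1 then lo j (lev i) + (hi j (lev i) - lo j (lev i)) * z ⟨i, hi'⟩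
          else hi j (lev i) - (hi j (lev i) - lo j (lev i)) * z ⟨i, hi'⟩ := by
      intro j
      by_cases hj : h x j ∈ L j
      · obtain ⟨i, hi', rfl, hfn⟩ := hF.cov x hx j hj
        have hlev := hF.on i hi' x hx hfn
        have hlt := (hI (cd i)).lt _ (hF.mem i hi')
        have hz1 : 0 ≤ z ⟨i, hi'⟩ ∧ z ⟨i, hi'⟩ ≤ 1 := (hz ⟨i, hi'⟩).1
        refine ⟨if ε i = 1 then lo (cd i) (lev i) + (hi (cd i) (lev i) - lo (cd i) (lev i)) *
          z ⟨i, hi'⟩ else hi (cd i) (lev i) - (hi (cd i) (lev i) - lo (cd i) (lev i)) * z ⟨i, hi'⟩,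
          ?_, ?_⟩
        · rw [hlev, (hI (cd i)).flat _ (hF.mem i hi')]
          split_ifs
          · constructor <;> nlinarith [hz1.1, hz1.2]
          · constructor <;> nlinarith [hz1.1, hz1.2]
        · intro i' hi'' hcd hfn'
          have : i = i' := hF.uniq i hi' i' hi'' hcd.symm x hx hfn hfn'
          subst this
          rfl
      · obtain ⟨t, ht⟩ := (hI j).surj (h x j)
        refine ⟨t, ht, fun i hi' hcd hfn => ?_⟩
        exfalso
        apply hj
        rw [← hcd, hF.on i hi' x hx hfn]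
        exact hF.mem i hi'
    choose y hy1 hy2 using hex
    have hK : prodK k y = h x := funext hy1
    have hyQ : y ∈ preQ k h C := ⟨x, hx, hK.symm⟩
    have hpt : hF.pt k y = x := hF.pt_eq hx hK.symm
    refine ⟨y, hyQ, Prod.ext hpt (funext fun i => ?_)⟩
    show hF.zz lo hi k i y = z i
    rcases lt_trichotomy (fn i x) 0 with h1 | h1 | h1
    · rw [hF.zz_neg (by rw [hpt]; exact h1)]
      exact ((hz i).2.1 i.2 h1).symm
    · rw [hF.zz_zero (by rw [hpt]; exact h1), thk]
      have h2 := hy2 (cd i) i i.2 rfl h1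
      have hlt := (hI (cd i)).lt _ (hF.mem i i.2)
      have hd : hi (cd i) (lev i) - lo (cd i) (lev i) ≠ 0 := by linarith
      split_ifs with h3
      · rw [if_pos h3] at h2
        rw [h2]
        field_simp
        ring
      · rw [if_neg h3] at h2
        rw [h2]
        field_simp
        ring
    · rw [hF.zz_pos (by rw [hpt]; exact h1)]
      exact ((hz i).2.2.1 i.2 h1).symm

/-- the homeomorphism from the preimage onto the filled set -/
noncomputable def thHom (lo hi : Fin m → ℝ → ℝ) (k : Fin m → ℝ → ℝ)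
    (hI : ∀ j, Ins1 (k j) (L j) (lo j) (hi j)) : ConHomeo (preQ k h C) (Fil n n C fn) :=
  ConHomeo.ofCompact (isCompact_preQ (hF.hom.isCompact_right hF.comp) hI) (hF.Th lo hi k)
    (Th_cont hF hI) (Th_injOn hF hI) (Th_con hF hI) (Th_image hF hI)

theorem thHom_toFun : (thHom hF lo hi k hI).toFun = hF.Th lo hi k :=
  ConHomeo.ofCompact_toFun _ _ _ _ _ _

/-- **(FACE)** the filled set of a face is the preimage under the insertion map -/
theorem exists_fil : ∃ Ξ : ConHomeo (Fil n n C fn) (preQ k h C),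
    (∀ p ∈ Fil n n C fn, prodK k (Ξ.toFun p) = h p.1) ∧
    (∀ p ∈ Fil n n C fn, ∀ i : Fin n, fn i p.1 = 0 → Ξ.toFun p (cd i) =
      if ε i = 1 then lo (cd i) (lev i) + (hi (cd i) (lev i) - lo (cd i) (lev i)) * p.2 i
        else hi (cd i) (lev i) - (hi (cd i) (lev i) - lo (cd i) (lev i)) * p.2 i) ∧
    Ξ.invFun = hF.Th lo hi k := by
  have key : ∀ p ∈ Fil n n C fn, (thHom hF lo hi k hI).invFun p ∈ preQ k h C ∧
      hF.Th lo hi k ((thHom hF lo hi k hI).invFun p) = p := fun p hp => by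
    refine ⟨(thHom hF lo hi k hI).mapsTo_inv hp, ?_⟩
    have := (thHom hF lo hi k hI).right_inv hp
    rwa [thHom_toFun] at this
  refine ⟨(thHom hF lo hi k hI).symm, fun p hp => ?_, fun p hp i hfn => ?_, thHom_toFun hF hI⟩
  · obtain ⟨h1, h2⟩ := key p hp
    have h3 : hF.pt k ((thHom hF lo hi k hI).invFun p) = p.1 := congrArg Prod.fst h2
    show prodK k ((thHom hF lo hi k hI).invFun p) = h p.1
    rw [← h3, hF.h_pt h1]
  · obtain ⟨h1, h2⟩ := key p hp
    have h3 : hF.pt k ((thHom hF lo hi k hI).invFun p) = p.1 := congrArg Prod.fst h2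
    have h4 : hF.zz lo hi k i ((thHom hF lo hi k hI).invFun p) = p.2 i :=
      congrFun (congrArg Prod.snd h2) i
    rw [hF.zz_zero (by rw [h3]; exact hfn), thk] at h4
    have hlt := (hI (cd i)).lt _ (hF.mem i i.2)
    have hd : hi (cd i) (lev i) - lo (cd i) (lev i) ≠ 0 := by linarith
    show (thHom hF lo hi k hI).invFun p (cd i) = _
    split_ifs at h4 ⊢
    · field_simp at h4
      linarith
    · field_simp at h4
      linarith

end FaceIn

end fil

end P073.H579
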