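import Vale.Agent.P073.H579.EdgeMap
import Vale.Agent.P073.H155.BdD

/-!
# P073, H579: **(HFACE)**, part A: the numbers of an edge map
-/

set_option linter.unusedSectionVars false

open Set Metric Topology Filter

namespace P073.H579

open P073.H31

variable {E : Type*} [NormedAddCommGroup E] [NormedSpace ℝ E]

/-- a crossing point on the segment `[a, b]` -/
def CrsPt {m : ℕ} (a b : E) (h : E → Fin m → ℝ) (L : Fin m → Finset ℝ) (x : E) : Prop :=
  x ∈ segment ℝ a b ∧ ∃ j, h x j ∈ L j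

/-- **the numbers of an edge map** `f` on the segment `[a, b]`. Over each crossing point `x` the
fibre is the parameter interval `[s2 x, s3 x]`, with free pieces `[s1 x, s2 x]`, `[s3 x, s4 x]`;
`om j c` is the weight of the level `c` of the coordinate `j`. -/
structure EdgeNum {m : ℕ} (a b : E) (h : E → Fin m → ℝ) (k : Fin m → ℝ → ℝ) (L : Fin m → Finset ℝ)
    (lo hi om : Fin m → ℝ → ℝ) (La : ℝ) (f : E → Fin m → ℝ) (s1 s2 s3 s4 : E → ℝ) : Prop where
  a1 : ∀ x, CrsPt a b h L x → 0 < s1 x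
  a2 : ∀ x, CrsPt a b h L x → s1 x < s2 x
  a3 : ∀ x, CrsPt a b h L x → s2 x < s3 x
  a4 : ∀ x, CrsPt a b h L x → s3 x < s4 x
  a5 : ∀ x, CrsPt a b h L x → s4 x < 1
  dis : ∀ x y, CrsPt a b h L x → CrsPt a b h L y → x ≠ y → s4 x ≤ s1 y ∨ s4 y ≤ s1 x
  fib : ∀ x, CrsPt a b h L x → ∀ s ∈ Icc (0:ℝ) 1,
    (prodK k (f (AffineMap.lineMap a b s)) = h x ↔ s2 x ≤ s ∧ s ≤ s3 x)
  g1 : ∀ x ∈ segment ℝ a b, ∀ j, h x j ∈ L j → om j (h x j) ≤ La * ‖b - a‖ * (s2 x - s1 x)
  g2 : ∀ x ∈ segment ℝ a b, ∀ j, h x j ∈ L j → om j (h x j) ≤ La * ‖b - a‖ * (s4 x - s3 x)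
  lip : ∀ x ∈ segment ℝ a b, ∀ j, h x j ∈ L j → ∀ s ∈ Icc (s2 x) (s3 x),
    ∀ s' ∈ Icc (s2 x) (s3 x), om j (h x j) *
      |f (AffineMap.lineMap a b s) j - f (AffineMap.lineMap a b s') j| ≤
      (hi j (h x j) - lo j (h x j)) * (La * ‖b - a‖ * |s - s'|)

/-- the numbers of the reversed edge -/
theorem EdgeNum.symm {m : ℕ} {a b : E} {h : E → Fin m → ℝ} {k : Fin m → ℝ → ℝ}
    {L : Fin m → Finset ℝ} {lo hi om : Fin m → ℝ → ℝ} {La : ℝ} {f : E → Fin m → ℝ}
    {s1 s2 s3 s4 : E → ℝ} (H : EdgeNum a b h k L lo hi om La f s1 s2 s3 s4) :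
    EdgeNum b a h k L lo hi om La f (fun x => 1 - s4 x) (fun x => 1 - s3 x) (fun x => 1 - s2 x)
      (fun x => 1 - s1 x) := by
  have hc : ∀ x, CrsPt b a h L x → CrsPt a b h L x := fun x hx => by
    rw [CrsPt, segment_symm]; exact hx
  have hl : ∀ s : ℝ, AffineMap.lineMap b a s = (AffineMap.lineMap a b (1 - s) : E) := fun s =>
    (AffineMap.lineMap_apply_one_sub a b s).symm
  have hn : ‖a - b‖ = ‖b - a‖ := norm_sub_rev a b
  refine ⟨fun x hx => by linarith [H.a5 x (hc x hx)], fun x hx => by linarith [H.a4 x (hc x hx)],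
    fun x hx => by linarith [H.a3 x (hc x hx)], fun x hx => by linarith [H.a2 x (hc x hx)],
    fun x hx => by linarith [H.a1 x (hc x hx)], fun x y hx hy hxy => ?_, fun x hx s hs => ?_,
    fun x hx j hj => ?_, fun x hx j hj => ?_, fun x hx j hj s hs s' hs' => ?_⟩
  · rcases H.dis x y (hc x hx) (hc y hy) hxy with h1 | h1
    · exact Or.inr (by linarith)
    · exact Or.inl (by linarith)
  · rw [hl, H.fib x (hc x hx) (1 - s) ⟨by linarith [hs.2], by linarith [hs.1]⟩]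
    constructor
    · rintro ⟨h1, h2⟩; exact ⟨by linarith, by linarith⟩
    · rintro ⟨h1, h2⟩; exact ⟨by linarith, by linarith⟩
  · rw [segment_symm] at hx
    rw [hn]
    have := H.g2 x hx j hj
    have e : 1 - s3 x - (1 - s4 x) = s4 x - s3 x := by ring
    rwa [e]
  · rw [segment_symm] at hx
    rw [hn]
    have := H.g1 x hx j hj
    have e : 1 - s1 x - (1 - s2 x) = s2 x - s1 x := by ring
    rwa [e]
  · rw [segment_symm] at hx
    rw [hn, hl, hl]
    have := H.lip x hx j hj (1 - s) ⟨by linarith [hs.2], by linarith [hs.1]⟩ (1 - s')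
      ⟨by linarith [hs'.2], by linarith [hs'.1]⟩
    have e : (1 - s) - (1 - s') = s' - s := by ring
    rwa [e, abs_sub_comm s' s] at this

theorem lineMap_mem {a b : E} {s : ℝ} (hs : s ∈ Icc (0:ℝ) 1) :
    (AffineMap.lineMap a b s : E) ∈ segment ℝ a b := by
  rw [segment_eq_image_lineMap]; exact mem_image_of_mem _ hs

/-- clamping to `[p, q]` -/
noncomputable def clm (p q T : ℝ) : ℝ := max p (min q T)

theorem clm_of_mem {p q T : ℝ} (h1 : p ≤ T) (h2 : T ≤ q) : clm p q T = T := by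
  rw [clm, min_eq_right h2, max_eq_right h1]

theorem clm_of_le {p q T : ℝ} (h1 : T ≤ p) (hpq : p ≤ q) : clm p q T = p := by
  rw [clm, min_eq_right (h1.trans hpq), max_eq_left h1]

theorem clm_of_ge {p q T : ℝ} (h1 : q ≤ T) (hpq : p ≤ q) : clm p q T = q := by
  rw [clm, min_eq_left h1, max_eq_right hpq]

theorem clm_mem {p q : ℝ} (hpq : p ≤ q) (T : ℝ) : clm p q T ∈ Icc p q :=
  ⟨le_max_left _ _, max_le hpq (min_le_left _ _)⟩

theorem continuous_clm {p q : ℝ} : Continuous (clm p q) := by unfold clm; fun_prop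

theorem conicalOn_clm {p q : ℝ} : ConicalOn (clm p q) univ := by
  have hU : ConicalSet (univ : Set ℝ) := IsOpen.conicalSet isOpen_univ
  exact (conicalOn_const p hU).rmax ((conicalOn_const q hU).rmin (conicalOn_id hU)
    continuousOn_const continuousOn_id) continuousOn_const
    (continuous_const.min continuous_id).continuousOn

section

variable {m : ℕ} {a b : E} {h : E → Fin m → ℝ} {k : Fin m → ℝ → ℝ} {L : Fin m → Finset ℝ}
  {lo hi om : Fin m → ℝ → ℝ} {La : ℝ} {s1 s2 s3 s4 : E → ℝ}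

/-- **one crossing point**: the normalised band coordinate -/
theorem EdgeNum.exists_ze {s : Set E} (hs : s = segment ℝ a b) (hab : a ≠ b)
    (hinj : InjOn h s) (hc : ContinuousOn h s) (hk : ConicalOn h s)
    (hI : ∀ j, Ins1 (k j) (L j : Set ℝ) (lo j) (hi j)) (Φ : ConHomeo s (preQ k h s))
    (ha : prodK k (Φ.toFun a) = h a) (hb : prodK k (Φ.toFun b) = h b)
    (H : EdgeNum a b h k L lo hi om La Φ.toFun s1 s2 s3 s4) {x : E} {j : Fin m} (hx : x ∈ s)
    (hj : h x j ∈ L j) (hoth : ∀ j', j' ≠ j → h x j' ∉ L j') :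
    ∃ ze : ℝ → ℝ, Continuous ze ∧ ConicalOn ze univ ∧ (∀ T ≤ s2 x, ze T = 0) ∧
      (∀ T, s3 x ≤ T → ze T = 1) ∧ StrictMonoOn ze (Icc (s2 x) (s3 x)) ∧
      (∀ T ∈ Icc (s2 x) (s3 x), ∀ T' ∈ Icc (s2 x) (s3 x), T ≤ T' →
        om j (h x j) * (ze T' - ze T) ≤ La * ‖b - a‖ * (T' - T)) ∧
      ((∀ T ∈ Icc (s2 x) (s3 x), Φ.toFun (AffineMap.lineMap a b T) j =
          lo j (h x j) + (hi j (h x j) - lo j (h x j)) * ze T) ∨
        ∀ T ∈ Icc (s2 x) (s3 x), Φ.toFun (AffineMap.lineMap a b T) j =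
          hi j (h x j) - (hi j (h x j) - lo j (h x j)) * ze T) := by
  obtain ⟨sc, hsc⟩ : ∃ sc : ConHomeo (Icc (0:ℝ) 1) s, sc.toFun = AffineMap.lineMap a b :=
    ⟨(segC hab).cast rfl hs.symm, segC_toFun hab⟩
  have hcr : CrsPt a b h L x := ⟨hs ▸ hx, j, hj⟩
  have h0 : (AffineMap.lineMap a b (0:ℝ) : E) = a := AffineMap.lineMap_apply_zero a b
  have h1 : (AffineMap.lineMap a b (1:ℝ) : E) = b := AffineMap.lineMap_apply_one a b
  obtain ⟨τ, hτ⟩ := exists_edgePar sc hinj hc hk hI Φ (by rw [hsc, h0]; exact ha)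
    (by rw [hsc, h1]; exact hb)
  have hs₀ := sc.mapsTo_inv hx
  have hx₀ : sc.toFun (sc.invFun x) = x := sc.right_inv hx
  obtain ⟨p, q, hp0, hpq, hq1, hfib, hmono⟩ := hτ.cross sc hI Φ hinj hs₀ (j := j) (c := h x j)
    (by rw [hx₀]) hj (by rw [hx₀]; exact hoth)
  -- the fibres agree
  have hiff : ∀ t ∈ Icc (0:ℝ) 1, (t ∈ Icc p q ↔ s2 x ≤ t ∧ t ≤ s3 x) := by
    intro t ht
    rw [← hfib t ht, ← H.fib x hcr t ht]
    have e1 := hτ.eq t ht
    rw [← hsc, e1]
    constructor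
    · intro h2; rw [h2, hx₀]
    · intro h2
      have h3 := hinj (sc.mapsTo (hτ.maps ht)) hx h2
      rw [← h3, sc.left_inv (hτ.maps ht)]
  have b1 := H.a1 x hcr
  have b2 := H.a2 x hcr
  have b3 := H.a3 x hcr
  have b4 := H.a4 x hcr
  have b5 := H.a5 x hcr
  have hp : p = s2 x := by
    apply le_antisymm
    · exact ((hiff (s2 x) ⟨by linarith, by linarith⟩).2 ⟨le_refl _, b3.le⟩).1
    · exact ((hiff p ⟨hp0, by linarith⟩).1 ⟨le_refl _, hpq.le⟩).1
  have hq : q = s3 x := by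
    apply le_antisymm
    · exact ((hiff q ⟨by linarith, hq1⟩).1 ⟨hpq.le, le_refl _⟩).2
    · exact ((hiff (s3 x) ⟨by linarith, by linarith⟩).2 ⟨b3.le, le_refl _⟩).2
  subst hp hq
  have hlt := (hI j).lt _ hj
  set c := h x j with hcdef
  have hd : 0 < hi j c - lo j c := by linarith
  have hsub : ∀ T ∈ Icc (s2 x) (s3 x), T ∈ Icc (0:ℝ) 1 := fun T hT =>
    ⟨by linarith [hT.1], by linarith [hT.2]⟩
  -- the coordinate
  have hzc : ContinuousOn (fun T => Φ.toFun (sc.toFun T) j) (Icc 0 1) :=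
    (continuous_apply j).comp_continuousOn (Φ.cont.comp sc.cont sc.mapsTo)
  have hzk : ConicalOn (fun T => Φ.toFun (sc.toFun T) j) (Icc 0 1) := by
    have h2 : ConicalOn (fun T => Φ.toFun (sc.toFun T)) (Icc 0 1) :=
      Φ.conical.comp sc.conical sc.mapsTo sc.cont
    exact h2.linear_comp (LinearMap.proj j : (Fin m → ℝ) →ₗ[ℝ] ℝ)
  have hU : ConicalSet (univ : Set ℝ) := IsOpen.conicalSet isOpen_univ
  have hcl : ∀ T, clm (s2 x) (s3 x) T ∈ Icc (0:ℝ) 1 := fun T => hsub _ (clm_mem b3.le T)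
  have hgc : Continuous fun T => Φ.toFun (sc.toFun (clm (s2 x) (s3 x) T)) j :=
    hzc.comp_continuous continuous_clm hcl
  have hgk : ConicalOn (fun T => Φ.toFun (sc.toFun (clm (s2 x) (s3 x) T)) j) univ :=
    hzk.comp conicalOn_clm (fun T _ => hcl T) continuous_clm.continuousOn
  rcases hmono with ⟨hm, e2, e3⟩ | ⟨hm, e2, e3⟩
  · refine ⟨fun T => (hi j c - lo j c)⁻¹ * (Φ.toFun (sc.toFun (clm (s2 x) (s3 x) T)) j - lo j c),
      by fun_prop, ?_, fun T hT => ?_, fun T hT => ?_, ?_, ?_, Or.inl fun T hT => ?_⟩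
    · exact (hgk.sub (conicalOn_const (lo j c) hU)).const_smul (hi j c - lo j c)⁻¹
    · simp only
      rw [clm_of_le hT b3.le, e2, sub_self, mul_zero]
    · simp only
      rw [clm_of_ge hT b3.le, e3]
      exact inv_mul_cancel₀ hd.ne'
    · intro T hT T' hT' hTT
      simp only
      rw [clm_of_mem hT.1 hT.2, clm_of_mem hT'.1 hT'.2]
      have := hm hT hT' hTT
      simp only at this
      gcongr
    · intro T hT T' hT' hTT
      simp only
      rw [clm_of_mem hT.1 hT.2, clm_of_mem hT'.1 hT'.2]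
      have h2 := H.lip x (hs ▸ hx) j hj T' hT' T hT
      rw [← hsc] at h2
      have h3 := hm.monotoneOn hT hT' hTT
      rw [abs_of_nonneg (by linarith), abs_of_nonneg (by linarith)] at h2
      have e4 : om j c * ((hi j c - lo j c)⁻¹ * (Φ.toFun (sc.toFun T') j - lo j c) -
          (hi j c - lo j c)⁻¹ * (Φ.toFun (sc.toFun T) j - lo j c)) = (hi j c - lo j c)⁻¹ *
          (om j c * (Φ.toFun (sc.toFun T') j - Φ.toFun (sc.toFun T) j)) := by ring
      rw [e4, inv_mul_le_iff₀ hd]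
      exact h2
    · simp only
      rw [clm_of_mem hT.1 hT.2, ← hsc]
      field_simp
      ring
  · refine ⟨fun T => (hi j c - lo j c)⁻¹ * (hi j c - Φ.toFun (sc.toFun (clm (s2 x) (s3 x) T)) j),
      by fun_prop, ?_, fun T hT => ?_, fun T hT => ?_, ?_, ?_, Or.inr fun T hT => ?_⟩
    · exact ((conicalOn_const (hi j c) hU).sub hgk).const_smul (hi j c - lo j c)⁻¹
    · simp only
      rw [clm_of_le hT b3.le, e2, sub_self, mul_zero]
    · simp only
      rw [clm_of_ge hT b3.le, e3]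
      exact inv_mul_cancel₀ hd.ne'
    · intro T hT T' hT' hTT
      simp only
      rw [clm_of_mem hT.1 hT.2, clm_of_mem hT'.1 hT'.2]
      have := hm hT hT' hTT
      simp only at this
      gcongr
    · intro T hT T' hT' hTT
      simp only
      rw [clm_of_mem hT.1 hT.2, clm_of_mem hT'.1 hT'.2]
      have h2 := H.lip x (hs ▸ hx) j hj T hT T' hT'
      rw [← hsc] at h2
      have h3 := hm.antitoneOn hT hT' hTT
      rw [abs_of_nonneg (by linarith), abs_sub_comm T T', abs_of_nonneg (show 0 ≤ T' - T by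
        linarith)] at h2
      have e4 : om j c * ((hi j c - lo j c)⁻¹ * (hi j c - Φ.toFun (sc.toFun T') j) -
          (hi j c - lo j c)⁻¹ * (hi j c - Φ.toFun (sc.toFun T) j)) = (hi j c - lo j c)⁻¹ *
          (om j c * (Φ.toFun (sc.toFun T) j - Φ.toFun (sc.toFun T') j)) := by ring
      rw [e4, inv_mul_le_iff₀ hd]
      exact h2
    · simp only
      rw [clm_of_mem hT.1 hT.2, ← hsc]
      field_simp
      ring

end

end P073.H579
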