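import Vale.Agent.P073.H579.HFaceA

/-!
# P073, H579: **(HFACE)**, part B: gluing of the edge maps, the collapse of the boundary
-/

set_option linter.unusedSectionVars false

open Set Metric Topology Filter

namespace P073.H579

open P073.H31 P073.H155

variable {E : Type*} [NormedAddCommGroup E] [NormedSpace ℝ E]

/-- closed simple polygon -/
structure Gon (n : ℕ) (v : ℕ → E) : Prop where
  hn : 0 < n
  clo : v n = v 0
  inj : InjOn (cv n v) (Ico (0:ℝ) n)

namespace Gon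

variable {n : ℕ} {v : ℕ → E} (g : Gon n v)

/-- the boundary -/
def bd (n : ℕ) (v : ℕ → E) : Set E := cv n v '' Icc (0:ℝ) n

/-- the edge `i` -/
def seg (v : ℕ → E) (i : ℕ) : Set E := segment ℝ (v i) (v (i + 1))

theorem cv_add {i : ℕ} (hi : i < n) {s : ℝ} (hs : s ∈ Icc (0:ℝ) 1) :
    cv n v (i + s) = AffineMap.lineMap (v i) (v (i + 1)) s := by
  rw [cv_eq v hi (by linarith [hs.1]) (by linarith [hs.2]), AffineMap.lineMap_apply]
  simp [add_comm]

theorem cv_sub {i : ℕ} (hi : i < n) {T : ℝ} (h0 : (i:ℝ) ≤ T) (h1 : T ≤ i + 1) :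
    cv n v T = AffineMap.lineMap (v i) (v (i + 1)) (T - i) := by
  rw [← cv_add (n := n) hi (show T - i ∈ Icc (0:ℝ) 1 from ⟨by linarith, by linarith⟩)]
  congr 1
  ring

theorem seg_eq (i : ℕ) : seg v i = AffineMap.lineMap (v i) (v (i + 1)) '' Icc (0:ℝ) 1 :=
  segment_eq_image_lineMap ℝ _ _

include g

theorem bd_eq : bd n v = ⋃ i : Fin n, seg v i := by
  apply Subset.antisymm
  · rintro _ ⟨T, hT, rfl⟩
    obtain ⟨j, hj, h1, h2⟩ := P073.H155.Star.exists_edge g.hn hT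
    refine mem_iUnion.2 ⟨⟨j, hj⟩, ?_⟩
    rw [cv_sub hj h1 h2, seg_eq]
    exact mem_image_of_mem _ ⟨by linarith, by linarith⟩
  · refine iUnion_subset fun i => ?_
    rw [seg_eq]
    rintro _ ⟨s, hs, rfl⟩
    rw [← cv_add (n := n) i.2 hs]
    have h1 : ((i : ℕ) : ℝ) + 1 ≤ n := by exact_mod_cast i.2
    exact ⟨_, ⟨add_nonneg (Nat.cast_nonneg _) hs.1, by linarith [hs.2]⟩, rfl⟩

theorem seg_sub {i : ℕ} (hi : i < n) : seg v i ⊆ bd n v := by
  rw [g.bd_eq]; exact subset_iUnion (fun i : Fin n => seg v i) ⟨i, hi⟩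

theorem exists_seg {x : E} (hx : x ∈ bd n v) : ∃ i < n, x ∈ seg v i := by
  rw [g.bd_eq] at hx
  obtain ⟨i, hi⟩ := mem_iUnion.1 hx
  exact ⟨i, i.2, hi⟩

/-- an inner point of an edge is in no other edge -/
theorem uniq {i i' : ℕ} (hi : i < n) (hi' : i' < n) {s : ℝ} (hs : s ∈ Ioo (0:ℝ) 1)
    (h : (AffineMap.lineMap (v i) (v (i + 1)) s : E) ∈ seg v i') : i' = i := by
  rw [seg_eq] at h
  obtain ⟨s', hs', he⟩ := h
  rw [← cv_add (n := n) hi' hs', ← cv_add (n := n) hi ⟨hs.1.le, hs.2.le⟩] at he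
  have h1 : ((i : ℕ) : ℝ) + 1 ≤ n := by exact_mod_cast hi
  have h1' : ((i' : ℕ) : ℝ) + 1 ≤ n := by exact_mod_cast hi'
  have hn0 : (0:ℝ) < n := by exact_mod_cast g.hn
  have hm : (i:ℝ) + s ∈ Ico (0:ℝ) n :=
    ⟨add_nonneg (Nat.cast_nonneg _) hs.1.le, by linarith [hs.2]⟩
  by_cases hlast : (i':ℝ) + s' < n
  · have h2 := g.inj ⟨add_nonneg (Nat.cast_nonneg _) hs'.1, hlast⟩ hm he
    have h3 : (i':ℝ) < i + 1 := by linarith [hs'.1, hs.2]
    have h4 : (i:ℝ) < i' + 1 := by linarith [hs'.2, hs.1]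
    have h3' : i' < i + 1 := by exact_mod_cast h3
    have h4' : i < i' + 1 := by exact_mod_cast h4
    omega
  · exfalso
    have h2 : (i':ℝ) + s' = n := le_antisymm (by linarith [hs'.2]) (not_lt.1 hlast)
    rw [h2, cv_last v g.hn, g.clo, ← cv_zero v g.hn] at he
    have h3 := g.inj ⟨le_refl _, hn0⟩ hm he
    have : (0:ℝ) ≤ i := Nat.cast_nonneg _
    linarith [hs.1]

theorem ne {i : ℕ} (hi : i < n) : v i ≠ v (i + 1) := by
  intro he
  have h1 : ∀ s : ℝ, (AffineMap.lineMap (v i) (v (i + 1)) s : E) = v i := fun s => by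
    rw [← he, AffineMap.lineMap_same_apply]
  have h2 := (cv_add (n := n) (v := v) hi (show (0:ℝ) ∈ Icc (0:ℝ) 1 from ⟨le_refl _, zero_le_one⟩))
  have h3 := (cv_add (n := n) (v := v) hi (show (1/2:ℝ) ∈ Icc (0:ℝ) 1 from ⟨by norm_num, by norm_num⟩))
  rw [h1] at h2 h3
  have h4 : ((i : ℕ) : ℝ) + 1 ≤ n := by exact_mod_cast hi
  have h5 := g.inj (show (i:ℝ) + 0 ∈ Ico (0:ℝ) n from ⟨by positivity, by linarith⟩)
    (show (i:ℝ) + 1/2 ∈ Ico (0:ℝ) n from ⟨by positivity, by linarith⟩) (h2.trans h3.symm)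
  linarith

/-- common points of two edges are vertices -/
theorem ends {i i' : ℕ} (hi : i < n) (hi' : i' < n) (hne : i ≠ i') {x : E} (hx : x ∈ seg v i)
    (hx' : x ∈ seg v i') : x = v i ∨ x = v (i + 1) := by
  rw [seg_eq] at hx
  obtain ⟨s, hs, rfl⟩ := hx
  rcases hs.1.eq_or_lt with h1 | h1
  · left; rw [← h1, AffineMap.lineMap_apply_zero]
  rcases hs.2.eq_or_lt with h2 | h2
  · right; rw [h2, AffineMap.lineMap_apply_one]
  exact absurd (g.uniq hi hi' ⟨h1, h2⟩ hx').symm hne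

end Gon

open Gon (bd seg)

/-- the hypotheses on `h`, `k` -/
structure HIn {m : ℕ} (n : ℕ) (v : ℕ → E) (h : E → Fin m → ℝ) (k : Fin m → ℝ → ℝ)
    (L : Fin m → Finset ℝ) (lo hi : Fin m → ℝ → ℝ) : Prop where
  gon : Gon n v
  inj : InjOn h (bd n v)
  hc : ContinuousOn h (bd n v)
  hk : ConicalOn h (bd n v)
  hI : ∀ j, Ins1 (k j) (L j : Set ℝ) (lo j) (hi j)
  hv : ∀ i ≤ n, ∀ j, h (v i) j ∉ L j

/-- the edge maps -/
structure HEdge {m : ℕ} (n : ℕ) (v : ℕ → E) (h : E → Fin m → ℝ) (k : Fin m → ℝ → ℝ)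
    (Φe : ∀ i : Fin n, ConHomeo (seg v i) (preQ k h (seg v i))) : Prop where
  left : ∀ i : Fin n, prodK k ((Φe i).toFun (v i)) = h (v i)
  right : ∀ i : Fin n, prodK k ((Φe i).toFun (v (i + 1))) = h (v (i + 1))

section

variable {m n : ℕ} {v : ℕ → E} {h : E → Fin m → ℝ} {k : Fin m → ℝ → ℝ} {L : Fin m → Finset ℝ}
  {lo hi : Fin m → ℝ → ℝ}

theorem isCompact_seg (i : ℕ) : IsCompact (seg v i) := by
  rw [Gon.seg_eq]; exact isCompact_Icc.image (continuous_lineMap _ _)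

theorem preQ_iUnion {ι : Type*} {X : ι → Set E} : preQ k h (⋃ i, X i) = ⋃ i, preQ k h (X i) := by
  ext y
  simp only [preQ, image_iUnion, mem_ofPred_eq, mem_iUnion]

theorem isCompact_bd (n : ℕ) (v : ℕ → E) : IsCompact (bd n v) :=
  isCompact_Icc.image (continuous_cv n v)

/-- off the levels the fibre is one point -/
theorem HIn.fibre (H : HIn n v h k L lo hi) {x : E} (hx : ∀ j, h x j ∉ L j) {y y' : Fin m → ℝ}
    (hy : prodK k y = h x) (hy' : prodK k y' = h x) : y = y' := by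
  funext j
  have e1 : k j (y j) = h x j := congrFun hy j
  have e2 : k j (y' j) = h x j := congrFun hy' j
  exact (H.hI j).inj _ _ (e1.trans e2.symm) (by rw [e1]; exact hx j)

/-- **gluing of the edge maps** -/
theorem exists_GB (H : HIn n v h k L lo hi)
    {Φe : ∀ i : Fin n, ConHomeo (seg v i) (preQ k h (seg v i))} (He : HEdge n v h k Φe) :
    ∃ G : ConHomeo (bd n v) (preQ k h (bd n v)), ∀ i : Fin n,
      EqOn G.toFun (Φe i).toFun (seg v i) := by
  have hcompQ : ∀ i : Fin n, IsCompact (preQ k h (seg v i)) := fun i =>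
    isCompact_preQ ((isCompact_seg _).image_of_continuousOn (H.hc.mono (H.gon.seg_sub i.2))) H.hI
  -- the value at a vertex
  have hvert : ∀ (i : Fin n) x, x = v i ∨ x = v (i + 1) →
      prodK k ((Φe i).toFun x) = h x ∧ ∀ j, h x j ∉ L j := by
    intro i x hx
    rcases hx with rfl | rfl
    · exact ⟨He.left i, H.hv _ i.2.le⟩
    · exact ⟨He.right i, H.hv _ i.2⟩
  have hag : ∀ i i' : Fin n, EqOn (Φe i).toFun (Φe i').toFun (seg v i ∩ seg v i') := by
    intro i i' x hx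
    by_cases hii : i = i'
    · subst hii; rfl
    · have hne : (i : ℕ) ≠ i' := fun h => hii (Fin.ext h)
      have h1 := hvert i x (H.gon.ends i.2 i'.2 hne hx.1 hx.2)
      have h2 := hvert i' x (H.gon.ends i'.2 i.2 hne.symm hx.2 hx.1)
      exact H.fibre h1.2 h1.1 h2.1
  obtain ⟨G, hG⟩ := ConHomeo.exists_glue_family
    (RelLF.of_finite fun i : Fin n => (isCompact_seg (v := v) (i : ℕ)).isClosed)
    (RelLF.of_finite fun i : Fin n => (hcompQ i).isClosed) Φe hag (by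
      intro i i' y hy
      by_cases hii : i = i'
      · subst hii
        rw [inter_self, (Φe i).image_eq]
        exact hy.1
      · have hne : (i : ℕ) ≠ i' := fun h => hii (Fin.ext h)
        obtain ⟨⟨x, hx, hxy⟩, x', hx', hxy'⟩ := hy
        have hxx : x = x' := H.inj (H.gon.seg_sub i.2 hx) (H.gon.seg_sub i'.2 hx')
          (hxy.trans hxy'.symm)
        subst hxx
        have h1 := hvert i x (H.gon.ends i.2 i'.2 hne hx hx')
        exact ⟨x, ⟨hx, hx'⟩, H.fibre h1.2 h1.1 hxy.symm⟩)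
  refine ⟨G.cast H.gon.bd_eq.symm (by rw [H.gon.bd_eq]; exact preQ_iUnion.symm), fun i => (hG i).1⟩

/-- the collapse of the boundary -/
structure Colp (h : E → Fin m → ℝ) (k : Fin m → ℝ → ℝ) (L : Fin m → Finset ℝ) (n : ℕ) (v : ℕ → E)
    (G : E → Fin m → ℝ) (π : E → E) : Prop where
  cont : ContinuousOn π (bd n v)
  con : ConicalOn π (bd n v)
  eq : ∀ x ∈ bd n v, prodK k (G x) = h (π x)
  maps : ∀ i < n, MapsTo π (seg v i) (seg v i)
  im : π '' bd n v = bd n v
  inj : ∀ y ∈ bd n v, ∀ z ∈ bd n v, π y = π z → y = z ∨ ∃ i < n, ∃ s ∈ Ioo (0:ℝ) 1,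
    π y = AffineMap.lineMap (v i) (v (i + 1)) s ∧ (∃ j, h (π y) j ∈ L j) ∧
    y ∈ seg v i ∧ z ∈ seg v i

theorem exists_colp (H : HIn n v h k L lo hi)
    {Φe : ∀ i : Fin n, ConHomeo (seg v i) (preQ k h (seg v i))}
    {G : ConHomeo (bd n v) (preQ k h (bd n v))}
    (hG : ∀ i : Fin n, EqOn G.toFun (Φe i).toFun (seg v i)) :
    ∃ π : E → E, Colp h k L n v G.toFun π := by
  have hcomp := isCompact_bd n v
  obtain ⟨Hh, hHh⟩ : ∃ Hh : ConHomeo (bd n v) (h '' bd n v), Hh.toFun = h :=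
    ⟨ConHomeo.ofCompact hcomp h H.hc H.inj H.hk rfl, ConHomeo.ofCompact_toFun _ _ _ _ _ _⟩
  have hm : ∀ x ∈ bd n v, prodK k (G.toFun x) ∈ h '' bd n v := fun x hx => G.mapsTo hx
  have heq : ∀ x ∈ bd n v, prodK k (G.toFun x) = h (Hh.invFun (prodK k (G.toFun x))) := by
    intro x hx
    have := Hh.right_inv (hm x hx)
    rw [hHh] at this
    exact this.symm
  have hmem : ∀ x ∈ bd n v, Hh.invFun (prodK k (G.toFun x)) ∈ bd n v := fun x hx =>
    Hh.mapsTo_inv (hm x hx)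
  have hmaps : ∀ i < n, MapsTo (fun x => Hh.invFun (prodK k (G.toFun x))) (seg v i) (seg v i) := by
    intro i hi x hx
    have hxB := H.gon.seg_sub hi hx
    have h1 : G.toFun x ∈ preQ k h (seg v i) := by
      rw [hG ⟨i, hi⟩ hx]; exact (Φe ⟨i, hi⟩).mapsTo hx
    obtain ⟨z, hz, hzx⟩ := h1
    have h2 : z = Hh.invFun (prodK k (G.toFun x)) :=
      H.inj (H.gon.seg_sub hi hz) (hmem x hxB) (hzx.trans (heq x hxB))
    show Hh.invFun (prodK k (G.toFun x)) ∈ seg v i
    rw [← h2]; exact hz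
  have c1 : ContinuousOn (fun x => prodK k (G.toFun x)) (bd n v) :=
    (continuous_prodK fun j => (H.hI j).cont).comp_continuousOn G.cont
  have k1 : ConicalOn (fun x => prodK k (G.toFun x)) (bd n v) :=
    (conicalOn_prodK H.hI).comp G.conical (mapsTo_univ _ _) G.cont
  refine ⟨fun x => Hh.invFun (prodK k (G.toFun x)), Hh.cont_inv.comp c1 hm,
    Hh.conical_inv.comp k1 hm c1, heq, hmaps, ?_, ?_⟩
  · apply Subset.antisymm
    · rintro _ ⟨x, hx, rfl⟩; exact hmem x hx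
    · intro w hw
      choose y hy using fun j => (H.hI j).surj (h w j)
      have hyQ : y ∈ preQ k h (bd n v) := ⟨w, hw, (funext hy).symm⟩
      refine ⟨G.invFun y, G.mapsTo_inv hyQ, ?_⟩
      show Hh.invFun (prodK k (G.toFun (G.invFun y))) = w
      rw [G.right_inv hyQ]
      have h1 : prodK k y = Hh.toFun w := by rw [hHh]; exact funext hy
      rw [h1, Hh.left_inv hw]
  · intro y hy z hz he
    have he' : Hh.invFun (prodK k (G.toFun y)) = Hh.invFun (prodK k (G.toFun z)) := he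
    set w := Hh.invFun (prodK k (G.toFun y)) with hw
    have hwB : w ∈ bd n v := hmem y hy
    have h1 : prodK k (G.toFun y) = h w := heq y hy
    have h2 : prodK k (G.toFun z) = h w := by rw [heq z hz, ← he']
    by_cases hl : ∀ j, h w j ∉ L j
    · left
      exact G.injOn hy hz (H.fibre hl h1 h2)
    · right
      push Not at hl
      obtain ⟨i, hi, hwi⟩ := H.gon.exists_seg hwB
      rw [Gon.seg_eq] at hwi
      obtain ⟨s, hs, hsw⟩ := hwi
      have hs0 : s ≠ 0 := by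
        rintro rfl
        rw [AffineMap.lineMap_apply_zero] at hsw
        obtain ⟨j, hj⟩ := hl
        rw [← hsw] at hj
        exact H.hv i hi.le j hj
      have hs1 : s ≠ 1 := by
        rintro rfl
        rw [AffineMap.lineMap_apply_one] at hsw
        obtain ⟨j, hj⟩ := hl
        rw [← hsw] at hj
        exact H.hv (i + 1) hi j hj
      have hs' : s ∈ Ioo (0:ℝ) 1 := ⟨lt_of_le_of_ne hs.1 (Ne.symm hs0), lt_of_le_of_ne hs.2 hs1⟩
      have key : ∀ x ∈ bd n v, Hh.invFun (prodK k (G.toFun x)) = w → x ∈ seg v i := by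
        intro x hx hxw
        obtain ⟨i', hi', hxi⟩ := H.gon.exists_seg hx
        have h3 : w ∈ seg v i' := hxw ▸ hmaps i' hi' hxi
        rw [← hsw] at h3
        rwa [H.gon.uniq hi hi' hs' h3] at hxi
      exact ⟨i, hi, s, hs', hsw.symm, hl, key y hy rfl, key z hz he'.symm⟩

end

end P073.H579
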