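import Vale.Agent.P073.H579.HFaceM
import Vale.Agent.P073.H155.Sq

/-!
# P073, H579: **(HFACE)** with polygonal paths

The paths of `exists_hface_path`, `hface_mesh_path` are conical maps on `[0, 3]`, so they are
polygonal.
-/

set_option linter.unusedSectionVars false

open Set Metric Topology Filter
open scoped ENNReal

namespace P073.H579

open P073 P073.H31 P073.H155 P073.H142 Gon
open Vale.Agent.P073.H73 (Mesh)
open Vale.Agent.P073.H193 (Edges Cyc)
open Vale.Agent.P073.H155 (vv)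

theorem conicalOn_pth (x y : ℝ × ℝ) {X : Set ℝ} (hX : ConicalSet X) : ConicalOn (pth x y) X := by
  have h1 : ∀ a b : ℝ, ConicalOn (fun t : ℝ => a * t + b) X := conicalOn_affR hX
  have c1 : ∀ a b : ℝ, ConicalOn (fun t : ℝ => cl1 (a * t + b)) X := fun a b =>
    conicalOn_cl1 (h1 a b) (by fun_prop)
  refine ConicalOn.prodMk ?_ ?_
  · refine ((conicalOn_const x.1 hX).add ((c1 1 (-1)).const_smul (y.1 - x.1))).congr
      fun t _ => ?_
    simp only [smul_eq_mul]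
    rw [show (1:ℝ) * t + -1 = t - 1 by ring]
    ring
  · refine (((c1 (-1) 1).const_smul x.2).add ((c1 1 (-2)).const_smul y.2)).congr fun t _ => ?_
    simp only [smul_eq_mul]
    rw [show (-1:ℝ) * t + 1 = 1 - t by ring, show (1:ℝ) * t + -2 = t - 2 by ring]

/-- `H142.exists_path` with conical paths -/
theorem exists_pathC {E : Type*} [NormedAddCommGroup E] [NormedSpace ℝ E] {F : Set E}
    (χ : ConHomeo F Rct) {ws : ℝ} {A : ℕ → ArcD} {k : ℕ} (h0 : 0 < ws)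
    (hA : ∀ i < k, 0 < (A i).om) {cst : E → E → ℝ} {a₀ : ℝ} (ha : 0 ≤ a₀)
    (h : ∀ x ∈ F, ∀ y ∈ F, cst x y ≤ a₀ * dmd ws A k (χ.toFun x) (χ.toFun y)) :
    ∀ x ∈ F, ∀ y ∈ F, ∃ γ : ℝ → E, ContinuousOn γ (Icc 0 3) ∧ ConicalOn γ (Icc 0 3) ∧
      MapsTo γ (Icc 0 3) F ∧
      γ 0 = x ∧ γ 3 = y ∧ H880.cvar (fun s t => ENNReal.ofReal (cst (γ s) (γ t))) 0 3 ≤
        ENNReal.ofReal (a₀ * (4 * Wt ws A k)) := by
  intro x hx y hy
  have hx' := χ.mapsTo hx
  have hy' := χ.mapsTo hy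
  have hm : ∀ t, χ.invFun (pth (χ.toFun x) (χ.toFun y) t) ∈ F := fun t =>
    χ.mapsTo_inv (pth_mem hx' hy' t)
  have hI : ConicalSet (Icc (0:ℝ) 3) := conicalSet_Icc 0 3
  refine ⟨fun t => χ.invFun (pth (χ.toFun x) (χ.toFun y) t), ?_, ?_, fun t _ => hm t, ?_, ?_, ?_⟩
  · exact χ.cont_inv.comp (continuous_pth _ _).continuousOn fun t _ => pth_mem hx' hy' t
  · exact χ.symm.conical.comp (conicalOn_pth _ _ hI) (fun t _ => pth_mem hx' hy' t)
      (continuous_pth _ _).continuousOn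
  · show χ.invFun (pth (χ.toFun x) (χ.toFun y) 0) = x
    rw [pth_zero, χ.left_inv hx]
  · show χ.invFun (pth (χ.toFun x) (χ.toFun y) 3) = y
    rw [pth_three, χ.left_inv hy]
  · refine (cvar_mul_le (K := ENNReal.ofReal a₀) (c' := fun s t => ENNReal.ofReal
      (dmd ws A k (pth (χ.toFun x) (χ.toFun y) s) (pth (χ.toFun x) (χ.toFun y) t)))
      fun s _ t _ _ => ?_).trans ?_
    · rw [← ENNReal.ofReal_mul ha]
      refine ENNReal.ofReal_le_ofReal ?_
      have h1 := h _ (hm s) _ (hm t)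
      rwa [χ.right_inv (pth_mem hx' hy' s), χ.right_inv (pth_mem hx' hy' t)] at h1
    · rw [ENNReal.ofReal_mul ha]
      gcongr
      exact cvar_pth h0 hA hx' hy'

variable {E : Type*} [NormedAddCommGroup E] [NormedSpace ℝ E]

section

variable {m n : ℕ} {v : ℕ → E} {h : E → Fin m → ℝ} {k : Fin m → ℝ → ℝ} {L : Fin m → Finset ℝ}
  {lo hi om : Fin m → ℝ → ℝ}

/-- **(HFACE)** with paths: any two points of the face are joined by a path in the face along which
the variation of the bands is at most `8 * ∑ i, We i`. -/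
theorem exists_hface_pathC {A : Type*} [Finite A] [Inhabited (Fin m)] {C : Set E} {O : E} {r0 R : ℝ}
    (hS : Star n v O r0 R C) {S : A → Set E} {cd : A → Fin m} {lev : A → ℝ} {col : A → Bool}
    (HF : FacePat C (bd n v) h (fun j => (L j : Set ℝ)) S cd lev col)
    (hdis : ∀ α β, α ≠ β → cd α = cd β → Disjoint (S α) (S β))
    (hinj : InjOn h C) (hc : ContinuousOn h C) (hk : ConicalOn h C)
    (hI : ∀ j, Ins1 (k j) (L j : Set ℝ) (lo j) (hi j)) (hv : ∀ i ≤ n, ∀ j, h (v i) j ∉ L j)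
    (hom : ∀ j, ∀ c ∈ L j, 0 < om j c) {La We : Fin n → ℝ} (hLa : ∀ i, 0 ≤ La i)
    (hWe : ∀ i : Fin n, ∀ Y : Finset E, (∀ x ∈ Y, CrsPt (v i) (v (i + 1)) h L x) →
      ∑ x ∈ Y, omX h L om x ≤ We i)
    {Φe : ∀ i : Fin n, ConHomeo (seg v i) (preQ k h (seg v i))} (He : HEdge n v h k Φe)
    (hGE : ∀ i : Fin n, ∃ s1 s2 s3 s4 : E → ℝ,
      EdgeNum (v i) (v (i + 1)) h k L lo hi om (La i) (Φe i).toFun s1 s2 s3 s4) :
    ∃ Φ : ConHomeo C (preQ k h C), (∀ i : Fin n, EqOn Φ.toFun (Φe i).toFun (seg v i)) ∧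
      (∀ i : Fin n, ∀ x ∈ coneSetAt O (seg v i), ∀ y ∈ coneSetAt O (seg v i),
        bandD L lo hi om (Φ.toFun x) (Φ.toFun y) ≤
          156 * (1 + R / r0) * (La i + (∑ i, We i) / r0) * ‖x - y‖) ∧
      ∀ x ∈ C, ∀ y ∈ C, ∃ γ : ℝ → E, ContinuousOn γ (Icc 0 3) ∧
        ConicalOn γ (Icc 0 3) ∧ MapsTo γ (Icc 0 3) C ∧
        γ 0 = x ∧ γ 3 = y ∧ H880.cvar (fun s t => ENNReal.ofReal
          (bandD L lo hi om (Φ.toFun (γ s)) (Φ.toFun (γ t)))) 0 3 ≤
          ENNReal.ofReal (8 * ∑ i, We i) := by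
  classical
  have hBC : bd n v ⊆ C := HF.pat.hC.1
  have hn0 : (0:ℝ) < n := by exact_mod_cast hS.hn
  have hr0 := hS.rho0
  have hkB : ConicalSet (bd n v) := HF.pat.hC.conicalSet_bdry
  have H : HIn n v h k L lo hi := ⟨⟨hS.hn, hS.clo, hS.inj⟩, hinj.mono hBC, hc.mono hBC,
    hk.mono hkB hBC, hI, hv⟩
  obtain ⟨G, hG⟩ := exists_GB H He
  obtain ⟨π, hπ⟩ := exists_colp H hG
  -- arcs and levels
  have hlev : ∀ α, ∀ x ∈ S α, h x (cd α) = lev α := by
    intro α x hx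
    have h1 : x ∈ ⋃ (β) (_ : cd β = cd α ∧ lev β = lev α), S β :=
      mem_iUnion₂.2 ⟨α, ⟨rfl, rfl⟩, hx⟩
    rw [HF.eq (cd α) (lev α) (HF.mem α)] at h1
    exact h1.2
  have harc : ∀ x ∈ C, ∀ j, h x j ∈ L j → ∃ α, cd α = j ∧ lev α = h x j ∧ x ∈ S α := by
    intro x hx j hj
    have h1 : x ∈ {y | y ∈ C ∧ h y j = h x j} := ⟨hx, rfl⟩
    rw [← HF.eq j (h x j) hj] at h1
    obtain ⟨α, ⟨h2, h3⟩, h4⟩ := mem_iUnion₂.1 h1
    exact ⟨α, h2, h3, h4⟩
  -- the crossing points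
  have hfin : {x | x ∈ bd n v ∧ ∃ j, h x j ∈ L j}.Finite := by
    have h1 : {x | x ∈ bd n v ∧ ∃ j, h x j ∈ L j} ⊆ ⋃ α, S α ∩ bd n v := by
      rintro x ⟨hx, j, hj⟩
      obtain ⟨α, -, -, h4⟩ := harc x (hBC hx) j hj
      exact mem_iUnion.2 ⟨α, h4, hx⟩
    refine (finite_iUnion fun α => ?_).subset h1
    obtain ⟨p, q, -, hpq⟩ := exists_ends (HF.pat.hS α)
    rw [hpq]; exact toFinite _
  set X : Finset E := hfin.toFinset with hXdef
  have hX : ∀ x, x ∈ X ↔ x ∈ bd n v ∧ ∃ j, h x j ∈ L j := fun x => by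
    rw [hXdef, Finite.mem_toFinset]; rfl
  have hun : ∀ x ∈ bd n v, ∀ j j', h x j ∈ L j → h x j' ∈ L j' → j = j' := by
    intro x hx j j' hj hj'
    obtain ⟨α, h1, -, h2⟩ := harc x (hBC hx) j hj
    obtain ⟨β, h3, -, h4⟩ := harc x (hBC hx) j' hj'
    by_contra hne
    have hαβ : α ≠ β := by rintro rfl; exact hne (h1.symm.trans h3)
    exact Set.disjoint_left.1 (HF.pat.off α β hαβ) ⟨h2, h4⟩ hx
  have hSX : ∀ x, (∃ α, x ∈ S α ∩ bd n v) ↔ x ∈ X := by
    intro x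
    rw [hX]
    constructor
    · rintro ⟨α, hx, hxB⟩
      exact ⟨hxB, cd α, by rw [hlev α x hx]; exact HF.mem α⟩
    · rintro ⟨hxB, j, hj⟩
      obtain ⟨α, -, -, h4⟩ := harc x (hBC hxB) j hj
      exact ⟨α, h4, hxB⟩
  have hoth : ∀ x ∈ X, ∀ j, h x j ∈ L j → ∀ j', j' ≠ j → h x j' ∉ L j' := fun x hx j hj j' hne hj' =>
    hne (hun x ((hX x).1 hx).1 j' j hj' hj)
  have homX : ∀ x ∈ X, 0 < omX h L om x := by
    intro x hx
    obtain ⟨j, hj⟩ := ((hX x).1 hx).2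
    rw [omX_eq hj (hoth x hx j hj)]
    exact hom j _ hj
  -- the total weight
  have hWX : ∑ x ∈ X, omX h L om x ≤ ∑ i, We i := by
    calc ∑ x ∈ X, omX h L om x
        ≤ ∑ x ∈ X, ∑ i : Fin n, if x ∈ seg v i then omX h L om x else 0 := by
          refine Finset.sum_le_sum fun x hx => ?_
          obtain ⟨i, hi', hxi⟩ := H.gon.exists_seg ((hX x).1 hx).1
          have h1 : ∀ i' ∈ (Finset.univ : Finset (Fin n)),
              0 ≤ if x ∈ seg v i' then omX h L om x else 0 := by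
            intro i' _
            split_ifs
            · exact (homX x hx).le
            · exact le_refl _
          have h2 := Finset.single_le_sum h1 (Finset.mem_univ (⟨i, hi'⟩ : Fin n))
          rwa [if_pos hxi] at h2
      _ = ∑ i : Fin n, ∑ x ∈ X.filter (fun x => x ∈ seg v i), omX h L om x := by
          rw [Finset.sum_comm]
          refine Finset.sum_congr rfl fun i _ => ?_
          rw [Finset.sum_filter]
      _ ≤ ∑ i, We i := Finset.sum_le_sum fun i _ => hWe i _ fun x hx =>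
          ⟨(Finset.mem_filter.1 hx).2, ((hX x).1 (Finset.mem_filter.1 hx).1).2⟩
  obtain ⟨S1, S2, S3, S4, ze, hP, hC, hGz, hnum⟩ := exists_posIn H He hG hπ hom hX hun hGE
  -- the boundary data
  obtain ⟨ws, hws, hws1, hws2, hws3⟩ : ∃ ws : ℝ, 0 < ws ∧ ∑ x ∈ X, omX h L om x ≤ ws ∧
      (X.Nonempty → ws ≤ 2 * ∑ x ∈ X, omX h L om x) ∧ (X.Nonempty → ws ≤ ∑ i, We i) := by
    rcases Finset.eq_empty_or_nonempty X with h1 | h1
    · refine ⟨1, one_pos, ?_, fun h2 => absurd h1 h2.ne_empty, fun h2 => absurd h1 h2.ne_empty⟩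
      rw [h1, Finset.sum_empty]; exact zero_le_one
    · have h2 : 0 < ∑ x ∈ X, omX h L om x := Finset.sum_pos homX h1
      exact ⟨_, h2, le_refl _, fun _ => by linarith, fun _ => hWX⟩
  obtain ⟨χ, l, r, hχB, D, hO, hform, hmet⟩ := hS.exists_bd hP hC hSX hws hws1 hws2
  have hχB : χ.toFun '' bd n v = bR := hχB
  have D : BdData (bd n v) S (fun z => π (χ.invFun z)) l r := D
  obtain ⟨n', e, Aq, π', PF⟩ := exists_pface HF hdis hinj hc hk χ hχB D
    (om := fun α => om (cd α) (lev α)) (fun α => hom _ _ (HF.mem α)) hws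
  have hγ : ∀ x ∈ bd n v, π (χ.invFun (χ.toFun x)) = π x := fun x hx => by
    rw [χ.left_inv (hBC hx)]
  obtain ⟨Φ, hΦG, hΦk, -, hband⟩ := PF.ext k lo hi hI G.toFun G.cont
    (fun x hx => by
      show prodK k (G.toFun x) = h (π (χ.invFun (χ.toFun x)))
      rw [hγ x hx]; exact hπ.eq x hx)
    (by
      intro α c hcα
      have hcX : c ∈ X := (hSX c).1 ⟨α, hcα⟩
      have hcl := hlev α c hcα.1
      have hj : h c (cd α) ∈ L (cd α) := by rw [hcl]; exact HF.mem α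
      have hlr := hO.lr c hcX
      -- every point over the interval
      have key : ∀ x ∈ bd n v, ∀ a ∈ Icc (l c) (r c), χ.toFun x = (a, 1) →
          ∃ T ∈ Icc (S2 c) (S3 c), cv n v T = x ∧ posI l r c a = ze c T := by
        intro x hx a ha hxa
        have hd : 0 < r c - l c := by linarith
        have h1 : posI l r c a ∈ Icc (ze c (S2 c)) (ze c (S3 c)) := by
          rw [hP.z0 c hcX _ le_rfl, hP.z1 c hcX _ le_rfl]
          exact ⟨div_nonneg (by linarith [ha.1]) hd.le, (div_le_one hd).2 (by linarith [ha.2])⟩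
        obtain ⟨T, hT, hTz⟩ := intermediate_value_Icc (hP.a3 c hcX).le
          (hP.zc c hcX).continuousOn h1
        refine ⟨T, hT, ?_, hTz.symm⟩
        have hTn : T ∈ Icc (0:ℝ) n := by
          have := hP.a1 c hcX
          have := hP.a2 c hcX
          have := hP.a4 c hcX
          have := hP.a5 c hcX
          exact ⟨by linarith [hT.1], by linarith [hT.2]⟩
        have h2 := hform c hcX T hT
        apply χ.injOn (hBC (mem_image_of_mem _ hTn)) (hBC hx)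
        rw [h2, hxa, hTz, posI]
        refine Prod.ext ?_ rfl
        field_simp
        ring
      rcases hGz c hcX (cd α) hj with h1 | h1
      · left
        intro x hx a ha hxa
        obtain ⟨T, hT, hTx, hTz⟩ := key x hx a ha hxa
        rw [hTz, ← hTx, h1 T hT, hcl]
      · right
        intro x hx a ha hxa
        obtain ⟨T, hT, hTx, hTz⟩ := key x hx a ha hxa
        rw [hTz, ← hTx, h1 T hT, hcl])
  -- the ends of the arcs
  have hx_of : ∀ i : Fin n', ∃ x y, x ∈ S (e i) ∩ bd n v ∧ y ∈ S (e i) ∩ bd n v ∧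
      l x < l y ∧ (Aq i).p = l x ∧ (Aq i).w = r x - l x ∧ (Aq i).q = r y ∧
      (Aq i).w' = r y - l y := by
    intro i
    obtain ⟨-, x, y, h1, h2, -, h3, h4, h5, h6, h7⟩ := PF.arc i
    exact ⟨x, y, h1, h2, h3, h4, h5, h6, h7⟩
  have homA : ∀ i : Fin n', ∀ x ∈ S (e i) ∩ bd n v, omX h L om x = (Aq i).om := by
    intro i x hx
    have hxX : x ∈ X := (hSX x).1 ⟨_, hx⟩
    have hl' := hlev (e i) x hx.1
    have hj : h x (cd (e i)) ∈ L (cd (e i)) := by rw [hl']; exact HF.mem _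
    rw [omX_eq hj (hoth x hxX _ hj), hl']
    exact (PF.arc i).1.symm
  have hends : Ends n' Aq X l r (omX h L om) := by
    refine ⟨fun i hi' => ?_⟩
    obtain ⟨x, y, h1, h2, h3, h4, h5, h6, h7⟩ := hx_of ⟨i, hi'⟩
    refine ⟨x, (hSX x).1 ⟨_, h1⟩, y, (hSX y).1 ⟨_, h2⟩, h4, h5, h6, h7, h3, ?_, ?_⟩
    · exact (homA ⟨i, hi'⟩ x h1).ge
    · exact (homA ⟨i, hi'⟩ y h2).ge
  have hsum : ∑ i ∈ Finset.range n', (Aq i).om ≤ ws := by
    refine le_trans ?_ hws1
    choose xx yy hxx using hx_of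
    rw [← Fin.sum_univ_eq_sum_range (fun i => (Aq i).om) n']
    have h1 : ∑ i : Fin n', (Aq i).om = ∑ i : Fin n', omX h L om (xx i) :=
      Finset.sum_congr rfl fun i _ => (homA i (xx i) (hxx i).1).symm
    have hinj' : InjOn xx (Finset.univ : Finset (Fin n')) := by
      intro i _ i' _ hii
      by_contra hne
      have hee : e i ≠ e i' := fun h => hne (e.injective h)
      refine Set.disjoint_left.1 (HF.pat.off _ _ hee) ⟨(hxx i).1.1, ?_⟩ (hxx i).1.2
      rw [hii]; exact (hxx i').1.1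
    rw [h1, ← Finset.sum_image (f := omX h L om) hinj']
    refine Finset.sum_le_sum_of_subset_of_nonneg ?_ fun x hx _ => (homX x hx).le
    intro x hx
    obtain ⟨i, -, rfl⟩ := Finset.mem_image.1 hx
    exact (hSX _).1 ⟨_, (hxx i).1⟩
  have hbd : ∀ x ∈ C, ∀ y ∈ C, bandD L lo hi om (Φ.toFun x) (Φ.toFun y) ≤
      dmd ws Aq n' (χ.toFun x) (χ.toFun y) := by
    intro x hxC y hyC
    set dm : Fin n' → ℝ := fun i' => |md ws Aq n' i' (χ.toFun x).1 (χ.toFun x).2 -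
      md ws Aq n' i' (χ.toFun y).1 (χ.toFun y).2| with hdm
    have h1 : ∀ j, ∀ c ∈ L j, om j c / (hi j c - lo j c) *
        |rho (lo j) (hi j) c (Φ.toFun x j) - rho (lo j) (hi j) c (Φ.toFun y j)| ≤
        ∑ i' : Fin n', if cd (e i') = j ∧ lev (e i') = c then (Aq i').om * dm i' else 0 := by
      intro j c hc'
      have h2 := hband j c hc' x hxC y hyC
      have hlt := (hI j).lt c hc'
      have hd : 0 < hi j c - lo j c := by linarith
      have h3 : 0 ≤ om j c / (hi j c - lo j c) := div_nonneg (hom j c hc').le hd.le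
      refine (mul_le_mul_of_nonneg_left h2 h3).trans (le_of_eq ?_)
      rw [Finset.mul_sum]
      refine Finset.sum_congr rfl fun i' _ => ?_
      by_cases h4 : cd (e i') = j ∧ lev (e i') = c
      · rw [if_pos h4, if_pos h4, h4.2, ← mul_assoc, div_mul_cancel₀ _ hd.ne', (PF.arc i').1, h4.1,
          h4.2]
      · rw [if_neg h4, if_neg h4, mul_zero]
    unfold bandD
    calc ∑ j, ∑ c ∈ L j, om j c / (hi j c - lo j c) *
          |rho (lo j) (hi j) c (Φ.toFun x j) - rho (lo j) (hi j) c (Φ.toFun y j)|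
        ≤ ∑ j, ∑ c ∈ L j, ∑ i' : Fin n',
            if cd (e i') = j ∧ lev (e i') = c then (Aq i').om * dm i' else 0 :=
          Finset.sum_le_sum fun j _ => Finset.sum_le_sum fun c hc' => h1 j c hc'
      _ = ∑ i' : Fin n', (Aq i').om * dm i' := by
          rw [Finset.sum_congr rfl fun j _ => Finset.sum_comm, Finset.sum_comm]
          refine Finset.sum_congr rfl fun i' _ => ?_
          rw [Finset.sum_eq_single (cd (e i')), Finset.sum_eq_single (lev (e i'))]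
          · rw [if_pos ⟨rfl, rfl⟩]
          · intro c _ hne
            rw [if_neg fun h4 => hne h4.2.symm]
          · intro h4
            exact absurd (HF.mem (e i')) h4
          · intro j _ hne
            refine Finset.sum_eq_zero fun c _ => ?_
            rw [if_neg fun h4 => hne h4.1.symm]
          · intro h4; exact absurd (Finset.mem_univ _) h4
      _ = dmd ws Aq n' (χ.toFun x) (χ.toFun y) := by
          unfold dmd
          rw [← Fin.sum_univ_eq_sum_range (fun i' => (Aq i').om *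
            |md ws Aq n' i' (χ.toFun x).1 (χ.toFun x).2 -
              md ws Aq n' i' (χ.toFun y).1 (χ.toFun y).2|) n']
  have hR0 : 0 ≤ R := (norm_nonneg _).trans (hS.R 0 (Nat.zero_le _))
  -- no arcs
  have hnoarc : X = ∅ → n' = 0 := by
    intro hXe
    rcases Nat.eq_zero_or_pos n' with h1 | h1
    · exact h1
    · obtain ⟨x', hx', -⟩ := hends.ends 0 h1
      rw [hXe] at hx'
      exact absurd hx' (Finset.notMem_empty x')
  have hApos : ∀ i < n', 0 < (Aq i).om := fun i hi' => (PF.good i hi').om0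
  refine ⟨Φ, fun i x hx => ?_, fun i x hx' y hy' => ?_, ?_⟩
  · rw [hΦG (H.gon.seg_sub i.2 hx)]
    exact hG i hx
  swap
  · -- the paths
    rcases Finset.eq_empty_or_nonempty X with hXe | hXne
    · have hk0 := hnoarc hXe
      intro x hx y hy
      obtain ⟨γ, g1, gc, g2, g3, g4, g5⟩ := exists_pathC χ hws hApos (a₀ := 0) le_rfl
        (cst := fun x y => bandD L lo hi om (Φ.toFun x) (Φ.toFun y)) (fun x hx y hy => by
          refine (hbd x hx y hy).trans (le_of_eq ?_)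
          subst hk0; unfold dmd; simp) x hx y hy
      refine ⟨γ, g1, gc, g2, g3, g4, g5.trans (ENNReal.ofReal_le_ofReal ?_)⟩
      have h1 : 0 ≤ ∑ i, We i := by
        have := hWX
        rw [hXe, Finset.sum_empty] at this
        exact this
      linarith
    · intro x hx y hy
      obtain ⟨γ, g1, gc, g2, g3, g4, g5⟩ := exists_pathC χ hws hApos (a₀ := 1) zero_le_one
        (cst := fun x y => bandD L lo hi om (Φ.toFun x) (Φ.toFun y)) (fun x hx y hy => by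
          rw [one_mul]; exact hbd x hx y hy) x hx y hy
      refine ⟨γ, g1, gc, g2, g3, g4, g5.trans (ENNReal.ofReal_le_ofReal ?_)⟩
      have h1 := hws3 hXne
      unfold Wt
      linarith
  -- the metric estimate
  have hsegC : coneSetAt O (seg v i) ⊆ C := by
    rw [← hS.cone]
    rintro z ⟨s, hs, w, hw, rfl⟩
    exact ⟨s, hs, w, H.gon.seg_sub i.2 hw, rfl⟩
  have hbd := hbd x (hsegC hx') y (hsegC hy')
  rcases Finset.eq_empty_or_nonempty X with hXe | hXne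
  · have hk0 := hnoarc hXe
    have h0 : dmd ws Aq n' (χ.toFun x) (χ.toFun y) = 0 := by
      subst hk0; unfold dmd; simp
    rw [h0] at hbd
    refine hbd.trans ?_
    have h1 : 0 ≤ ∑ i, We i := by
      have := hWX
      rw [hXe, Finset.sum_empty] at this
      exact this
    have h2 := hLa i
    positivity
  · refine hbd.trans ((hmet n' Aq PF.pos hends hsum i i.2 (La i) (hLa i) (hnum i) x hx' y hy').trans
      ?_)
    have h1 := hws3 hXne
    gcongr

end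

open Vale.Agent.P073.St (V) in
/-- **(HFACE)** for a face of a mesh, with polygonal paths -/
theorem hface_mesh_pathC {Ω Λ Λ' : Set V} {M : Mesh Ω} {Ed : Edges M} {h : ConHomeo Ω Λ} {κ : V → V}
    {k₀ : M.κ} (Cy : Cyc Ed k₀) {O : V} {r0 R : ℝ}
    (hS : P073.H155.Star (Cy.n + 1) (vv Cy) O r0 R (M.F k₀))
    {k : Fin 3 → ℝ → ℝ} {L : Fin 3 → Finset ℝ} {lo hi om : Fin 3 → ℝ → ℝ}
    (Z : Zone κ Λ' h k (M.F k₀)) (hI : ∀ j, Ins1 (k j) (L j : Set ℝ) (lo j) (hi j))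
    {A : Type*} [Finite A] {S : A → Set V} {cd : A → Fin 3} {lev : A → ℝ} {col : A → Bool}
    (HF : FacePat (M.F k₀) (intrinsicFrontier ℝ (M.F k₀)) h.toFun (fun j => (L j : Set ℝ)) S cd
      lev col)
    (hdis : ∀ α β, α ≠ β → cd α = cd β → Disjoint (S α) (S β))
    (hv : ∀ x ∈ Ed.verts, x ∈ M.F k₀ → ∀ j, h.toFun x j ∉ L j)
    (hom : ∀ j, ∀ c ∈ L j, 0 < om j c) {La We : Ed.ε → ℝ} (hLa : ∀ e, 0 ≤ La e)
    (hWe : ∀ e, Ed.seg e ⊆ M.F k₀ → ∀ Y : Finset V,
      (∀ x ∈ Y, CrsPt (Ed.a e) (Ed.b e) h.toFun L x) → ∑ x ∈ Y, omX h.toFun L om x ≤ We e)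
    (Φe : ∀ e, Ed.seg e ⊆ M.F k₀ → ConHomeo (Ed.seg e) (Pre κ Λ' h (Ed.seg e)))
    (hGE : ∀ e he, ∃ s1 s2 s3 s4 : V → ℝ, EdgeNum (Ed.a e) (Ed.b e) h.toFun k L lo hi om (La e)
      (Φe e he).toFun s1 s2 s3 s4)
    (hend : ∀ e he, ∀ x ∈ Ed.seg e, x ∈ Ed.verts → κ ((Φe e he).toFun x) = h.toFun x) :
    ∃ Φ : ConHomeo (M.F k₀) (Pre κ Λ' h (M.F k₀)),
      (∀ e, Ed.seg e ⊆ M.F k₀ → ∀ x ∈ coneSetAt O (Ed.seg e), ∀ y ∈ coneSetAt O (Ed.seg e),
        bandD L lo hi om (Φ.toFun x) (Φ.toFun y) ≤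
          156 * (1 + R / r0) * (La e + (∑ e ∈ (Ed.fin_face k₀).toFinset, We e) / r0) *
            ‖x - y‖) ∧
      (∀ e he, EqOn Φ.toFun (Φe e he).toFun (Ed.seg e)) ∧
      ∀ x ∈ M.F k₀, ∀ y ∈ M.F k₀, ∃ γ : ℝ → V, ContinuousOn γ (Icc 0 3) ∧
        ConicalOn γ (Icc 0 3) ∧ MapsTo γ (Icc 0 3) (M.F k₀) ∧ γ 0 = x ∧ γ 3 = y ∧
        H880.cvar (fun s t => ENNReal.ofReal
          (bandD L lo hi om (Φ.toFun (γ s)) (Φ.toFun (γ t)))) 0 3 ≤
          ENNReal.ofReal (8 * ∑ e ∈ (Ed.fin_face k₀).toFinset, We e) := by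
  classical
  have hFΩ : M.F k₀ ⊆ Ω := Vale.Agent.P073.H193.mesh_sub M k₀
  have hbd : Gon.bd (Cy.n + 1) (vv Cy) = intrinsicFrontier ℝ (M.F k₀) :=
    Vale.Agent.P073.H155.cv_vv_image Cy
  have hof : ∀ i : Fin (Cy.n + 1), Fin.ofNat (Cy.n + 1) (i : ℕ) = i := fun i => by
    apply Fin.ext
    simp [Fin.ofNat, Nat.mod_eq_of_lt i.2]
  have hvv : ∀ i : Fin (Cy.n + 1), vv Cy i = Cy.v i := fun i => by
    unfold vv; rw [hof]
  have hvv1 : ∀ i : Fin (Cy.n + 1), vv Cy (i + 1) = Cy.v (i + 1) := fun i => by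
    rw [Vale.Agent.P073.H155.vv_succ, hof]
  have hseg : ∀ i : Fin (Cy.n + 1), Gon.seg (vv Cy) i = Ed.seg (Cy.c i) := fun i => by
    rw [Gon.seg, hvv, hvv1, Cy.seg]
  have hpre : ∀ i : Fin (Cy.n + 1), Pre κ Λ' h (Ed.seg (Cy.c i)) =
      preQ k h.toFun (Gon.seg (vv Cy) i) := fun i => by
    rw [hseg]; exact Z.pre_eq (Cy.sub i)
  -- the vertices
  have hvert : ∀ i : ℕ, vv Cy i ∈ Ed.verts ∧ vv Cy i ∈ M.F k₀ := by
    intro i
    set i' := Fin.ofNat (Cy.n + 1) i with hi'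
    have e1 : vv Cy i = Cy.v i' := rfl
    rw [e1]
    have h2 : Cy.v i' ∈ Ed.seg (Cy.c i') := by
      rw [Cy.seg]; exact left_mem_segment ℝ _ _
    refine ⟨?_, Cy.sub i' h2⟩
    rcases Cy.ends i' with h1 | h1
    · rw [h1.1]; exact Or.inl ⟨_, rfl⟩
    · rw [h1.1]; exact Or.inr ⟨_, rfl⟩
  -- the edge maps
  let Ψ : ∀ i : Fin (Cy.n + 1),
      ConHomeo (Gon.seg (vv Cy) i) (preQ k h.toFun (Gon.seg (vv Cy) i)) :=
    fun i => (Φe (Cy.c i) (Cy.sub i)).cast (hseg i).symm (hpre i)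
  have hΨ : ∀ i, (Ψ i).toFun = (Φe (Cy.c i) (Cy.sub i)).toFun := fun i => rfl
  have hend' : ∀ i : Fin (Cy.n + 1), ∀ x ∈ Gon.seg (vv Cy) i, x ∈ Ed.verts →
      prodK k ((Ψ i).toFun x) = h.toFun x := by
    intro i x hx hxv
    have hx' : x ∈ Ed.seg (Cy.c i) := hseg i ▸ hx
    rw [hΨ, ← hend (Cy.c i) (Cy.sub i) x hx' hxv]
    exact (Z.eq (Cy.sub i) ((Φe (Cy.c i) (Cy.sub i)).mapsTo hx')).symm
  obtain ⟨Φ, hΦ1, hΦ2, hΦ3⟩ := exists_hface_pathC (k := k) (L := L) (lo := lo) (hi := hi) (om := om)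
    (h := h.toFun) hS (by rw [hbd]; exact HF) hdis (h.injOn.mono hFΩ) (h.cont.mono hFΩ)
    (h.conical.mono (HF.pat.hC.conicalSet) hFΩ) hI
    (fun i _ j => hv _ (hvert i).1 (hvert i).2 j) hom
    (La := fun i => La (Cy.c i)) (We := fun i => We (Cy.c i)) (fun i => hLa _)
    (fun i Y hY => hWe _ (Cy.sub i) Y fun x hx => by
      have h1 := hY x hx
      refine ⟨?_, h1.2⟩
      have h2 : x ∈ Gon.seg (vv Cy) i := h1.1
      rw [hseg] at h2
      exact h2)
    (Φe := Ψ) ⟨fun i => hend' i _ (left_mem_segment ℝ _ _) (hvert i).1,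
      fun i => hend' i _ (right_mem_segment ℝ _ _) (hvert (i + 1)).1⟩
    (fun i => by
      obtain ⟨s1, s2, s3, s4, hs⟩ := hGE (Cy.c i) (Cy.sub i)
      rw [hΨ, hvv, hvv1]
      rcases Cy.ends i with ⟨h1, h2⟩ | ⟨h1, h2⟩
      · rw [h1, h2]; exact ⟨s1, s2, s3, s4, hs⟩
      · rw [h1, h2]; exact ⟨_, _, _, _, hs.symm⟩)
  have h2 : ∑ i, We (Cy.c i) = ∑ e ∈ (Ed.fin_face k₀).toFinset, We e := by
    have h3 : (Ed.fin_face k₀).toFinset = Finset.univ.image Cy.c := by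
      ext e'
      rw [Finite.mem_toFinset, Finset.mem_image]
      constructor
      · intro h4
        obtain ⟨i', hi'⟩ := Cy.surj e' h4
        exact ⟨i', Finset.mem_univ _, hi'⟩
      · rintro ⟨i', -, rfl⟩
        exact Cy.sub i'
    rw [h3, Finset.sum_image fun a _ b _ hab => Cy.cinj hab]
  rw [h2] at hΦ2 hΦ3
  refine ⟨Φ.cast rfl (Z.pre_eq Subset.rfl).symm, fun e he x hx y hy => ?_, fun e he x hx => ?_,
    hΦ3⟩
  · obtain ⟨i, rfl⟩ := Cy.surj e he
    exact hΦ2 i x (by rw [hseg]; exact hx) y (by rw [hseg]; exact hy)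
  · obtain ⟨i, rfl⟩ := Cy.surj e he
    have h1 := hΦ1 i (show x ∈ Gon.seg (vv Cy) i by rw [hseg]; exact hx)
    exact h1


end P073.H579
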