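import Vale.Agent.P073.H579.OscLP
import Vale.Agent.P073.H190.TvpS
import Vale.Agent.P073.H950.Adapt5

/-!
# P073, H579: **[OSC-LP]**, the number of levels on a listed face

* `zone_free`, `PIns.bandD_free`: a face without level points: the bands do not vary;
* `PatS.free`: a face with a pattern and no level point on its boundary has no level point;
* `PIns.exists_ev_osc_cnt`: the oscillation on a listed face is at most
  `8 (36 a nE ω + Nk e)`, `nE` the number of level points of `h1` on the edges of the face;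
* `nE_len_le`: `ω nE ≤ 2 Cw b + 2 ∑ εw e`, from the crossings of the edges and `FHyp`.
-/

open Set Metric Topology Filter
open scoped ENNReal

set_option linter.unusedSectionVars false

namespace P073.H579

open P073 P073.H880 P073.H919
open Vale.Agent.P073.St (V)

/-- a connected set which avoids the flat -/
theorem rho_avoid {X : Type*} [TopologicalSpace X] {C : Set X} (hC : IsPreconnected C) {u : X → ℝ}
    (hu : ContinuousOn u C) {lo hi : ℝ → ℝ} {c : ℝ} (hlt : lo c < hi c)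
    (hav : ∀ x ∈ C, ¬ (lo c ≤ u x ∧ u x ≤ hi c)) {x y : X} (hx : x ∈ C) (hy : y ∈ C) :
    rho lo hi c (u x) = rho lo hi c (u y) :=
  P073.H142.rho_const (u := fun t => t) (hC.image u hu) continuousOn_id hlt
    (by rintro _ ⟨z, hz, rfl⟩; exact hav z hz) (mem_image_of_mem u hx) (mem_image_of_mem u hy)

/-- **no levels**: the bands do not vary after the insertion -/
theorem zone_free {Ω Λ : Set V} {κ : V → V} {h g : ConHomeo Ω Λ} {k : Fin 3 → ℝ → ℝ} {C : Set V}
    {L : Fin 3 → Finset ℝ} {lo hi om : Fin 3 → ℝ → ℝ} (hC : C ⊆ Ω) (hcn : IsPreconnected C)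
    (Z : Zone κ Λ h k C) (hk : ∀ j, Ins1 (k j) (L j) (lo j) (hi j))
    (himg : g.toFun '' C = Pre κ Λ h C)
    (hfree : ∀ x ∈ C, ∀ j, h.toFun x j ∉ L j) {z z' : V} (hz : z ∈ C)
    (hz' : z' ∈ C) : bandD L lo hi om (g.toFun z) (g.toFun z') = 0 := by
  have hpre : g.toFun '' C = preQ k h.toFun C := himg.trans (Z.pre_eq Subset.rfl)
  unfold bandD
  refine Finset.sum_eq_zero fun j _ => Finset.sum_eq_zero fun c hc => ?_
  have h1 : rho (lo j) (hi j) c (g.toFun z j) = rho (lo j) (hi j) c (g.toFun z' j) := by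
    refine rho_avoid hcn (u := fun x => g.toFun x j)
      (((continuous_apply j).comp_continuousOn g.cont).mono hC) ((hk j).lt c hc)
      (fun x hx hcon => ?_) hz hz'
    have h2 : g.toFun x ∈ preQ k h.toFun C := hpre ▸ mem_image_of_mem _ hx
    obtain ⟨x', hx', hxe⟩ := h2
    refine hfree x' hx' j ?_
    have h3 := ((hk j).flat c hc _).2 hcon
    have h4 : h.toFun x' j = c := by
      have h5 := congrFun hxe j
      rw [h5]
      exact h3
    rw [h4]
    exact hc
  rw [h1, sub_self, abs_zero, mul_zero]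

end P073.H579

namespace Vale.Agent.P073.H341

open _root_.P073 _root_.P073.TR _root_.P073.H579 _root_.P073.PA691
open _root_.P073.H919 (lab LabPath)
open Vale.Agent.P073.H73 (Mesh)
open Vale.Agent.P073.St (V)
open Vale.Agent.P073.H471 (Rad Wid Boxes Near)
open Vale.Agent.P073.H267 (Geo)
open Vale.Agent.P073.H193 (Edges pgn_of_fat mesh_sub)
open Vale.Agent.P073.H805 (t1 t2 lvs mem_lvs EdgeOk)

variable {Ω Λ : Set V} {v : V} {K : BoxCx Λ v} {L : K.S → Fin 3 → Finset ℝ} {s : K.S} {w : V → V}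
  {A : Set V}

/-- a set with a pattern and no level point on its boundary has no level point -/
theorem PatS.free (hp : PatS L s w A)
    (h0 : {x | x ∈ intrinsicFrontier ℝ A ∧ ∃ l, w x l ∈ lvs L s l}.ncard = 0) :
    ∀ x ∈ A, ∀ l, w x l ∉ lvs L s l := by
  obtain ⟨T, hT, Sg, col, lev, hpat, -⟩ := hp
  intro x hx l hl
  obtain ⟨α, -, -, -⟩ := _root_.P073.H919.exists_arc (P := lvs L s) hpat hx hl
  have h1 := (_root_.P073.H919.ncard_bd (P := lvs L s) hpat).2
  rw [h0] at h1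
  have h2 : Nat.card T = 0 := by omega
  rcases Nat.card_eq_zero.1 h2 with h3 | h3
  · exact h3.elim α
  · exact h3.not_finite hT

end Vale.Agent.P073.H341

namespace P073.H880.RP

open _root_.P073 _root_.P073.Net _root_.P073.PA691 _root_.P073.H236 _root_.P073.H579
  _root_.P073.H345 _root_.P073.H880
open Vale.Agent.P073.St (V)
open Vale.Agent.P073.H471 Vale.Agent.P073.H267 Vale.Agent.P073.H267.Geo
open Vale.Agent.P073.H73 (Mesh)
open Vale.Agent.P073.H193 (Edges LAtC)
open Vale.Agent.P073.H233 (PSet Ev OscEst exists_ev_oscF FHyp)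
open Vale.Agent.P073.H341 (PatS nE lpt)
open _root_.P073.H919 (LabPath)
open Vale.Agent.P073.H190.Tvp (crK mem_lv_tg)
open _root_.P073.H267 (lenE)
open Vale.Agent.P073.H73 (onSeg)
open _root_.P073.Croft (onS cross levs)

variable {Ω Λ : Set V} {v : V} {K : BoxCx Λ v} {S : Rad K} {W : Wid K S} {B : Boxes W}
  {G : Geo B} {M : Mesh Ω} {E : Edges M} {D : Dat K M} {h1 h2 h3 : ConHomeo Ω Λ} {L : PLev G}
  {hΛ : IsOpen Λ} {c : K.S → Bool → ℝ} {c0 : ∀ s β, 0 < c s β} {c1 : ∀ s β, c s β ≤ L.c s β}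
  {κ : Bool → V → V} {Θ : Bool → ConHomeo Λ Λ} {GE : E.ε → (V → V) → Prop}
  {GF : M.κ → (V → V) → Prop} {s : K.S}

/-- **a face without level points** -/
theorem PIns.bandD_free (H : PIns G E D L hΛ h1 h2 c c0 c1 κ Θ GE GF h3) (hs : s ∈ D.S₀)
    {k : M.κ} (hC : h2.toFun '' M.F k ⊆ G.PB (7 / 8) s)
    (hfree : ∀ x ∈ M.F k, ∀ j, h2.toFun x j ∉ L.lv s j) {z z' : V} (hz : z ∈ M.F k)
    (hz' : z' ∈ M.F k) :
    bandD (L.lv s) ((thinL L c c0 c1).loP s)
      ((thinL L c c0 c1).hiP s) ((thinL L c c0 c1).omP s) (h3.toFun z) (h3.toFun z') = 0 := by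
  have hk : ∀ j, Ins1 ((thinL L c c0 c1).kP s j) (L.lv s j) ((thinL L c c0 c1).loP s j)
      ((thinL L c c0 c1).hiP s j) := fun j => by
    have := (thinL L c c0 c1).ins1P s j
    rwa [thinL_lv] at this
  exact zone_free (Vale.Agent.P073.H193.mesh_sub M k)
    (Vale.Agent.P073.H193.pgn_of_fat (M.fat k)).convex.isPreconnected (H.zone hs hC) hk
    (H.out.img_face k) hfree hz hz'

/-- **the oscillation on a listed face**, by the number of level points on its edges -/
theorem PIns.exists_ev_osc_cnt (H : PIns G E D L hΛ h1 h2 c c0 c1 κ Θ GE GF h3) {ι : Type}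
    {F : ι → Set V} (R : ROut3 G E D h1 h2 L.lv F) (hseg : ∀ e, ∃ g, F g = E.seg e)
    (s : K.S) (k : M.κ) :
    ∃ Nk : ℝ, 0 ≤ Nk ∧ (s ∈ D.S₀ → h2.toFun '' M.F k ⊆ G.PB (7 / 8) s →
      PatS L.lv s h2.toFun (M.F k) →
      (∀ s' ∈ D.S₀, s' ≠ s → ∀ x ∈ M.F k, h1.toFun x ∉ D.PE G s') →
      ∀ ω : ℝ, (∀ β t, L.omP s (tg s β) t ≤ ω) →
      ∀ (X : PSet K) (μ : ℝ), 0 ≤ μ → μ ≤ 1 → ∀ (f : V → V) (a e : ℝ), 0 ≤ a → 0 < e →
      ContinuousOn f (M.F k) →
      (∀ x ∈ M.F k, LAtC B X (fun y => a * bandD (L.lv s) ((thinL L c c0 c1).loP s)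
        ((thinL L c c0 c1).hiP s) ((thinL L c c0 c1).omP s) (h3.toFun x) (h3.toFun y) +
          e * ‖y - x‖) (M.F k) f x) →
      Ev B X μ M f (.inl k) (OscEst f k
        (8 * (a * (36 * (nE E L.lv h1.toFun s k * ω)) + Nk * e)))) := by
  have hlt : ∀ j, ∀ a ∈ L.lv s j, (thinL L c c0 c1).loP s j a < (thinL L c c0 c1).hiP s j a :=
    fun j a ha => by
      have := (thinL L c c0 c1).ins1P s j
      rw [thinL_lv] at this
      exact this.lt a ha
  have hom : ∀ j a, 0 ≤ (thinL L c c0 c1).omP s j a := fun j a =>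
    ((thinL L c c0 c1).omP_pos s j a).le
  have hsub := Vale.Agent.P073.H193.mesh_sub M k
  have hcs : ConicalSet (M.F k) := (Vale.Agent.P073.H244.conBall_face M k).conicalSet
  have hconv := (Vale.Agent.P073.H193.pgn_of_fat (M.fat k)).convex
  obtain ⟨Nk, hNk, key⟩ := exists_ev_oscF (W := W) (M := M) (k := k)
    (u := bu (L.lv s) ((thinL L c c0 c1).loP s) ((thinL L c c0 c1).hiP s)
      ((thinL L c c0 c1).omP s) h3.toFun) fun i => conicalOn_bu hcs (h3.cc.mono hcs hsub) i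
  refine ⟨Nk, hNk, fun hs hC hp hno ω hω X μ hμ hμ1 f a e ha he hf hl => ?_⟩
  have hω0 : 0 ≤ ω := (L.omP_pos s (tg s false) 0).le.trans (hω false 0)
  refine key B X μ hμ hμ1 f a e _ ha he (by positivity) hf (fun x hx => ?_) fun x hx y hy => ?_
  · simp only [dsum_bu hlt hom]
    exact hl x hx
  · simp only [dsum_bu hlt hom]
    by_cases h0 : nE E L.lv h1.toFun s k = 0
    · have hfree : ∀ x ∈ M.F k, ∀ j, h2.toFun x j ∉ L.lv s j := by
        have h5 := hp.free (Nat.le_zero.1 (h0 ▸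
          Vale.Agent.P073.H341.bd_count R hseg hs hno))
        rwa [L.lvs_lv s] at h5
      have h6 : PathC (fun x y => ENNReal.ofReal (bandD (L.lv s) ((thinL L c c0 c1).loP s)
          ((thinL L c c0 c1).hiP s) ((thinL L c c0 c1).omP s) (h3.toFun x) (h3.toFun y)))
          (M.F k) x y 0 := by
        refine ⟨fun t : ℝ => x + t • (y - x), by fun_prop, fun t ht => ?_, by simp, by simp, ?_⟩
        · exact hconv.add_smul_sub_mem hx hy ht
        · rw [cvar_le_iff]
          intro n u hu hm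
          refine le_of_eq (Finset.sum_eq_zero fun i _ => ?_)
          simp only
          rw [H.bandD_free hs hC hfree (hconv.add_smul_sub_mem hx hy (hm _))
            (hconv.add_smul_sub_mem hx hy (hm _)), ENNReal.ofReal_zero]
      exact (h6.mono Subset.rfl zero_le).three
    · have h1' : 1 ≤ nE E L.lv h1.toFun s k := Nat.one_le_iff_ne_zero.2 h0
      have hlab : ∀ x ∈ M.F k, ∀ x' ∈ M.F k, LabPath (L.lv s) h2.toFun (M.F k)
          ((4 + 4 * nE E L.lv h1.toFun s k : ℕ) : ℝ≥0∞) x x' := fun x hx x' hx' => by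
        have h5 := Vale.Agent.P073.H341.labPath_face R hseg hs hp hno hx hx'
        rwa [L.lvs_lv s] at h5
      refine ((H.exists_path hs hC hlab hω hx hy).mono Subset.rfl
        (ENNReal.ofReal_le_ofReal ?_)).three
      have h2' : (1:ℝ) ≤ nE E L.lv h1.toFun s k := by exact_mod_cast h1'
      push_cast
      nlinarith

/-! ### counting -/

/-- the level points on an edge, by the crossings -/
theorem ncard_lpt_le {e : E.ε} (hPK : ∀ x ∈ E.seg e, h1.toFun x ∈ PK G s) :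
    ((lpt L.lv s h1.toFun (E.seg e)).ncard : ℝ≥0∞) ≤
      ∑ β : Bool, cnt (crK L h1 (E.a e) (E.b e) s β) := by
  set φ : ℝ → V := fun t => E.a e + t • (E.b e - E.a e) with hφ
  have hsub : lpt L.lv s h1.toFun (E.seg e) ⊆
      φ '' (crK L h1 (E.a e) (E.b e) s true ∪ crK L h1 (E.a e) (E.b e) s false) := by
    rintro x ⟨hx, l, hl⟩
    rw [L.lvs_lv s] at hl
    have hln := (PLev.mem_lv.1 hl).1
    have hl' : h1.toFun x (tg s (bt s l)) ∈ L.lv s (tg s (bt s l)) := by rwa [tg_bt s hln]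
    rw [mem_lv_tg] at hl'
    have hxs := hx
    rw [Edges.seg, segment_eq_image'] at hxs
    obtain ⟨t, ht, rfl⟩ := hxs
    have key : t ∈ crK L h1 (E.a e) (E.b e) s (bt s l) := ⟨ht, hPK _ hx, hl'⟩
    refine ⟨t, ?_, rfl⟩
    cases hb : bt s l
    · rw [hb] at key; exact Or.inr key
    · rw [hb] at key; exact Or.inl key
  have h2 : ((lpt L.lv s h1.toFun (E.seg e)).ncard : ℕ∞) ≤
      (crK L h1 (E.a e) (E.b e) s true).encard + (crK L h1 (E.a e) (E.b e) s false).encard :=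
    (Set.ncard_le_encard _).trans ((Set.encard_le_encard hsub).trans
      ((Set.encard_image_le _ _).trans (Set.encard_union_le _ _)))
  rw [Fintype.sum_bool]
  unfold cnt
  calc ((lpt L.lv s h1.toFun (E.seg e)).ncard : ℝ≥0∞)
      = (((lpt L.lv s h1.toFun (E.seg e)).ncard : ℕ∞) : ℝ≥0∞) := by norm_cast
    _ ≤ (((crK L h1 (E.a e) (E.b e) s true).encard +
        (crK L h1 (E.a e) (E.b e) s false).encard : ℕ∞) : ℝ≥0∞) := by exact_mod_cast h2
    _ = _ := by push_cast; rfl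

/-- **the weight of the level points on the edges of a face** -/
theorem nE_sum_le {k : M.κ} (hPK : ∀ x ∈ M.F k, h1.toFun x ∈ PK G s) {h : V → V} {ω : ℝ}
    {Cw : ℝ} {εw : E.ε → ℝ}
    (hcr : ∀ e, E.seg e ⊆ M.F k → ∀ β, ENNReal.ofReal ω * cnt (crK L h1 (E.a e) (E.b e) s β) ≤
      ENNReal.ofReal Cw * lenE E h e + ENNReal.ofReal (εw e)) :
    ENNReal.ofReal ω * (nE E L.lv h1.toFun s k : ℝ≥0∞) ≤
      ∑ e ∈ (E.fin_face k).toFinset, 2 * (ENNReal.ofReal Cw * lenE E h e +
        ENNReal.ofReal (εw e)) := by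
  unfold nE
  push_cast
  rw [Finset.mul_sum]
  refine Finset.sum_le_sum fun e he => ?_
  have hek : E.seg e ⊆ M.F k := (E.fin_face k).mem_toFinset.1 he
  refine (mul_le_mul_right (ncard_lpt_le fun x hx => hPK x (hek hx)) _).trans ?_
  rw [Fintype.sum_bool, mul_add, two_mul]
  exact add_le_add (hcr e hek true) (hcr e hek false)

/-- the same with real numbers -/
theorem nE_len_le {k : M.κ} (hPK : ∀ x ∈ M.F k, h1.toFun x ∈ PK G s) {h : V → V} {ω : ℝ}
    {Cw b : ℝ} {εw : E.ε → ℝ} (hω : 0 ≤ ω) (hCw : 0 ≤ Cw) (hεw : ∀ e, 0 ≤ εw e) (hb : 0 ≤ b)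
    (hcr : ∀ e, E.seg e ⊆ M.F k → ∀ β, ENNReal.ofReal ω * cnt (crK L h1 (E.a e) (E.b e) s β) ≤
      ENNReal.ofReal Cw * lenE E h e + ENNReal.ofReal (εw e))
    (hlen : ∑ e ∈ (E.fin_face k).toFinset, lenE E h e ≤ ENNReal.ofReal b) :
    nE E L.lv h1.toFun s k * ω ≤ 2 * (Cw * b + ∑ e ∈ (E.fin_face k).toFinset, εw e) := by
  have h5 := nE_sum_le hPK (h := h) hcr
  rw [← Finset.mul_sum, Finset.sum_add_distrib, ← Finset.mul_sum] at h5
  have h6 : ENNReal.ofReal (nE E L.lv h1.toFun s k * ω) ≤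
      ENNReal.ofReal (2 * (Cw * b + ∑ e ∈ (E.fin_face k).toFinset, εw e)) := by
    rw [mul_comm, ENNReal.ofReal_mul hω, ENNReal.ofReal_natCast]
    refine h5.trans ?_
    rw [ENNReal.ofReal_mul zero_le_two, ENNReal.ofReal_add (mul_nonneg hCw hb)
      (Finset.sum_nonneg fun e _ => hεw e), ENNReal.ofReal_mul hCw,
      ENNReal.ofReal_sum_of_nonneg fun e _ => hεw e]
    have h7 : ENNReal.ofReal 2 = 2 := by simp
    rw [h7]
    gcongr
  exact (ENNReal.ofReal_le_ofReal_iff (mul_nonneg zero_le_two (add_nonneg (mul_nonneg hCw hb)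
    (Finset.sum_nonneg fun e _ => hεw e)))).1 h6

/-- the lengths of the edges of a face, from `FHyp` -/
theorem FHyp.len_le {h : V → V} {i : M.ι} {k : M.κ} {b : ℝ} (H : FHyp M h i k b) :
    ∑ e ∈ ((Vale.Agent.P073.H193.edges M).fin_face k).toFinset,
      lenE (Vale.Agent.P073.H193.edges M) h e ≤ ENNReal.ofReal b := by
  classical
  obtain ⟨-, T, hT, hs⟩ := H
  refine le_trans ?_ hs
  set φ : (Vale.Agent.P073.H193.edges M).ε → V × V := fun e =>
    ((Vale.Agent.P073.H193.edges M).a e, (Vale.Agent.P073.H193.edges M).b e) with hφ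
  have hinj : Function.Injective φ := fun e e' hee => by
    apply Subtype.ext
    exact hee
  have himg : ∑ x ∈ ((Vale.Agent.P073.H193.edges M).fin_face k).toFinset.image φ,
      len (onSeg h x) (Icc 0 1) = ∑ e ∈ ((Vale.Agent.P073.H193.edges M).fin_face k).toFinset,
        lenE (Vale.Agent.P073.H193.edges M) h e :=
    Finset.sum_image (fun e _ e' _ hee => hinj hee)
  rw [← himg]
  refine Finset.sum_le_sum_of_subset fun x hx => ?_
  obtain ⟨e, he, rfl⟩ := Finset.mem_image.1 hx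
  exact hT _ (_root_.P073.H950.isEdge_iff.2 (Or.inl e.2))
    (((Vale.Agent.P073.H193.edges M).fin_face k).mem_toFinset.1 he)

/-- **the number of a listed face**, in the form of the clause `osc` -/
theorem listed_num {h : V → V} {i : M.ι} {k : M.κ} {a b e ω Cw C Nk : ℝ}
    {εw : (Vale.Agent.P073.H193.edges M).ε → ℝ} (H : FHyp M h i k b) (hb : 0 < b)
    (hPK : ∀ x ∈ M.F k, h1.toFun x ∈ PK G s) (ha : 0 ≤ a) (hω : 0 ≤ ω) (hCw : 0 ≤ Cw)
    (hεw : ∀ e, 0 ≤ εw e)
    (hcr : ∀ e, (Vale.Agent.P073.H193.edges M).seg e ⊆ M.F k → ∀ β,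
      ENNReal.ofReal ω * cnt (crK L h1 ((Vale.Agent.P073.H193.edges M).a e)
        ((Vale.Agent.P073.H193.edges M).b e) s β) ≤
      ENNReal.ofReal Cw * lenE (Vale.Agent.P073.H193.edges M) h e + ENNReal.ofReal (εw e))
    (hC : 576 * (a * Cw) + 1 ≤ C)
    (hsm : ∀ B, (∀ x ∈ M.Q i, ∀ y ∈ M.Q i, ‖h x - h y‖ ≤ B) →
      576 * (a * ∑ e ∈ ((Vale.Agent.P073.H193.edges M).fin_face k).toFinset, εw e) +
        8 * (Nk * e) ≤ B) :
    8 * (a * (36 * (nE (Vale.Agent.P073.H193.edges M) L.lv h1.toFun s k * ω)) + Nk * e) ≤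
      C * b := by
  have h1' := nE_len_le hPK hω hCw hεw hb.le hcr (FHyp.len_le H)
  have h2' := hsm b H.1
  have h3' := mul_le_mul_of_nonneg_left h1' ha
  have h4' := mul_le_mul_of_nonneg_right hC hb.le
  linarith

end P073.H880.RP
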