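import Vale.Agent.P073.H579.PInsPath
import Vale.Agent.P073.H233.OscPB
import Vale.Agent.P073.H341.PL2

/-!
# P073, H579: **[OSC-LP]**, the oscillation on a listed passive face after ROUND P

* `PFace.exists_affCov`, `exists_ev_oscF`: 233's `exists_ev_osc` for all faces of a mesh;
* `bu`: the functions of the bands, `dsum (bu ..) = bandD`;
* `PIns.exists_ev_osc`: the oscillation from the paths in the face before the insertion.
-/

open Set Metric Topology Filter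
open scoped ENNReal

set_option linter.unusedSectionVars false

namespace Vale.Agent.P073.H238.PFace

open _root_.P073 _root_.P073.H926 _root_.P073.H579
open Vale.Agent.P073.St (V)
open Vale.Agent.P073.H233 (AffCov)

variable {A : Set V}

/-- **flat faces and conical functions** -/
theorem exists_affCov {κ : Type*} [Fintype κ] (F : PFace A) {u : κ → V → ℝ}
    (hu : ∀ i, ConicalOn (u i) A) :
    ∃ (𝒯 : Finset (Finset (H579.P →ᵃ[ℝ] ℝ))) (T : Finset (H579.P →ᵃ[ℝ] ℝ) → Set V),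
      AffCov A u 𝒯 T := by
  classical
  have h1 : ConicalOn (fun z i => u i (F.ch z)) F.C := by
    intro z hz
    exact conicalWithinAt_pi (F.cone.conicalSet z hz) fun i => ((hu i).comp F.conicalOn_ch
      (fun z hz => F.ch_mem hz) F.continuous_ch.continuousOn) z hz
  obtain ⟨L, -, hL⟩ := exists_lines_aff F.convex F.compact F.cone h1
  have hline : ∀ (z w : H579.P) (t : ℝ),
      AffineMap.lineMap (F.ch z) (F.ch w) t = F.ch (AffineMap.lineMap z w t) := by
    intro z w t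
    show _ = F.o + F.L _
    rw [AffineMap.lineMap_apply_module', AffineMap.lineMap_apply_module']
    show t • (F.o + F.L w - (F.o + F.L z)) + (F.o + F.L z) = _
    rw [map_add, map_smul, map_sub]
    module
  refine ⟨L.powerset, fun τ => F.ch '' cellA F.C L τ, ⟨?_, ?_, ?_, ?_, ?_⟩⟩
  · intro τ _
    exact ((isCompact_cellA F.compact).image F.continuous_ch).isClosed
  · rintro τ - _ ⟨z, hz, rfl⟩
    exact F.ch_mem (cellA_subset hz)
  · rintro τ - _ ⟨x, hx, rfl⟩ _ ⟨y, hy, rfl⟩ α β hα hβ hαβ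
    refine ⟨AffineMap.lineMap x y β, ?_, ?_⟩
    · have := (convex_cellA F.convex) hx hy hα hβ hαβ
      rw [AffineMap.lineMap_apply_module, show (1 - β) = α by linarith]
      exact this
    · rw [← hline, AffineMap.lineMap_apply_module, show (1 - β) = α by linarith]
  · intro x hx
    obtain ⟨z, hz, rfl⟩ := F.exists_ch hx
    refine ⟨L.filter fun l => 0 ≤ l z, Finset.mem_powerset.2 (Finset.filter_subset _ _), z,
      ⟨hz, fun l hl => ⟨fun h => (Finset.mem_filter.1 h).2, fun h => ?_⟩⟩, rfl⟩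
    by_contra hlt
    exact h (Finset.mem_filter.2 ⟨hl, (not_le.1 hlt).le⟩)
  · rintro τ - i _ ⟨z, hz, rfl⟩ _ ⟨w, hw, rfl⟩ t ht
    obtain ⟨A', hA'⟩ := hL _ cellA_subset (sgnOn_cellA (C := F.C) (L := L) (τ := τ))
    have h2 : AffineMap.lineMap z w t ∈ cellA F.C L τ :=
      (convex_cellA F.convex).segment_subset hz hw (by
        rw [segment_eq_image_lineMap]; exact ⟨t, ht, rfl⟩)
    have e : ∀ z ∈ cellA F.C L τ, u i (F.ch z) = A' z i := fun z hz => congrFun (hA' hz) i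
    rw [hline, e _ h2, e z hz, e w hw, AffineMap.apply_lineMap, AffineMap.lineMap_apply_module]
    simp only [Pi.add_apply, Pi.smul_apply, smul_eq_mul]
    ring

end Vale.Agent.P073.H238.PFace

namespace Vale.Agent.P073.H233

open _root_.P073 _root_.P073.PA691 _root_.P073.TM
open _root_.P073.H880 (dsum dsum_nonneg cvar)
open Vale.Agent.P073.St (V)
open Vale.Agent.P073.H73 (Mesh)
open Vale.Agent.P073.H471
open Vale.Agent.P073.H193 (LAtC)

variable {Ω Λ : Set V} {M : Mesh Ω} {w : V} {K : BoxCx Λ w} {S : Rad K} {W : Wid K S}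
  {B : Boxes W} {X : PSet K} {μ : ℝ} {κ : Type*} [Fintype κ] {u : κ → V → ℝ}

/-- **any face of a mesh**: `N` depends only on the face and on the functions `u` -/
theorem exists_ev_oscF {k : M.κ} (hu : ∀ i, ConicalOn (u i) (M.F k)) :
    ∃ N : ℝ, 0 ≤ N ∧ ∀ (B : Boxes W) (X : PSet K) (μ : ℝ), 0 ≤ μ → μ ≤ 1 →
      ∀ (f : V → V) (a e L' : ℝ), 0 ≤ a → 0 < e → 0 ≤ L' →
      ContinuousOn f (M.F k) →
      (∀ x ∈ M.F k, LAtC B X (fun y => a * dsum u x y + e * ‖y - x‖) (M.F k) f x) →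
      (∀ x ∈ M.F k, ∀ y ∈ M.F k, ∃ γ : ℝ → V, ContinuousOn γ (Icc 0 3) ∧
        MapsTo γ (Icc 0 3) (M.F k) ∧ γ 0 = x ∧ γ 3 = y ∧
        cvar (fun s t => ENNReal.ofReal (dsum u (γ s) (γ t))) 0 3 ≤ ENNReal.ofReal L') →
      Ev B X μ M f (.inl k) (OscEst f k (8 * (a * L' + N * e))) := by
  obtain ⟨𝒯, T, HA⟩ := (Vale.Agent.P073.H238.meshFace M k).exists_affCov hu
  refine ⟨𝒯.card * diam (M.F k), mul_nonneg (Nat.cast_nonneg _) diam_nonneg, ?_⟩
  intro B X μ hμ hμ1 f a e L' ha he hL hf hl hpath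
  exact HA.ev_osc hμ hμ1 ha he hL hf hl hpath

end Vale.Agent.P073.H233

namespace P073.H579

open P073 P073.H880
open P073.H345 (CC)
open Vale.Agent.P073.St (V)

variable {m : ℕ} {L : Fin m → Finset ℝ} {lo hi om : Fin m → ℝ → ℝ} {g : V → Fin m → ℝ}

/-- the functions of the bands -/
noncomputable def bu (L : Fin m → Finset ℝ) (lo hi om : Fin m → ℝ → ℝ) (g : V → Fin m → ℝ)
    (i : Σ j : Fin m, {c // c ∈ L j}) (x : V) : ℝ :=
  om i.1 i.2.1 / (hi i.1 i.2.1 - lo i.1 i.2.1) * rho (lo i.1) (hi i.1) i.2.1 (g x i.1)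

theorem dsum_bu (hlt : ∀ j, ∀ c ∈ L j, lo j c < hi j c) (hom : ∀ j a, 0 ≤ om j a) (x y : V) :
    dsum (bu L lo hi om g) x y = bandD L lo hi om (g x) (g y) := by
  unfold dsum bandD
  rw [Fintype.sum_sigma]
  refine Finset.sum_congr rfl fun j _ => ?_
  rw [← Finset.sum_coe_sort (L j)]
  refine Finset.sum_congr rfl fun c _ => ?_
  have h1 : 0 < hi j c.1 - lo j c.1 := by linarith [hlt j c.1 c.2]
  have h2 : 0 ≤ om j c.1 / (hi j c.1 - lo j c.1) := div_nonneg (hom _ _) h1.le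
  unfold bu
  rw [← mul_sub, abs_mul, abs_of_nonneg h2, abs_sub_comm]

theorem conicalOn_bu {C : Set V} (hC : ConicalSet C) (hg : CC g C)
    (i : Σ j : Fin m, {c // c ∈ L j}) : ConicalOn (bu L lo hi om g i) C := by
  have h1 : CC (fun x => g x i.1) C := hg.apply i.1
  have h2 : CC (fun x => rho (lo i.1) (hi i.1) i.2.1 (g x i.1)) C :=
    (CC.const 0 hC).max ((CC.const _ hC).min (h1.sub (CC.const _ hC)))
  exact (h2.mul_left _).con

end P073.H579

namespace P073.H880.RP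

open _root_.P073 _root_.P073.Net _root_.P073.PA691 _root_.P073.H236 _root_.P073.H579
  _root_.P073.H345 _root_.P073.H880
open Vale.Agent.P073.St (V)
open Vale.Agent.P073.H471 Vale.Agent.P073.H267 Vale.Agent.P073.H267.Geo
open Vale.Agent.P073.H73 (Mesh)
open Vale.Agent.P073.H193 (Edges LAtC)
open Vale.Agent.P073.H233 (PSet Ev OscEst exists_ev_oscF)
open Vale.Agent.P073.H341 (PatS nE)
open _root_.P073.H919 (LabPath)

variable {Ω Λ : Set V} {v : V} {K : BoxCx Λ v} {S : Rad K} {W : Wid K S} {B : Boxes W}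
  {G : Geo B} {M : Mesh Ω} {E : Edges M} {D : Dat K M} {h1 h2 h3 : ConHomeo Ω Λ} {L : PLev G}
  {hΛ : IsOpen Λ} {c : K.S → Bool → ℝ} {c0 : ∀ s β, 0 < c s β} {c1 : ∀ s β, c s β ≤ L.c s β}
  {κ : Bool → V → V} {Θ : Bool → ConHomeo Λ Λ} {GE : E.ε → (V → V) → Prop}
  {GF : M.κ → (V → V) → Prop} {s : K.S}

/-- **the oscillation on a listed face** near the plate `s`; `Nk` depends only on `h3` -/
theorem PIns.exists_ev_osc (H : PIns G E D L hΛ h1 h2 c c0 c1 κ Θ GE GF h3) (s : K.S) (k : M.κ) :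
    ∃ Nk : ℝ, 0 ≤ Nk ∧ (s ∈ D.S₀ → h2.toFun '' M.F k ⊆ G.PB (7 / 8) s →
      ∀ N : ℕ, (∀ x ∈ M.F k, ∀ x' ∈ M.F k, LabPath (L.lv s) h2.toFun (M.F k) N x x') →
      ∀ ω : ℝ, (∀ β t, L.omP s (tg s β) t ≤ ω) →
      ∀ (X : PSet K) (μ : ℝ), 0 ≤ μ → μ ≤ 1 → ∀ (f : V → V) (a e : ℝ), 0 ≤ a → 0 < e →
      ContinuousOn f (M.F k) →
      (∀ x ∈ M.F k, LAtC B X (fun y => a * bandD (L.lv s) ((thinL L c c0 c1).loP s)
        ((thinL L c c0 c1).hiP s) ((thinL L c c0 c1).omP s) (h3.toFun x) (h3.toFun y) +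
          e * ‖y - x‖) (M.F k) f x) →
      Ev B X μ M f (.inl k) (OscEst f k (8 * (a * (4 * (N + 1) * ω) + Nk * e)))) := by
  have hlt : ∀ j, ∀ a ∈ L.lv s j, (thinL L c c0 c1).loP s j a < (thinL L c c0 c1).hiP s j a :=
    fun j a ha => by
      have := (thinL L c c0 c1).ins1P s j
      rw [thinL_lv] at this
      exact this.lt a ha
  have hom : ∀ j a, 0 ≤ (thinL L c c0 c1).omP s j a := fun j a =>
    ((thinL L c c0 c1).omP_pos s j a).le
  have hsub := Vale.Agent.P073.H193.mesh_sub M k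
  have hcs : ConicalSet (M.F k) := (Vale.Agent.P073.H244.conBall_face M k).conicalSet
  obtain ⟨Nk, hNk, key⟩ := exists_ev_oscF (W := W) (M := M) (k := k)
    (u := bu (L.lv s) ((thinL L c c0 c1).loP s) ((thinL L c c0 c1).hiP s)
      ((thinL L c c0 c1).omP s) h3.toFun) fun i => conicalOn_bu hcs (h3.cc.mono hcs hsub) i
  refine ⟨Nk, hNk, fun hs hC N hlab ω hω X μ hμ hμ1 f a e ha he hf hl => ?_⟩
  have hω0 : 0 ≤ ω := (L.omP_pos s (tg s false) 0).le.trans (hω false 0)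
  refine key B X μ hμ hμ1 f a e _ ha he (by positivity) hf (fun x hx => ?_) fun x hx y hy => ?_
  · simp only [dsum_bu hlt hom]
    exact hl x hx
  · simp only [dsum_bu hlt hom]
    exact (H.exists_path hs hC hlab hω hx hy).three

/-- the same, the number of level points on the edges of the face -/
theorem PIns.exists_ev_osc_face (H : PIns G E D L hΛ h1 h2 c c0 c1 κ Θ GE GF h3) {ι : Type}
    {F : ι → Set V} (R : ROut3 G E D h1 h2 L.lv F) (hseg : ∀ e, ∃ g, F g = E.seg e)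
    (s : K.S) (k : M.κ) :
    ∃ Nk : ℝ, 0 ≤ Nk ∧ (s ∈ D.S₀ → h2.toFun '' M.F k ⊆ G.PB (7 / 8) s →
      PatS L.lv s h2.toFun (M.F k) →
      (∀ s' ∈ D.S₀, s' ≠ s → ∀ x ∈ M.F k, h1.toFun x ∉ D.PE G s') →
      ∀ ω : ℝ, (∀ β t, L.omP s (tg s β) t ≤ ω) →
      ∀ (X : PSet K) (μ : ℝ), 0 ≤ μ → μ ≤ 1 → ∀ (f : V → V) (a e : ℝ), 0 ≤ a → 0 < e →
      ContinuousOn f (M.F k) →
      (∀ x ∈ M.F k, LAtC B X (fun y => a * bandD (L.lv s) ((thinL L c c0 c1).loP s)
        ((thinL L c c0 c1).hiP s) ((thinL L c c0 c1).omP s) (h3.toFun x) (h3.toFun y) +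
          e * ‖y - x‖) (M.F k) f x) →
      Ev B X μ M f (.inl k) (OscEst f k (8 * (a * (4 * (5 + 4 * nE E L.lv h1.toFun s k) * ω) +
        Nk * e)))) := by
  obtain ⟨Nk, hNk, key⟩ := H.exists_ev_osc s k
  refine ⟨Nk, hNk, fun hs hC hp hno ω hω X μ hμ hμ1 f a e ha he hf hl => ?_⟩
  have h4 := key hs hC (4 + 4 * nE E L.lv h1.toFun s k) (fun x hx x' hx' => by
    have h5 := Vale.Agent.P073.H341.labPath_face R hseg hs hp hno hx hx'
    rwa [L.lvs_lv s] at h5) ω hω X μ hμ hμ1 f a e ha he hf hl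
  have e1 : (8 * (a * (4 * (((4 + 4 * nE E L.lv h1.toFun s k : ℕ) : ℝ) + 1) * ω) + Nk * e)) =
      (8 * (a * (4 * (5 + 4 * nE E L.lv h1.toFun s k) * ω) + Nk * e)) := by
    push_cast
    ring
  rwa [e1] at h4

end P073.H880.RP
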