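import Vale.Agent.P073.H579.OscCnt
import Vale.Agent.P073.H919.OscLoc
import Vale.Agent.P073.H341.PL4
import Vale.Agent.P073.H345.We3C
import Vale.Agent.P073.H237.Elip3

/-!
# P073, H579: **[OSC-TOP]**, the listed faces (case (l) of the row `osc`), over 267's structures

* `pos_HB1`: a face which meets, under `h4`, the box of the hook at the plate `s`: its positions
  under `h1`, `h2`, `h3`;
* `exists_oscN`: the oscillation on the listed faces, by the number of the level points;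
* `S5.osc_listed`: the clause `osc` for a face with a pattern (341: `class_S2`, or `patS_of_low`).
-/

open Set Metric Topology Filter MeasureTheory
open scoped ENNReal

set_option linter.unusedSectionVars false

namespace Vale.Agent.P073.H579.K3

open _root_.P073 _root_.P073.Net _root_.P073.PA691 _root_.P073.H236 _root_.P073.H579
open _root_.P073.H936 _root_.P073.H936.K3
open _root_.P073.H142
open _root_.P073.H345 (PK PB_sub_PK PK_sub_ss tg PLev)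
open _root_.P073.H880.RP
open _root_.P073.H919 (HkG HkGF HkGO ZbP sfam HB PI mem_HB mem_HB_iff κ_mem_iff PSt)
open _root_.P073.H429
open Vale.Agent.P073.St (V)
open Vale.Agent.P073.H471 Vale.Agent.P073.H267
open Vale.Agent.P073.H267.K3
open Vale.Agent.P073.H73 (Mesh)
open Vale.Agent.P073.H193 (Edges edges LAtC)
open Vale.Agent.P073.H926
open Vale.Agent.P073.H238.K3
open Vale.Agent.P073.H233 (Xp Ev OscEst FHyp PSet)
open Vale.Agent.P073.H341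
open Vale.Agent.P073.H805 (PB_eq PB_mono)
open Vale.Agent.P073.H345W (SubW Tvg s2_cnt rhs3 rhs3_eq)
open _root_.P073.H267 (lenE)

variable {c₀ n δ : ℝ} {j : ℕ} {Ω Λ : Set V} {v w : V} {ρ : V → ℝ} {M : Mesh Ω} {h : ConHomeo Ω Λ}
  {J₀ J : Set (ℕ × (Fin 3 → ℤ))} {P Z : Set M.ι} {K : BoxCx Λ w}
  {D : KIn3 c₀ n j δ v w ρ M h J₀ J P Z} {C : Cells ρ w K} {C₀ μT : ℝ}
  {X : S1 D C C₀ μT} {Y₂ : S2 X} {Ys : Set M.κ} {sc : Sharp} {s : K.S} {k : M.κ}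

/-- **the position under `h3` and `h2`** of a point in the box of the hook -/
theorem pos_HB3 (Y₃ : S3 Y₂ Ys sc) (hs : s ∈ pS C J₀) {z : V} (hz : z ∈ Ω)
    (hz4 : Y₃.h4.toFun z ∈ HB (D.G C) (29 / 32) (3 / 4) s) :
    Y₃.h3.toFun z ∈ HB (D.G C) (29 / 32) (3 / 4) s := by
  have PST := PSt.of_PS3 Y₃.ps
  have h1 := Y₃.eqHB s hs z hz hz4
  have h2 := Y₃.map3 z hz
  rw [h1] at h2
  rw [h2] at hz4
  exact ((PST.prodOn (⟨s, hs⟩ : (D.dat C).S₀) (c := 29 / 32) (d := 3 / 4) (by norm_num)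
    (by norm_num) (by norm_num)).mem _ (Y₃.h3.mapsTo hz)).1 hz4

/-- **the position under `h1`**: some point of the face -/
theorem pos_HB1 (Y₃ : S3 Y₂ Ys sc) (hs : s ∈ pS C J₀) {z : V} (hz : z ∈ M.F k)
    (hz4 : Y₃.h4.toFun z ∈ HB (D.G C) (29 / 32) (3 / 4) s) :
    ∃ y ∈ M.F k, X.h1.toFun y ∈ HB (D.G C) (29 / 32) (3 / 4) s := by
  have hkΩ : M.F k ⊆ Ω := Vale.Agent.P073.H193.mesh_sub M k
  have hp := Geo.p_pos (G := D.G C) s
  have hτ := (D.B C).τ_pos s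
  have h3 := pos_HB3 Y₃ hs (hkΩ hz) hz4
  have h4 : Y₃.h3.toFun z ∈ Pre (Y₃.κ true ∘ Y₃.κ false) Λ Y₂.h2 (M.F k) := by
    rw [← Y₃.ins.out.img_face]; exact mem_image_of_mem _ hz
  obtain ⟨y, hy, hyx⟩ := h4.2
  have h5 : Y₂.h2.toFun y ∈ HB (D.G C) (29 / 32) (3 / 4) s := by
    rw [hyx]
    exact (κ_mem_iff (b := (⟨s, hs⟩ : (D.dat C).S₀)) Subtype.val_injective (Y₃.ins.isQ false)
      (Y₃.ins.isQ true) (by norm_num) (by norm_num) (by norm_num)).2 h3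
  refine ⟨y, hy, ?_⟩
  have hht := Y₂.ex.ht
  by_cases hPE : X.h1.toFun y ∈ (D.dat C).PE (D.G C) s
  · have e1 := hht.le s hs true
    have e2 := hht.le s hs false
    obtain ⟨g1, g2, g3⟩ := hPE
    rw [mem_HB]
    refine ⟨fun l hl => ?_, ?_⟩
    · have := g1 l hl
      constructor <;> linarith [this.1, this.2]
    · rw [abs_le]
      constructor <;> linarith
  · have h6 : Y₂.h2.toFun y = X.h1.toFun y := by
      refine Y₂.ex.ex.off y (hkΩ hy) fun s' hs' hi => ?_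
      have h7 := interior_subset hi
      by_cases hss : s' = s
      · subst hss; exact hPE h7
      · have h8 := (Y₂.ex.ex.box s' hs' y (hkΩ hy)).2 h7
        exact hss (PB_eq (G := D.G C) (by norm_num) (by norm_num) (hht.pe_PB hs' h8)
          ((mem_HB_iff (by norm_num)).1 h5).1)
    rw [← h6]
    exact h5

/-- **the positions of the face**, in no protected cell -/
theorem pos_face (Y₃ : S3 Y₂ Ys sc) (hs : s ∈ pS C J₀) (hP : ∀ i ∈ P, ¬ M.F k ⊆ M.Q i)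
    {y : V} (hy : y ∈ M.F k) (hy1 : X.h1.toFun y ∈ HB (D.G C) (29 / 32) (3 / 4) s) :
    (∀ x ∈ M.F k, X.h1.toFun x ∈ HB (D.G C) (7 / 8) (7 / 8) s) ∧
    (∀ x ∈ M.F k, Y₂.h2.toFun x ∈ HB (D.G C) (7 / 8) (7 / 8) s) ∧
    ∀ x ∈ M.F k, Y₃.h3.toFun x ∈ HB (D.G C) (7 / 8) (7 / 8) s := by
  have hkΩ : M.F k ⊆ Ω := Vale.Agent.P073.H193.mesh_sub M k
  have hp := Geo.p_pos (G := D.G C) s
  have hτ := (D.B C).τ_pos s
  have e1 := (D.G C).oS_τ s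
  have e2 := (D.G C).τ_p s
  obtain ⟨g1, g2⟩ := mem_HB.1 hy1
  have hPK : X.h1.toFun y ∈ PK (D.G C) s := by
    refine ⟨fun l hl => ?_, by linarith⟩
    have := g1 l hl
    constructor <;> linarith [this.1, this.2]
  obtain ⟨i, i', -, hki⟩ := M.two k
  have hkQ : M.F k ⊆ M.Q i := hki.trans inter_subset_left
  have hiP : i ∉ P := fun hi => hP i hi hkQ
  have hn := X.out.nearC D C i
  have hco : ∀ x ∈ M.F k, ∀ l, |X.h1.toFun x l - X.h1.toFun y l| ≤ 11 * (D.G C).oS s :=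
    fun x hx l => (norm_le_pi_norm (X.h1.toFun x - X.h1.toFun y) l).trans
      (D.pos_PK C hs hiP hn (hkQ hy) hPK (hkQ hx)).2
  have h1 : ∀ x ∈ M.F k, X.h1.toFun x ∈ HB (D.G C) (7 / 8) (7 / 8) s := by
    intro x hx
    rw [mem_HB]
    refine ⟨fun l hl => ?_, ?_⟩
    · have h1 := abs_le.1 (hco x hx l)
      have h2 := g1 l hl
      constructor <;> linarith [h2.1, h2.2, h1.1, h1.2]
    · have h1 := abs_le.1 (hco x hx (K.nrm s))
      have h2 := abs_le.1 g2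
      rw [abs_le]
      constructor <;> linarith [h2.1, h2.2, h1.1, h1.2]
  have hht := Y₂.ex.ht
  have h2 : ∀ x ∈ M.F k, Y₂.h2.toFun x ∈ HB (D.G C) (7 / 8) (7 / 8) s := by
    intro x hx
    by_cases hPE : X.h1.toFun x ∈ (D.dat C).PE (D.G C) s
    · have hPE2 := (Y₂.ex.ex.box s hs x (hkΩ hx)).2 hPE
      have e3 := hht.le s hs true
      have e4 := hht.le s hs false
      obtain ⟨f1, f2, f3⟩ := hPE2
      rw [mem_HB]
      refine ⟨fun l hl => ?_, ?_⟩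
      · have := f1 l hl
        constructor <;> linarith [this.1, this.2]
      · rw [abs_le]
        constructor <;> linarith
    · have h6 : Y₂.h2.toFun x = X.h1.toFun x := by
        refine Y₂.ex.ex.off x (hkΩ hx) fun s' hs' hi => ?_
        have h7 := interior_subset hi
        by_cases hss : s' = s
        · subst hss; exact hPE h7
        · exact hss (PB_eq (G := D.G C) (by norm_num) (by norm_num) (hht.pe_PB hs' h7)
            ((mem_HB_iff (by norm_num)).1 (h1 x hx)).1)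
      rw [h6]
      exact h1 x hx
  refine ⟨h1, h2, fun x hx => ?_⟩
  have h4 : Y₃.h3.toFun x ∈ Pre (Y₃.κ true ∘ Y₃.κ false) Λ Y₂.h2 (M.F k) := by
    rw [← Y₃.ins.out.img_face]; exact mem_image_of_mem _ hx
  obtain ⟨y', hy', hyx⟩ := h4.2
  have h5 := h2 y' hy'
  rw [hyx] at h5
  exact (κ_mem_iff (b := (⟨s, hs⟩ : (D.dat C).S₀)) Subtype.val_injective (Y₃.ins.isQ false)
    (Y₃.ins.isQ true) (by norm_num) (by norm_num) (by norm_num)).1 h5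

/-- at most one plate -/
theorem plate_unique (Y₃ : S3 Y₂ Ys sc) {s' : K.S} (hs : s ∈ pS C J₀) (hs' : s' ∈ pS C J₀)
    (hP : ∀ i ∈ P, ¬ M.F k ⊆ M.Q i) {z z' : V} (hz : z ∈ M.F k)
    (hz4 : Y₃.h4.toFun z ∈ HB (D.G C) (29 / 32) (3 / 4) s) (hz' : z' ∈ M.F k)
    (hz4' : Y₃.h4.toFun z' ∈ HB (D.G C) (29 / 32) (3 / 4) s') : s = s' := by
  obtain ⟨y, hy, hy1⟩ := pos_HB1 Y₃ hs hz hz4
  obtain ⟨y', hy', hy1'⟩ := pos_HB1 Y₃ hs' hz' hz4'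
  have h1 := (pos_face Y₃ hs hP hy hy1).1 y' hy'
  exact PB_eq (G := D.G C) (by norm_num) (by norm_num) ((mem_HB_iff (by norm_num)).1 h1).1
    ((mem_HB_iff (by norm_num)).1 hy1').1

/-- the relative interior of the face is strictly below half of the height of the box of the
exchange at the sides which are not protected (341's hypothesis) -/
def Low (X : S1 D C C₀ μT) (s : K.S) (k : M.κ) : Prop :=
  ∀ β, ¬ (D.dat C).sd s β → ∀ x ∈ intrinsicInterior ℝ (M.F k),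
    ¬ Abv K s β ((D.dat C).ht s β / 2) (X.h1.toFun x)

/-- **the oscillation on the face `k` near the plate `s`**, for every map `f` with a local estimate
by the bands of `h3` -/
def OscN (Y₃ : S3 Y₂ Ys sc) (s : K.S) (k : M.κ) (Nk : ℝ) : Prop :=
  ∀ (Xs : PSet K) (μ : ℝ), 0 ≤ μ → μ ≤ 1 → ∀ (f : V → V) (a e : ℝ), 0 ≤ a → 0 < e →
    ContinuousOn f (M.F k) →
    (∀ x ∈ M.F k, LAtC (D.B C) Xs (fun y => a * bandD (Y₂.L.lv s) (Y₃.Lt.loP s) (Y₃.Lt.hiP s)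
      (Y₃.Lt.omP s) (Y₃.h3.toFun x) (Y₃.h3.toFun y) + e * ‖y - x‖) (M.F k) f x) →
    Ev (D.B C) Xs μ M f (.inl k) (OscEst f k
      (8 * (a * (36 * (nE (edges M) Y₂.L.lv X.h1.toFun s k * Y₂.L.om s true)) + Nk * e)))

/-- the step -/
theorem omP_le (Y₂ : S2 X) (s : K.S) (β : Bool) (t : ℝ) :
    Y₂.L.omP s (tg s β) t ≤ Y₂.L.om s true := by
  have h1 : Y₂.L.omP s (tg s β) t = Y₂.L.om s β := Y₂.Lw.om_eq_omP s β t
  rw [h1]
  exact (Y₂.Lw.om_eq s β true).le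

/-- **the numbers of the listed faces**, known after `h3` -/
theorem exists_oscN (Y₃ : S3 Y₂ Ys sc) :
    ∃ Nf : M.κ → ℝ, (∀ k, 0 ≤ Nf k) ∧ ∀ s ∈ pS C J₀, ∀ k, (∀ i ∈ P, ¬ M.F k ⊆ M.Q i) →
      (∃ z ∈ M.F k, Y₃.h4.toFun z ∈ HB (D.G C) (29 / 32) (3 / 4) s) →
      PatS Y₂.L.lv s Y₂.h2.toFun (M.F k) → OscN Y₃ s k (Nf k) := by
  classical
  choose N hN0 hN using fun (s : K.S) (k : M.κ) =>
    Y₃.ins.exists_ev_osc_cnt Y₂.ex.ex seg_of s k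
  refine ⟨fun k => if h : ∃ s, s ∈ pS C J₀ ∧ ∃ z ∈ M.F k,
    Y₃.h4.toFun z ∈ HB (D.G C) (29 / 32) (3 / 4) s then N h.choose k else 0, fun k => ?_,
    fun s hs k hP hz hpat => ?_⟩
  · simp only
    split_ifs
    · exact hN0 _ _
    · exact le_rfl
  · have hex : ∃ s, s ∈ pS C J₀ ∧ ∃ z ∈ M.F k,
        Y₃.h4.toFun z ∈ HB (D.G C) (29 / 32) (3 / 4) s := ⟨s, hs, hz⟩
    obtain ⟨z, hz, hz4⟩ := hz
    have hss : hex.choose = s := by
      obtain ⟨h1, z', hz', hz4'⟩ := hex.choose_spec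
      exact plate_unique Y₃ h1 hs hP hz' hz4' hz hz4
    have e1 : (if h : ∃ s, s ∈ pS C J₀ ∧ ∃ z ∈ M.F k,
        Y₃.h4.toFun z ∈ HB (D.G C) (29 / 32) (3 / 4) s then N h.choose k else 0) = N s k := by
      rw [dif_pos hex, hss]
    simp only [e1]
    obtain ⟨y, hy, hy1⟩ := pos_HB1 Y₃ hs hz hz4
    obtain ⟨p1, p2, p3⟩ := pos_face Y₃ hs hP hy hy1
    intro Xs μ hμ hμ1 f a e ha he hf hl
    refine hN s k hs ?_ hpat (fun s' hs' hne x hx hx' => ?_) _ (fun β t => omP_le Y₂ s β t) Xs μ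
      hμ hμ1 f a e ha he hf hl
    · rintro _ ⟨x, hx, rfl⟩
      exact ((mem_HB_iff (by norm_num)).1 (p2 x hx)).1
    · exact hne (PB_eq (G := D.G C) (by norm_num) (by norm_num) (Y₂.ex.ht.pe_PB hs' hx')
        ((mem_HB_iff (by norm_num)).1 (p1 x hx)).1)

/-- **the pattern of the low faces** which meet the box of the hook -/
theorem patS_of_low (Y₃ : S3 Y₂ Ys sc) (hs : s ∈ pS C J₀) (hP : ∀ i ∈ P, ¬ M.F k ⊆ M.Q i)
    (hz : ∃ z ∈ M.F k, Y₃.h4.toFun z ∈ HB (D.G C) (29 / 32) (3 / 4) s) (hlow : Low X s k) :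
    PatS Y₂.L.lv s Y₂.h2.toFun (M.F k) := by
  obtain ⟨z, hz, hz4⟩ := hz
  obtain ⟨y, hy, hy1⟩ := pos_HB1 Y₃ hs hz hz4
  refine patS_S2 Y₂ hs (low_S2 Y₂ hs hP hy ?_ hlow)
  obtain ⟨g1, g2⟩ := mem_HB.1 hy1
  have hp := Geo.p_pos (G := D.G C) s
  rw [mem_HB]
  refine ⟨fun l hl => ?_, g2⟩
  have := g1 l hl
  constructor <;> linarith [this.1, this.2]

variable {Y₃ : S3 Y₂ Ys sc} {Y₄ : S4 Y₃}

/-- **the last map on a face which meets the box of the hook**, with the demands of `l1_top` -/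
theorem latC_top' (Y₅ : S5 Y₄) (hq : ∀ s, 1 - n / 2048 ≤ Y₄.q s)
    (hr : ∀ s, 1 - n / 2048 ≤ Y₄.r s)
    (hμ : ∀ b, 0 ≤ Y₅.μ b) (hμ2 : ∀ b, Y₅.μ b ≤ n / 256)
    (hκ : ∀ b : pG C J₀, Y₅.μ b * (ebe (D.W C) b.1 - eal (D.W C) b.1) ≤
      n / 256 * ((D.G C).uT b.1 / 4)) {τ : M.κ → ℝ} (hτ : ∀ k, 0 < τ k)
    (hs : s ∈ (D.dat C).S₀) (hε5 : 16 * Y₄.ε ⟨s, hs⟩ ≤ τ k)
    (hε6 : ∀ b : pG C J₀, (Y₄.f5.toFun '' M.F k ∩
      YB ((YS (D.G C)).add (rT (D.G C)) (rT_pos (D.G C))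
      (fun e k => (YS_p_lt (D.G C) e k).le)
      fun e k => (YS_q_lt (D.G C) e k).le) b.1).Nonempty → 16 * Y₅.ε b ≤ τ k)
    (hpos3 : ∀ x ∈ M.F k, Y₃.h3.toFun x ∈ HB (D.G C) (7 / 8) (7 / 8) s) {x : V}
    (hx : x ∈ M.F k) :
    LAtC (D.B C) (Xp C J₀) (fun y => 3 * bandD (Y₂.L.lv s) (Y₃.Lt.loP s) (Y₃.Lt.hiP s)
      (Y₃.Lt.omP s) (Y₃.h3.toFun x) (Y₃.h3.toFun y) + τ k * ‖y - x‖) (M.F k)
      Y₅.f.toFun x := by
  have hn := D.pos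
  have hn1 := D.nle
  have hn2 := D.le
  have h1 := hq ⟨s, hs⟩
  have h2 := hr ⟨s, hs⟩
  have h3 := Y₄.q1 ⟨s, hs⟩
  have h4 := Y₄.r1 ⟨s, hs⟩
  have h6 := hτ k
  have hτs := (D.B C).τ_pos s
  have h7 : 0 ≤ Y₄.ε ⟨s, hs⟩ := by
    have h8 := Y₄.ςK true ⟨s, hs⟩
    have h9 := mul_pos (Y₄.ς0 true ⟨s, hs⟩) (Y₄.K₂0 ⟨s, hs⟩)
    linarith
  refine _root_.Vale.Agent.P073.H919.K3.latC_face Y₅ hs (fun y hy => ?_) hx (Aq := 2)
    (μ₂ := n / 256) (κ := n / 256) (ε₆ := τ k / 16) ?_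
    (by norm_num) hμ hμ2 (by positivity) (by positivity) hκ (by positivity) (fun b hb => ?_)
    ?_ ?_
  · obtain ⟨g1, g2⟩ := (mem_HB_iff (by norm_num)).1 (hpos3 y hy)
    exact ⟨g1, by linarith⟩
  · nlinarith
  · have h8 := hε6 b ⟨_, mem_image_of_mem _ hx, by
      rw [← Y₅.Ft_K b]; exact hb⟩
    linarith
  · linarith
  · nlinarith

/-- **[OSC-TOP] (l): the clause `osc` for a listed face** -/
theorem S5.osc_listed (Y₅ : S5 Y₄) (hC₀ : 0 ≤ C₀) {rw : K.S → ℝ} (HW : SubW X Y₂ rw)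
    (htvg : Tvg D C (edges M) C₀ X.εe X.h1) {Nf : M.κ → ℝ}
    (hN : ∀ s ∈ pS C J₀, ∀ k, (∀ i ∈ P, ¬ M.F k ⊆ M.Q i) →
      (∃ z ∈ M.F k, Y₃.h4.toFun z ∈ HB (D.G C) (29 / 32) (3 / 4) s) →
      PatS Y₂.L.lv s Y₂.h2.toFun (M.F k) → OscN Y₃ s k (Nf k))
    (hq : ∀ s, 1 - n / 2048 ≤ Y₄.q s) (hr : ∀ s, 1 - n / 2048 ≤ Y₄.r s)
    (hμ : ∀ b, 0 ≤ Y₅.μ b) (hμ2 : ∀ b, Y₅.μ b ≤ n / 256)
    (hκ : ∀ b : pG C J₀, Y₅.μ b * (ebe (D.W C) b.1 - eal (D.W C) b.1) ≤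
      n / 256 * ((D.G C).uT b.1 / 4)) {τ : M.κ → ℝ} (hτ : ∀ k, 0 < τ k)
    (hε5 : ∀ (s : (D.dat C).S₀) k, (X.h1.toFun '' M.F k ∩ PK (D.G C) s.1).Nonempty →
      16 * Y₄.ε s ≤ τ k)
    (hε6 : ∀ (b : pG C J₀) k, (Y₄.f5.toFun '' M.F k ∩
      YB ((YS (D.G C)).add (rT (D.G C)) (rT_pos (D.G C))
      (fun e k => (YS_p_lt (D.G C) e k).le)
      fun e k => (YS_q_lt (D.G C) e k).le) b.1).Nonempty → 16 * Y₅.ε b ≤ τ k)
    -- the face
    (hs : s ∈ pS C J₀) (hP : ∀ i ∈ P, ¬ M.F k ⊆ M.Q i)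
    (hz : ∃ z ∈ M.F k, Y₃.h4.toFun z ∈ HB (D.G C) (29 / 32) (3 / 4) s)
    (hpat : PatS Y₂.L.lv s Y₂.h2.toFun (M.F k))
    {i : M.ι} {osc : ℝ}
    (hosc : ∀ B, (∀ x ∈ M.Q i, ∀ y ∈ M.Q i, ‖h.toFun x - h.toFun y‖ ≤ B) → osc ≤ B)
    (hsm : 1728 * ∑ e ∈ ((edges M).fin_face k).toFinset, (250 * X.εe e + 100 * Y₂.εE e) +
      8 * (Nf k * τ k) ≤ osc)
    {c μ : ℝ} (hc : 432000 * C₀ + 1 ≤ c) (hμ0 : 0 ≤ μ) (hμ1 : μ ≤ 1) :
    ∃ L, (∀ b > 0, FHyp M h.toFun i k b → L ≤ c * b) ∧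
      Ev (D.B C) (Xp C J₀) μ M Y₅.f.toFun (.inl k) (OscEst Y₅.f.toFun k L) := by
  have hkΩ : M.F k ⊆ Ω := Vale.Agent.P073.H193.mesh_sub M k
  have hON := hN s hs k hP hz hpat
  obtain ⟨z, hz, hz4⟩ := hz
  obtain ⟨y, hy, hy1⟩ := pos_HB1 Y₃ hs hz hz4
  obtain ⟨p1, p2, p3⟩ := pos_face Y₃ hs hP hy hy1
  have hPK : ∀ x ∈ M.F k, X.h1.toFun x ∈ PK (D.G C) s := fun x hx =>
    PB_sub_PK (by norm_num) s ((mem_HB_iff (by norm_num)).1 (p1 x hx)).1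
  refine ⟨_, fun b hb HF => ?_, hON (Xp C J₀) μ hμ0 hμ1 Y₅.f.toFun 3 (τ k) (by norm_num) (hτ k)
    (Y₅.f.cont.mono hkΩ) fun x hx => latC_top' Y₅ hq hr hμ hμ2 hκ hτ hs
      (hε5 ⟨s, hs⟩ k ⟨_, mem_image_of_mem _ hy, hPK y hy⟩) (fun b => hε6 b k) p3 hx⟩
  refine listed_num (L := Y₂.L) (h := h.toFun) (Cw := 250 * C₀)
    (εw := fun e => 250 * X.εe e + 100 * Y₂.εE e) HF hb hPK (by norm_num)
    (Y₂.Lw.om_pos s true).le (by positivity) (fun e => ?_) (fun e _ β => ?_) (by linarith)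
    fun B hB => ?_
  · have h1 := (X.εe0 e).le
    have h2 := (Y₂.εE0 e).le
    positivity
  · have h1 := s2_cnt HW htvg e hs β
    have h2 : Y₂.L.om s β = Y₂.L.om s true := Y₂.Lw.om_eq s β true
    rw [← h2]
    refine h1.trans (le_trans ?_ (rhs3_eq (Y₂.εE0 e).le).le)
    rw [two_mul]
    exact le_self_add
  · have h1 := hosc B hB
    linarith

end Vale.Agent.P073.H579.K3
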