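import Vale.Agent.P073.H579.T12Wa
import Vale.Agent.P073.H155.Stage2G

/-!
# P073, H579: **[T12-3]**: STAGE 1 and STAGE 2 of ROUND T in a set of boxes, with given cells

`G₀`: the processed boxes; `W`: the cells on which STAGE 1 keeps the traces; `Act₀`: the faces
which are cleaned by STAGE 1; `Gv`: the cells on which the lift is given (no face of such a cell is
in `Act₀`); `Mi`: faces which miss the boxes, nothing changes there.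
-/

open Set Metric Topology Filter
open scoped ENNReal

namespace Vale.Agent.P073.H669.TLv

open _root_.P073 _root_.P073.TR _root_.P073.Net _root_.P073.PA691
open _root_.P073.PR720 (LF)
open Vale.Agent.P073.St (V)
open Vale.Agent.P073.H471 Vale.Agent.P073.H267 Vale.Agent.P073.H267.Geo
open Vale.Agent.P073.H73 (Mesh)
open Vale.Agent.P073.H193 (Edges Cyc)
open Vale.Agent.P073.H155 (vv)
open Vale.Agent.P073.H238 (oT marg TAct TProt skel mesh_sub)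
open Vale.Agent.P073.H579 (TStageW TLevG PWall skelW skel_subW exists_tstageW)
open _root_.P073.H345 (fam Fam RegB Out2 Miss IsQ)
open _root_.P073.H236 (BX)
open _root_.P073.H155 (Giv exists_stage2G)
open _root_.P073.H579 (actF GEd GFd Pre InsMap fam_comp regB_comp)

variable {Ω Λ : Set V} {v : V} {K : BoxCx Λ v} {S : Rad K} {Wd : Wid K S} {B : Boxes Wd}
  {G : Geo B} {M : Mesh Ω} {E : Edges M} {h h' : ConHomeo Ω Λ} {ω : TBx K → ℝ}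
  {T : TBx K → Finset (ℝ × ℝ)} {η : ℝ} {τ : Type*} {A : τ → Set V} {C : Set ℝ} {εE : E.ε → ℝ}
  {δ : TBx K → ℝ} {Pr W : Set M.ι} {Act₀ : Set M.κ} {G₀ : Set (TBx K)}

variable (L : TLv G E h ω T η A C εE δ)

/-- the supports of the boxes do not depend on the thickness -/
theorem miss_eq {c c' : TBx K → ℝ} (hc0 : ∀ b, 0 < c b) (hc : ∀ b, c b ≤ δ b / 8)
    (hc0' : ∀ b, 0 < c' b) (hc' : ∀ b, c' b ≤ δ b / 8) :
    (Miss M h' fun b : G₀ => L.bxQ c hc0 hc b.1) = Miss M h' fun b : G₀ => L.bxQ c' hc0' hc' b.1 :=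
  rfl

/-- faces which miss the supports of the boxes -/
theorem mem_missW {c : TBx K → ℝ} (hc0 : ∀ b, 0 < c b) (hc : ∀ b, c b ≤ δ b / 8)
    (O : TStageW G M h h' Pr W Act₀ G₀ L.lev ω) {k : M.κ}
    (hk : ∀ b ∈ G₀, ∀ x ∈ M.F k, h.toFun x ∉ G.TB false b) :
    k ∈ Miss M h' fun b : G₀ => L.bxQ c hc0 hc b.1 := by
  intro b
  rw [Set.disjoint_left]
  rintro _ hb ⟨x, hx, rfl⟩
  exact hk b.1 b.2 x hx ((O.mem b.1 x (mesh_sub M k hx)).1 (L.K_sub hc0 hc b.1 hb))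

/-- **STAGE 2** after STAGE 1, with given cells -/
theorem stage2W (hΩ : IsOpen Ω) (hΛ : IsOpen Λ)
    (O : TStageW G M h h' Pr W Act₀ G₀ L.lev ω)
    (hosc : ∀ b ∈ G₀, ∀ k, ∀ x ∈ M.F k, ∀ y ∈ M.F k, h.toFun x ∈ G.TB false b →
      dist (h.toFun x) (h.toFun y) ≤ ω b)
    (Cy : ∀ k, Cyc E k) {ctr : M.κ → V} {r0 R : M.κ → ℝ}
    (hS : ∀ k, _root_.P073.H155.Star ((Cy k).n + 1) (vv (Cy k)) (ctr k) (r0 k) (R k) (M.F k))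
    {Gv : Set M.ι} (hGv : ∀ k ∈ Act₀, ∀ j ∈ Gv, ¬ M.F k ⊆ M.Q j) {Mi : Set M.κ}
    {c₁ : TBx K → ℝ} (hc01 : ∀ b, 0 < c₁ b) (hc1 : ∀ b, c₁ b ≤ δ b / 8)
    (hMi : Mi ⊆ Miss M h' fun b : G₀ => L.bxQ c₁ hc01 hc1 b.1) :
    ∃ c₀ : TBx K → ℝ, (∀ b, 0 < c₀ b) ∧ ∀ (c : TBx K → ℝ) (hc0 : ∀ b, 0 < c b)
      (hc : ∀ b, c b ≤ δ b / 8), (∀ b ∈ G₀, c b ≤ c₀ b) →
      ∀ κ, IsQ (fun b : G₀ => L.bxQ c hc0 hc b.1) κ → InsMap κ Λ Λ →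
      ∀ Ψ : ∀ j ∈ Gv, ConHomeo (M.Q j) (Pre κ Λ h' (M.Q j)),
      Giv M E h' κ (actF (L.AcW Act₀ G₀ h')) Mi
        (GEd E h' (fun b : G₀ => L.bxQ c hc0 hc b.1) (L.AcW Act₀ G₀ h') (L.WeW G₀ h')) Gv Ψ →
      ∃ g : ConHomeo Ω Λ, Out2 M E h' κ (actF (L.AcW Act₀ G₀ h'))
        (GEd E h' (fun b : G₀ => L.bxQ c hc0 hc b.1) (L.AcW Act₀ G₀ h') (L.WeW G₀ h'))
        (GFd E (fun b : G₀ => L.bxQ c hc0 hc b.1) (L.AcW Act₀ G₀ h') (L.WeW G₀ h') ctr r0 R) g ∧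
        (∀ k ∈ Mi, EqOn g.toFun h'.toFun (M.F k)) ∧
        ∀ j hj, EqOn g.toFun (Ψ j hj).toFun (M.Q j) := by
  classical
  have hd0 : ∀ b, 0 < δ b / 8 := fun b => by have := L.δ0 b; positivity
  have hdd : ∀ b, δ b / 8 ≤ δ b / 8 := fun b => le_rfl
  have hneF : ∀ k, (M.F k).Nonempty := by
    intro k
    obtain ⟨φ, -⟩ := (M.fat k).chart
    exact ⟨_, φ.mapsTo (show ((0:ℝ), (0:ℝ)) ∈ Vale.Agent.P073.H73.usq from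
      ⟨⟨le_rfl, zero_le_one⟩, ⟨le_rfl, zero_le_one⟩⟩)⟩
  obtain ⟨c₀, hc₀, H⟩ := exists_stage2G hΩ M E h' (B := fun b : G₀ => L.bxQ _ hd0 hdd b.1)
    (fam_comp (L.fam345 hd0 hdd hΛ) Subtype.val_injective)
    (L.regBG O hd0 hdd hosc) (actF (L.AcW Act₀ G₀ h')) Mi Gv hMi
    (by
      rintro k ⟨b, hk⟩ hm
      exact L.not_missW O hd0 hdd hk Subset.rfl (hneF k) (hMi hm) Subset.rfl)
    (by
      rintro k ⟨b, hk⟩ e he l hl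
      exact L.not_missW O hd0 hdd hk he ⟨_, left_mem_segment ℝ _ _⟩ (hMi hl))
    (by
      rintro k ⟨b, hk⟩ j hj
      exact hGv k hk.1 j hj)
  refine ⟨fun b => if hb : b ∈ G₀ then c₀ ⟨b, hb⟩ else 1, fun b => ?_,
    fun c hc0 hc hcc κ hκ hI Ψ hΨ => ?_⟩
  · dsimp only
    split_ifs with hb
    · exact hc₀ _
    · exact one_pos
  refine H (fun b => c b.1) (fun b => hc0 b.1) (fun b => hc b.1) (fun b => ?_) κ hκ hI _ _ Ψ hΨ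
    (fun k hk e he _ => L.hedgeW O hc0 hc hΛ hosc hκ k hk e he) ?_
  · have h1 := hcc b.1 b.2
    dsimp only at h1
    rwa [dif_pos b.2] at h1
  intro k hk Φe hGE _ hv
  exact L.hfaceW O hc0 hc hΩ hΛ hosc Cy hS hκ hk Φe hGE hv

/-- **[T12-3]** STAGE 1 and STAGE 2 of ROUND T, in the boxes `G₀`, with given cells -/
theorem exists_t12W (hΩ : IsOpen Ω) (hΛ : IsOpen Λ) {G₀ : Set (TBx K)} {Pr : Set M.ι}
    (R' : PWall G M h Pr G₀)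
    (hosc : ∀ b ∈ G₀, ∀ k, ∀ x ∈ M.F k, ∀ y ∈ M.F k, h.toFun x ∈ G.TB false b →
      dist (h.toFun x) (h.toFun y) ≤ ω b)
    (Cy : ∀ k, Cyc E k) {ctr : M.κ → V} {r0 R : M.κ → ℝ}
    (hS : ∀ k, _root_.P073.H155.Star ((Cy k).n + 1) (vv (Cy k)) (ctr k) (r0 k) (R k) (M.F k))
    {W : Set M.ι} {Act₀ : Set M.κ} (hA : ∀ k ∈ Act₀, ∀ i ∈ Pr, ¬ M.F k ⊆ M.Q i)
    (hW : ∀ k ∈ Act₀, ∀ i ∈ W, ¬ M.F k ⊆ M.Q i) :
    ∃ h' : ConHomeo Ω Λ, TStageW G M h h' Pr W Act₀ G₀ L.lev ω ∧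
      ∀ (Gv : Set M.ι), (∀ k ∈ Act₀, ∀ j ∈ Gv, ¬ M.F k ⊆ M.Q j) → ∀ (Mi : Set M.κ)
      (c₁ : TBx K → ℝ) (hc01 : ∀ b, 0 < c₁ b) (hc1 : ∀ b, c₁ b ≤ δ b / 8),
      (Mi ⊆ Miss M h' fun b : G₀ => L.bxQ c₁ hc01 hc1 b.1) →
      ∃ c₀ : TBx K → ℝ, (∀ b, 0 < c₀ b) ∧ ∀ (c : TBx K → ℝ) (hc0 : ∀ b, 0 < c b)
      (hc : ∀ b, c b ≤ δ b / 8), (∀ b ∈ G₀, c b ≤ c₀ b) →
      ∀ κ, IsQ (fun b : G₀ => L.bxQ c hc0 hc b.1) κ → InsMap κ Λ Λ →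
      ∀ Ψ : ∀ j ∈ Gv, ConHomeo (M.Q j) (Pre κ Λ h' (M.Q j)),
      Giv M E h' κ (actF (L.AcW Act₀ G₀ h')) Mi
        (GEd E h' (fun b : G₀ => L.bxQ c hc0 hc b.1) (L.AcW Act₀ G₀ h') (L.WeW G₀ h')) Gv Ψ →
      ∃ g : ConHomeo Ω Λ, Out2 M E h' κ (actF (L.AcW Act₀ G₀ h'))
        (GEd E h' (fun b : G₀ => L.bxQ c hc0 hc b.1) (L.AcW Act₀ G₀ h') (L.WeW G₀ h'))
        (GFd E (fun b : G₀ => L.bxQ c hc0 hc b.1) (L.AcW Act₀ G₀ h') (L.WeW G₀ h') ctr r0 R) g ∧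
        (∀ k ∈ Mi, EqOn g.toFun h'.toFun (M.F k)) ∧
        ∀ j hj, EqOn g.toFun (Ψ j hj).toFun (M.Q j) := by
  obtain ⟨h', O⟩ := exists_tstageW hΩ hΛ (L.levG hosc) R' hA hW
  exact ⟨h', O, fun Gv hGv Mi c₁ hc01 hc1 hMi =>
    L.stage2W hΩ hΛ O hosc Cy hS hGv hc01 hc1 hMi⟩

end Vale.Agent.P073.H669.TLv
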