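import Vale.Agent.P073.H236.OutC
import Vale.Agent.P073.H579.T12W

/-!
# P073, H579: **[T3OUT-S]**, from (INS) to the output of ROUND T, for a set of boxes `G₀`

H236's OutA, OutB, OutC with `b ∈ G₀` and `TStageW` (STAGE 1 with cells `W`, faces `Act₀`).
`T3OutS`, `St2W`, `exists_t3outS`, `T3OutS.congr`.
-/

open Set Metric Topology Filter

namespace P073.H236

open _root_.P073 _root_.P073.Net _root_.P073.PA691 _root_.P073.H579
open _root_.P073.PR720 (LF)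
open Vale.Agent.P073.St (V)
open Vale.Agent.P073.H471 Vale.Agent.P073.H267
open Vale.Agent.P073.H73 (Mesh)
open Vale.Agent.P073.H193 (Edges)
open Vale.Agent.P073.H238 (oT TMid TMid_sub TAct skel mesh_sub)
open Vale.Agent.P073.H579 (TStageW)
open Vale.Agent.P073.H669 (TLv)

/-- a subfamily of the boxes of a family of staircases -/
noncomputable def BFam.comp {n : ℕ} {ι ι' : Type*} {Λ : Set (Fin n → ℝ)} (F : BFam n ι Λ)
    (f : ι' → ι) (hf : Function.Injective f) : BFam n ι' Λ where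
  B := fun b => F.B (f b)
  e := fun b => F.e (f b)
  D := fun b => F.D (f b)
  he := fun b => F.he (f b)
  heo := fun b => F.heo (f b)
  hD := fun b => F.hD (f b)
  sub := fun b => F.sub (f b)
  lf := fun z hz => by
    obtain ⟨U, hU, h⟩ := F.lf z hz
    exact ⟨U, hU, h.preimage (f := f) hf.injOn⟩
  dis := fun b b' hne => F.dis (f b) (f b') fun h => hne (hf h)

variable {Ω Λ : Set V} {v : V} {K : BoxCx Λ v} {S₀ : Rad K} {Wd : Wid K S₀} {B : Boxes Wd}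
  {G : Geo B} {M : Mesh Ω} {E : Edges M} {h h' h1 : ConHomeo Ω Λ} {ω : TBx K → ℝ}
  {T : TBx K → Finset (ℝ × ℝ)} {η : ℝ} {τ : Type*} {A : τ → Set V} {C : Set ℝ} {εE : E.ε → ℝ}
  {δ : TBx K → ℝ} {Act₀ : Set M.κ} {G₀ : Set (TBx K)}

/-- **the output of ROUND T** in the boxes of `G₀`, for the faces of `Act₀` (`h` ↦ `h1`) -/
structure T3OutS (G : Geo B) (M : Mesh Ω) (E : Edges M) (h h1 : ConHomeo Ω Λ) (ω : TBx K → ℝ)
    (G₀ : Set (TBx K)) (Act₀ : Set M.κ) (O : M.κ → V) (La : E.ε → ℝ) (Lf : M.κ → E.ε → ℝ)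
    (Lam1 : M.κ → ℝ) (sl : TBx K → Finset (ℝ × ℝ)) : Prop where
  sl_le : ∀ b, ∀ p ∈ sl b, p.1 ≤ p.2
  /-- the ends of the boxes are in slivers -/
  ends : ∀ b ∈ G₀, ¬ NoSl (sl b) (G.tlo true b b.ax) ∧ ¬ NoSl (sl b) (G.thi true b b.ax)
  /-- (T2) -/
  near : ∀ k, ∀ x ∈ M.F k, ∀ q, h.toFun x ∈ K.cube q → ‖h1.toFun x - h.toFun x‖ ≤ G.om q
  /-- (T3) -/
  off : ∀ k, (∀ x ∈ M.F k, ∀ b ∈ G₀, h.toFun x ∉ G.TB false b) →
    EqOn h1.toFun h.toFun (M.F k)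
  /-- (T4) -/
  vi : ∀ X, ((∃ k, X = M.F k) ∨ (∃ e, X = E.seg e) ∨ ∃ i, X = M.Q i) →
    ∀ b ∈ G₀, ∀ y ∈ h1.toFun '' X, y ∈ G.TB true b →
    ∀ t ∈ Icc (G.tlo true b b.ax) (G.thi true b b.ax),
    (∀ r ∈ uIcc (y b.ax) t, NoSl (sl b) r) → Function.update y b.ax t ∈ h1.toFun '' X
  /-- (T4), vertices -/
  vert : ∀ x ∈ E.verts, ∀ b ∈ G₀, h1.toFun x ∈ G.TB true b → ¬ NoSl (sl b) (h1.toFun x b.ax)
  /-- deep faces stay in the full zone -/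
  deep : ∀ k, ∀ b ∈ G₀, InT G M h ω b k → ∀ x ∈ M.F k, h1.toFun x ∈ G.TB true b
  /-- (T6) -/
  cone : ∀ k ∈ Act₀, ∀ b ∈ G₀, InT G M h ω b k → ∀ e, E.seg e ⊆ M.F k →
    ∀ x ∈ coneSetAt (O k) (E.seg e), ∀ y ∈ coneSetAt (O k) (E.seg e),
    |h1.toFun x b.ax - h1.toFun y b.ax| ≤ Lf k e * ‖x - y‖
  /-- (T6), on the edges -/
  elip : ∀ k ∈ Act₀, ∀ b ∈ G₀, InT G M h ω b k → ∀ e, E.seg e ⊆ M.F k → ∀ x ∈ E.seg e,
    ∀ y ∈ E.seg e, |h1.toFun x b.ax - h1.toFun y b.ax| ≤ La e * ‖x - y‖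
  /-- (T7) -/
  lip : ∀ k, ∀ b ∈ G₀, InT G M h ω b k → ∀ j, j ≠ b.ax → ∀ x ∈ M.F k, ∀ y ∈ M.F k,
    |h1.toFun x j - h1.toFun y j| ≤ Lam1 k * ‖x - y‖
  /-- (T8) -/
  circ : ∀ k ∈ Act₀, ∀ b ∈ G₀, ∀ t, NoSl (sl b) t → ∀ σ, IsCircle σ → σ ⊆ M.F k →
    (∀ x ∈ σ, h1.toFun x ∈ G.TB true b ∧ h1.toFun x b.ax = t) → False
  /-- (T9): the edges of the faces of `Act₀` are vertical between the slivers -/
  edge : ∀ e, (∃ k ∈ Act₀, E.seg e ⊆ M.F k) → ∀ b ∈ G₀, ∀ s ∈ Icc (0:ℝ) 1,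
    h1.toFun (AffineMap.lineMap (E.a e) (E.b e) s) ∈ G.TB true b →
    NoSl (sl b) (h1.toFun (AffineMap.lineMap (E.a e) (E.b e) s) b.ax) →
    ∃ (t1 t2 s2 s3 : ℝ) (ψ : ℝ → ℝ), t1 < t2 ∧ (∃ p ∈ sl b, p.2 = t1) ∧ (∃ p ∈ sl b, p.1 = t2) ∧
      (∀ r ∈ Icc t1 t2, NoSl (sl b) r) ∧ 0 < s2 ∧ s2 < s3 ∧ s3 < 1 ∧ s ∈ Icc s2 s3 ∧
      (∀ s' ∈ Icc s2 s3, h1.toFun (AffineMap.lineMap (E.a e) (E.b e) s') =
        Function.update (h1.toFun (AffineMap.lineMap (E.a e) (E.b e) s)) b.ax (ψ s')) ∧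
      ContinuousOn ψ (Icc s2 s3) ∧ InjOn ψ (Icc s2 s3) ∧ ψ '' Icc s2 s3 = Icc t1 t2 ∧
      ∀ s' ∈ Icc s2 s3, ∀ s'' ∈ Icc s2 s3, |ψ s' - ψ s''| ≤ La e * ‖E.b e - E.a e‖ * |s' - s''|

section T

variable (L : TLv G E h ω T η A C εE δ) {c : TBx K → ℝ} (hc0 : ∀ b, 0 < c b)
  (hc : ∀ b, c b ≤ δ b / 8) {Pr W : Set M.ι}

/-- STAGE 1 in the form of H267, boxes of `G₀` -/
theorem rl_tW (O : TStageW G M h h' Pr W Act₀ G₀ L.lev ω) :
    Rl (fun b : G₀ => (L.bxQ c hc0 hc b.1).K) (fun b : G₀ => 12 * ω b.1) Ω h.toFun h'.toFun where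
  mem := by
    intro b x hx hb
    by_cases h1 : ∃ b' ∈ G₀, h.toFun x ∈ interior (TMid G b' (ω b'))
    · obtain ⟨b', hbG, hb'⟩ := h1
      have h2 := (O.memM b' x hx).2 hb'
      have h3 : h'.toFun x ∈ interior (G.TB false b') :=
        interior_mono (TMid_sub G b' (L.ω0 b') (L.ωo b')) h2
      by_cases hbb : b' = b.1
      · subst hbb
        exact tmid_sub_K L hc0 hc (interior_subset hb')
      · exact absurd (L.K_sub hc0 hc b.1 hb)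
          ((Geo.disjoint_TB (G := G) hbb).notMem_of_mem_left h3)
    · push Not at h1
      have h2 := (O.off' x hx h1).self_of_nhds
      show h.toFun x ∈ (L.bxQ c hc0 hc b.1).K
      rw [← h2]
      exact hb
  near := fun b x hx hb => by
    rw [← dist_eq_norm]
    exact O.all b.1 x hx (L.K_sub hc0 hc b.1 hb)
  off := fun x hx hno => (O.off' x hx fun b hbG hb =>
    hno ⟨b, hbG⟩ (tmid_sub_K L hc0 hc (interior_subset hb))).self_of_nhds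

/-- the full zone contains `TB true` -/
theorem fullK_of_TBW {F : BFam 3 G₀ Λ} (hF : F.B = fun b : G₀ => L.bxQ c hc0 hc b.1) {b : G₀}
    {y : V} (hy : y ∈ G.TB true b.1) : F.FullK b y := by
  have h0 := L.ω0 b.1
  obtain ⟨h1, h2⟩ := hy
  have key : ((L.bxQ c hc0 hc b.1).al ≤ y (L.bxQ c hc0 hc b.1).j ∧
      y (L.bxQ c hc0 hc b.1).j ≤ (L.bxQ c hc0 hc b.1).be) ∧ (L.bxQ c hc0 hc b.1).Full y :=
    ⟨⟨h1 _, h2 _⟩, L.full_of hc0 hc fun i _ => ⟨by linarith [h1 i], by linarith [h2 i]⟩⟩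
  unfold BFam.FullK
  rw [hF]
  exact key

end T

/-- the data after STAGE 2, boxes of `G₀` -/
structure St2W (L : TLv G E h ω T η A C εE δ) {c : TBx K → ℝ} (hc0 : ∀ b, 0 < c b)
    (hc : ∀ b, c b ≤ δ b / 8) (Pr W : Set M.ι) (Act₀ : Set M.κ) (G₀ : Set (TBx K))
    (h' : ConHomeo Ω Λ) (κ : V → V) (g : ConHomeo Ω Λ) : Prop where
  hΩ : IsOpen Ω
  hΛ : IsOpen Λ
  osc : ∀ b ∈ G₀, ∀ k, ∀ x ∈ M.F k, ∀ y ∈ M.F k, h.toFun x ∈ G.TB false b →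
    dist (h.toFun x) (h.toFun y) ≤ ω b
  O : TStageW G M h h' Pr W Act₀ G₀ L.lev ω
  isQ : H345.IsQ (fun b : G₀ => L.bxQ c hc0 hc b.1) κ
  face : ∀ k, g.toFun '' M.F k = Pre κ Λ h' (M.F k)
  edge : ∀ e, g.toFun '' E.seg e = Pre κ Λ h' (E.seg e)
  cell : ∀ i, g.toFun '' M.Q i = Pre κ Λ h' (M.Q i)
  vert : ∀ x ∈ E.verts, κ (g.toFun x) = h'.toFun x

variable {L : TLv G E h ω T η A C εE δ} {c : TBx K → ℝ} {hc0 : ∀ b, 0 < c b}
  {hc : ∀ b, c b ≤ δ b / 8} {Pr W : Set M.ι} {κ : V → V} {g : ConHomeo Ω Λ} {S : ConHomeo Λ Λ}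
  {F : BFam 3 G₀ Λ}

namespace St2W

theorem fam (D : St2W L hc0 hc Pr W Act₀ G₀ h' κ g) :
    H345.Fam Λ fun b : G₀ => L.bxQ c hc0 hc b.1 :=
  fam_comp (L.fam345 hc0 hc D.hΛ) Subtype.val_injective

theorem flat (D : St2W L hc0 hc Pr W Act₀ G₀ h' κ g)
    (hF : F.B = fun b : G₀ => L.bxQ c hc0 hc b.1) : FlatK F κ :=
  flatK_of_isQ (hF ▸ D.isQ)

/-- (T4) -/
theorem vi (D : St2W L hc0 hc Pr W Act₀ G₀ h' κ g)
    (hF : F.B = fun b : G₀ => L.bxQ c hc0 hc b.1) (hS : F.IsS S) {X : Set V}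
    (hXΩ : X ⊆ Ω) (hX : g.toFun '' X = Pre κ Λ h' X) {b : G₀} {y : V}
    (hy : y ∈ (g.trans S).toFun '' X) (hyT : y ∈ G.TB true b.1) {t : ℝ}
    (ht : t ∈ Icc (G.tlo true b.1 b.1.ax) (G.thi true b.1 b.1.ax))
    (hgap : ∀ r ∈ uIcc (y b.1.ax) t, NoSl (F.sl b) r) :
    Function.update y b.1.ax t ∈ (g.trans S).toFun '' X := by
  have e1 : F.B b = L.bxQ c hc0 hc b.1 := congrFun hF b
  have h1 := fullK_of_TBW L hc0 hc hF hyT
  have h2 := image_update_of_sl (D.flat hF) hS hX hXΩ h1 (t := t) (by rw [e1]; exact ht)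
    (by rw [e1]; exact hgap) hy
  rw [e1] at h2
  exact h2

/-- a band point comes from a level point -/
theorem level (D : St2W L hc0 hc Pr W Act₀ G₀ h' κ g)
    (hF : F.B = fun b : G₀ => L.bxQ c hc0 hc b.1) (hS : F.IsS S) {X : Set V}
    (hXΩ : X ⊆ Ω) (hX : g.toFun '' X = Pre κ Λ h' X) {b : G₀} {y : V}
    (hy : y ∈ (g.trans S).toFun '' X) (hyT : y ∈ G.TB true b.1) (hsl : NoSl (F.sl b) (y b.1.ax)) :
    ∃ k < L.N b.1, y b.1.ax ∈ F.bd b k ∧ Function.update y b.1.ax (L.a b.1 k) ∈ G.TB true b.1 ∧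
      ∃ x ∈ X, h'.toFun x = Function.update y b.1.ax (L.a b.1 k) := by
  have e1 : F.B b = L.bxQ c hc0 hc b.1 := congrFun hF b
  have h1 := fullK_of_TBW L hc0 hc hF hyT
  obtain ⟨k, hk, hyk⟩ := BFam.bd_of_noSl (F := F) (b := b) (t := y b.1.ax)
    (by rw [e1]; exact ⟨hyT.1 _, hyT.2 _⟩) hsl
  have hk' : k < L.N b.1 := by rw [e1] at hk; exact hk
  have h2 := (mem_image_iff (D.flat hF) hS hX hXΩ h1 hk (by rw [e1]; exact hyk)).1 hy
  rw [e1] at h2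
  obtain ⟨x, hx, hxy⟩ := h2
  have h0 := L.ω0 b.1
  have h3 := L.mem_win hk'
  refine ⟨k, hk', hyk, update_TB hyT (by linarith) (by linarith), x, hx, hxy⟩

/-- an edge or a face with a band point is active -/
theorem tact (D : St2W L hc0 hc Pr W Act₀ G₀ h' κ g)
    (hF : F.B = fun b : G₀ => L.bxQ c hc0 hc b.1) (hS : F.IsS S) {X : Set V}
    (hX : g.toFun '' X = Pre κ Λ h' X) {k : M.κ} (hXk : X ⊆ M.F k) {b : G₀} {y : V}
    (hy : y ∈ (g.trans S).toFun '' X) (hyT : y ∈ G.TB true b.1) (hsl : NoSl (F.sl b) (y b.1.ax)) :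
    TAct G M h' L.lev b.1 k := by
  obtain ⟨m, hm, -, h1, x, hx, hxy⟩ := D.level hF hS (hXk.trans (mesh_sub M k)) hX hy hyT hsl
  refine ⟨x, hXk hx, by rw [hxy]; exact h1, ?_⟩
  rw [hxy, Function.update_self]
  exact ⟨m, hm, rfl⟩

/-- (T4), vertices -/
theorem vert' (D : St2W L hc0 hc Pr W Act₀ G₀ h' κ g)
    (hF : F.B = fun b : G₀ => L.bxQ c hc0 hc b.1) (hS : F.IsS S) {x : V}
    (hx : x ∈ E.verts) {b : G₀} (hT : (g.trans S).toFun x ∈ G.TB true b.1) :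
    ¬ NoSl (F.sl b) ((g.trans S).toFun x b.1.ax) := by
  intro hsl
  obtain ⟨k, hk⟩ := H345.exists_face_of_vert E hx
  have hxΩ : x ∈ Ω := mesh_sub M k hk
  have e1 : F.B b = L.bxQ c hc0 hc b.1 := congrFun hF b
  have h1 := fullK_of_TBW L hc0 hc hF hT
  have hgΛ : g.toFun x ∈ Λ := g.mapsTo hxΩ
  have hz : F.FullK b (g.toFun x) := (hS.fullK_iff hgΛ).1 h1
  obtain ⟨m, hm, hbm⟩ := BFam.bd_of_noSl (F := F) (b := b) (t := (g.trans S).toFun x b.1.ax)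
    (by rw [e1]; exact ⟨hT.1 _, hT.2 _⟩) hsl
  have e2 : (g.trans S).toFun x = Function.update (g.toFun x) (F.B b).j
    (F.σ b (g.toFun x (F.B b).j)) := hS.full hz
  have e3 : (F.B b).j = b.1.ax := by rw [e1]; rfl
  have h2 : F.σ b (g.toFun x (F.B b).j) ∈ F.bd b m := by
    rw [e2, ← e3, Function.update_self] at hbm
    exact hbm
  have h3 := (F.σ_mem_bd b hm).1 h2
  have h4 := D.flat hF b _ hz m hm h3
  rw [D.vert x hx] at h4
  have hreg : H345.RegB M E h' (fun b : G₀ => L.bxQ c hc0 hc b.1) :=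
    L.regBG D.O hc0 hc D.osc
  have h5 : F.FullK b (h'.toFun x) := by rw [h4]; exact hz.at_level hm
  rw [← hF] at hreg
  exact hreg.vert hx h5.mem hm (by rw [h4, Function.update_self])

/-- (T8) -/
theorem circ (D : St2W L hc0 hc Pr W Act₀ G₀ h' κ g)
    (hF : F.B = fun b : G₀ => L.bxQ c hc0 hc b.1) (hS : F.IsS S) {k : M.κ} (hk0 : k ∈ Act₀)
    {b : G₀} {t : ℝ} (ht : NoSl (F.sl b) t) {σ : Set V} (hσ : IsCircle σ) (hσk : σ ⊆ M.F k)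
    (hl : ∀ x ∈ σ, (g.trans S).toFun x ∈ G.TB true b.1 ∧ (g.trans S).toFun x b.1.ax = t) : False := by
  have e1 : F.B b = L.bxQ c hc0 hc b.1 := congrFun hF b
  have e3 : (F.B b).j = b.1.ax := by rw [e1]; rfl
  obtain ⟨x₀, hx₀⟩ := circle_ne hσ
  obtain ⟨h1, h2⟩ := hl x₀ hx₀
  have htI : t ∈ Icc (F.B b).al (F.B b).be := by
    rw [e1, ← h2]; exact ⟨h1.1 _, h1.2 _⟩
  obtain ⟨m, hm, hbm⟩ := BFam.bd_of_noSl (F := F) (b := b) htI ht
  have hm' : m < L.N b.1 := by rw [e1] at hm; exact hm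
  obtain ⟨σ', hσ', hσk', hpt⟩ := exists_circle' (D.flat hF) hS (D.face k) (mesh_sub M k) hm hbm hσ
    hσk fun x hx => ⟨by rw [e3]; exact (hl x hx).2, fullK_of_TBW L hc0 hc hF (hl x hx).1⟩
  rw [e1] at hpt
  have h0 := L.ω0 b.1
  have h3 := L.mem_win hm'
  have hall : ∀ x' ∈ σ', h'.toFun x' ∈ G.TB true b.1 ∧ h'.toFun x' b.1.ax = L.a b.1 m := by
    intro x' hx'
    obtain ⟨x, hx, hxx⟩ := hpt x' hx'
    have hxx' : h'.toFun x' = Function.update ((g.trans S).toFun x) b.1.ax (L.a b.1 m) := hxx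
    rw [hxx', Function.update_self]
    exact ⟨update_TB (hl x hx).1 (by linarith) (by linarith), rfl⟩
  obtain ⟨x₁, hx₁⟩ := circle_ne hσ'
  have hact : TAct G M h' L.lev b.1 k :=
    ⟨x₁, hσk' hx₁, (hall x₁ hx₁).1, by rw [(hall x₁ hx₁).2]; exact ⟨m, hm', rfl⟩⟩
  exact D.O.noCircV L.lev_fin b.2 hk0 (D.O.act b.1 k hact) hσ' hσk' fun x hx => by
    rw [(hall x hx).2]; exact ⟨m, hm', rfl⟩

/-- (T9) -/
theorem edge' (D : St2W L hc0 hc Pr W Act₀ G₀ h' κ g)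
    (hF : F.B = fun b : G₀ => L.bxQ c hc0 hc b.1) (hS : F.IsS S) {La : ℝ}
    {ed : E.ε} {b : G₀} {k : M.κ} (hk : E.seg ed ⊆ M.F k)
    (hGE : TAct G M h' L.lev b.1 k → ∃ f : V → V,
      EqOn g.toFun f (E.seg ed) ∧ ∃ s1 s2 s3 s4 : V → ℝ, EdgeNum (E.a ed) (E.b ed) h'.toFun
        (kQ (L.bxQ c hc0 hc b.1)) (LQ (L.bxQ c hc0 hc b.1)) (loQ (L.bxQ c hc0 hc b.1))
        (hiQ (L.bxQ c hc0 hc b.1)) (omQ (L.bxQ c hc0 hc b.1)) La f s1 s2 s3 s4)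
    {s : ℝ} (hs : s ∈ Icc (0:ℝ) 1)
    (hT : (g.trans S).toFun (AffineMap.lineMap (E.a ed) (E.b ed) s) ∈ G.TB true b.1)
    (hsl : NoSl (F.sl b) ((g.trans S).toFun (AffineMap.lineMap (E.a ed) (E.b ed) s) b.1.ax)) :
    ∃ (t1 t2 s2 s3 : ℝ) (ψ : ℝ → ℝ), t1 < t2 ∧ (∃ p ∈ F.sl b, p.2 = t1) ∧
      (∃ p ∈ F.sl b, p.1 = t2) ∧
      (∀ r ∈ Icc t1 t2, NoSl (F.sl b) r) ∧ 0 < s2 ∧ s2 < s3 ∧ s3 < 1 ∧ s ∈ Icc s2 s3 ∧
      (∀ s' ∈ Icc s2 s3, (g.trans S).toFun (AffineMap.lineMap (E.a ed) (E.b ed) s') =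
        Function.update ((g.trans S).toFun (AffineMap.lineMap (E.a ed) (E.b ed) s)) b.1.ax
          (ψ s')) ∧
      ContinuousOn ψ (Icc s2 s3) ∧ InjOn ψ (Icc s2 s3) ∧ ψ '' Icc s2 s3 = Icc t1 t2 ∧
      ∀ s' ∈ Icc s2 s3, ∀ s'' ∈ Icc s2 s3,
        |ψ s' - ψ s''| ≤ La * ‖E.b ed - E.a ed‖ * |s' - s''| := by
  have e1 : F.B b = L.bxQ c hc0 hc b.1 := congrFun hF b
  have e3 : (F.B b).j = b.1.ax := by rw [e1]; rfl
  have hγ : (AffineMap.lineMap (E.a ed) (E.b ed) s : V) ∈ E.seg ed := lineMap_mem hs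
  have hact := D.tact hF hS (D.edge ed) hk (mem_image_of_mem _ hγ) hT hsl
  obtain ⟨f, hf, s1, s2, s3, s4, HE⟩ := hGE hact
  obtain ⟨m, hm, hbm⟩ := BFam.bd_of_noSl (F := F) (b := b)
    (t := (g.trans S).toFun (AffineMap.lineMap (E.a ed) (E.b ed) s) b.1.ax)
    (by rw [e1]; exact ⟨hT.1 _, hT.2 _⟩) hsl
  rw [← e1] at HE
  obtain ⟨x, hsx, HV⟩ := exists_vertOn (F := F) (b := b) (k := m) (hF ▸ D.isQ) (hF ▸ D.fam) hS
    (E.seg_sub_Ω ed) (D.edge ed) hf HE hm hs (fullK_of_TBW L hc0 hc hF hT)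
    (by rw [e3]; exact hbm)
  have hlt : (F.B b).al + m * F.om b + F.e b < (F.B b).al + (m + 1) * F.om b - F.e b := by
    have := (F.tgt b).eo
    have := F.he b
    linarith
  obtain ⟨hp, hq⟩ := F.bd_ends b hm
  refine ⟨_, _, s2 x, s3 x, _, hlt, hp, hq, fun r hr => F.noSl_bd b (k := m) hr, HV.pos, HV.lt,
    HV.lt1, hsx, fun s' hs' => ?_, HV.cont, HV.inj, HV.img.trans (F.bd_eq b m), HV.lip⟩
  have h1 := HV.eq s' hs'
  have h2 := HV.eq s hsx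
  rw [e3] at h1 h2 ⊢
  generalize (g.trans S).toFun (AffineMap.lineMap (E.a ed) (E.b ed) s') b.1.ax = r at h1
  rw [h2, Function.update_idem]
  exact h1

end St2W

namespace St2W

/-- (T2) -/
theorem near (D : St2W L hc0 hc Pr W Act₀ G₀ h' κ g)
    (hF : F.B = fun b : G₀ => L.bxQ c hc0 hc b.1) (hS : F.IsS S)
    (hom : ∀ b ∈ G₀, ∀ y q, y ∈ G.TB false b → y ∈ K.cube q → 1024 * ω b ≤ G.om q) {k : M.κ}
    (hcmp : ∀ x ∈ M.F k, ∀ x' ∈ M.F k, ∀ q q', h.toFun x ∈ K.cube q →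
      h.toFun x' ∈ K.cube q' → 4096 * ‖h.toFun x - h.toFun x'‖ ≤ G.om q ∧ G.om q' ≤ 4 * G.om q)
    (hDω : ∀ b : G₀, F.D b ≤ 62 * ω b.1) (hcω : ∀ b ∈ G₀, c b ≤ 62 * ω b) {x : V}
    (hx : x ∈ M.F k) {q : K.T} (hq : h.toFun x ∈ K.cube q) :
    ‖(g.trans S).toFun x - h.toFun x‖ ≤ G.om q := by
  have h0 : ∀ b : G₀, 0 < ω b.1 := fun b => L.ω0 b.1
  have hr : ∀ b : G₀, 0 ≤ 62 * ω b.1 := fun b => by linarith [h0 b]
  have H1 : Rl (fun b : G₀ => (L.bxQ c hc0 hc b.1).K) (fun b : G₀ => 62 * ω b.1) Ω h.toFun h'.toFun :=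
    (rl_tW L hc0 hc D.O).mono fun b => by linarith [h0 b]
  have H2 : Mv (fun b : G₀ => (L.bxQ c hc0 hc b.1).K) (fun b : G₀ => 62 * ω b.1) κ :=
    (mv_isQ D.isQ).mono fun b => hcω b.1 b.2
  have H3 : Mv (fun b : G₀ => (L.bxQ c hc0 hc b.1).K) (fun b : G₀ => 62 * ω b.1) S.toFun := by
    have := (mv_isS hS).mono hDω
    rwa [hF] at this
  obtain ⟨x', hx', h1⟩ := exists_near hr H1 H2 H3 (D.face k) (mesh_sub M k) hx
  obtain ⟨q', hq'⟩ := K.cover _ (h.mapsTo (mesh_sub M k hx'))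
  obtain ⟨h2, h3⟩ := hcmp x hx x' hx' q q' hq hq'
  rw [norm_sub_rev] at h2
  have h5 : 0 ≤ ‖h.toFun x' - h.toFun x‖ := norm_nonneg _
  rcases h1 with h1 | ⟨b, hb, h1⟩
  · show ‖S.toFun (g.toFun x) - h.toFun x‖ ≤ _
    rw [h1]
    linarith
  · have h4 := hom b.1 b.2 _ q' (L.K_sub hc0 hc b.1 hb) hq'
    have h6 := norm_sub_le_norm_sub_add_norm_sub (S.toFun (g.toFun x)) (h.toFun x') (h.toFun x)
    show ‖S.toFun (g.toFun x) - h.toFun x‖ ≤ _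
    linarith

/-- (T3) -/
theorem off (D : St2W L hc0 hc Pr W Act₀ G₀ h' κ g)
    (hF : F.B = fun b : G₀ => L.bxQ c hc0 hc b.1) (hS : F.IsS S)
    {k : M.κ} (hno : ∀ x ∈ M.F k, ∀ b ∈ G₀, h.toFun x ∉ G.TB false b)
    (hW : EqOn g.toFun h'.toFun (M.F k)) :
    EqOn (g.trans S).toFun h.toFun (M.F k) := by
  have H3 : Mv (fun b : G₀ => (L.bxQ c hc0 hc b.1).K) F.D S.toFun := by
    have := mv_isS hS
    rwa [hF] at this
  have h1 : ∀ x ∈ M.F k, h'.toFun x = h.toFun x := fun x hx =>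
    (rl_tW L hc0 hc D.O).off x (mesh_sub M k hx) fun b hb => hno x hx b.1 b.2 (L.K_sub hc0 hc b.1 hb)
  intro x hx
  have h2 : g.toFun x = h'.toFun x := hW hx
  show S.toFun (g.toFun x) = h.toFun x
  rw [h2, h1 x hx]
  exact H3.off _ fun b hb => hno x hx b.1 b.2 (L.K_sub hc0 hc b.1 hb)

/-- deep faces after STEP S -/
theorem inT' (D : St2W L hc0 hc Pr W Act₀ G₀ h' κ g) {k : M.κ} {b : G₀} (hk : InT G M h ω b.1 k) {x : V}
    (hx : x ∈ M.F k) : closedBall (h'.toFun x) (18 * ω b.1) ⊆ G.TB true b.1 := by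
  have h0 := L.ω0 b.1
  intro y hy
  refine hk x hx ?_
  have h1 : h.toFun x ∈ G.TB true b.1 := hk x hx (mem_closedBall_self (by linarith))
  have h2 := D.O.all b.1 x (mesh_sub M k hx) (Geo.TB_true_subset b.1 h1)
  rw [mem_closedBall] at hy ⊢
  have h3 := dist_triangle y (h'.toFun x) (h.toFun x)
  linarith

/-- deep faces after the insertion -/
theorem inT_g (D : St2W L hc0 hc Pr W Act₀ G₀ h' κ g) (hcω : ∀ b ∈ G₀, c b ≤ 18 * ω b) {k : M.κ} {b : G₀}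
    (hk : InT G M h ω b.1 k) {x : V} (hx : x ∈ M.F k) : g.toFun x ∈ G.TB true b.1 := by
  have h0 := L.ω0 b.1
  have h1 : g.toFun x ∈ Pre κ Λ h' (M.F k) := by
    rw [← D.face k]; exact mem_image_of_mem _ hx
  obtain ⟨x', hx', h2⟩ := h1.2
  have h3 := D.inT' hk hx'
  have h4 : h'.toFun x' ∈ G.TB true b.1 := h3 (mem_closedBall_self (by linarith))
  have h5 : h'.toFun x' ∈ (L.bxQ c hc0 hc b.1).K := by
    rw [L.mem_K hc0 hc]
    exact ⟨⟨h4.1 _, h4.2 _⟩, fun i _ => ⟨by linarith [h4.1 i], by linarith [h4.2 i]⟩⟩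
  rw [h2] at h5
  have h6 := (D.isQ.mem_iff D.fam).1 h5
  refine h3 ?_
  rw [mem_closedBall, dist_eq_norm, h2, norm_sub_rev]
  exact ((mv_isQ D.isQ).near b _ h6).trans (hcω b.1 b.2)

/-- deep faces after the staircase -/
theorem inT_S (D : St2W L hc0 hc Pr W Act₀ G₀ h' κ g)
    (hF : F.B = fun b : G₀ => L.bxQ c hc0 hc b.1) (hS : F.IsS S)
    (hcω : ∀ b ∈ G₀, c b ≤ 18 * ω b) {k : M.κ} {b : G₀}
    (hk : InT G M h ω b.1 k) {x : V} (hx : x ∈ M.F k) :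
    (g.trans S).toFun x ∈ G.TB true b.1 := by
  have e1 : F.B b = L.bxQ c hc0 hc b.1 := congrFun hF b
  have h1 := D.inT_g hcω hk hx
  have h2 := fullK_of_TBW L hc0 hc hF h1
  have h3 : S.toFun (g.toFun x) = _ := hS.full h2
  have h4 := F.σ_win h2.1
  rw [e1] at h3 h4
  show S.toFun (g.toFun x) ∈ _
  rw [h3]
  exact update_TB h1 h4.1 h4.2

/-- (T7) -/
theorem lip (D : St2W L hc0 hc Pr W Act₀ G₀ h' κ g)
    (hF : F.B = fun b : G₀ => L.bxQ c hc0 hc b.1) (hS : F.IsS S)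
    (hcω : ∀ b ∈ G₀, c b ≤ 18 * ω b) {k : M.κ} {b : G₀} (hk : InT G M h ω b.1 k) {j : Fin 3}
    (hj : j ≠ b.1.ax) {Lam : ℝ} (hLam : ∀ x ∈ M.F k, ∀ y ∈ M.F k,
      ‖g.toFun x - g.toFun y‖ ≤ Lam * ‖x - y‖) {x y : V} (hx : x ∈ M.F k) (hy : y ∈ M.F k) :
    |(g.trans S).toFun x j - (g.trans S).toFun y j| ≤ Lam * ‖x - y‖ := by
  have e1 : F.B b = L.bxQ c hc0 hc b.1 := congrFun hF b
  have hj' : j ≠ (F.B b).j := by rw [e1]; exact hj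
  have key : ∀ z ∈ M.F k, (g.trans S).toFun z j = g.toFun z j := fun z hz =>
    hS.ne (fullK_of_TBW L hc0 hc hF (D.inT_g hcω hk hz)).mem hj'
  rw [key x hx, key y hy]
  refine le_trans ?_ (hLam x hx y hy)
  have := norm_le_pi_norm (g.toFun x - g.toFun y) j
  rwa [Pi.sub_apply, Real.norm_eq_abs] at this

/-- (T6) -/
theorem cone (D : St2W L hc0 hc Pr W Act₀ G₀ h' κ g)
    (hF : F.B = fun b : G₀ => L.bxQ c hc0 hc b.1) (hS : F.IsS S)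
    (hcω : ∀ b ∈ G₀, c b ≤ 18 * ω b) {k : M.κ} {b : G₀} (hk : InT G M h ω b.1 k) {Lam ε Lf : ℝ}
    (hLam : ∀ x ∈ M.F k, ∀ y ∈ M.F k, ‖g.toFun x - g.toFun y‖ ≤ Lam * ‖x - y‖)
    (hLf : 0 ≤ Lf) (hε : F.e b / c b.1 * Lam ≤ ε) {X : Set V} (hXk : X ⊆ M.F k)
    (hGF : TAct G M h' L.lev b.1 k → ∃ Φ : V → V, EqOn g.toFun Φ (M.F k) ∧
      ∀ x ∈ X, ∀ y ∈ X, bandD (LQ (L.bxQ c hc0 hc b.1)) (loQ (L.bxQ c hc0 hc b.1))
        (hiQ (L.bxQ c hc0 hc b.1)) (omQ (L.bxQ c hc0 hc b.1)) (Φ x) (Φ y) ≤ Lf * ‖x - y‖)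
    {x y : V} (hx : x ∈ X) (hy : y ∈ X) :
    |(g.trans S).toFun x b.1.ax - (g.trans S).toFun y b.1.ax| ≤ (Lf + ε) * ‖x - y‖ := by
  have e1 : F.B b = L.bxQ c hc0 hc b.1 := congrFun hF b
  have e3 : (F.B b).j = b.1.ax := by rw [e1]; rfl
  have e4 : (F.B b).c = c b.1 := by rw [e1]; rfl
  have hfull : ∀ z ∈ M.F k, F.FullK b (g.toFun z) := fun z hz =>
    fullK_of_TBW L hc0 hc hF (D.inT_g hcω hk hz)
  have hcoord : ∀ z ∈ M.F k, ∀ w ∈ M.F k,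
      |g.toFun z (F.B b).j - g.toFun w (F.B b).j| ≤ Lam * ‖z - w‖ := by
    intro z hz w hw
    refine le_trans ?_ (hLam z hz w hw)
    have := norm_le_pi_norm (g.toFun z - g.toFun w) (F.B b).j
    rwa [Pi.sub_apply, Real.norm_eq_abs] at this
  have hec : 0 ≤ F.e b / c b.1 := div_nonneg (F.he b).le (hc0 b).le
  by_cases hT : TAct G M h' L.lev b.1 k
  · obtain ⟨Φ, hΦ, hb⟩ := hGF hT
    have h1 := hb x hx y hy
    rw [← hΦ (hXk hx), ← hΦ (hXk hy), bandD_Q] at h1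
    have h2 := hS.lip (hfull x (hXk hx)) (hfull y (hXk hy)) (K₁ := Lf) (K₂ := Lam) (by
      refine le_trans (le_of_eq ?_) h1
      rw [BFam.om, e1, ← Finset.sum_div]
      ring) (hcoord x (hXk hx) y (hXk hy))
    rw [e3, e4] at h2
    refine h2.trans (mul_le_mul_of_nonneg_right ?_ (norm_nonneg _))
    linarith
  · have hlev : ∀ z ∈ M.F k, ∀ m < (F.B b).N, h'.toFun z (F.B b).j ≠ (F.B b).a m := by
      intro z hz m hm hzm
      rw [e1] at hm hzm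
      refine hT ⟨z, hz, D.inT' hk hz (mem_closedBall_self (by linarith [L.ω0 b.1])), ?_⟩
      have hzm' : h'.toFun z b.1.ax = L.a b.1 m := hzm
      rw [hzm']
      exact ⟨m, hm, rfl⟩
    have h2 := hS.lip_no_level (h := h') (b := b) (D.flat hF) (D.face k) (mesh_sub M k) hlev
      (face_convex M k).isPreconnected Subset.rfl hfull (hXk hx) (hXk hy)
    have h3 := hcoord x (hXk hx) y (hXk hy)
    rw [e3, e4] at h2
    rw [e3] at h3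
    refine h2.trans ?_
    calc F.e b / c b.1 * |g.toFun x b.1.ax - g.toFun y b.1.ax|
        ≤ F.e b / c b.1 * (Lam * ‖x - y‖) := mul_le_mul_of_nonneg_left h3 hec
      _ = F.e b / c b.1 * Lam * ‖x - y‖ := by ring
      _ ≤ (Lf + ε) * ‖x - y‖ := mul_le_mul_of_nonneg_right (by linarith) (norm_nonneg _)

/-- (T6), on the edges -/
theorem elip (D : St2W L hc0 hc Pr W Act₀ G₀ h' κ g)
    (hF : F.B = fun b : G₀ => L.bxQ c hc0 hc b.1) (hS : F.IsS S)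
    (hcω : ∀ b ∈ G₀, c b ≤ 18 * ω b) {k : M.κ} {b : G₀} (hk : InT G M h ω b.1 k) {Lam ε La : ℝ}
    (hLam : ∀ x ∈ M.F k, ∀ y ∈ M.F k, ‖g.toFun x - g.toFun y‖ ≤ Lam * ‖x - y‖)
    (hLa : 0 ≤ La) (hε : F.e b / c b.1 * Lam ≤ ε) {ed : E.ε} (hed : E.seg ed ⊆ M.F k)
    (hGE : TAct G M h' L.lev b.1 k → ∃ f : V → V,
      EqOn g.toFun f (E.seg ed) ∧ ∃ s1 s2 s3 s4 : V → ℝ, EdgeNum (E.a ed) (E.b ed) h'.toFun
        (kQ (L.bxQ c hc0 hc b.1)) (LQ (L.bxQ c hc0 hc b.1)) (loQ (L.bxQ c hc0 hc b.1))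
        (hiQ (L.bxQ c hc0 hc b.1)) (omQ (L.bxQ c hc0 hc b.1)) La f s1 s2 s3 s4)
    {x y : V} (hx : x ∈ E.seg ed) (hy : y ∈ E.seg ed) :
    |(g.trans S).toFun x b.1.ax - (g.trans S).toFun y b.1.ax| ≤ (La + ε) * ‖x - y‖ := by
  classical
  by_cases hT : TAct G M h' L.lev b.1 k
  swap
  · exact D.cone hF hS hcω hk hLam hLa hε hed (fun h1 => absurd h1 hT) hx hy
  obtain ⟨f, hf, s1, s2, s3, s4, HE⟩ := hGE hT
  refine D.cone hF hS hcω hk hLam hLa hε hed (fun _ => ⟨g.toFun, fun _ _ => rfl, ?_⟩) hx hy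
  have e1 : F.B b = L.bxQ c hc0 hc b.1 := congrFun hF b
  set Bx := L.bxQ c hc0 hc b.1 with hBx
  have hc0' : 0 < Bx.c := Bx.lvs.c0
  have hfull : ∀ z ∈ M.F k, F.FullK b (g.toFun z) := fun z hz =>
    fullK_of_TBW L hc0 hc hF (D.inT_g hcω hk hz)
  set γ : ℝ → V := fun s => AffineMap.lineMap (E.a ed) (E.b ed) s with hγ
  have hγm : ∀ s ∈ Icc (0:ℝ) 1, γ s ∈ E.seg ed := fun s hs => lineMap_mem hs
  have hq : ContinuousOn (fun s => g.toFun (γ s) Bx.j) (Icc 0 1) := by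
    have h5 : ContinuousOn γ (Icc 0 1) := (AffineMap.lineMap_continuous).continuousOn
    exact (continuous_apply Bx.j).comp_continuousOn
      (g.cont.comp h5 fun s hs => E.seg_sub_Ω ed (hγm s hs))
  have hom : 0 < stp Bx.N Bx.al Bx.be := stp_pos Bx
  have hlev : ∀ x, CrsPt (E.a ed) (E.b ed) h'.toFun (LQ Bx) x → h'.toFun x Bx.j ∈ LQ Bx Bx.j := by
    rintro x ⟨-, j, hj⟩
    obtain ⟨rfl, -⟩ := mem_LQ.1 hj
    exact hj
  have key := fun s s' hs hs' => Bx.lvs.band_lip (q := fun s => g.toFun (γ s) Bx.j) hq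
    (P := CrsPt (E.a ed) (E.b ed) h'.toFun (LQ Bx)) (s1 := s1) (s2 := s2) (s3 := s3) (s4 := s4)
    HE.a2 HE.a4 (fun x hx => by linarith [HE.a1 x hx, HE.a2 x hx])
    (fun x hx => by linarith [HE.a4 x hx, HE.a5 x hx]) HE.dis
    (by
      intro s hs m hm hsm
      have hz := hfull _ (hed (hγm s hs))
      have hm' : m < (F.B b).N := by rw [e1]; exact hm
      have h1 := D.flat hF b _ hz m hm' (by rw [e1]; exact hsm)
      rw [e1] at h1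
      have h2 : g.toFun (γ s) ∈ Pre κ Λ h' (E.seg ed) := by
        rw [← D.edge ed]; exact mem_image_of_mem _ (hγm s hs)
      obtain ⟨x', hx', h3⟩ := h2.2
      have h4 : h'.toFun x' = Function.update (g.toFun (γ s)) Bx.j (Bx.a m) := by
        rw [h3]; exact h1
      have hcr : CrsPt (E.a ed) (E.b ed) h'.toFun (LQ Bx) x' :=
        crsPt_Q.2 ⟨hx', m, hm, by rw [h4, Function.update_self]⟩
      refine ⟨x', hcr, (HE.fib x' hcr s hs).1 ?_⟩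
      rw [← hf (hγm s hs)]
      have h5 : F.FullK b (h'.toFun x') := by
        rw [h4]
        have := hz.at_level hm'
        rw [e1] at this
        exact this
      have h6 := fib_iff (F := F) (κ := κ) (hF ▸ D.isQ) (hF ▸ D.fam) h5 hm'
        (by rw [e1, h4, Function.update_self]) (g.mapsTo (E.seg_sub_Ω ed (hγm s hs)))
      rw [e1] at h6
      exact h6.1 h3.symm)
    (C := 2 * Bx.c / stp Bx.N Bx.al Bx.be * (La * ‖E.b ed - E.a ed‖)) (by positivity)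
    (by
      intro x hx s hs s' hs'
      have hsI : ∀ r ∈ Icc (s2 x) (s3 x), r ∈ Icc (0:ℝ) 1 := fun r hr =>
        ⟨by linarith [HE.a1 x hx, HE.a2 x hx, hr.1], by linarith [HE.a4 x hx, HE.a5 x hx, hr.2]⟩
      have h1 := HE.lip x hx.1 Bx.j (hlev x hx) s hs s' hs'
      rw [hiQ_sub_loQ, ← hf (hγm s (hsI s hs)), ← hf (hγm s' (hsI s' hs'))] at h1
      change stp Bx.N Bx.al Bx.be * |g.toFun (γ s) Bx.j - g.toFun (γ s') Bx.j| ≤ _ at h1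
      rw [div_mul_eq_mul_div, div_mul_eq_mul_div, le_div_iff₀ hom]
      linarith) (s := s) (s' := s') hs hs'
  intro z hz w hw
  have hz' : z ∈ γ '' Icc (0:ℝ) 1 := by
    have : z ∈ segment ℝ (E.a ed) (E.b ed) := hz
    rwa [segment_eq_image_lineMap] at this
  have hw' : w ∈ γ '' Icc (0:ℝ) 1 := by
    have : w ∈ segment ℝ (E.a ed) (E.b ed) := hw
    rwa [segment_eq_image_lineMap] at this
  obtain ⟨s, hs, rfl⟩ := hz'
  obtain ⟨s', hs', rfl⟩ := hw'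
  have h1 := key s s' hs hs'
  have h2 : ‖γ s - γ s'‖ = |s - s'| * ‖E.b ed - E.a ed‖ := by
    have h3 : dist (γ s) (γ s') = dist s s' * dist (E.a ed) (E.b ed) := by
      rw [hγ]; exact dist_lineMap_lineMap _ _ _ _
    rw [dist_eq_norm, Real.dist_eq, dist_eq_norm, norm_sub_rev (E.a ed)] at h3
    exact h3
  rw [bandD_Q, h2, div_mul_eq_mul_div, div_le_iff₀ (by linarith)]
  have h3 := mul_le_mul_of_nonneg_left h1 hom.le
  refine h3.trans (le_of_eq ?_)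
  field_simp

end St2W

end P073.H236
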