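import Vale.Agent.P073.H579.EdgeMap
import Vale.Agent.P073.H579.FaceMet

/-!
# P073, H579: **(OWN-EDGE)** the homeomorphism of an edge onto its preimage under the insertion map

Given a parametrised arc `s`, the crossing parameters `t i`, a monotone parameter change `τ` and
band coordinates `z i` (`0` before, `1` after the fibre of `t i`), there is a conical homeomorphism
`Φ : s → preQ k h s` with `prodK k (Φ (sc a)) = h (sc (τ a))` and band coordinate `z i` over `t i`.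
-/

set_option linter.unusedSectionVars false

open Set Metric Topology Filter

namespace P073.H579

open P073.H31

variable {E : Type*} [NormedAddCommGroup E] [NormedSpace ℝ E]

/-- the data on the parameter interval -/
structure OwnPar (n : ℕ) (t : ℕ → ℝ) (τ : ℝ → ℝ) (z : ℕ → ℝ → ℝ) : Prop where
  tmem : ∀ i < n, t i ∈ Ioo (0:ℝ) 1
  tinj : ∀ i < n, ∀ i' < n, t i = t i' → i = i'
  cont : ContinuousOn τ (Icc 0 1)
  con : ConicalOn τ (Icc 0 1)
  mono : MonotoneOn τ (Icc 0 1)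
  zero : τ 0 = 0
  one : τ 1 = 1
  zc : ∀ i < n, ContinuousOn (z i) (Icc 0 1)
  zk : ∀ i < n, ConicalOn (z i) (Icc 0 1)
  z01 : ∀ i < n, ∀ a ∈ Icc (0:ℝ) 1, 0 ≤ z i a ∧ z i a ≤ 1
  zneg : ∀ i < n, ∀ a ∈ Icc (0:ℝ) 1, τ a < t i → z i a = 0
  zpos : ∀ i < n, ∀ a ∈ Icc (0:ℝ) 1, t i < τ a → z i a = 1
  inj : ∀ a ∈ Icc (0:ℝ) 1, ∀ b ∈ Icc (0:ℝ) 1, τ a = τ b → (∀ i < n, z i a = z i b) → a = b

namespace OwnPar

variable {n : ℕ} {t : ℕ → ℝ} {τ : ℝ → ℝ} {z : ℕ → ℝ → ℝ} (P : OwnPar n t τ z)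

include P

theorem maps : MapsTo τ (Icc 0 1) (Icc 0 1) := by
  intro a ha
  constructor
  · rw [← P.zero]; exact P.mono ⟨le_refl _, zero_le_one⟩ ha ha.1
  · rw [← P.one]; exact P.mono ha ⟨zero_le_one, le_refl _⟩ ha.2

/-- every value of the band coordinate is taken on the fibre -/
theorem exists_val {i : ℕ} (hi : i < n) {v : ℝ} (hv : v ∈ Icc (0:ℝ) 1) :
    ∃ a ∈ Icc (0:ℝ) 1, τ a = t i ∧ z i a = v := by
  have i0 : (0:ℝ) ∈ Icc (0:ℝ) 1 := ⟨le_refl _, zero_le_one⟩
  have i1 : (1:ℝ) ∈ Icc (0:ℝ) 1 := ⟨zero_le_one, le_refl _⟩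
  have ht := P.tmem i hi
  -- the fibre
  set T : Set ℝ := {a | a ∈ Icc (0:ℝ) 1 ∧ τ a = t i} with hT
  have hcomp : IsCompact T := by
    have h1 : IsClosed (Icc (0:ℝ) 1 ∩ τ ⁻¹' {t i}) :=
      P.cont.preimage_isClosed_of_isClosed isClosed_Icc isClosed_singleton
    exact isCompact_Icc.of_isClosed_subset h1 inter_subset_left
  have hne : T.Nonempty := by
    obtain ⟨a, ha, h1⟩ := intermediate_value_Icc zero_le_one P.cont
      (show t i ∈ Icc (τ 0) (τ 1) by rw [P.zero, P.one]; exact ⟨ht.1.le, ht.2.le⟩)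
    exact ⟨a, ha, h1⟩
  have hord : T.OrdConnected := by
    refine ⟨fun x hx y hy w hw => ?_⟩
    have hz' : w ∈ Icc (0:ℝ) 1 := ⟨hx.1.1.trans hw.1, hw.2.trans hy.1.2⟩
    refine ⟨hz', le_antisymm ?_ ?_⟩
    · rw [← hy.2]; exact P.mono hz' hy.1 hw.2
    · rw [← hx.2]; exact P.mono hx.1 hz' hw.1
  have hTeq := eq_Icc_of_connected_compact ⟨hne, hord.isPreconnected⟩ hcomp
  set p := sInf T with hp
  set q := sSup T with hq
  have hpq : p ≤ q := by
    obtain ⟨a, ha⟩ := hne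
    rw [hTeq] at ha
    exact ha.1.trans ha.2
  have hpT : p ∈ T := by rw [hTeq]; exact left_mem_Icc.2 hpq
  have hqT : q ∈ T := by rw [hTeq]; exact right_mem_Icc.2 hpq
  have hp0 : 0 < p := by
    rcases hpT.1.1.lt_or_eq with h1 | h1
    · exact h1
    · exfalso
      have h2 := hpT.2
      rw [← h1, P.zero] at h2
      linarith [ht.1]
  have hq1 : q < 1 := by
    rcases hqT.1.2.lt_or_eq with h1 | h1
    · exact h1
    · exfalso
      have h2 := hqT.2
      rw [h1, P.one] at h2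
      linarith [ht.2]
  -- values at the ends
  have hzp : z i p = 0 := by
    have h1 : ContinuousWithinAt (z i) (Ico 0 p) p :=
      (P.zc i hi p hpT.1).mono fun a ha => ⟨ha.1, ha.2.le.trans hpT.1.2⟩
    have h2 : ∀ a ∈ Ico 0 p, z i a = 0 := by
      intro a ha
      have ha' : a ∈ Icc (0:ℝ) 1 := ⟨ha.1, ha.2.le.trans hpT.1.2⟩
      refine P.zneg i hi a ha' (lt_of_le_of_ne ?_ fun h3 => ?_)
      · rw [← hpT.2]; exact P.mono ha' hpT.1 ha.2.le
      · have h4 : a ∈ T := ⟨ha', h3⟩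
        rw [hTeq] at h4
        linarith [h4.1, ha.2]
    have h3 : p ∈ closure (Ico 0 p) := by
      rw [closure_Ico hp0.ne]; exact right_mem_Icc.2 hp0.le
    have h4 := h1.mem_closure_image h3
    have h5 : z i '' Ico 0 p ⊆ {0} := by
      rintro _ ⟨a, ha, rfl⟩; exact h2 a ha
    have h6 := closure_mono h5 h4
    rwa [closure_singleton, mem_singleton_iff] at h6
  have hzq : z i q = 1 := by
    have h1 : ContinuousWithinAt (z i) (Ioc q 1) q :=
      (P.zc i hi q hqT.1).mono fun a ha => ⟨hqT.1.1.trans ha.1.le, ha.2⟩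
    have h2 : ∀ a ∈ Ioc q 1, z i a = 1 := by
      intro a ha
      have ha' : a ∈ Icc (0:ℝ) 1 := ⟨hqT.1.1.trans ha.1.le, ha.2⟩
      refine P.zpos i hi a ha' (lt_of_le_of_ne ?_ fun h3 => ?_)
      · rw [← hqT.2]; exact P.mono hqT.1 ha' ha.1.le
      · have h4 : a ∈ T := ⟨ha', h3.symm⟩
        rw [hTeq] at h4
        linarith [h4.2, ha.1]
    have h3 : q ∈ closure (Ioc q 1) := by
      rw [closure_Ioc hq1.ne]; exact left_mem_Icc.2 hq1.le
    have h4 := h1.mem_closure_image h3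
    have h5 : z i '' Ioc q 1 ⊆ {1} := by
      rintro _ ⟨a, ha, rfl⟩; exact h2 a ha
    have h6 := closure_mono h5 h4
    rwa [closure_singleton, mem_singleton_iff] at h6
  obtain ⟨a, ha, h1⟩ := intermediate_value_Icc hpq
    ((P.zc i hi).mono fun a ha => ⟨hpT.1.1.trans ha.1, ha.2.trans hqT.1.2⟩)
    (show v ∈ Icc (z i p) (z i q) by rw [hzp, hzq]; exact hv)
  have h2 : a ∈ T := by rw [hTeq]; exact ha
  exact ⟨a, h2.1, h2.2, h1⟩

end OwnPar

section

variable {m n : ℕ} {s : Set E} {h : E → Fin m → ℝ} {k : Fin m → ℝ → ℝ} {L : Fin m → Finset ℝ}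
  {lo hi : Fin m → ℝ → ℝ} {t : ℕ → ℝ} {cd : ℕ → Fin m} {lev ε : ℕ → ℝ} {τ : ℝ → ℝ}
  {z : ℕ → ℝ → ℝ}

/-- the interval is homeomorphic to the filled set -/
theorem exists_filEdge (sc : ConHomeo (Icc (0:ℝ) 1) s) (P : OwnPar n t τ z) :
    ∃ X : ConHomeo (Icc (0:ℝ) 1) (Fil n n s fun i x => sc.invFun x - t i),
      ∀ a, X.toFun a = (sc.toFun (τ a), fun i : Fin n => z i a) := by
  have hm : ∀ a ∈ Icc (0:ℝ) 1, τ a ∈ Icc (0:ℝ) 1 := P.maps
  refine ⟨ConHomeo.ofCompact isCompact_Icc (fun a => (sc.toFun (τ a), fun i : Fin n => z i a))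
    ?_ ?_ ?_ ?_, fun a => by rw [ConHomeo.ofCompact_toFun]⟩
  · exact (sc.cont.comp P.cont hm).prodMk (continuousOn_pi.2 fun i => P.zc i i.2)
  · intro a ha b hb he
    have h1 : sc.toFun (τ a) = sc.toFun (τ b) := congrArg Prod.fst he
    have h2 : (fun i : Fin n => z i a) = fun i : Fin n => z i b := congrArg Prod.snd he
    exact P.inj a ha b hb (sc.injOn (hm a ha) (hm b hb) h1) fun i hi => congrFun h2 ⟨i, hi⟩
  · refine (sc.conical.comp P.con hm P.cont).prodMk fun a ha =>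
      conicalWithinAt_pi (Convex.conicalSet (convex_Icc (0:ℝ) 1) a ha) fun i => P.zk i i.2 a ha
  · apply Subset.antisymm
    · rintro _ ⟨a, ha, rfl⟩
      refine ⟨sc.mapsTo (hm a ha), fun i => ⟨P.z01 i i.2 a ha, fun _ h1 => ?_, fun _ h1 => ?_,
        fun h1 => absurd i.2 (not_lt.2 h1)⟩⟩
      · have h1 : sc.invFun (sc.toFun (τ a)) - t i < 0 := h1
        rw [sc.left_inv (hm a ha)] at h1
        exact P.zneg i i.2 a ha (by linarith)
      · have h1 : 0 < sc.invFun (sc.toFun (τ a)) - t i := h1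
        rw [sc.left_inv (hm a ha)] at h1
        exact P.zpos i i.2 a ha (by linarith)
    · rintro ⟨x, w⟩ ⟨hx, hw⟩
      have hx : x ∈ s := hx
      have hu := sc.mapsTo_inv hx
      by_cases hc : ∃ i : Fin n, sc.invFun x = t i
      · obtain ⟨i, hi⟩ := hc
        obtain ⟨a, ha, h1, h2⟩ := P.exists_val i.2 (hw i).1
        refine ⟨a, ha, Prod.ext ?_ (funext fun i' => ?_)⟩
        · show sc.toFun (τ a) = x
          rw [h1, ← hi, sc.right_inv hx]
        · show z i' a = w i'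
          by_cases hii : i' = i
          · subst hii; exact h2
          · have h3 : t i' ≠ t i := fun h3 => hii (Fin.ext (P.tinj _ i'.2 _ i.2 h3))
            rcases lt_or_gt_of_ne h3 with h4 | h4
            · rw [P.zpos i' i'.2 a ha (by rw [h1]; exact h4)]
              exact ((hw i').2.2.1 i'.2 (by show 0 < sc.invFun x - t i'; rw [hi]; linarith)).symm
            · rw [P.zneg i' i'.2 a ha (by rw [h1]; exact h4)]
              exact ((hw i').2.1 i'.2 (by show sc.invFun x - t i' < 0; rw [hi]; linarith)).symm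
      · push Not at hc
        obtain ⟨a, ha, h1⟩ := intermediate_value_Icc zero_le_one P.cont
          (show sc.invFun x ∈ Icc (τ 0) (τ 1) by rw [P.zero, P.one]; exact hu)
        refine ⟨a, ha, Prod.ext ?_ (funext fun i' => ?_)⟩
        · show sc.toFun (τ a) = x
          rw [h1, sc.right_inv hx]
        · show z i' a = w i'
          rcases lt_or_gt_of_ne (hc i') with h4 | h4
          · rw [P.zneg i' i'.2 a ha (by rw [h1]; exact h4)]
            exact ((hw i').2.1 i'.2 (by show sc.invFun x - t i' < 0; linarith)).symm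
          · rw [P.zpos i' i'.2 a ha (by rw [h1]; exact h4)]
            exact ((hw i').2.2.1 i'.2 (by show 0 < sc.invFun x - t i'; linarith)).symm

/-- **(OWN-EDGE)** -/
theorem exists_ownEdge (sc : ConHomeo (Icc (0:ℝ) 1) s)
    (hF : FaceIn n s h (fun j => (L j : Set ℝ)) (fun i x => sc.invFun x - t i) cd lev ε)
    (hI : ∀ j, Ins1 (k j) (L j : Set ℝ) (lo j) (hi j)) (P : OwnPar n t τ z) :
    ∃ Φ : ConHomeo s (preQ k h s),
      (∀ a ∈ Icc (0:ℝ) 1, prodK k (Φ.toFun (sc.toFun a)) = h (sc.toFun (τ a))) ∧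
      (∀ i < n, ∀ a ∈ Icc (0:ℝ) 1, τ a = t i → Φ.toFun (sc.toFun a) (cd i) =
        if ε i = 1 then lo (cd i) (lev i) + (hi (cd i) (lev i) - lo (cd i) (lev i)) * z i a
          else hi (cd i) (lev i) - (hi (cd i) (lev i) - lo (cd i) (lev i)) * z i a) ∧
      ∀ j, ∀ c ∈ L j, ∀ a ∈ Icc (0:ℝ) 1, ∀ a' ∈ Icc (0:ℝ) 1,
        |rho (lo j) (hi j) c (Φ.toFun (sc.toFun a) j) -
          rho (lo j) (hi j) c (Φ.toFun (sc.toFun a') j)| ≤
          ∑ i : Fin n, if cd i = j ∧ lev i = c then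
            (hi (cd i) (lev i) - lo (cd i) (lev i)) * |z i a - z i a'| else 0 := by
  obtain ⟨X, hX⟩ := exists_filEdge sc P
  have hmem : ∀ a ∈ Icc (0:ℝ) 1, X.toFun a ∈ Fil n n s fun i x => sc.invFun x - t i :=
    fun a ha => X.mapsTo ha
  have hval : ∀ a ∈ Icc (0:ℝ) 1, (sc.symm.trans (X.trans (FaceIn.xi hF hI))).toFun (sc.toFun a) =
      (FaceIn.xi hF hI).toFun (X.toFun a) := by
    intro a ha
    show (FaceIn.xi hF hI).toFun (X.toFun (sc.invFun (sc.toFun a))) = _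
    rw [sc.left_inv ha]
  refine ⟨sc.symm.trans (X.trans (FaceIn.xi hF hI)), fun a ha => ?_, fun i hi' a ha hτ => ?_,
    fun j c hc a ha a' ha' => ?_⟩
  · rw [hval a ha, FaceIn.prodK_xi hF hI (hmem a ha), hX]
  · rw [hval a ha]
    have h1 := FaceIn.xi_arc hF hI (hmem a ha) ⟨i, hi'⟩ (by
      show sc.invFun (X.toFun a).1 - t i = 0
      rw [hX]
      show sc.invFun (sc.toFun (τ a)) - t i = 0
      rw [sc.left_inv (P.maps ha), hτ, sub_self])
    rw [hX] at h1 ⊢
    exact h1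
  · rw [hval a ha, hval a' ha']
    have hpre : IsPreconnected (Fil n n s fun i x => sc.invFun x - t i) := by
      rw [← X.image_eq]; exact isPreconnected_Icc.image _ X.cont
    have h1 := FaceIn.abs_rho_xi_le hF hI hpre j hc (hmem a ha) (hmem a' ha')
    rw [hX, hX] at h1 ⊢
    exact h1

end

end P073.H579
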