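import Vale.Agent.P073.H579.ProdLift
import Vale.Agent.P073.H579.HFaceM
import Vale.Agent.P073.H919.Zone2
import Vale.Agent.P073.H880.RP4

/-!
# P073, H579: **[W4-LIFT]**, part 3: paths in a face after the insertion of ROUND P

* `zone_path`: if any two points of `C` are joined in `C` by a curve along which the labels of `h`
  vary by at most `N`, then any two points of `C` are joined in `C` by a curve along which the bands
  of `g` vary by at most `2 (N + 1) ∑ j, Om j`; `g '' C = Pre κ Λ h C`, and `κ` is a product map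
  near `h '' C`;
* `PIns.exists_path`: the same for the insertion step of ROUND P.
-/

open Set Metric Topology Filter
open scoped ENNReal

set_option linter.unusedSectionVars false

namespace P073.H579

open P073 P073.H880 P073.H919
open Vale.Agent.P073.St (V)

/-- **paths after an insertion** -/
theorem zone_path {Ω Λ : Set V} {κ : V → V} {h g : ConHomeo Ω Λ} {k : Fin 3 → ℝ → ℝ} {C : Set V}
    {L : Fin 3 → Finset ℝ} {lo hi om : Fin 3 → ℝ → ℝ} {Om : Fin 3 → ℝ} (hC : C ⊆ Ω)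
    (Z : Zone κ Λ h k C) (hk : ∀ j, Ins1 (k j) (L j) (lo j) (hi j)) (hom : ∀ j a, 0 ≤ om j a)
    (hOm : ∀ j, ∀ a ∈ L j, om j a ≤ Om j) (hOm0 : ∀ j, 0 ≤ Om j)
    (himg : g.toFun '' C = Pre κ Λ h C) {N : ℕ}
    (hlab : ∀ x ∈ C, ∀ x' ∈ C, LabPath L h.toFun C N x x') {z z' : V} (hz : z ∈ C)
    (hz' : z' ∈ C) :
    PathC (fun a b => ENNReal.ofReal (bandD L lo hi om (g.toFun a) (g.toFun b))) C z z'
      (ENNReal.ofReal (2 * (N + 1) * ∑ j, Om j)) := by
  have hpre : g.toFun '' C = preQ k h.toFun C := himg.trans (Z.pre_eq Subset.rfl)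
  have hm : ∀ z ∈ C, ∃ x ∈ C, h.toFun x = prodK k (g.toFun z) := fun z hz => by
    have h1 : g.toFun z ∈ preQ k h.toFun C := hpre ▸ mem_image_of_mem _ hz
    exact h1
  obtain ⟨x, hx, hxz⟩ := hm z hz
  obtain ⟨x', hx', hxz'⟩ := hm z' hz'
  obtain ⟨γ, g1, g2, g3, g4, g5⟩ := hlab x hx x' hx'
  have hδ : ContinuousOn (fun t => h.toFun (γ t)) (Icc 0 1) :=
    h.cont.comp g1 fun t ht => hC (g4 ht)
  have P1 := exists_prod_path hk hom hOm hOm0 hδ g5 (p := g.toFun z) (q := g.toFun z')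
    (by rw [g2, hxz]) (by rw [g3, hxz'])
  have hsub : prodK k ⁻¹' ((fun t => h.toFun (γ t)) '' Icc 0 1) ⊆ g.toFun '' C := by
    rw [hpre]
    rintro y ⟨t, ht, hty⟩
    exact ⟨γ t, g4 ht, hty⟩
  have P2 := P1.mono hsub le_rfl
  have hinv : ∀ y ∈ g.toFun '' C, g.toFun (g.invFun y) = y := by
    rintro _ ⟨w, hw, rfl⟩
    rw [g.left_inv (hC hw)]
  have P3 : PathC (fun a b => (fun a b => ENNReal.ofReal (bandD L lo hi om (g.toFun a)
      (g.toFun b))) (g.invFun a) (g.invFun b)) (g.toFun '' C) (g.toFun z) (g.toFun z')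
      (ENNReal.ofReal (2 * (N + 1) * ∑ j, Om j)) := by
    refine P2.cost fun a ha b hb => ?_
    simp only
    rw [hinv a ha, hinv b hb]
  have P4 := P3.image (f := g.invFun) (Z := C) (c := fun a b => ENNReal.ofReal
    (bandD L lo hi om (g.toFun a) (g.toFun b))) ?_ ?_
  · rwa [g.left_inv (hC hz), g.left_inv (hC hz')] at P4
  · refine g.cont_inv.mono ?_
    rintro _ ⟨w, hw, rfl⟩
    exact g.mapsTo (hC hw)
  · rintro _ ⟨w, hw, rfl⟩
    rw [g.left_inv (hC hw)]
    exact hw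

end P073.H579

namespace P073.H880.RP

open _root_.P073 _root_.P073.Net _root_.P073.PA691 _root_.P073.H236 _root_.P073.H579
  _root_.P073.H345 _root_.P073.H880
open Vale.Agent.P073.St (V)
open Vale.Agent.P073.H471 Vale.Agent.P073.H267 Vale.Agent.P073.H267.Geo
open Vale.Agent.P073.H73 (Mesh)
open Vale.Agent.P073.H193 (Edges)
open _root_.P073.H919 (LabPath)

variable {Ω Λ : Set V} {v : V} {K : BoxCx Λ v} {S : Rad K} {W : Wid K S} {B : Boxes W}
  {G : Geo B} {M : Mesh Ω} {E : Edges M} {D : Dat K M} {h1 h2 h3 : ConHomeo Ω Λ} {L : PLev G}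
  {hΛ : IsOpen Λ} {c : K.S → Bool → ℝ} {c0 : ∀ s β, 0 < c s β} {c1 : ∀ s β, c s β ≤ L.c s β}
  {κ : Bool → V → V} {Θ : Bool → ConHomeo Λ Λ} {GE : E.ε → (V → V) → Prop}
  {GF : M.κ → (V → V) → Prop} {s : K.S}

/-- near a plate the insertion map is a product map -/
theorem PIns.zone (H : PIns G E D L hΛ h1 h2 c c0 c1 κ Θ GE GF h3) (hs : s ∈ D.S₀)
    {h : ConHomeo Ω Λ} {C : Set V} (hC : h.toFun '' C ⊆ G.PB (7 / 8) s) :
    Zone (κ true ∘ κ false) Λ h ((thinL L c c0 c1).kP s) C :=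
  PLev.zone_sub (L := thinL L c c0 c1) (β := false) (S₀ := D.S₀) (H.isQ false) (H.isQ true)
    ⟨s, hs⟩ hC

/-- **paths in a face after the insertion**: the face `k` is near the plate `s`, any two of its
points are joined in the face by a curve along which the labels of `h2` vary by at most `N` -/
theorem PIns.exists_path (H : PIns G E D L hΛ h1 h2 c c0 c1 κ Θ GE GF h3) (hs : s ∈ D.S₀)
    {k : M.κ} (hC : h2.toFun '' M.F k ⊆ G.PB (7 / 8) s) {N : ℕ}
    (hlab : ∀ x ∈ M.F k, ∀ x' ∈ M.F k, LabPath (L.lv s) h2.toFun (M.F k) N x x') {ω : ℝ}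
    (hω : ∀ β t, L.omP s (tg s β) t ≤ ω) {z z' : V} (hz : z ∈ M.F k) (hz' : z' ∈ M.F k) :
    PathC (fun x y => ENNReal.ofReal (bandD (L.lv s) ((thinL L c c0 c1).loP s)
      ((thinL L c c0 c1).hiP s) ((thinL L c c0 c1).omP s) (h3.toFun x) (h3.toFun y)))
      (M.F k) z z' (ENNReal.ofReal (4 * (N + 1) * ω)) := by
  have e1 : (thinL L c c0 c1).lv s = L.lv s := funext fun j => thinL_lv s j
  have hk : ∀ j, Ins1 ((thinL L c c0 c1).kP s j) (L.lv s j) ((thinL L c c0 c1).loP s j)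
      ((thinL L c c0 c1).hiP s j) := fun j => by
    have := (thinL L c c0 c1).ins1P s j
    rwa [thinL_lv] at this
  have hω0 : 0 ≤ ω := (L.omP_pos s (tg s false) 0).le.trans (hω false 0)
  have hmem : ∀ j, ∀ a ∈ L.lv s j, (thinL L c c0 c1).omP s j a ≤ if j = K.nrm s then 0 else ω := by
    intro j a ha
    have hj := (PLev.mem_lv.1 ha).1
    rw [if_neg hj]
    obtain ⟨β, rfl⟩ : ∃ β, j = tg s β := ⟨bt s j, (tg_bt s hj).symm⟩
    refine le_trans (le_of_eq ?_) (hω β a)
    rw [PLev.omP_tg, PLev.omP_tg]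
    rfl
  have key := zone_path (Om := fun j => if j = K.nrm s then 0 else ω)
    (Vale.Agent.P073.H193.mesh_sub M k) (H.zone hs hC) hk
    (fun j a => ((thinL L c c0 c1).omP_pos s j a).le) hmem
    (fun j => by split_ifs; exacts [le_rfl, hω0]) (H.out.img_face k) hlab hz hz'
  refine key.mono Subset.rfl (ENNReal.ofReal_le_ofReal ?_)
  have hsum : ∑ j, (if j = K.nrm s then (0:ℝ) else ω) = 2 * ω := by
    have h1 := Finset.sum_erase_add (s := Finset.univ) (f := fun j : Fin 3 =>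
      if j = K.nrm s then (0:ℝ) else ω) (a := K.nrm s) (Finset.mem_univ _)
    rw [← h1]
    simp only [if_true, add_zero]
    rw [Finset.sum_congr rfl fun j hj => if_neg (Finset.ne_of_mem_erase hj), Finset.sum_const,
      Finset.card_erase_of_mem (Finset.mem_univ _), Finset.card_univ, Fintype.card_fin,
      nsmul_eq_mul]
    norm_num
  rw [hsum]
  nlinarith

end P073.H880.RP
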