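import Vale.Agent.P073.H579.PolyPath

/-!
# P073, H579: **[W4-LIFT]**, part 1: paths with bounded cost, lifting by induction on the number of
exceptional times, integer valued functions of bounded variation
-/

open Set Metric Topology Filter
open scoped ENNReal

namespace P073.H579

open P073 P073.H880

section path

variable {α : Type*} [TopologicalSpace α] {c : α → α → ℝ≥0∞} {X Y : Set α} {p q r : α}
  {B B' B₁ B₂ : ℝ≥0∞}

/-- there is a path in `X` from `p` to `q` along which the variation of the cost `c` is at most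
`B` -/
def PathC (c : α → α → ℝ≥0∞) (X : Set α) (p q : α) (B : ℝ≥0∞) : Prop :=
  ∃ γ : ℝ → α, ContinuousOn γ (Icc 0 1) ∧ MapsTo γ (Icc 0 1) X ∧ γ 0 = p ∧ γ 1 = q ∧
    cvar (fun s t => c (γ s) (γ t)) 0 1 ≤ B

theorem PathC.mono (h : PathC c X p q B) (hX : X ⊆ Y) (hB : B ≤ B') : PathC c Y p q B' := by
  obtain ⟨γ, g1, g2, g3, g4, g5⟩ := h
  exact ⟨γ, g1, g2.mono_right hX, g3, g4, g5.trans hB⟩

theorem PathC.refl (h0 : ∀ x, c x x = 0) (hp : p ∈ X) : PathC c X p p 0 := by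
  refine ⟨fun _ => p, continuousOn_const, fun _ _ => hp, rfl, rfl, ?_⟩
  rw [cvar_le_iff]
  intro n u _ _
  simp [h0]

theorem PathC.of_curve {γ : ℝ → α} {a b : ℝ} (hab : a ≤ b) (hγ : ContinuousOn γ (Icc a b))
    (hm : MapsTo γ (Icc a b) X) (hc : cvar (fun s t => c (γ s) (γ t)) a b ≤ B) :
    PathC c X (γ a) (γ b) B := by
  have hφ : Monotone fun t : ℝ => a + t * (b - a) := fun s t hst => by
    have : 0 ≤ b - a := by linarith
    have := mul_le_mul_of_nonneg_right hst this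
    simp only
    linarith
  have hmem : ∀ t ∈ Icc (0:ℝ) 1, a + t * (b - a) ∈ Icc a b := fun t ht => by
    have h0 : 0 ≤ b - a := by linarith
    constructor
    · have := mul_nonneg ht.1 h0
      linarith
    · have := mul_le_mul_of_nonneg_right ht.2 h0
      linarith
  refine ⟨fun t => γ (a + t * (b - a)), ?_, fun t ht => hm (hmem t ht), by simp, by simp, ?_⟩
  · refine hγ.comp ?_ hmem
    fun_prop
  · have h1 := cvar_comp_le (c := fun s t => c (γ s) (γ t)) (a := 0) (b := 1) hφ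
    refine h1.trans (le_trans (le_of_eq ?_) hc)
    congr 1
    · ring
    · ring

theorem PathC.trans (htri : ∀ x ∈ X, ∀ y ∈ X, ∀ z ∈ X, c x z ≤ c x y + c y z)
    (h₁ : PathC c X p q B₁) (h₂ : PathC c X q r B₂) : PathC c X p r (B₁ + B₂) := by
  obtain ⟨γ, g1, g2, g3, g4, g5⟩ := h₁
  obtain ⟨ξ, k1, k2, k3, k4, k5⟩ := h₂
  set ζ : ℝ → α := fun t => if t ≤ 1 then γ t else ξ (t - 1) with hζ
  have e1 : ∀ t : ℝ, t ≤ 1 → ζ t = γ t := fun t ht => by simp [hζ, ht]
  have e2 : ∀ t : ℝ, 1 ≤ t → ζ t = ξ (t - 1) := fun t ht => by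
    rcases ht.eq_or_lt with h | h
    · rw [← h, e1 _ le_rfl, g4, sub_self, k3]
    · simp [hζ, not_le.2 h]
  have hsplit : Icc (0:ℝ) 2 = Icc 0 1 ∪ Icc 1 2 := by
    rw [Icc_union_Icc_eq_Icc (by norm_num) (by norm_num)]
  have hsub : ∀ t ∈ Icc (1:ℝ) 2, t - 1 ∈ Icc (0:ℝ) 1 := fun t ht =>
    ⟨by linarith [ht.1], by linarith [ht.2]⟩
  have hmem : MapsTo ζ (Icc 0 2) X := by
    rw [hsplit]
    rintro t (ht | ht)
    · rw [e1 t ht.2]; exact g2 ht
    · rw [e2 t ht.1]; exact k2 (hsub t ht)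
  have hcont : ContinuousOn ζ (Icc 0 2) := by
    rw [hsplit]
    refine ContinuousOn.union_of_isClosed ?_ ?_ isClosed_Icc isClosed_Icc
    · exact g1.congr fun t ht => e1 t ht.2
    · exact (k1.comp (by fun_prop) hsub).congr fun t ht => e2 t ht.1
  have hT : Tri (fun s t => c (ζ s) (ζ t)) 0 2 := fun s hs m hm t ht _ _ =>
    htri _ (hmem hs) _ (hmem hm) _ (hmem ht)
  have h := PathC.of_curve (c := c) (X := X) (B := B₁ + B₂) (by norm_num : (0:ℝ) ≤ 2) hcont hmem ?_
  · rwa [e1 0 zero_le_one, g3, e2 2 (by norm_num), show (2:ℝ) - 1 = 1 by norm_num, k4] at h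
  · refine (cvar_le_add hT zero_le_one one_le_two).trans (add_le_add ?_ ?_)
    · refine (cvar_congr fun s hs t ht _ => ?_).trans g5
      rw [e1 s hs.2, e1 t ht.2]
    · refine (cvar_congr (c' := fun s t => c (ξ (s - 1)) (ξ (t - 1))) fun s hs t ht _ => ?_).trans ?_
      · rw [e2 s hs.1, e2 t ht.1]
      · have hφ : Monotone fun t : ℝ => t - 1 := fun s t hst => sub_le_sub_right hst _
        have h1 := cvar_comp_le (c := fun s t => c (ξ s) (ξ t)) (a := 1) (b := 2) hφ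
        refine h1.trans (le_trans (le_of_eq ?_) k5)
        congr 1
        · norm_num
        · norm_num

/-- paths of the form of `H193.FaceCl` -/
theorem PathC.three (h : PathC c X p q B) :
    ∃ γ : ℝ → α, ContinuousOn γ (Icc 0 3) ∧ MapsTo γ (Icc 0 3) X ∧ γ 0 = p ∧ γ 3 = q ∧
      cvar (fun s t => c (γ s) (γ t)) 0 3 ≤ B := by
  obtain ⟨γ, g1, g2, g3, g4, g5⟩ := h
  have hφ : Monotone fun t : ℝ => t / 3 := fun s t hst =>
    div_le_div_of_nonneg_right hst (by norm_num)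
  have hsub : ∀ t ∈ Icc (0:ℝ) 3, t / 3 ∈ Icc (0:ℝ) 1 := fun t ht =>
    ⟨by linarith [ht.1], by linarith [ht.2]⟩
  refine ⟨fun t => γ (t / 3), g1.comp (by fun_prop) hsub, fun t ht => g2 (hsub t ht), by simpa,
    by simpa, ?_⟩
  have h1 := cvar_comp_le (c := fun s t => c (γ s) (γ t)) (a := 0) (b := 3) hφ
  refine h1.trans (le_trans (le_of_eq ?_) g5)
  congr 1
  · norm_num
  · norm_num

/-- the reverse path -/
theorem PathC.symm (hsy : ∀ x y, c x y = c y x) (h : PathC c X p q B) : PathC c X q p B := by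
  obtain ⟨γ, g1, g2, g3, g4, g5⟩ := h
  have hsub : ∀ t ∈ Icc (0:ℝ) 1, 1 - t ∈ Icc (0:ℝ) 1 := fun t ht =>
    ⟨by linarith [ht.2], by linarith [ht.1]⟩
  refine ⟨fun t => γ (1 - t), g1.comp (by fun_prop) hsub, fun t ht => g2 (hsub t ht), by simpa,
    by simpa, ?_⟩
  rw [cvar_le_iff]
  intro n u hu hu'
  have h2 : ∑ i ∈ Finset.range n, c (γ ((fun i => 1 - u (n - i)) i))
      (γ ((fun i => 1 - u (n - i)) (i + 1))) ≤ cvar (fun s t => c (γ s) (γ t)) 0 1 := by
    refine sum_le_cvar' (c := fun s t => c (γ s) (γ t)) (fun i hi => ?_) fun i hi => hsub _ (hu' _)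
    have : u (n - (i + 1)) ≤ u (n - i) := hu (by omega)
    linarith
  refine le_trans (le_of_eq ?_) (h2.trans g5)
  rw [← Finset.sum_range_reflect]
  refine Finset.sum_congr rfl fun i hi => ?_
  rw [Finset.mem_range] at hi
  have a1 : n - 1 - i + 1 = n - i := by omega
  have a2 : n - 1 - i = n - (i + 1) := by omega
  simp only
  rw [a1, a2, hsy]

/-- the image of a path -/
theorem PathC.image {β : Type*} [TopologicalSpace β] {f : α → β} {c : β → β → ℝ≥0∞} {Z : Set β}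
    (h : PathC (fun x y => c (f x) (f y)) X p q B) (hf : ContinuousOn f X) (hZ : MapsTo f X Z) :
    PathC c Z (f p) (f q) B := by
  obtain ⟨γ, g1, g2, g3, g4, g5⟩ := h
  exact ⟨fun t => f (γ t), hf.comp g1 g2, fun t ht => hZ (g2 ht), congrArg f g3, congrArg f g4, g5⟩

/-- a smaller cost -/
theorem PathC.cost {c' : α → α → ℝ≥0∞} (h : PathC c X p q B)
    (hc : ∀ x ∈ X, ∀ y ∈ X, c' x y ≤ c x y) : PathC c' X p q B := by
  obtain ⟨γ, g1, g2, g3, g4, g5⟩ := h
  exact ⟨γ, g1, g2, g3, g4, (cvar_congr fun s hs t ht _ => hc _ (g2 hs) _ (g2 ht)).trans g5⟩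

/-- **lifting of a curve with finitely many exceptional times** -/
theorem exists_liftC {β : Type*} {κ : α → β} {δ : ℝ → β} {Λ : Set α} {T : Finset ℝ} {A : ℝ≥0∞}
    {ρ : ℝ → ℝ → ℝ≥0∞} {a₀ b₀ : ℝ}
    (htri : ∀ x ∈ Λ, ∀ y ∈ Λ, ∀ z ∈ Λ, c x z ≤ c x y + c y z)
    (hsup : ∀ s m t, a₀ ≤ s → s ≤ m → m ≤ t → t ≤ b₀ → ρ s m + ρ m t ≤ ρ s t)
    (hsur : ∀ t ∈ Icc a₀ b₀, ∃ p ∈ Λ, κ p = δ t)
    (hfib : ∀ t ∈ Icc a₀ b₀, ∀ p ∈ Λ, ∀ q ∈ Λ, κ p = δ t → κ q = δ t →
      PathC c (Λ ∩ κ ⁻¹' {δ t}) p q A)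
    (hroom : ∀ s t, a₀ ≤ s → s ≤ t → t ≤ b₀ → (∀ r ∈ Ioo s t, r ∉ T) →
      ∃ y : ℝ → α, ContinuousOn y (Icc s t) ∧ (∀ r ∈ Icc s t, y r ∈ Λ ∧ κ (y r) = δ r) ∧
        cvar (fun r u => c (y r) (y u)) s t ≤ ρ s t) :
    ∀ (n : ℕ) (s t : ℝ), a₀ ≤ s → s ≤ t → t ≤ b₀ → (T.filter (· ∈ Ioo s t)).card = n →
      ∀ p ∈ Λ, ∀ q ∈ Λ, κ p = δ s → κ q = δ t →
      PathC c (Λ ∩ κ ⁻¹' (δ '' Icc s t)) p q (((2 * (n + 1) : ℕ) : ℝ≥0∞) * A + ρ s t) := by
  intro n
  induction n using Nat.strong_induction_on with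
  | _ n ih =>
    intro s t hs hst ht hcard p hp q hq hps hqt
    have htri' : ∀ x ∈ Λ ∩ κ ⁻¹' (δ '' Icc s t), ∀ y ∈ Λ ∩ κ ⁻¹' (δ '' Icc s t),
        ∀ z ∈ Λ ∩ κ ⁻¹' (δ '' Icc s t), c x z ≤ c x y + c y z := fun x hx y hy z hz =>
      htri x hx.1 y hy.1 z hz.1
    have hone : ∀ r ∈ Icc s t, Λ ∩ κ ⁻¹' {δ r} ⊆ Λ ∩ κ ⁻¹' (δ '' Icc s t) := by
      rintro r hr z ⟨h1, h2⟩
      exact ⟨h1, r, hr, h2.symm⟩
    rcases (T.filter (· ∈ Ioo s t)).eq_empty_or_nonempty with he | ⟨m, hm⟩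
    · have h0 : n = 0 := by rw [← hcard, he, Finset.card_empty]
      subst h0
      obtain ⟨y, y1, y2, y3⟩ := hroom s t hs hst ht fun r hr hrT => by
        have : r ∈ T.filter (· ∈ Ioo s t) := Finset.mem_filter.2 ⟨hrT, hr⟩
        rw [he] at this
        exact Finset.notMem_empty _ this
      have hsI : s ∈ Icc s t := ⟨le_rfl, hst⟩
      have htI : t ∈ Icc s t := ⟨hst, le_rfl⟩
      have P1 := (hfib s ⟨hs, hst.trans ht⟩ p hp _ (y2 s hsI).1 hps (y2 s hsI).2).mono
        (hone s hsI) le_rfl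
      have P2 : PathC c (Λ ∩ κ ⁻¹' (δ '' Icc s t)) (y s) (y t) (ρ s t) :=
        PathC.of_curve hst y1 (fun r hr => ⟨(y2 r hr).1, r, hr, (y2 r hr).2.symm⟩) y3
      have P3 := (hfib t ⟨hs.trans hst, ht⟩ _ (y2 t htI).1 q hq (y2 t htI).2 hqt).mono
        (hone t htI) le_rfl
      refine ((P1.trans htri' P2).trans htri' P3).mono Subset.rfl (le_of_eq ?_)
      push_cast
      ring
    · obtain ⟨hmT, hms⟩ := Finset.mem_filter.1 hm
      obtain ⟨z, hz, hzm⟩ := hsur m ⟨hs.trans hms.1.le, hms.2.le.trans ht⟩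
      have hd : Disjoint (T.filter (· ∈ Ioo s m)) (T.filter (· ∈ Ioo m t)) := by
        rw [Finset.disjoint_left]
        intro r h1 h2
        exact absurd (Finset.mem_filter.1 h1).2.2 (not_lt.2 (Finset.mem_filter.1 h2).2.1.le)
      have hsubs : insert m (T.filter (· ∈ Ioo s m) ∪ T.filter (· ∈ Ioo m t)) ⊆
          T.filter (· ∈ Ioo s t) := by
        intro r hr
        rcases Finset.mem_insert.1 hr with rfl | hr
        · exact hm
        rcases Finset.mem_union.1 hr with hr | hr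
        · obtain ⟨h1, h2⟩ := Finset.mem_filter.1 hr
          exact Finset.mem_filter.2 ⟨h1, h2.1, h2.2.trans hms.2⟩
        · obtain ⟨h1, h2⟩ := Finset.mem_filter.1 hr
          exact Finset.mem_filter.2 ⟨h1, hms.1.trans h2.1, h2.2⟩
      have hnot : m ∉ T.filter (· ∈ Ioo s m) ∪ T.filter (· ∈ Ioo m t) := by
        intro h
        rcases Finset.mem_union.1 h with h | h
        · exact lt_irrefl _ (Finset.mem_filter.1 h).2.2
        · exact lt_irrefl _ (Finset.mem_filter.1 h).2.1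
      have hle := Finset.card_le_card hsubs
      rw [Finset.card_insert_of_notMem hnot, Finset.card_union_of_disjoint hd, hcard] at hle
      set n₁ := (T.filter (· ∈ Ioo s m)).card with hn₁
      set n₂ := (T.filter (· ∈ Ioo m t)).card with hn₂
      have Q1 := (ih n₁ (by omega) s m hs hms.1.le (hms.2.le.trans ht) rfl p hp z hz hps hzm).mono
        (Y := Λ ∩ κ ⁻¹' (δ '' Icc s t)) (inter_subset_inter_right _ (preimage_mono
          (image_mono (Icc_subset_Icc_right hms.2.le)))) le_rfl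
      have Q2 := (ih n₂ (by omega) m t (hs.trans hms.1.le) hms.2.le ht rfl z hz q hq hzm hqt).mono
        (Y := Λ ∩ κ ⁻¹' (δ '' Icc s t)) (inter_subset_inter_right _ (preimage_mono
          (image_mono (Icc_subset_Icc_left hms.1.le)))) le_rfl
      refine (Q1.trans htri' Q2).mono Subset.rfl ?_
      have h3 := hsup s m t hs hms.1.le hms.2.le ht
      have h4 : ((2 * (n₁ + 1) : ℕ) : ℝ≥0∞) * A + ((2 * (n₂ + 1) : ℕ) : ℝ≥0∞) * A ≤
          ((2 * (n + 1) : ℕ) : ℝ≥0∞) * A := by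
        rw [← add_mul, ← Nat.cast_add]
        refine mul_le_mul_left ?_ A
        exact_mod_cast (by omega : 2 * (n₁ + 1) + 2 * (n₂ + 1) ≤ 2 * (n + 1))
      calc ((2 * (n₁ + 1) : ℕ) : ℝ≥0∞) * A + ρ s m + (((2 * (n₂ + 1) : ℕ) : ℝ≥0∞) * A + ρ m t)
          = (((2 * (n₁ + 1) : ℕ) : ℝ≥0∞) * A + ((2 * (n₂ + 1) : ℕ) : ℝ≥0∞) * A) +
            (ρ s m + ρ m t) := by ring
        _ ≤ _ := add_le_add h4 h3

end path

section bv

theorem one_le_edist {x y : ℝ} (hx : ∃ n : ℤ, x = n) (hy : ∃ n : ℤ, y = n) (h : x ≠ y) :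
    1 ≤ edist x y := by
  obtain ⟨n, rfl⟩ := hx
  obtain ⟨m, rfl⟩ := hy
  rw [edist_dist, Real.dist_eq, ← ENNReal.ofReal_one]
  refine ENNReal.ofReal_le_ofReal ?_
  have h1 : n - m ≠ 0 := sub_ne_zero.2 fun h2 => h (by rw [h2])
  have h2 : 1 ≤ |n - m| := Int.one_le_abs h1
  exact_mod_cast h2

/-- **the times where an integer valued function of bounded variation changes** -/
theorem exists_jumps {f : ℝ → ℝ} {a b : ℝ} (hZ : ∀ t ∈ Icc a b, ∃ n : ℤ, f t = n)
    (hf : eVariationOn f (Icc a b) ≠ ⊤) :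
    ∃ T : Finset ℝ, (T.card : ℝ≥0∞) ≤ eVariationOn f (Icc a b) ∧ (∀ t ∈ T, t ∈ Icc a b) ∧
      ∀ s t, a ≤ s → t ≤ b → (∀ r ∈ Ioo s t, r ∉ T) →
        ∀ r ∈ Ioo s t, ∀ r' ∈ Ioo s t, f r = f r' := by
  classical
  have key : ∀ (m : ℕ) (a' : ℝ) (T : Finset ℝ), T.card = m → a ≤ a' →
      (∀ t ∈ T, t ∈ Icc a' b ∧ ∀ ε > 0, ∃ s ∈ Icc a' b, |s - t| < ε ∧ f s ≠ f t) →
      (m : ℝ≥0∞) ≤ eVariationOn f (Icc a' b) := by
    intro m
    induction m with
    | zero => intro a' T _ _ _; simp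
    | succ m ih =>
      intro a' T hT ha' hD
      have hne : T.Nonempty := Finset.card_pos.1 (by omega)
      set t := T.min' hne with ht
      have htT : t ∈ T := T.min'_mem hne
      obtain ⟨htI, htD⟩ := hD t htT
      obtain ⟨a'', h1, h2, h3, s, hs, hst⟩ : ∃ a'' : ℝ, t ≤ a'' ∧ a'' ≤ b ∧
          (∀ t' ∈ T.erase t, a'' < t') ∧ ∃ s ∈ Icc a' a'', f s ≠ f t := by
        rcases (T.erase t).eq_empty_or_nonempty with he | he
        · obtain ⟨s, hs, -, hne⟩ := htD 1 one_pos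
          refine ⟨b, htI.2, le_rfl, ?_, s, hs, hne⟩
          intro t' ht'
          rw [he] at ht'
          exact absurd ht' (Finset.notMem_empty _)
        · set m' := (T.erase t).min' he with hm'
          have h4 : m' ∈ T.erase t := (T.erase t).min'_mem he
          have h5 : t < m' := lt_of_le_of_ne (T.min'_le _ (Finset.mem_of_mem_erase h4))
            (Finset.ne_of_mem_erase h4).symm
          have h6 := (hD m' (Finset.mem_of_mem_erase h4)).1
          obtain ⟨s, hs, h7, hne⟩ := htD ((m' - t) / 2) (by linarith)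
          have h8 := abs_lt.1 h7
          refine ⟨(t + m') / 2, by linarith, by linarith [h6.2], fun t' ht' => ?_, s,
            ⟨hs.1, by linarith⟩, hne⟩
          have := (T.erase t).min'_le _ ht'
          linarith
      have h4 := ih a'' (T.erase t) (by rw [Finset.card_erase_of_mem htT]; omega)
        (ha'.trans (htI.1.trans h1)) fun t' ht' => by
          have h5 := h3 t' ht'
          obtain ⟨h6, h7⟩ := hD t' (Finset.mem_of_mem_erase ht')
          refine ⟨⟨h5.le, h6.2⟩, fun ε hε => ?_⟩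
          obtain ⟨s', hs', h8, h9⟩ := h7 (min ε (t' - a'')) (lt_min hε (by linarith))
          have h10 := abs_lt.1 (h8.trans_le (min_le_right _ _))
          exact ⟨s', ⟨by linarith, hs'.2⟩, h8.trans_le (min_le_left _ _), h9⟩
      have h5 := eVariationOn.Icc_add_Icc f (s := univ) (htI.1.trans h1) h2 (mem_univ _)
      simp only [univ_inter] at h5
      rw [← h5]
      push_cast
      rw [add_comm]
      refine add_le_add ?_ h4
      have hsI : s ∈ Icc a b := ⟨ha'.trans hs.1, hs.2.trans h2⟩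
      refine (one_le_edist (hZ s hsI) (hZ t ⟨ha'.trans htI.1, htI.2⟩) hst).trans ?_
      exact eVariationOn.edist_le f hs ⟨htI.1, h1⟩
  set D : Set ℝ := {t | t ∈ Icc a b ∧ ∀ ε > 0, ∃ s ∈ Icc a b, |s - t| < ε ∧ f s ≠ f t} with hD
  have hfin : D.Finite := by
    by_contra hinf
    obtain ⟨N, hN⟩ := ENNReal.exists_nat_gt hf
    obtain ⟨T, hT, hTc⟩ := Set.Infinite.exists_subset_card_eq hinf (N + 1)
    have h1 := (key (N + 1) a T hTc le_rfl fun t ht => hT ht).trans hN.le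
    have h2 : N + 1 ≤ N := by exact_mod_cast h1
    omega
  refine ⟨hfin.toFinset, ?_, fun t ht => (hfin.mem_toFinset.1 ht).1, ?_⟩
  · exact key _ a hfin.toFinset rfl le_rfl fun t ht => hfin.mem_toFinset.1 ht
  · intro s t hs ht hno
    have hcont : ContinuousOn f (Ioo s t) := by
      intro r hr
      have h1 : r ∉ D := fun h => hno r hr (hfin.mem_toFinset.2 h)
      have hrI : r ∈ Icc a b := ⟨hs.trans hr.1.le, hr.2.le.trans ht⟩
      rw [hD, mem_ofPred_eq] at h1
      push Not at h1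
      obtain ⟨ε, hε, h2⟩ := h1 hrI
      have h3 : ∀ᶠ x in 𝓝[Ioo s t] r, f x = f r := by
        filter_upwards [self_mem_nhdsWithin, mem_nhdsWithin_of_mem_nhds (ball_mem_nhds r hε)]
          with x hx hxb
        exact h2 x ⟨hs.trans hx.1.le, hx.2.le.trans ht⟩ (by rwa [mem_ball, Real.dist_eq] at hxb)
      exact tendsto_const_nhds.congr' (h3.mono fun x hx => hx.symm)
    have aux : ∀ r ∈ Ioo s t, ∀ r' ∈ Ioo s t, ¬ f r < f r' := by
      intro r hr r' hr' hlt
      have hI : ∀ x ∈ Ioo s t, x ∈ Icc a b := fun x hx => ⟨hs.trans hx.1.le, hx.2.le.trans ht⟩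
      obtain ⟨n, hn⟩ := hZ r (hI r hr)
      obtain ⟨m, hm⟩ := hZ r' (hI r' hr')
      rw [hn, hm] at hlt
      have hnm : n < m := by exact_mod_cast hlt
      have hnm' : (n:ℝ) + 1 ≤ m := by exact_mod_cast hnm
      obtain ⟨x, hx, hxv⟩ := isPreconnected_Ioo.intermediate_value hr hr' hcont
        (show (n:ℝ) + 1 / 2 ∈ Icc (f r) (f r') by rw [hn, hm]; constructor <;> linarith)
      obtain ⟨k, hk⟩ := hZ x (hI x hx)
      rw [hk] at hxv
      have h2 : ((2 * k : ℤ) : ℝ) = ((2 * n + 1 : ℤ) : ℝ) := by push_cast; linarith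
      have h3 : 2 * k = 2 * n + 1 := by exact_mod_cast h2
      omega
    intro r hr r' hr'
    exact le_antisymm (not_lt.1 (aux r' hr' r hr)) (not_lt.1 (aux r hr r' hr'))

/-- a point of a finite set has the label of no other point -/
theorem eq_of_lab {L : Finset ℝ} {x x' : ℝ} (hx : x ∈ L)
    (h : (L.filter (· < x)).card + (L.filter (· ≤ x)).card =
      (L.filter (· < x')).card + (L.filter (· ≤ x')).card) : x' = x := by
  classical
  have e1 : ∀ z ∈ L, (L.filter (· ≤ z)).card = (L.filter (· < z)).card + 1 := by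
    intro z hz
    have : L.filter (· ≤ z) = insert z (L.filter (· < z)) := by
      ext u
      simp only [Finset.mem_filter, Finset.mem_insert]
      constructor
      · rintro ⟨h1, h2⟩
        rcases h2.eq_or_lt with h3 | h3
        · exact Or.inl h3
        · exact Or.inr ⟨h1, h3⟩
      · rintro (rfl | ⟨h1, h2⟩)
        · exact ⟨hz, le_rfl⟩
        · exact ⟨h1, h2.le⟩
    rw [this, Finset.card_insert_of_notMem]
    simp
  have e2 : ∀ z ∉ L, (L.filter (· ≤ z)).card = (L.filter (· < z)).card := by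
    intro z hz
    congr 1
    refine Finset.filter_congr fun u hu => ⟨fun h1 => lt_of_le_of_ne h1 ?_, fun h1 => h1.le⟩
    rintro rfl
    exact hz hu
  rw [e1 x hx] at h
  by_cases hx' : x' ∈ L
  · rw [e1 x' hx'] at h
    have key : ∀ u v : ℝ, u ∈ L → u < v →
        (L.filter (· < u)).card < (L.filter (· < v)).card := by
      intro u v hu huv
      refine Finset.card_lt_card (Finset.ssubset_iff_of_subset ?_ |>.2 ⟨u, ?_, ?_⟩)
      · intro w hw
        rw [Finset.mem_filter] at hw ⊢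
        exact ⟨hw.1, hw.2.trans huv⟩
      · exact Finset.mem_filter.2 ⟨hu, huv⟩
      · simp
    rcases lt_trichotomy x x' with h1 | h1 | h1
    · have := key x x' hx h1
      omega
    · exact h1.symm
    · have := key x' x hx' h1
      omega
  · rw [e2 x' hx'] at h
    omega

end bv

end P073.H579
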