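import Vale.Agent.P073.H579.Face1
import Vale.Agent.P073.H341.Fam

/-!
# P073, H579: the states of the exchange process, the iteration **(E3)**

The form of the state is helper805's (#5245 (4)). `Data` collects the fixed data: the closed mesh
sets `M i` (with the ball `U` and its boundary `B` among them), the levels `a` of the first
function and `b` of the second one, the initial functions `u₀`, `v₀`. `Face` is a flat face of the
mesh inside `U \ B`. `good_of_step` is the iteration.
-/

open Set Metric Topology Filter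

namespace P073.H579

open P073.TR P073.SCH P073.H339

/-- the fixed data of the exchange process -/
structure Data (E : Type*) [NormedAddCommGroup E] [NormedSpace ℝ E] (ι : Type*) where
  M : ι → Set E
  W : Set E
  U : Set E
  B : Set E
  a : Finset ℝ
  b : Finset ℝ
  u₀ : E → ℝ
  v₀ : E → ℝ

variable {E : Type*} [NormedAddCommGroup E] [NormedSpace ℝ E] {ι : Type*}

/-- the hypotheses on the fixed data -/
structure Data.Ok (D : Data E ι) : Prop where
  isOpen : IsOpen D.W
  UW : D.U ⊆ D.W
  cone : ∀ i, ∀ x ∈ D.W, LocConeAt (D.M i) x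
  ball : ConBall 3 D.U D.B
  iU : ∃ i, D.M i = D.U
  iB : ∃ i, D.M i = D.B

/-- **the states** -/
structure State (D : Data E ι) (u v : E → ℝ) : Prop where
  conu : ConicalOn u D.W
  contu : ContinuousOn u D.W
  conv : ConicalOn v D.W
  contv : ContinuousOn v D.W
  regu : ∀ x ∈ D.U, u x ∈ D.a → ∃ (σ : ℝ →ₗ[ℝ] E) (r : ℝ), FlowBox u D.M x σ r
  regv : ∀ x ∈ D.U, v x ∈ D.b → ∃ (σ : ℝ →ₗ[ℝ] E) (r : ℝ), FlowBox v D.M x σ r
  reguv : ∀ x ∈ D.U, u x ∈ D.a → v x ∈ D.b →
    ∃ (σ : ℝ × ℝ →ₗ[ℝ] E) (r : ℝ), FlowBox (fun y => (u y, v y)) D.M x σ r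
  two : H341.TwoFam 1 D.U D.B D.a (fun k => {x | x ∈ D.U ∧ u x = k}) D.b
    (fun l => {x | x ∈ D.U ∧ v x = l})
  off : ∃ K, IsCompact K ∧ K ⊆ D.U \ D.B ∧ ∀ x ∉ K, u x = D.u₀ x ∧ v x = D.v₀ x

/-- a flat face of the mesh in the ball (the relative boundary of the face may touch the boundary
of the ball) -/
structure Face (D : Data E ι) where
  i₀ : ι
  o : E
  L : P →ₗ[ℝ] E
  C : Set P
  inj : Function.Injective L
  convex : Convex ℝ C
  compact : IsCompact C
  cone : LocCone C
  int : (interior C).Nonempty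
  eq : D.M i₀ = (fun w => o + L w) '' C
  subU : D.M i₀ ⊆ D.U
  intB : ∀ z ∈ interior C, o + L z ∉ D.B

namespace Face

variable {D : Data E ι}

/-- the chart of the face -/
def ch (F : Face D) (w : P) : E := F.o + F.L w

/-- the traces on the face: `tr u v false` of the levels of `u`, `tr u v true` of the levels
of `v` -/
def tr (F : Face D) (u v : E → ℝ) : Bool → Set P :=
  traces F.C (fun i => bif i then v ∘ F.ch else u ∘ F.ch) (fun i => bif i then (D.b : Set ℝ) else D.a)

theorem mem_tr_false {F : Face D} {u v : E → ℝ} {z : P} :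
    z ∈ F.tr u v false ↔ z ∈ F.C ∧ u (F.ch z) ∈ D.a := Iff.rfl

theorem mem_tr_true {F : Face D} {u v : E → ℝ} {z : P} :
    z ∈ F.tr u v true ↔ z ∈ F.C ∧ v (F.ch z) ∈ D.b := Iff.rfl

theorem ch_mem (F : Face D) {z : P} (hz : z ∈ F.C) : F.ch z ∈ D.M F.i₀ := by
  rw [F.eq]; exact ⟨z, hz, rfl⟩

/-- the open face is in the open ball -/
theorem int_sub (F : Face D) {z : P} (hz : z ∈ interior F.C) : F.ch z ∈ D.U \ D.B :=
  ⟨F.subU (F.ch_mem (interior_subset hz)), F.intB z hz⟩

theorem continuous_ch (F : Face D) : Continuous F.ch :=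
  continuous_const.add F.L.continuous_of_finiteDimensional

theorem ch_preimage (F : Face D) : F.ch ⁻¹' D.M F.i₀ = F.C := by
  rw [F.eq]
  apply Subset.antisymm
  · rintro z ⟨w, hw, hwz⟩
    have h1 : F.L w = F.L z := add_left_cancel (hwz : F.o + F.L w = F.o + F.L z)
    rwa [← F.inj h1]
  · intro z hz
    exact ⟨z, hz, rfl⟩

end Face

/-- from a family to one set -/
theorem FlowBox.single {E G : Type*} [NormedAddCommGroup E] [NormedSpace ℝ E]
    [NormedAddCommGroup G] [NormedSpace ℝ G] {ι : Type*} {u : E → G} {M : ι → Set E} {x : E}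
    {σ : G →ₗ[ℝ] E} {r : ℝ} (h : FlowBox u M x σ r) (i : ι) :
    FlowBox u (fun _ : Unit => M i) x σ r :=
  ⟨h.pos, h.add, fun _ => h.iff i⟩

namespace State

variable {D : Data E ι} {u v : E → ℝ}

theorem reg1 (hD : D.Ok) (F : Face D) {w : E → ℝ} {L : Finset ℝ} (hc : ConicalOn w D.W)
    (hw : ContinuousOn w D.W)
    (hr : ∀ x ∈ D.U, w x ∈ L → ∃ (σ : ℝ →ₗ[ℝ] E) (r : ℝ), FlowBox w D.M x σ r) :
    Reg1 F.C (w ∘ F.ch) (L : Set ℝ) := by
  have hU : ∀ z ∈ F.C, F.ch z ∈ D.U := fun z hz => F.subU (F.ch_mem hz)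
  refine ⟨fun z hz => ?_, fun z hz => ?_, L.finite_toSet, fun z hz hzL => ?_⟩
  · exact ContinuousAt.comp (hw.continuousAt (hD.isOpen.mem_nhds (hD.UW (hU z hz))))
      F.continuous_ch.continuousAt
  · exact ConicalAt.comp_chart (hc.conicalAt hD.isOpen (hD.UW (hU z hz)))
  · obtain ⟨σ, r, h⟩ := hr _ (hU z hz) hzL
    obtain ⟨σ', r', -, h'⟩ := FlowBox.pull F.inj F.eq hz h
    have h2 := FlowBox.single h' F.i₀
    have h3 : (fun w => F.o + F.L w) ⁻¹' D.M F.i₀ = F.C := F.ch_preimage
    rw [h3] at h2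
    exact ⟨σ', r', h2⟩

/-- **the traces of a state on a face form a web** -/
theorem web (hD : D.Ok) (h : State D u v) (F : Face D) : Web F.C (F.tr u v) := by
  refine web_traces F.convex F.int F.compact F.cone ?_ ?_
  · intro i
    cases i
    · exact reg1 hD F h.conu h.contu h.regu
    · exact reg1 hD F h.conv h.contv h.regv
  · intro z hz h1 h2
    have hU : F.ch z ∈ D.U := F.subU (F.ch_mem hz)
    obtain ⟨σ, r, h3⟩ := h.reguv _ hU h1 h2
    obtain ⟨σ', r', -, h'⟩ := FlowBox.pull F.inj F.eq hz h3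
    have h4 := FlowBox.single h' F.i₀
    have h5 : (fun w => F.o + F.L w) ⁻¹' D.M F.i₀ = F.C := F.ch_preimage
    rw [h5] at h4
    exact ⟨σ', r', h4⟩

end State

/-- the number of circles in a planar set -/
noncomputable def circ (A : Set P) : ℕ := {σ | IsCircle σ ∧ σ ⊆ A}.ncard

/-- total number of crossing points on the faces -/
noncomputable def nX {D : Data E ι} {J : Type*} [Fintype J] (F : J → Face D) (u v : E → ℝ) : ℕ :=
  ∑ j, ((F j).tr u v false ∩ (F j).tr u v true).ncard

/-- total number of circles on the faces -/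
noncomputable def nC {D : Data E ι} {J : Type*} [Fintype J] (F : J → Face D) (u v : E → ℝ) : ℕ :=
  ∑ j, (circ ((F j).tr u v false) + circ ((F j).tr u v true))

/-- the measure of the process decreases: first the crossing points, then the circles -/
def Less {D : Data E ι} {J : Type*} [Fintype J] (F : J → Face D) (u' v' u v : E → ℝ) : Prop :=
  nX F u' v' < nX F u v ∨ (nX F u' v' ≤ nX F u v ∧ nC F u' v' < nC F u v)

/-- **(E3)** The iteration: if every clean disc can be removed by a step which decreases the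
measure and stays in the relation `R` (bookkeeping of edges and of the other faces), then there is
a state with good patterns on all faces. -/
theorem good_of_step {D : Data E ι} (hD : D.Ok) {J : Type*} [Fintype J] (F : J → Face D)
    (R : (E → ℝ) → (E → ℝ) → (E → ℝ) → (E → ℝ) → Prop) (hrefl : ∀ u v, R u v u v)
    (htrans : ∀ u v u' v' u'' v'', R u v u' v' → R u' v' u'' v'' → R u v u'' v'')
    (hstep : ∀ u v, State D u v → ∀ j K, CleanDisc (F j).C ((F j).tr u v) K →
      ∃ u' v', State D u' v' ∧ R u v u' v' ∧ Less F u' v' u v)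
    {u v : E → ℝ} (h : State D u v) :
    ∃ u' v', State D u' v' ∧ R u v u' v' ∧ ∀ j, Good ((F j).tr u' v') := by
  -- lexicographic induction
  have key : ∀ n m : ℕ, ∀ u v : E → ℝ, State D u v → nX F u v = n → nC F u v = m →
      ∃ u' v', State D u' v' ∧ R u v u' v' ∧ ∀ j, Good ((F j).tr u' v') := by
    intro n
    induction n using Nat.strong_induction_on with
    | _ n ihn =>
      intro m
      induction m using Nat.strong_induction_on with
      | _ m ihm =>
        intro u v h hn hm
        by_cases hg : ∀ j, Good ((F j).tr u v)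
        · exact ⟨u, v, h, hrefl u v, hg⟩
        · push Not at hg
          obtain ⟨j, hj⟩ := hg
          obtain ⟨K, hK⟩ := (good_or_cleanDisc (h.web hD (F j))).resolve_left hj
          obtain ⟨u', v', h1, h2, h3⟩ := hstep u v h j K hK
          have h4 : ∃ u'' v'', State D u'' v'' ∧ R u' v' u'' v'' ∧
              ∀ j, Good ((F j).tr u'' v'') := by
            rcases h3 with h3 | ⟨h3, h3'⟩
            · exact ihn _ (hn ▸ h3) _ u' v' h1 rfl rfl
            · rcases h3.lt_or_eq with h5 | h5
              · exact ihn _ (hn ▸ h5) _ u' v' h1 rfl rfl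
              · exact ihm _ (hm ▸ h3') u' v' h1 (h5.trans hn) rfl
          obtain ⟨u'', v'', k1, k2, k3⟩ := h4
          exact ⟨u'', v'', k1, htrans _ _ _ _ _ _ h2 k2, k3⟩
  exact key _ _ u v h rfl rfl

end P073.H579
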