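import Vale.Agent.P073.H238.T12
import Vale.Agent.P073.H579.TStageW

/-!
# P073, H579: **[T12-3]**, part a: after STAGE 1 in a set of boxes `G₀`, with cells `W`

Hypotheses of STAGE 2 for the family of boxes `fun b : G₀ => L.bxQ c hc0 hc b`.
-/

open Set Metric Topology Filter
open scoped ENNReal

namespace P073.H579

open _root_.P073 _root_.P073.TR _root_.P073.H936 _root_.P073.H236 _root_.P073.H212 _root_.P073.H345
open Vale.Agent.P073.H73 (Mesh)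
open Vale.Agent.P073.H193 (Edges)

variable {γ γ' : Type*} {Ω Λ : Set (Fin 3 → ℝ)} {B : γ → BX 3}

/-- subfamilies of a family of boxes -/
theorem fam_comp (H : H345.Fam Λ B) {e : γ' → γ} (he : Function.Injective e) :
    H345.Fam Λ fun g => B (e g) where
  op := H.op
  sub := fun g => H.sub (e g)
  dis := fun g g' hne => H.dis (e g) (e g') fun h => hne (he h)
  lf := fun z hz => by
    obtain ⟨U, hU, hf⟩ := H.lf z hz
    exact ⟨U, hU, hf.preimage (f := e) he.injOn⟩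

theorem regB_comp {M : Mesh Ω} {E : Edges M} {h : ConHomeo Ω Λ} (H : RegB M E h B) (e : γ' → γ) :
    RegB M E h fun g => B (e g) := fun k g => H k (e g)

/-- the vertices have one preimage -/
theorem pre_vert_subsingleton {M : Mesh Ω} {E : Edges M} {h : ConHomeo Ω Λ}
    {κ : (Fin 3 → ℝ) → Fin 3 → ℝ} (H : H345.Fam Λ B) (hreg : RegB M E h B) (hκ : IsQ B κ) :
    ∀ x ∈ E.verts, (Pre κ Λ h {x}).Subsingleton := by
  intro x hx y hy y' hy'
  obtain ⟨hyΛ, z, hz, hzy⟩ := hy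
  obtain ⟨hyΛ', z', hz', hzy'⟩ := hy'
  rw [mem_singleton_iff] at hz hz'
  subst hz; subst hz'
  exact hκ.inj_off H hzy.symm hzy'.symm fun g hg m hm => hreg.vert hx hg hm

/-- **all faces are passed**, for small thicknesses -/
theorem exists_passFace (M : Mesh Ω) (E : Edges M) (h : ConHomeo Ω Λ)
    (H : H345.Fam Λ B) (hreg : RegB M E h B) :
    ∃ c₀ : γ → ℝ, (∀ g, 0 < c₀ g) ∧ ∀ (c : γ → ℝ) (h0 : ∀ g, 0 < c g) (h1 : ∀ g, c g ≤ (B g).c),
      (∀ g, c g ≤ c₀ g) → ∀ κ, IsQ (fun g => thin (B g) (c g) (h0 g) (h1 g)) κ →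
      ∀ k, ∃ Φ : ConHomeo (M.F k) (Pre κ Λ h (M.F k)),
        (∀ e, E.seg e ⊆ M.F k → Φ.toFun '' E.seg e = Pre κ Λ h (E.seg e)) ∧
        ∀ x ∈ E.verts, x ∈ M.F k → κ (Φ.toFun x) = h.toFun x := by
  have hFc : ∀ k, IsCompact (M.F k) := fun k => (Vale.Agent.P073.H193.pgn_of_fat (M.fat k)).cpt
  have hFΩ : ∀ k, M.F k ⊆ Ω := Vale.Agent.P073.H193.mesh_sub M
  obtain ⟨c₀, hc₀, hmain⟩ := exists_passed_all H h hFc
    (fun k => (Vale.Agent.P073.H244.conBall_face M k).conicalSet) hFΩ M.ffin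
    (M := H345.fam M E)
    (fun k => Sum.inl k) (fun k => rfl) (fun k g hg m hm x hx hxa => hreg k g hg m hm x hx hxa)
  refine ⟨c₀, hc₀, fun c h0 h1 hc κ hκ k => ?_⟩
  have Hth : H345.Fam Λ fun g => thin (B g) (c g) (h0 g) (h1 g) := H.thin h0 h1
  obtain ⟨Φ, γ', hP⟩ := hmain c h0 h1 hc κ hκ k
  refine ⟨Φ.cast rfl (hκ.pre_eq Hth h (hFΩ k)).symm, fun e he => ?_, fun x hx hxk => ?_⟩
  · have h2 := hP.img (Sum.inr (Sum.inl e))
    have h3 : H345.fam M E (Sum.inr (Sum.inl e)) ∩ M.F k = E.seg e := inter_eq_left.2 he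
    rw [h3] at h2
    rw [hκ.pre_eq Hth h (he.trans (hFΩ k))]
    exact h2
  · show κ (Φ.toFun x) = h.toFun x
    rw [hP.eq x hxk]
    have h2 := (hP.iff (Sum.inr (Sum.inr ⟨x, hx⟩)) x hxk).2 rfl
    rw [show γ' x = x from h2]

end P073.H579

namespace Vale.Agent.P073.H579

open _root_.P073 _root_.P073.TR _root_.P073.Net _root_.P073.PA691
open _root_.P073.PR720 (LF)
open Vale.Agent.P073.St (V)
open Vale.Agent.P073.H471 Vale.Agent.P073.H267 Vale.Agent.P073.H267.Geo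
open Vale.Agent.P073.H73 (Mesh)
open Vale.Agent.P073.H193 (Edges)
open Vale.Agent.P073.H238 (TAct TB_sep mesh_sub skel)

variable {Ω Λ : Set V} {v : V} {K : BoxCx Λ v} {S : Rad K} {Wd : Wid K S} {B : Boxes Wd}
  {G : Geo B} {M : Mesh Ω} {h h' : ConHomeo Ω Λ} {Pr W : Set M.ι} {Act₀ : Set M.κ}
  {G₀ : Set (TBx K)} {L : TBx K → Set ℝ} {ω : TBx K → ℝ}

namespace TStageW

/-- on a face which meets the box `b`, nothing has changed near the points at the levels of `b` -/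
theorem germ (O : TStageW G M h h' Pr W Act₀ G₀ L ω)
    (T : TLevG G M h G₀ L ω)
    {b : TBx K} (hbG : b ∈ G₀) {k : M.κ} {x₀ x : V} (hx₀ : x₀ ∈ M.F k) (hb : h'.toFun x₀ ∈ G.TB false b)
    (hx : x ∈ M.F k) (hxL : h'.toFun x b.ax ∈ L b) : ∀ᶠ y in 𝓝 x, h'.toFun y = h.toFun y := by
  have hxΩ := mesh_sub M k hx
  have hx₀Ω := mesh_sub M k hx₀
  have hxs : x ∈ skelW M W := skel_subW M W (mem_iUnion.2 ⟨k, hx⟩)
  have hx₀s : x₀ ∈ skelW M W := skel_subW M W (mem_iUnion.2 ⟨k, hx₀⟩)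
  by_cases h1 : ∃ b', h'.toFun x ∈ G.TB false b'
  · obtain ⟨b', hb'⟩ := h1
    by_cases hbb : b = b'
    · subst hbb
      exact O.keep b x hxs hb' hxL
    · exfalso
      have h2 := O.near b x₀ hx₀s ((O.mem b x₀ hx₀Ω).1 hb)
      have h3 := O.near b' x hxs ((O.mem b' x hxΩ).1 hb')
      have h4 := T.osc b hbG k x₀ hx₀ x hx ((O.mem b x₀ hx₀Ω).1 hb)
      have h5 := dist_triangle4 (h'.toFun x₀) (h.toFun x₀) (h.toFun x) (h'.toFun x)
      rw [dist_comm (h.toFun x) (h'.toFun x)] at h5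
      have hω := T.ω0 b
      have hω' := T.ω0 b'
      have h6 := TB_sep G hbb hb hb' hω (T.ωo b) hω' (T.ωo b') (by linarith)
      obtain ⟨h7, h8⟩ := T.lev b _ hxL
      rcases h6 with h6 | h6 <;> linarith
  · push Not at h1
    exact O.off x hxΩ fun b' _ hb' => h1 b' (interior_subset ((O.memI b' x hxΩ).2 hb'))

/-- regularity of the levels on the faces which meet the boxes, for all families of sets -/
theorem regB (O : TStageW G M h h' Pr W Act₀ G₀ L ω)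
    (T : TLevG G M h G₀ L ω) {ι : Type*} {N : ι → Set V}
    (hr : ∀ k, ∀ b ∈ G₀, (∃ x ∈ M.F k, h.toFun x ∈ G.TB false b) → ∀ x ∈ M.F k,
      h.toFun x b.ax ∈ L b → _root_.P073.H805.Reg (fun y => h.toFun y b.ax) N x) :
    ∀ k, ∀ b ∈ G₀, (∃ x ∈ M.F k, h'.toFun x ∈ G.TB false b) → ∀ x ∈ M.F k,
      h'.toFun x b.ax ∈ L b → _root_.P073.H805.Reg (fun y => h'.toFun y b.ax) N x := by
  rintro k b hbG ⟨x₀, hx₀, hb⟩ x hx hxL
  have h1 := O.germ T hbG hx₀ hb hx hxL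
  have h2 := h1.self_of_nhds
  rw [h2] at hxL
  have h3 := (O.mem b x₀ (mesh_sub M k hx₀)).1 hb
  exact (hr k b hbG ⟨x₀, hx₀, h3⟩ x hx hxL).congr_fun (h1.mono fun y hy => by
    show h'.toFun y b.ax = h.toFun y b.ax
    rw [hy])

end TStageW

end Vale.Agent.P073.H579

namespace Vale.Agent.P073.H669.TLv

open _root_.P073 _root_.P073.TR _root_.P073.Net _root_.P073.PA691
open _root_.P073.PR720 (LF)
open Vale.Agent.P073.St (V)
open Vale.Agent.P073.H471 Vale.Agent.P073.H267 Vale.Agent.P073.H267.Geo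
open Vale.Agent.P073.H73 (Mesh)
open Vale.Agent.P073.H193 (Edges Cyc)
open Vale.Agent.P073.H155 (vv)
open Vale.Agent.P073.H238 (oT marg TAct TProt skel mesh_sub)
open Vale.Agent.P073.H579 (TStageW TLevG skelW skel_subW exists_tstageW)
open _root_.P073.Croft (Cells Crs levs Generic onS cross varIn TransAt SepL)
open _root_.P073.H345 (fam Fam RegB Out2 Miss IsQ)
open _root_.P073.H236 (BX Lvs BFam stp dsp LQ omQ kQ loQ hiQ crsPt_Q omX_Q_of_crs)
open _root_.P073.H579 (FAct EAct actF GEd GFd CrsPt omX Pre InsMap hface_act fam_comp regB_comp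
  exists_passFace)

variable {Ω Λ : Set V} {v : V} {K : BoxCx Λ v} {S : Rad K} {Wd : Wid K S} {B : Boxes Wd}
  {G : Geo B} {M : Mesh Ω} {E : Edges M} {h h' : ConHomeo Ω Λ} {ω : TBx K → ℝ}
  {T : TBx K → Finset (ℝ × ℝ)} {η : ℝ} {τ : Type*} {A : τ → Set V} {C : Set ℝ} {εE : E.ε → ℝ}
  {δ : TBx K → ℝ}

variable (L : TLv G E h ω T η A C εE δ)

/-- the chosen faces: the faces of `Act₀` with a level point of `h'` in the full zone of the box
`b ∈ G₀` -/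
def AcW (Act₀ : Set M.κ) (G₀ : Set (TBx K)) (h' : ConHomeo Ω Λ) (b : G₀) (k : M.κ) : Prop :=
  k ∈ Act₀ ∧ TAct G M h' L.lev b.1 k

/-- weight of the edge `e`, boxes of `G₀` -/
noncomputable def WeW (G₀ : Set (TBx K)) (h' : ConHomeo Ω Λ) (e : E.ε) : ℝ :=
  (∑' b : G₀, L.wt h' false e b.1).toReal

theorem WeW_nonneg (G₀ : Set (TBx K)) (h' : ConHomeo Ω Λ) (e : E.ε) : 0 ≤ L.WeW G₀ h' e :=
  ENNReal.toReal_nonneg

variable {Pr W : Set M.ι} {Act₀ : Set M.κ} {G₀ : Set (TBx K)}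

/-- **the levels**, the oscillation only for the boxes of `G₀` -/
theorem levG (hosc : ∀ b ∈ G₀, ∀ k, ∀ x ∈ M.F k, ∀ y ∈ M.F k, h.toFun x ∈ G.TB false b →
    dist (h.toFun x) (h.toFun y) ≤ ω b) : TLevG G M h G₀ L.lev ω where
  fin := L.lev_fin
  ω0 := L.ω0
  ωo := L.ωo
  lev := by
    rintro b _ ⟨k, hk, rfl⟩
    have h1 := L.mem_win hk
    have h2 := L.ω0 b
    constructor <;> linarith [h1.1, h1.2]
  osc := hosc
  reg := by
    intro b k x hx _ hl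
    exact Croft.Reg.sub (L.reg (mesh_sub M k hx) hl) fun _ => ⟨Sum.inl k, rfl⟩

section stageW

variable (O : TStageW G M h h' Pr W Act₀ G₀ L.lev ω)
include O

/-- the crossings of `h'` with the levels are crossings of `h` -/
theorem cross_subG (f : Bool) (e : E.ε)
    (b : TBx K) : cross (onS h'.toFun (E.a e) (E.b e)) b.ax (L.lev b) (G.TB f b) ⊆
      cross (onS h.toFun (E.a e) (E.b e)) b.ax (L.lev b) (G.TB f b) := by
  rintro t ⟨ht, htP, htL⟩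
  obtain ⟨k, hk⟩ := E.own e
  have hx : E.a e + t • (E.b e - E.a e) ∈ M.F k := hk (Croft.onS_mem ht)
  have h1 := (O.keep b _ (skel_subW M W (mem_iUnion.2 ⟨k, hx⟩)) (TB_sub_false G f b htP)
    htL).self_of_nhds
  unfold onS at htP htL
  rw [h1] at htP htL
  exact ⟨ht, htP, htL⟩

/-- the germs are the same -/
theorem cross_germW {f : Bool} {e : E.ε}
    {b : TBx K} {t : ℝ} (ht : t ∈ cross (onS h'.toFun (E.a e) (E.b e)) b.ax (L.lev b) (G.TB f b)) :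
    ∀ᶠ s in 𝓝 t, onS h'.toFun (E.a e) (E.b e) s = onS h.toFun (E.a e) (E.b e) s := by
  obtain ⟨ht, htP, htL⟩ := ht
  obtain ⟨k, hk⟩ := E.own e
  have hx : E.a e + t • (E.b e - E.a e) ∈ M.F k := hk (Croft.onS_mem ht)
  have h1 := O.keep b _ (skel_subW M W (mem_iUnion.2 ⟨k, hx⟩)) (TB_sub_false G f b htP) htL
  have h2 : ContinuousAt (fun s : ℝ => E.a e + s • (E.b e - E.a e)) t := by fun_prop
  exact h2.eventually h1

theorem cross_finW (f : Bool) (e : E.ε) (b : TBx K) :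
    (cross (onS h'.toFun (E.a e) (E.b e)) b.ax (L.lev b) (G.TB f b)).Finite :=
  ((L.crs f e).fin b).subset (L.cross_subG O f e b)

/-- **the crossing numbers of `h'`** against the variation of `h` -/
theorem cnt_oneG (f : Bool) (e : E.ε)
    (b : TBx K) : ENNReal.ofReal (δ b) *
        cnt (cross (onS h'.toFun (E.a e) (E.b e)) b.ax (L.lev b) (G.TB f b)) ≤
      ENNReal.ofReal (1 - 2 * η)⁻¹ * varIn (onS h.toFun (E.a e) (E.b e)) b.ax (G.TB f b) 0 1 +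
        ENNReal.ofReal (εE e) :=
  (mul_le_mul_right (Croft.cnt_mono (L.cross_subG O f e b)) _).trans ((L.crs f e).one b)

theorem cnt_sumG (f : Bool) (e : E.ε) :
    ∑' b, ENNReal.ofReal (δ b) *
        cnt (cross (onS h'.toFun (E.a e) (E.b e)) b.ax (L.lev b) (G.TB f b)) ≤
      ENNReal.ofReal (1 - 2 * η)⁻¹ * (2 * len (onS h.toFun (E.a e) (E.b e)) (Icc 0 1)) +
        ENNReal.ofReal (εE e) := by
  refine (ENNReal.tsum_le_tsum fun b => mul_le_mul_right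
    (Croft.cnt_mono (L.cross_subG O f e b)) _).trans ?_
  have h1 := (L.crs f e).sum_le_len (m := 2) (Croft.conicalOn_onS h.conical (E.seg_sub_Ω e))
    (fun b => convex_Icc _ _) (fun y => by exact_mod_cast encard_TB G f y)
  exact_mod_cast h1

theorem wt_ne_topW (f : Bool) (e : E.ε) (b : TBx K) : L.wt h' f e b ≠ ⊤ := by
  refine ENNReal.mul_ne_top ENNReal.ofReal_ne_top ?_
  unfold cnt
  have h1 := (L.cross_finW O f e b).encard_lt_top
  exact ENat.toENNReal_ne_top.2 h1.ne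

theorem tsum_wt_ne_topW (f : Bool) (e : E.ε) : ∑' b, L.wt h' f e b ≠ ⊤ := by
  classical
  have hfin : {b | (h'.toFun '' segment ℝ (E.a e) (E.b e) ∩ G.TB false b).Nonempty}.Finite :=
    Croft.finite_inter_image h' (lf_TB G) (E.isCompact_seg e) (E.seg_sub_Ω e)
  have hzero : ∀ b, b ∉ hfin.toFinset → L.wt h' f e b = 0 := by
    intro b hb
    have : cross (onS h'.toFun (E.a e) (E.b e)) b.ax (L.lev b) (G.TB f b) = ∅ := by
      rw [Set.eq_empty_iff_forall_notMem]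
      rintro t ⟨ht, htP, -⟩
      refine hb ?_
      rw [Finite.mem_toFinset]
      exact ⟨_, ⟨_, Croft.onS_mem ht, rfl⟩, TB_sub_false G f b htP⟩
    unfold wt
    rw [this]
    simp [cnt]
  rw [tsum_eq_sum hzero]
  exact ENNReal.sum_ne_top.2 fun b _ => L.wt_ne_topW O f e b

theorem tsum_wt_subW (f : Bool) (e : E.ε) :
    ∑' b : G₀, L.wt h' f e b.1 ≤ ∑' b, L.wt h' f e b :=
  ENNReal.tsum_comp_le_tsum_of_injective Subtype.val_injective _

theorem tsum_wt_sub_ne_topW (f : Bool) (e : E.ε) : ∑' b : G₀, L.wt h' f e b.1 ≠ ⊤ :=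
  ne_top_of_le_ne_top (L.tsum_wt_ne_topW O f e) (L.tsum_wt_subW O f e)

theorem ofReal_WeW (e : E.ε) :
    ENNReal.ofReal (L.WeW G₀ h' e) = ∑' b : G₀, L.wt h' false e b.1 :=
  ENNReal.ofReal_toReal (L.tsum_wt_sub_ne_topW O false e)

/-- the weights with the boxes of `G₀` are at most the weights with all boxes -/
theorem WeW_le_We (e : E.ε) : L.WeW G₀ h' e ≤ L.We h' e :=
  ENNReal.toReal_mono (L.tsum_wt_ne_topW O false e) (L.tsum_wt_subW O false e)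

theorem wt_le_WeW (f : Bool) (e : E.ε) (b : G₀) :
    L.wt h' f e b.1 ≤ ENNReal.ofReal (L.WeW G₀ h' e) := by
  rw [L.ofReal_WeW O]
  exact (L.wt_le_of h' f e b.1).trans (ENNReal.le_tsum (f := fun b : G₀ => L.wt h' false e b.1) b)

/-- **the sharp bound** for one box -/
theorem wt_sharpW {μ : ℝ} (hμ : μ < 1) (b : TBx K)
    (hb : 60 * ω b + dsp (T b) (δ b) ≤ μ * (G.thi true b b.ax - G.tlo true b b.ax))
    (f : Bool) (e : E.ε) : L.wt h' f e b ≤ ENNReal.ofReal (1 - μ)⁻¹ *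
      (ENNReal.ofReal (1 - 2 * η)⁻¹ * varIn (onS h.toFun (E.a e) (E.b e)) b.ax (G.TB f b) 0 1 +
        ENNReal.ofReal (εE e)) := by
  have h1 : L.om b ≤ (1 - μ)⁻¹ * δ b := by
    have h2 := L.stp_le b hb
    have h3 : 0 < 1 - μ := by linarith
    rw [← div_eq_inv_mul, le_div_iff₀ h3, mul_comm]
    exact h2
  have h4 : 0 ≤ (1 - μ)⁻¹ := inv_nonneg.2 (by linarith)
  calc L.wt h' f e b ≤ ENNReal.ofReal ((1 - μ)⁻¹ * δ b) *
        cnt (cross (onS h'.toFun (E.a e) (E.b e)) b.ax (L.lev b) (G.TB f b)) :=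
        mul_le_mul_left (ENNReal.ofReal_le_ofReal h1) _
    _ = ENNReal.ofReal (1 - μ)⁻¹ * (ENNReal.ofReal (δ b) *
        cnt (cross (onS h'.toFun (E.a e) (E.b e)) b.ax (L.lev b) (G.TB f b))) := by
        rw [ENNReal.ofReal_mul h4, mul_assoc]
    _ ≤ _ := mul_le_mul_right (L.cnt_oneG O f e b) _

/-- **the bound of the weights** -/
theorem WeW_le {μ : ℝ} (hμ : μ < 1)
    (hb : ∀ b ∈ G₀, 60 * ω b + dsp (T b) (δ b) ≤ μ * (G.thi true b b.ax - G.tlo true b b.ax))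
    (e : E.ε) : ENNReal.ofReal (L.WeW G₀ h' e) ≤ ENNReal.ofReal (1 - μ)⁻¹ *
      (ENNReal.ofReal (1 - 2 * η)⁻¹ * (2 * len (onS h.toFun (E.a e) (E.b e)) (Icc 0 1)) +
        ENNReal.ofReal (εE e)) := by
  rw [L.ofReal_WeW O]
  have h4 : 0 ≤ (1 - μ)⁻¹ := inv_nonneg.2 (by linarith)
  have h5 : ∀ b : G₀, L.wt h' false e b.1 ≤ ENNReal.ofReal (1 - μ)⁻¹ * (ENNReal.ofReal (δ b.1) *
        cnt (cross (onS h'.toFun (E.a e) (E.b e)) b.1.ax (L.lev b.1) (G.TB false b.1))) := by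
    intro b
    have h1 : L.om b.1 ≤ (1 - μ)⁻¹ * δ b.1 := by
      have h2 := L.stp_le b.1 (hb b.1 b.2)
      have h3 : 0 < 1 - μ := by linarith
      rw [← div_eq_inv_mul, le_div_iff₀ h3, mul_comm]
      exact h2
    rw [← mul_assoc, ← ENNReal.ofReal_mul h4]
    exact mul_le_mul_left (ENNReal.ofReal_le_ofReal h1) _
  calc ∑' b : G₀, L.wt h' false e b.1 ≤
        ∑' b : G₀, ENNReal.ofReal (1 - μ)⁻¹ * (ENNReal.ofReal (δ b.1) *
        cnt (cross (onS h'.toFun (E.a e) (E.b e)) b.1.ax (L.lev b.1) (G.TB false b.1))) :=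
        ENNReal.tsum_le_tsum h5
    _ = ENNReal.ofReal (1 - μ)⁻¹ * ∑' b : G₀, ENNReal.ofReal (δ b.1) *
        cnt (cross (onS h'.toFun (E.a e) (E.b e)) b.1.ax (L.lev b.1) (G.TB false b.1)) :=
        ENNReal.tsum_mul_left
    _ ≤ ENNReal.ofReal (1 - μ)⁻¹ * ∑' b, ENNReal.ofReal (δ b) *
        cnt (cross (onS h'.toFun (E.a e) (E.b e)) b.ax (L.lev b) (G.TB false b)) :=
        mul_le_mul_right (ENNReal.tsum_comp_le_tsum_of_injective Subtype.val_injective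
          fun b => ENNReal.ofReal (δ b) *
            cnt (cross (onS h'.toFun (E.a e) (E.b e)) b.ax (L.lev b) (G.TB false b))) _
    _ ≤ _ := mul_le_mul_right (L.cnt_sumG O false e) _

variable {c : TBx K → ℝ} (hc0 : ∀ b, 0 < c b) (hc : ∀ b, c b ≤ δ b / 8)

/-- **STAGE 1 ⟹ hypothesis of STAGE 2**, the boxes of `G₀` -/
theorem regBG (hosc : ∀ b ∈ G₀, ∀ k, ∀ x ∈ M.F k, ∀ y ∈ M.F k, h.toFun x ∈ G.TB false b →
      dist (h.toFun x) (h.toFun y) ≤ ω b) :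
    RegB M E h' fun b : G₀ => L.bxQ c hc0 hc b.1 := by
  rintro k b ⟨_, hK, x₀, hx₀, rfl⟩ m hm x hx hxa
  exact O.regB (L.levG hosc) (fun k' b' _ _ x' hx' hl' => L.reg (mesh_sub M k' hx') hl')
    k b.1 b.2 ⟨x₀, hx₀, L.K_sub hc0 hc b.1 hK⟩ x hx ⟨m, hm, hxa⟩

/-- **active faces** are in the full zone of their box, and miss the supports of the others -/
theorem actG {b : TBx K} (hbG : b ∈ G₀) {k : M.κ}
    (hk : TAct G M h L.lev b k) {x : V} (hx : x ∈ M.F k) :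
    (L.bxQ c hc0 hc b).Full (h'.toFun x) ∧ h'.toFun x ∈ (L.bxQ c hc0 hc b).K ∧
      (G.tlo true b b.ax + 3 * ω b < h'.toFun x b.ax ∧
        h'.toFun x b.ax < G.thi true b b.ax - 3 * ω b) ∧
      ∀ b', b' ≠ b → h'.toFun x ∉ (L.bxQ c hc0 hc b').K := by
  obtain ⟨h1, h2, h3⟩ := O.loc b hbG k hk x hx
  have h0 := L.ω0 b
  refine ⟨fun i hi => ?_, (L.mem_K hc0 hc).2 ⟨?_, fun i hi => ?_⟩, h2, fun b' hne hK => ?_⟩
  · obtain ⟨h4, h5⟩ := h3 i hi
    constructor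
    · change G.tlo true b i - 20 * ω b ≤ h'.toFun x i; linarith
    · change h'.toFun x i ≤ G.thi true b i + 20 * ω b; linarith
  · constructor <;> linarith [h2.1, h2.2]
  · obtain ⟨h4, h5⟩ := h3 i hi
    constructor <;> linarith
  · exact (disjoint_TB (G := G) hne.symm).notMem_of_mem_left h1 (L.K_sub hc0 hc b' hK)

/-- active faces are in the full part of the box -/
theorem inBW {b : TBx K} (hbG : b ∈ G₀) {k : M.κ} (hk : TAct G M h L.lev b k) :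
    _root_.P073.H579.InB (L.bxQ c hc0 hc b) (h'.toFun '' M.F k) := by
  rintro _ ⟨x, hx, rfl⟩
  obtain ⟨h1, h2, -⟩ := L.actG O hc0 hc hbG hk hx
  exact ⟨h2, h1⟩

theorem factW {b : G₀} {k : M.κ} (hk : L.AcW Act₀ G₀ h' b k) :
    FAct M h' (fun b : G₀ => L.bxQ c hc0 hc b.1) b k := by
  refine ⟨L.inBW O hc0 hc b.2 (O.act b.1 k hk.2), ?_⟩
  obtain ⟨-, x, hx, -, ⟨m, hm, hxm⟩⟩ := hk
  exact ⟨x, hx, m, hm, hxm⟩

/-- no circles -/
theorem hnoW {b : G₀} {k : M.κ} (hk : L.AcW Act₀ G₀ h' b k) {σ : Set V} (hσ : IsCircle σ)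
    (hs : σ ⊆ M.F k) :
    ¬ ∀ x ∈ σ, ∃ m < (L.bxQ c hc0 hc b.1).N, (L.bxQ c hc0 hc b.1).a m =
      h'.toFun x (L.bxQ c hc0 hc b.1).j := by
  intro hall
  refine O.noCircV L.lev_fin b.2 hk.1 (O.act b.1 k hk.2) hσ hs fun x hx => ?_
  obtain ⟨m, hm, h1⟩ := hall x hx
  exact ⟨m, hm, h1.symm⟩

/-- one box: the sum of the weights of the crossing points -/
theorem sum_omXW {b : TBx K} (hbG : b ∈ G₀) {k : M.κ} (hk : TAct G M h' L.lev b k) {e : E.ε}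
    (he : E.seg e ⊆ M.F k)
    (Y : Finset V) (hY : ∀ x ∈ Y, CrsPt (E.a e) (E.b e) h'.toFun (LQ (L.bxQ c hc0 hc b)) x) :
    ENNReal.ofReal (∑ x ∈ Y, omX h'.toFun (LQ (L.bxQ c hc0 hc b)) (omQ (L.bxQ c hc0 hc b)) x) ≤
      L.wt h' false e b := by
  classical
  have h1 : ∑ x ∈ Y, omX h'.toFun (LQ (L.bxQ c hc0 hc b)) (omQ (L.bxQ c hc0 hc b)) x =
      Y.card * L.om b := by
    rw [Finset.sum_congr rfl fun x hx => omX_Q_of_crs (hY x hx), Finset.sum_const, nsmul_eq_mul]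
    rfl
  rw [h1, mul_comm, ENNReal.ofReal_mul (L.om_pos b).le]
  unfold wt
  refine mul_le_mul_right ?_ _
  rw [ENNReal.ofReal_natCast]
  have h2 : (Y : Set V) ⊆ (fun t : ℝ => E.a e + t • (E.b e - E.a e)) ''
      cross (onS h'.toFun (E.a e) (E.b e)) b.ax (L.lev b) (G.TB false b) := by
    intro x hx
    obtain ⟨hxs, m, hm, hxm⟩ := crsPt_Q.1 (hY x hx)
    have hxK := (L.inBW O hc0 hc hbG (O.act b k hk) _ ⟨x, he hxs, rfl⟩).1
    have hxT := L.K_sub hc0 hc b hxK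
    rw [segment_eq_image'] at hxs
    obtain ⟨t, ht, rfl⟩ := hxs
    exact ⟨t, ⟨ht, hxT, m, hm, hxm.symm⟩, rfl⟩
  have h3 : (Y : Set V).encard ≤
      (cross (onS h'.toFun (E.a e) (E.b e)) b.ax (L.lev b) (G.TB false b)).encard :=
    (encard_le_encard h2).trans (encard_image_le _ _)
  unfold cnt
  rw [Set.encard_coe_eq_coe_finsetCard] at h3
  exact_mod_cast h3

/-- the hypothesis `hWe` of the theorems on edges and faces -/
theorem hWeW {b : G₀} {e : E.ε} (hA : EAct E (L.AcW Act₀ G₀ h') b e) (Y : Finset V)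
    (hY : ∀ x ∈ Y, CrsPt (E.a e) (E.b e) h'.toFun (LQ (L.bxQ c hc0 hc b.1)) x) :
    ∑ x ∈ Y, omX h'.toFun (LQ (L.bxQ c hc0 hc b.1)) (omQ (L.bxQ c hc0 hc b.1)) x ≤
      L.WeW G₀ h' e := by
  obtain ⟨k, hk, he⟩ := hA
  exact (ENNReal.ofReal_le_ofReal_iff (L.WeW_nonneg G₀ h' e)).1
    ((L.sum_omXW O hc0 hc b.2 hk.2 he Y hY).trans (L.wt_le_WeW O false e b))

theorem not_missW {b : G₀} {k : M.κ} (hk : L.AcW Act₀ G₀ h' b k) {X : Set V} (hX : X ⊆ M.F k)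
    (hne : X.Nonempty) {l : M.κ} (hl : l ∈ Miss M h' fun b : G₀ => L.bxQ c hc0 hc b.1) :
    ¬ X ⊆ M.F l := by
  intro h1
  obtain ⟨x, hx⟩ := hne
  exact Set.disjoint_left.1 (hl b) (L.inBW O hc0 hc b.2 (O.act b.1 k hk.2) _ ⟨x, hX hx, rfl⟩).1
    ⟨x, h1 hx, rfl⟩

/-- **edges of the chosen faces**: the hypothesis `hedge` of STAGE 2 -/
theorem hedgeW (hΛ : IsOpen Λ)
    (hosc : ∀ b ∈ G₀, ∀ k, ∀ x ∈ M.F k, ∀ y ∈ M.F k, h.toFun x ∈ G.TB false b →
      dist (h.toFun x) (h.toFun y) ≤ ω b) {κ : V → V}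
    (hκ : IsQ (fun b : G₀ => L.bxQ c hc0 hc b.1) κ) :
    ∀ k ∈ actF (L.AcW Act₀ G₀ h'), ∀ e, E.seg e ⊆ M.F k →
      ∃ Φ : ConHomeo (E.seg e) (Pre κ Λ h' (E.seg e)),
      GEd E h' (fun b : G₀ => L.bxQ c hc0 hc b.1) (L.AcW Act₀ G₀ h') (L.WeW G₀ h') e Φ.toFun ∧
        ∀ x ∈ E.seg e, x ∈ E.verts → κ (Φ.toFun x) = h'.toFun x :=
  _root_.P073.H579.hedge_act (fam_comp (L.fam345 hc0 hc hΛ) Subtype.val_injective)
    (L.regBG O hc0 hc hosc) hκ (fun b k hk => L.factW O hc0 hc hk)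
    (fun b e hA Y hY => L.hWeW O hc0 hc hA Y hY)

/-- **chosen faces**: the hypothesis `hface` of STAGE 2 -/
theorem hfaceW (hΩ : IsOpen Ω) (hΛ : IsOpen Λ)
    (hosc : ∀ b ∈ G₀, ∀ k, ∀ x ∈ M.F k, ∀ y ∈ M.F k, h.toFun x ∈ G.TB false b →
      dist (h.toFun x) (h.toFun y) ≤ ω b)
    (Cy : ∀ k, Cyc E k) {ctr : M.κ → V} {r0 R : M.κ → ℝ}
    (hS : ∀ k, _root_.P073.H155.Star ((Cy k).n + 1) (vv (Cy k)) (ctr k) (r0 k) (R k) (M.F k))
    {κ : V → V} (hκ : IsQ (fun b : G₀ => L.bxQ c hc0 hc b.1) κ) {k : M.κ}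
    (hk : k ∈ actF (L.AcW Act₀ G₀ h'))
    (Φe : ∀ e, E.seg e ⊆ M.F k → ConHomeo (E.seg e) (Pre κ Λ h' (E.seg e)))
    (hGE : ∀ e he, GEd E h' (fun b : G₀ => L.bxQ c hc0 hc b.1) (L.AcW Act₀ G₀ h') (L.WeW G₀ h') e
      (Φe e he).toFun)
    (hv : ∀ e he, ∀ x ∈ E.seg e, x ∈ E.verts → κ ((Φe e he).toFun x) = h'.toFun x) :
    ∃ Φ : ConHomeo (M.F k) (Pre κ Λ h' (M.F k)),
      GFd E (fun b : G₀ => L.bxQ c hc0 hc b.1) (L.AcW Act₀ G₀ h') (L.WeW G₀ h') ctr r0 R k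
        Φ.toFun ∧ ∀ e he, EqOn Φ.toFun (Φe e he).toFun (E.seg e) :=
  hface_act hΩ (fam_comp (L.fam345 hc0 hc hΛ) Subtype.val_injective)
    (L.regBG O hc0 hc hosc) hκ
    (fun b k hk => L.factW O hc0 hc hk) (fun b k hk σ hσ hs => L.hnoW O hc0 hc hk hσ hs) Cy hS
    (L.WeW_nonneg G₀ h') (fun b e hA Y hY => L.hWeW O hc0 hc hA Y hY) hk Φe hGE hv

end stageW

end Vale.Agent.P073.H669.TLv
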