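import Vale.Agent.P073.H579.Sides

/-!
# P073, H579: thin patterns in a disc: defining functions of the arcs

A finite family of proper arcs in a disc `(C, B)`, any two of them meeting in at most one point,
not on the boundary, and crossing there. `exists_fns`: continuous functions with these arcs as zero
sets, negative at a base point of the boundary; crossing arcs have linked end points.
-/

open Set Metric Topology Filter

namespace P073.H579

open P073.TR P073.SCH P073.H339 P073.H341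

variable {E : Type*} [NormedAddCommGroup E] [NormedSpace ℝ E] {ι : Type*}

/-- the end points of an arc -/
theorem exists_ends' {S B : Set E} (h : ConBall 1 S (S ∩ B)) :
    ∃ p q, p ≠ q ∧ S ∩ B = {p, q} :=
  GB200.exists_pair_of_conSphere h.conSphere

/-- the arc `T` crosses the proper arc `S` of the disc `(C, B)` at `x` -/
def XAt (C B S T : Set E) (x : E) : Prop :=
  ∀ B₁ B₂ C₁ C₂ : Set E, Cut 1 C B S B₁ B₂ C₁ C₂ →
    x ∈ closure (T ∩ (C₁ \ S)) ∧ x ∈ closure (T ∩ (C₂ \ S))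

/-- a pattern of arcs in a disc -/
structure ArcPat {A : Type*} (C B : Set E) (S : A → Set E) (col : A → Bool) : Prop where
  hC : ConBall 2 C B
  hS : ∀ α, ConBall 1 (S α) (S α ∩ B)
  hSC : ∀ α, S α ⊆ C
  dis : ∀ α β, α ≠ β → col α = col β → Disjoint (S α) (S β)
  sub : ∀ α β, α ≠ β → (S α ∩ S β).Subsingleton
  off : ∀ α β, α ≠ β → Disjoint (S α ∩ S β) B
  cross : ∀ α β, α ≠ β → ∀ x ∈ S α ∩ S β, XAt C B (S α) (S β) x

/-- the defining function of an arc of a pattern -/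
structure IsFn {A : Type*} (C B : Set E) (S : A → Set E) (b₀ : E) (α : A) (f : E → ℝ) : Prop where
  cont : ContinuousOn f C
  zero : ∀ x ∈ C, (f x = 0 ↔ x ∈ S α)
  base : f b₀ < 0
  other : ∃ b ∈ B, 0 < f b
  neg_conn : IsPreconnected {x | x ∈ C ∧ f x < 0}
  pos_conn : IsPreconnected {x | x ∈ C ∧ 0 < f x}
  neg_bd : IsPreconnected {x | x ∈ B ∧ f x < 0}
  pos_bd : IsPreconnected {x | x ∈ B ∧ 0 < f x}
  cross : ∀ β, β ≠ α → (S α ∩ S β).Nonempty → ∀ p q, S β ∩ B = {p, q} →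
    (0 < f p ∧ f q < 0) ∨ (f p < 0 ∧ 0 < f q)

theorem ArcPat.exists_fn {A : Type*} {C B : Set E} {S : A → Set E} {col : A → Bool}
    (h : ArcPat C B S col) {b₀ : E} (hb : b₀ ∈ B) (α : A) (hb₀ : b₀ ∉ S α) :
    ∃ f : E → ℝ, IsFn C B S b₀ α f := by
  obtain ⟨B₁, B₂, C₁, C₂, hcut, hb₁⟩ : ∃ B₁ B₂ C₁ C₂, Cut 1 C B (S α) B₁ B₂ C₁ C₂ ∧ b₀ ∈ B₁ := by
    obtain ⟨B₁, B₂, C₁, C₂, hcut⟩ := cutP_one C B (S α) h.hC (h.hS α) (h.hSC α)
    have := hb
    rw [← hcut.hB] at this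
    rcases this with h1 | h1
    · exact ⟨B₁, B₂, C₁, C₂, hcut, h1⟩
    · exact ⟨B₂, B₁, C₂, C₁, hcut.symm, h1⟩
  obtain ⟨f, hf, h0, hneg, hpos⟩ := _root_.P073.H579.exists_fn hcut
  have hBC : B ⊆ C := h.hC.1
  have eneg : {x | x ∈ C ∧ f x < 0} = C₁ \ S α := by
    ext x
    constructor
    · rintro ⟨hx, hfx⟩
      exact (hneg x hx).1 hfx
    · intro hx
      have hxC := hcut.C₁_sub hx.1
      exact ⟨hxC, (hneg x hxC).2 hx⟩
  have epos : {x | x ∈ C ∧ 0 < f x} = C₂ \ S α := by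
    ext x
    constructor
    · rintro ⟨hx, hfx⟩
      exact (hpos x hx).1 hfx
    · intro hx
      have hxC := hcut.symm.C₁_sub hx.1
      exact ⟨hxC, (hpos x hxC).2 hx⟩
  have enegB : {x | x ∈ B ∧ f x < 0} = B₁ \ S α := by
    ext x
    constructor
    · rintro ⟨hx, hfx⟩
      have h1 := (hneg x (hBC hx)).1 hfx
      exact ⟨hcut.C₁_inter_B ▸ ⟨h1.1, hx⟩, h1.2⟩
    · rintro ⟨h1, h2⟩
      have hxB := hcut.B₁_subB h1
      exact ⟨hxB, (hneg x (hBC hxB)).2 ⟨hcut.B₁_sub h1, h2⟩⟩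
  have eposB : {x | x ∈ B ∧ 0 < f x} = B₂ \ S α := by
    ext x
    constructor
    · rintro ⟨hx, hfx⟩
      have h1 := (hpos x (hBC hx)).1 hfx
      exact ⟨hcut.symm.C₁_inter_B ▸ ⟨h1.1, hx⟩, h1.2⟩
    · rintro ⟨h1, h2⟩
      have hxB := hcut.symm.B₁_subB h1
      exact ⟨hxB, (hpos x (hBC hxB)).2 ⟨hcut.symm.B₁_sub h1, h2⟩⟩
  refine ⟨f, hf, h0, ?_, ?_, ?_, ?_, ?_, ?_, ?_⟩
  · exact (hneg b₀ (hBC hb)).2 ⟨hcut.B₁_sub hb₁, hb₀⟩
  · obtain ⟨x, hx⟩ := hcut.symm.neB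
    rw [← eposB] at hx
    exact ⟨x, hx⟩
  · rw [eneg]; exact hcut.preconn
  · rw [epos]; exact hcut.symm.preconn
  · rw [enegB]; exact hcut.preconnB
  · rw [eposB]; exact hcut.symm.preconnB
  · rintro β hβ ⟨x, hxα, hxβ⟩ p q hpq
    have hT : IsArc (S β) p q := by
      rw [isArc_iff_conBall, ← hpq]
      exact h.hS β
    have hxB : x ∉ B := fun hxB =>
      Set.disjoint_left.1 (h.off α β hβ.symm) ⟨hxα, hxβ⟩ hxB
    have hpB : p ∈ B := by
      have : p ∈ S β ∩ B := by rw [hpq]; exact Or.inl rfl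
      exact this.2
    have hqB : q ∈ B := by
      have : q ∈ S β ∩ B := by rw [hpq]; exact Or.inr rfl
      exact this.2
    obtain ⟨h1, h2⟩ := h.cross α β hβ.symm x ⟨hxα, hxβ⟩ B₁ B₂ C₁ C₂ hcut
    refine opp_ends hT hxβ (fun h' => hxB (h' ▸ hpB)) (fun h' => hxB (h' ▸ hqB))
      (hf.mono (h.hSC β)) (fun y hy hy0 => ?_) ?_ ?_
    · have hyα : y ∈ S α := (h0 y (h.hSC β hy)).1 hy0
      exact h.sub α β hβ.symm ⟨hyα, hy⟩ ⟨hxα, hxβ⟩
    · refine closure_mono ?_ h2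
      rintro y ⟨hyβ, hy⟩
      exact ⟨hyβ, (hpos y (h.hSC β hyβ)).2 hy⟩
    · refine closure_mono ?_ h1
      rintro y ⟨hyβ, hy⟩
      exact ⟨hyβ, (hneg y (h.hSC β hyβ)).2 hy⟩

/-- crossing from a local comparison with a function: if near `x` the arc `S` is the level
`{u = u x}` of a function regular at `x` on the disc `C = M i` and the arc `T` has near `x` points
on both sides of the level, then `T` crosses `S` at `x` -/
theorem xAt_of_box {C B S T : Set E} {u : E → ℝ} {M : ι → Set E} {x : E} {σ : ℝ →ₗ[ℝ] E} {r : ℝ}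
    (h : FlowBox u M x σ r) {i : ι} (hi : M i = C) (hx : x ∈ S) (hM : LocConeAt (M i) x)
    (hu : ConicalAt u x) (hc : ContinuousAt u x)
    (hnear : ∀ᶠ y in 𝓝 x, y ∈ C → (y ∈ S ↔ u y = u x)) (hTC : T ⊆ C)
    (h1 : x ∈ closure {y | y ∈ T ∧ u x < u y}) (h2 : x ∈ closure {y | y ∈ T ∧ u y < u x}) :
    XAt C B S T x := by
  intro B₁ B₂ C₁ C₂ hcut
  have key : ∀ {s t : Set E}, x ∈ closure s → (∀ᶠ y in 𝓝 x, y ∈ s → y ∈ t) → x ∈ closure t := by
    intro s t hs hev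
    rw [mem_closure_iff_nhds] at hs ⊢
    intro U hU
    obtain ⟨y, hy, hys⟩ := hs _ (Filter.inter_mem hU hev)
    exact ⟨y, hy.1, hy.2 hys⟩
  rcases sides_of_box hcut h hi hx hM hu hc hnear with h3 | h3
  · constructor
    · refine key h2 ?_
      filter_upwards [h3] with y hy hyT
      exact ⟨hyT.1, (hy (hTC hyT.1)).2 hyT.2⟩
    · refine key h1 ?_
      filter_upwards [h3] with y hy hyT
      exact ⟨hyT.1, (hy (hTC hyT.1)).1 hyT.2⟩
  · constructor
    · refine key h1 ?_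
      filter_upwards [h3] with y hy hyT
      exact ⟨hyT.1, (hy (hTC hyT.1)).1 hyT.2⟩
    · refine key h2 ?_
      filter_upwards [h3] with y hy hyT
      exact ⟨hyT.1, (hy (hTC hyT.1)).2 hyT.2⟩

end P073.H579
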