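import Vale.Agent.P073.SCH.Nest
import Vale.Agent.P073.TR.OneDim2
import Vale.Agent.P073.TR.DirMap
import Vale.Agent.P073.PR.Sphere
import Vale.Agent.P073.H339.Arcs2
import Vale.Agent.P073.H339.Glue2

/-!
# P073, H579: two families of curves in the plane, local facts

`CrossAt A B x`: near `x` the sets `A` and `B` are two different straight lines through `x`.
-/

open Set Metric Topology Filter

namespace P073.H579

open P073.TR P073.SCH P073.H339

/-- the plane -/
abbrev P : Type := ℝ × ℝ

/-- near `x` the set `A` is the line through `x` in direction `d` -/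
def LineAt (A : Set P) (x d : P) : Prop := ∀ᶠ y in 𝓝 x, (y ∈ A ↔ ∃ t : ℝ, y = x + t • d)

/-- near `x` the sets `A`, `B` are two different lines through `x` -/
def CrossAt (A B : Set P) (x : P) : Prop :=
  ∃ d e : P, ‖d‖ = 1 ∧ ‖e‖ = 1 ∧ e ≠ d ∧ e ≠ -d ∧ LineAt A x d ∧ LineAt B x e

theorem CrossAt.symm {A B : Set P} {x : P} (h : CrossAt A B x) : CrossAt B A x := by
  obtain ⟨d, e, hd, he, h1, h2, h3, h4⟩ := h
  exact ⟨e, d, he, hd, fun h => h1 h.symm, fun h => h2 (by rw [h, neg_neg]), h4, h3⟩

/-- two sets which have the same tangent cone -/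
theorem eventually_iff_of_dirs {E : Type*} [NormedAddCommGroup E] [NormedSpace ℝ E] {M N : Set E}
    {x : E} (hM : LocConeAt M x) (hN : LocConeAt N x) (hxM : x ∈ M) (hxN : x ∈ N)
    (hd : dirs M x = dirs N x) : ∀ᶠ y in 𝓝 x, (y ∈ M ↔ y ∈ N) := by
  obtain ⟨r, hr, H⟩ := hM.exists_tc
  obtain ⟨s, hs, K⟩ := hN.exists_tc
  filter_upwards [closedBall_mem_nhds x (lt_min hr hs)] with y hy
  have hn : ‖y - x‖ ≤ min r s := by rwa [mem_closedBall, dist_eq_norm] at hy
  have e1 := H (y - x) (hn.trans (min_le_left _ _))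
  have e2 := K (y - x) (hn.trans (min_le_right _ _))
  rw [add_sub_cancel] at e1 e2
  rw [e1, e2]
  by_cases h0 : y - x = 0
  · rw [h0]
    exact ⟨fun _ => zero_mem_tc hxN, fun _ => zero_mem_tc hxM⟩
  · have hpos := norm_pos_iff.2 h0
    constructor
    · intro h
      have h1 := normalize_mem_dirs h h0
      rw [hd] at h1
      exact (tc_smul_iff (inv_pos.2 hpos) _).1 h1.2
    · intro h
      have h1 := normalize_mem_dirs h h0
      rw [← hd] at h1
      exact (tc_smul_iff (inv_pos.2 hpos) _).1 h1.2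

theorem tendsto_add_smul' (x u : P) : Tendsto (fun t : ℝ => x + t • u) (𝓝[>] 0) (𝓝 x) :=
  DM.tendsto_add_smul x u

theorem eq_or_eq_neg_of_line {d u : P} (hd : ‖d‖ = 1) (hu : ‖u‖ = 1) {t : ℝ} (h : u = t • d) :
    u = d ∨ u = -d := by
  have h1 : |t| = 1 := by
    have := congrArg norm h
    rw [norm_smul, hd, hu, mul_one, Real.norm_eq_abs] at this
    exact this.symm
  rcases eq_or_eq_neg_of_abs_eq h1 with h2 | h2
  · left; rw [h, h2, one_smul]
  · right; rw [h, h2, neg_one_smul]

theorem LineAt.dirs_eq {A : Set P} {x d : P} (h : LineAt A x d) (hd : ‖d‖ = 1) :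
    dirs A x = {d, -d} := by
  apply Subset.antisymm
  · intro u hu
    obtain ⟨t, ht, h1, h2⟩ := eventually_unique
      ((DM.ev_of_mem_dirs hu).and ((tendsto_add_smul' x u).eventually h))
    obtain ⟨s, hs⟩ := h2.1 h1
    have h3 : u = (t⁻¹ * s) • d := by
      have : t • u = s • d := add_left_cancel hs
      rw [mul_smul, ← this, smul_smul, inv_mul_cancel₀ ht.ne', one_smul]
    rcases eq_or_eq_neg_of_line hd hu.1 h3 with h4 | h4
    · exact Or.inl h4
    · exact Or.inr h4
  · rintro u (rfl | hu)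
    · refine ⟨hd, ?_⟩
      filter_upwards [(tendsto_add_smul' x u).eventually h] with t ht
      exact ht.2 ⟨t, rfl⟩
    · rw [mem_singleton_iff] at hu
      subst hu
      refine ⟨by rw [norm_neg]; exact hd, ?_⟩
      filter_upwards [(tendsto_add_smul' x (-d)).eventually h] with t ht
      exact ht.2 ⟨-t, by rw [smul_neg, neg_smul]⟩

theorem LineAt.ncard {A : Set P} {x d : P} (h : LineAt A x d) (hd : ‖d‖ = 1) :
    (dirs A x).ncard = 2 := by
  rw [h.dirs_eq hd]
  apply ncard_pair
  intro h3
  have h4 : (2:ℝ) • d = 0 := by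
    rw [two_smul]
    nth_rewrite 2 [h3]
    exact add_neg_cancel d
  have h5 := (smul_eq_zero.1 h4).resolve_left two_ne_zero
  rw [h5, norm_zero] at hd
  exact zero_ne_one hd

/-- the linear functional vanishing on the line `ℝ e` -/
def det (e z : P) : ℝ := z.1 * e.2 - z.2 * e.1

theorem det_smul (e : P) (t : ℝ) : det e (t • e) = 0 := by
  simp only [det, Prod.smul_fst, Prod.smul_snd, smul_eq_mul]; ring

theorem exists_smul_of_det {e z : P} (he : e ≠ 0) (h : det e z = 0) : ∃ t : ℝ, z = t • e := by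
  simp only [det] at h
  by_cases h1 : e.1 = 0
  · have h2 : e.2 ≠ 0 := fun h2 => he (Prod.ext h1 h2)
    refine ⟨z.2 / e.2, Prod.ext ?_ ?_⟩
    · simp only [Prod.smul_fst, smul_eq_mul, h1, mul_zero]
      rw [h1, mul_zero, sub_zero] at h
      exact (mul_eq_zero.1 h).resolve_right h2
    · simp only [Prod.smul_snd, smul_eq_mul]
      field_simp
  · refine ⟨z.1 / e.1, Prod.ext ?_ ?_⟩
    · simp only [Prod.smul_fst, smul_eq_mul]
      field_simp
    · simp only [Prod.smul_snd, smul_eq_mul]
      field_simp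
      linarith

theorem continuous_det (e : P) : Continuous (det e) := by
  unfold det; fun_prop

theorem det_ne_zero {d e : P} (hd : ‖d‖ = 1) (he : ‖e‖ = 1) (h1 : d ≠ e) (h2 : d ≠ -e) :
    det e d ≠ 0 := by
  intro h
  have he0 : e ≠ 0 := by rintro rfl; rw [norm_zero] at he; exact zero_ne_one he
  obtain ⟨t, ht⟩ := exists_smul_of_det he0 h
  rcases eq_or_eq_neg_of_line he hd ht with h3 | h3
  · exact h1 h3
  · exact h2 h3

/-- **The two sides of a straight piece of the boundary of a disc.** -/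
theorem sides {D : Set P} (hD : AmbDisc D) {y e : P} (he : e ≠ 0) (hy : y ∈ frontier D)
    (hl : LineAt (frontier D) y e) {d : P} (hd : det e d ≠ 0) :
    ((∀ᶠ t in 𝓝[>] (0:ℝ), y + t • d ∈ interior D) ∧ (∀ᶠ t in 𝓝[>] (0:ℝ), y + t • (-d) ∉ D)) ∨
    ((∀ᶠ t in 𝓝[>] (0:ℝ), y + t • d ∉ D) ∧ (∀ᶠ t in 𝓝[>] (0:ℝ), y + t • (-d) ∈ interior D)) := by
  obtain ⟨r, hr, hb⟩ := Metric.mem_nhds_iff.1 hl
  -- the two half discs
  have hpre : ∀ c : ℝ, IsPreconnected {z | z ∈ ball y r ∧ 0 < c * det e (z - y)} := by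
    intro c
    apply Convex.isPreconnected
    intro a ha b hb' s t hs ht hst
    refine ⟨(convex_ball y r) ha.1 hb'.1 hs ht hst, ?_⟩
    have h1 : c * det e (s • a + t • b - y) = s * (c * det e (a - y)) + t * (c * det e (b - y)) := by
      have e1 : s • a + t • b - y = s • (a - y) + t • (b - y) := by
        have : y = s • y + t • y := by rw [← add_smul, hst, one_smul]
        nth_rewrite 1 [this]
        module
      rw [e1]
      simp only [det, Prod.fst_add, Prod.snd_add, Prod.smul_fst, Prod.smul_snd, smul_eq_mul]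
      ring
    rw [h1]
    rcases hs.eq_or_lt with h2 | h2
    · rw [← h2, zero_add] at hst
      rw [← h2, hst]
      have := hb'.2
      linarith
    · have := mul_pos h2 ha.2
      have := mul_nonneg ht hb'.2.le
      linarith
  have hdis : ∀ c : ℝ, Disjoint {z | z ∈ ball y r ∧ 0 < c * det e (z - y)} (frontier D) := by
    intro c
    rw [Set.disjoint_left]
    rintro z ⟨hz1, hz2⟩ hzf
    obtain ⟨t, ht⟩ := (hb hz1).1 hzf
    rw [ht, add_sub_cancel_left, det_smul, mul_zero] at hz2
    exact lt_irrefl _ hz2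
  have hside : ∀ c : ℝ, {z | z ∈ ball y r ∧ 0 < c * det e (z - y)} ⊆ interior D ∨
      {z | z ∈ ball y r ∧ 0 < c * det e (z - y)} ⊆ Dᶜ := by
    intro c
    rcases subset_interior_or_compl (hpre c) (hdis c) with h1 | h1
    · exact Or.inl h1
    · right
      rwa [hD.isClosed.closure_eq] at h1
  -- small points are in the half discs
  have hmem : ∀ (c : ℝ) (w : P), 0 < c * det e w →
      ∀ᶠ t in 𝓝[>] (0:ℝ), y + t • w ∈ {z | z ∈ ball y r ∧ 0 < c * det e (z - y)} := by
    intro c w hw
    filter_upwards [(tendsto_add_smul' y w).eventually (ball_mem_nhds y hr), self_mem_nhdsWithin]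
      with t h1 h2
    refine ⟨h1, ?_⟩
    have h3 : det e (y + t • w - y) = t * det e w := by
      rw [add_sub_cancel_left]
      simp only [det, Prod.smul_fst, Prod.smul_snd, smul_eq_mul]; ring
    rw [h3]
    have : c * (t * det e w) = t * (c * det e w) := by ring
    rw [this]
    exact mul_pos h2 hw
  -- both sides inside: impossible
  have hnot : ∀ c : ℝ, c ≠ 0 → {z | z ∈ ball y r ∧ 0 < c * det e (z - y)} ⊆ interior D →
      {z | z ∈ ball y r ∧ 0 < (-c) * det e (z - y)} ⊆ interior D → False := by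
    intro c hc h1 h2
    have h3 : ball y r ⊆ D := by
      intro z hz
      rcases lt_trichotomy 0 (c * det e (z - y)) with h4 | h4 | h4
      · exact interior_subset (h1 ⟨hz, h4⟩)
      · have h5 : det e (z - y) = 0 := by
          rcases mul_eq_zero.1 h4.symm with h5 | h5
          · exact absurd h5 hc
          · exact h5
        obtain ⟨t, ht⟩ := exists_smul_of_det he h5
        apply hD.isClosed.frontier_subset
        exact (hb hz).2 ⟨t, by rw [← ht, add_sub_cancel]⟩
      · exact interior_subset (h2 ⟨hz, by linarith⟩)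
    exact hy.2 (interior_maximal h3 isOpen_ball (mem_ball_self hr))
  have hnot2 : ∀ c : ℝ, c ≠ 0 → {z | z ∈ ball y r ∧ 0 < c * det e (z - y)} ⊆ Dᶜ →
      {z | z ∈ ball y r ∧ 0 < (-c) * det e (z - y)} ⊆ Dᶜ → False := by
    intro c hc h1 h2
    have h3 : y ∈ closure (interior D) := by
      rw [hD.closure_interior]
      exact hD.isClosed.frontier_subset hy
    obtain ⟨z, hz1, hz2⟩ := mem_closure_iff.1 h3 (ball y r) isOpen_ball (mem_ball_self hr)
    rcases lt_trichotomy 0 (c * det e (z - y)) with h4 | h4 | h4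
    · exact h1 ⟨hz1, h4⟩ (interior_subset hz2)
    · have h5 : det e (z - y) = 0 := by
        rcases mul_eq_zero.1 h4.symm with h5 | h5
        · exact absurd h5 hc
        · exact h5
      obtain ⟨t, ht⟩ := exists_smul_of_det he h5
      have h6 : z ∈ frontier D := (hb hz1).2 ⟨t, by rw [← ht, add_sub_cancel]⟩
      exact h6.2 hz2
    · exact h2 ⟨hz1, by linarith⟩ (interior_subset hz2)
  have hdetneg : det e (-d) = - det e d := by
    simp only [det, Prod.fst_neg, Prod.snd_neg]; ring
  set c := det e d with hc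
  have hcc : 0 < c * det e d := by rw [← hc]; exact mul_self_pos.2 hd
  have hcc' : 0 < (-c) * det e (-d) := by rw [hdetneg]; nlinarith [mul_self_pos.2 hd]
  rcases hside c with h1 | h1
  · rcases hside (-c) with h2 | h2
    · exact (hnot c hd h1 h2).elim
    · left
      exact ⟨(hmem c d hcc).mono fun t ht => h1 ht, (hmem (-c) (-d) hcc').mono fun t ht => h2 ht⟩
  · rcases hside (-c) with h2 | h2
    · right
      exact ⟨(hmem c d hcc).mono fun t ht => h1 ht, (hmem (-c) (-d) hcc').mono fun t ht => h2 ht⟩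
    · exact (hnot2 c hd h1 h2).elim

/-- discs in discs -/
theorem AmbDisc.mono {D D' : Set P} (hD : AmbDisc D) (hD' : AmbDisc D') (h : frontier D' ⊆ D) :
    D' ⊆ D := by
  have hdis : Disjoint Dᶜ (frontier D') := disjoint_compl_left_iff_subset.2 h
  rcases subset_interior_or_compl hD.isPreconnected_compl hdis with h1 | h1
  · exact absurd (hD'.isCompact.isBounded.subset (h1.trans interior_subset))
      (not_isBounded_compl hD.isCompact.isBounded)
  · rwa [hD'.isClosed.closure_eq, compl_subset_compl] at h1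

theorem AmbDisc.frontier_inter {D D' : Set P} (hD' : AmbDisc D') (h : D' ⊆ D) :
    frontier D ∩ D' ⊆ frontier D' := by
  rintro x ⟨h1, h2⟩
  rw [hD'.isClosed.frontier_eq]
  exact ⟨h2, fun h3 => h1.2 (interior_mono h h3)⟩

/-- a disc whose boundary is in a closed convex set is in this set -/
theorem AmbDisc.subset_of_convex {D C : Set P} (hD : AmbDisc D) (hC : Convex ℝ C)
    (hCc : IsClosed C) (h : frontier D ⊆ C) : D ⊆ C := by
  intro x hx
  by_contra hxC
  obtain ⟨f, u, hf1, hf2⟩ := geometric_hahn_banach_closed_point hC hCc hxC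
  obtain ⟨y, hy, hmax⟩ := hD.isCompact.exists_isMaxOn ⟨x, hx⟩ f.continuous.continuousOn
  have h1 : u < f y := hf2.trans_le (hmax hx)
  have h2 : y ∉ frontier D := fun h3 => absurd (hf1 y (h h3)) (not_lt.2 h1.le)
  have h3 : y ∈ interior D := by
    by_contra h4
    exact h2 ⟨subset_closure hy, h4⟩
  -- the functional is not constant near `y`
  have hne : ∃ v : P, 0 < f v := by
    obtain ⟨z, hz⟩ : D.Nonempty := ⟨x, hx⟩
    obtain ⟨w, hw⟩ := AmbDisc.frontier_nonempty hD
    have h5 := hf1 w (h hw)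
    refine ⟨x - w, ?_⟩
    rw [map_sub]; linarith
  obtain ⟨v, hv⟩ := hne
  have h4 : ∀ᶠ t in 𝓝[>] (0:ℝ), y + t • v ∈ interior D :=
    (tendsto_add_smul' y v).eventually (isOpen_interior.mem_nhds h3)
  obtain ⟨t, ht, h5⟩ := eventually_unique h4
  have h6 : f (y + t • v) ≤ f y := hmax (interior_subset h5)
  rw [map_add, map_smul, smul_eq_mul] at h6
  nlinarith

end P073.H579
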