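import Vale.Agent.P073.H579.Web1

/-!
# P073, H579: webs (two crossing families of curves in a convex planar set)
-/

open Set Metric Topology Filter

namespace P073.H579

open P073.TR P073.SCH P073.H339

/-- two families of curves in the convex planar set `C`: `A false` is the union of the curves of
the first family, `A true` the union of the curves of the second family -/
structure Web (C : Set P) (A : Bool → Set P) : Prop where
  convex : Convex ℝ C
  closed : IsClosed C
  sub : ∀ i, A i ⊆ C
  curve : ∀ i, Curve (A i)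
  bdry : ∀ i, ∀ x ∈ A i, (x ∈ frontier C ↔ (dirs (A i) x).ncard = 1)
  cross : ∀ x ∈ A false, x ∈ A true → CrossAt (A false) (A true) x

theorem eventually_notMem_of_notMem_closure {S : Set P} {y : P} (h : y ∉ closure S) :
    ∀ᶠ z in 𝓝 y, z ∉ S := by
  filter_upwards [isClosed_closure.isOpen_compl.mem_nhds h] with z hz h2
  exact hz (subset_closure h2)

theorem notMem_closure_of_eventually {S : Set P} {y : P} (h : ∀ᶠ z in 𝓝 y, z ∉ S) :
    y ∉ closure S := by
  intro h2
  obtain ⟨z, hz1, hz2⟩ := mem_closure_iff_nhds.1 h2 _ h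
  exact hz1 hz2

theorem near_eq {M σ : Set P} (hM : Curve M) (hσ : IsCircle σ) {x : P} (hx : x ∈ σ)
    (hsub : ∀ᶠ y in 𝓝 x, y ∈ σ → y ∈ M) : ∀ᶠ y in 𝓝 x, (y ∈ M ↔ y ∈ σ) := by
  have hxM : x ∈ M := hsub.self_of_nhds hx
  have h1 : dirs σ x ⊆ dirs M x := by
    intro u hu
    refine ⟨hu.1, ?_⟩
    filter_upwards [DM.ev_of_mem_dirs hu, (tendsto_add_smul' x u).eventually hsub] with t h1 h2
    exact h2 h1
  have h2 : (dirs σ x).encard = 2 := IsCircle.encard_dirs hσ hx
  have h3 : (dirs σ x).ncard = 2 := by rw [ncard_def, h2]; rfl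
  have hfin := hM.oneDim.fin x hxM
  have h4 : dirs σ x = dirs M x := by
    apply eq_of_subset_of_ncard_le h1 _ hfin
    rw [h3]
    rcases hM.card x hxM with h | h <;> omega
  have := eventually_iff_of_dirs (hM.cone x hxM) (IsCircle.locCone hσ x) hxM hx h4.symm
  exact this

/-- a circle in a curve is open in it -/
theorem near_eq_of_subset {M σ : Set P} (hM : Curve M) (hσ : IsCircle σ) (h : σ ⊆ M) {x : P}
    (hx : x ∈ σ) : ∀ᶠ y in 𝓝 x, (y ∈ M ↔ y ∈ σ) :=
  near_eq hM hσ hx (Eventually.of_forall fun _ hy => h hy)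

namespace Web

variable {C : Set P} {A : Bool → Set P}

theorem cross' (h : Web C A) (i : Bool) {x : P} (h1 : x ∈ A i) (h2 : x ∈ A (!i)) :
    CrossAt (A i) (A (!i)) x := by
  cases i
  · exact h.cross x h1 h2
  · exact (h.cross x h2 h1).symm

theorem isClosed (h : Web C A) (i : Bool) : IsClosed (A i) := (h.curve i).compact.isClosed

theorem isolated (h : Web C A) {x : P} (h1 : x ∈ A false) (h2 : x ∈ A true) :
    ∀ᶠ y in 𝓝 x, y ∈ A false ∩ A true → y = x := by
  obtain ⟨d, e, hd, he, hne, hne', l1, l2⟩ := h.cross x h1 h2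
  filter_upwards [l1, l2] with y hy1 hy2 hy
  obtain ⟨t, ht⟩ := hy1.1 hy.1
  obtain ⟨s, hs⟩ := hy2.1 hy.2
  by_cases h0 : s = 0
  · rw [hs, h0, zero_smul, add_zero]
  · exfalso
    have h3 : s • e = t • d := add_left_cancel (hs.symm.trans ht)
    have h4 : e = (s⁻¹ * t) • d := by
      rw [mul_smul, ← h3, smul_smul, inv_mul_cancel₀ h0, one_smul]
    rcases eq_or_eq_neg_of_line hd he h4 with h5 | h5
    · exact hne h5
    · exact hne' h5

theorem finite_cross (h : Web C A) : (A false ∩ A true).Finite := by
  have hc : IsCompact (A false ∩ A true) := (h.curve false).compact.inter_right (h.isClosed true)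
  have key : ((A false ∩ A true) ∩ (A false ∩ A true)).Finite := by
    refine hc.induction_on (p := fun S => ((A false ∩ A true) ∩ S).Finite) (by simp) ?_ ?_ ?_
    · intro S T hST hT
      exact hT.subset (inter_subset_inter_right _ hST)
    · intro S T hS hT
      rw [inter_union_distrib_left]
      exact hS.union hT
    · intro x hx
      refine ⟨{y | y ∈ A false ∩ A true → y = x},
        mem_nhdsWithin_of_mem_nhds (h.isolated hx.1 hx.2), ?_⟩
      refine (finite_singleton x).subset ?_
      rintro y ⟨hy, hy2⟩
      exact hy2 hy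
  rwa [inter_self] at key

theorem mem_pair (_h : Web C A) (i : Bool) {x : P} (h1 : x ∈ A i) (h2 : x ∈ A (!i)) :
    x ∈ A false ∩ A true := by
  cases i
  · exact ⟨h1, h2⟩
  · exact ⟨h2, h1⟩

/-- at a crossing point the points are interior -/
theorem notMem_frontier (h : Web C A) (i : Bool) {x : P} (h1 : x ∈ A i) (h2 : x ∈ A (!i)) :
    x ∉ frontier C := by
  obtain ⟨d, e, hd, he, hne, hne', l1, l2⟩ := h.cross' i h1 h2
  intro hx
  have := (h.bdry i x h1).1 hx
  rw [l1.ncard hd] at this
  omega

variable {D : Set P}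

/-- **the traces of the curves in a disc bounded by curves** -/
theorem curve_in (h : Web C A) (i : Bool) (hD : AmbDisc D)
    (hf : frontier D ⊆ A false ∪ A true) (hDC : D ⊆ C) :
    Curve (closure (A i ∩ interior D)) ∧
    (∀ x ∈ closure (A i ∩ interior D), x ∈ frontier D → x ∈ A (!i) ∧
      (dirs (closure (A i ∩ interior D)) x).ncard = 1 ∧
      ¬ ∀ᶠ y in 𝓝 x, y ∈ frontier D → y ∈ A i) ∧
    (∀ x ∈ closure (A i ∩ interior D), x ∈ interior D →
      (dirs (closure (A i ∩ interior D)) x).ncard = 2) := by
  set S := A i ∩ interior D with hS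
  have hAcl := h.isClosed i
  have hsubA : closure S ⊆ A i := closure_minimal inter_subset_left hAcl
  have hf' : ∀ y ∈ frontier D, y ∈ A i ∨ y ∈ A (!i) := by
    intro y hy
    rcases hf hy with h1 | h1
    · cases i
      · exact Or.inl h1
      · exact Or.inr h1
    · cases i
      · exact Or.inr h1
      · exact Or.inl h1
  have hcomp : IsCompact (closure S) := (h.curve i).compact.of_isClosed_subset isClosed_closure hsubA
  have hconeS : ∀ x ∈ closure S, LocConeAt S x := fun x hx =>
    ((h.curve i).cone x (hsubA hx)).inter (hD.locCone.interior x)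
  have hcone : ∀ x ∈ closure S, LocConeAt (closure S) x := fun x hx => (hconeS x hx).closure
  have hσ := hD.frontier_isCircle
  -- near `x` the boundary is not contained in `A i`
  have c0 : ∀ x ∈ closure S, x ∈ frontier D → ¬ ∀ᶠ y in 𝓝 x, y ∈ frontier D → y ∈ A i := by
    intro x hx hxf hev
    have h1 := near_eq (h.curve i) hσ hxf hev
    apply notMem_closure_of_eventually _ hx
    filter_upwards [h1] with z hz hzS
    exact (hz.1 hzS.1).2 hzS.2
  have c1 : ∀ x ∈ closure S, x ∈ frontier D → x ∈ A (!i) := by
    intro x hx hxf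
    by_contra hxn
    apply c0 x hx hxf
    filter_upwards [(h.isClosed (!i)).isOpen_compl.mem_nhds hxn] with y hy hyf
    exact (hf' y hyf).resolve_right hy
  -- interior points
  have c2 : ∀ x ∈ closure S, x ∈ interior D → dirs (closure S) x = dirs (A i) x := by
    intro x hx hxi
    apply DM.dirs_congr
    filter_upwards [isOpen_interior.mem_nhds hxi] with y hy
    exact ⟨fun h1 => hsubA h1, fun h1 => subset_closure ⟨h1, hy⟩⟩
  have hsplit : ∀ x ∈ closure S, x ∈ interior D ∨ x ∈ frontier D := by
    intro x hx
    have h1 : x ∈ closure D := closure_mono (inter_subset_right.trans interior_subset) hx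
    by_cases h2 : x ∈ interior D
    · exact Or.inl h2
    · exact Or.inr ⟨h1, h2⟩
  have c2' : ∀ x ∈ closure S, x ∈ interior D → (dirs (closure S) x).ncard = 2 := by
    intro x hx hxi
    rw [c2 x hx hxi]
    rcases (h.curve i).card x (hsubA hx) with h1 | h1
    · exfalso
      have h2 := (h.bdry i x (hsubA hx)).2 h1
      exact h2.2 (interior_mono hDC hxi)
    · exact h1
  -- boundary points
  have c3 : ∀ x ∈ closure S, x ∈ frontier D → (dirs (closure S) x).ncard = 1 := by
    intro x hx hxf
    have hxA := hsubA hx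
    have hxB := c1 x hx hxf
    obtain ⟨d, e, hd, he, hne, hne', l1, l2⟩ := h.cross' i hxA hxB
    have hsub : dirs (closure S) x ⊆ {d, -d} := by
      rw [← l1.dirs_eq hd]
      exact DM.dirs_mono hsubA x
    have hd0 : d ≠ -d := by
      intro h3
      have h4 : (2:ℝ) • d = 0 := by
        rw [two_smul]
        nth_rewrite 2 [h3]
        exact add_neg_cancel d
      have h5 := (smul_eq_zero.1 h4).resolve_left two_ne_zero
      rw [h5, norm_zero] at hd
      exact zero_ne_one hd
    -- nonempty
    have hnon : (dirs (closure S) x).Nonempty := by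
      obtain ⟨r, hr, H⟩ := hconeS x hx
      obtain ⟨z, hz1, hz2⟩ := mem_closure_iff_nhds.1 hx _ (closedBall_mem_nhds x hr)
      have hzx : z - x ≠ 0 := by
        intro h0
        rw [sub_eq_zero] at h0
        rw [h0] at hz2
        exact hxf.2 hz2.2
      have hn : ‖z - x‖ ≤ r := by rwa [mem_closedBall, dist_eq_norm] at hz1
      have h1 : z - x ∈ tc S x := by
        rw [mem_tc_iff H one_pos (by rwa [one_smul]), one_smul, add_sub_cancel]
        exact hz2
      exact ⟨_, DM.dirs_mono subset_closure x (normalize_mem_dirs h1 hzx)⟩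
    -- not both
    have hnb : ¬ (d ∈ dirs (closure S) x ∧ -d ∈ dirs (closure S) x) := by
      rintro ⟨k1, k2⟩
      have hinS : ∀ u : P, u ∈ dirs (closure S) x → ∀ᶠ t in 𝓝[>] (0:ℝ), x + t • u ∈ interior D := by
        intro u hu
        have hu0 := ne_zero_of_mem_dirs hu
        have hiso := h.isolated (h.mem_pair i hxA hxB).1 (h.mem_pair i hxA hxB).2
        filter_upwards [DM.ev_of_mem_dirs hu, (tendsto_add_smul' x u).eventually hiso,
          self_mem_nhdsWithin] with t h1 h2 h3
        rcases hsplit _ h1 with h4 | h4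
        · exact h4
        · exfalso
          have h5 := h2 (h.mem_pair i (hsubA h1) (c1 _ h1 h4))
          have h6 : t • u = 0 := by
            have := h5
            rwa [add_eq_left] at this
          rcases smul_eq_zero.1 h6 with h7 | h7
          · exact (ne_of_gt h3) h7
          · exact hu0 h7
      have i1 := hinS d k1
      have i2 := hinS (-d) k2
      have hσe : (dirs (frontier D) x).encard = 2 := IsCircle.encard_dirs hσ hxf
      have hσn : (dirs (frontier D) x).ncard = 2 := by rw [ncard_def, hσe]; rfl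
      have hσsub : dirs (frontier D) x ⊆ {e, -e} := by
        intro u hu
        have h1 : u ∈ dirs (A i ∪ A (!i)) x :=
          DM.dirs_mono (fun y hy => hf' y hy) x hu
        rw [DM.dirs_union (LocConeAt.conicalSetAt ((h.curve i).cone x hxA) hxA), l1.dirs_eq hd,
          l2.dirs_eq he] at h1
        rcases h1 with h1 | h1
        · exfalso
          have hno : ∀ᶠ t in 𝓝[>] (0:ℝ), x + t • u ∈ interior D := by
            rcases h1 with rfl | h1
            · exact i1
            · rw [mem_singleton_iff] at h1; rw [h1]; exact i2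
          obtain ⟨t, _, h3, h4⟩ := eventually_unique ((DM.ev_of_mem_dirs hu).and hno)
          exact h3.2 h4
        · exact h1
      have hσeq : dirs (frontier D) x = dirs (A (!i)) x := by
        rw [l2.dirs_eq he]
        apply eq_of_subset_of_ncard_le hσsub
        rw [hσn]
        exact (ncard_insert_le _ _).trans (by rw [ncard_singleton])
      have hnear := eventually_iff_of_dirs (hD.locCone.frontier x)
        ((h.curve (!i)).cone x hxB) hxf hxB hσeq
      have hline : LineAt (frontier D) x e := by
        filter_upwards [hnear, l2] with y h1 h2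
        rw [h1, h2]
      have he0 : e ≠ 0 := by rintro rfl; rw [norm_zero] at he; exact zero_ne_one he
      have hdet : det e d ≠ 0 := det_ne_zero hd he hne.symm (fun h6 => hne' (by rw [h6, neg_neg]))
      rcases sides hD he0 hxf hline hdet with ⟨_, h2⟩ | ⟨h2, _⟩
      · obtain ⟨t, _, h3, h4⟩ := eventually_unique (h2.and i2)
        exact h3 (interior_subset h4)
      · obtain ⟨t, _, h3, h4⟩ := eventually_unique (h2.and i1)
        exact h3 (interior_subset h4)
    obtain ⟨u, hu⟩ := hnon
    rw [ncard_eq_one]
    refine ⟨u, Subset.antisymm ?_ (singleton_subset_iff.2 hu)⟩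
    intro w hw
    rw [mem_singleton_iff]
    rcases hsub hu with hu' | hu'
    · rcases hsub hw with hw' | hw'
      · rw [hw', hu']
      · exfalso
        rw [mem_singleton_iff] at hw'
        exact hnb ⟨hu' ▸ hu, hw' ▸ hw⟩
    · rw [mem_singleton_iff] at hu'
      rcases hsub hw with hw' | hw'
      · exfalso
        exact hnb ⟨hw' ▸ hw, hu' ▸ hu⟩
      · rw [mem_singleton_iff] at hw'
        rw [hw', hu']
  refine ⟨⟨hcomp, hcone, fun x hx => ?_⟩, fun x hx hxf => ⟨c1 x hx hxf, c3 x hx hxf,
    c0 x hx hxf⟩, c2'⟩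
  rcases hsplit x hx with h1 | h1
  · exact Or.inr (c2' x hx h1)
  · exact Or.inl (c3 x hx h1)

end Web

end P073.H579
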