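import Vale.Agent.P073.H579.Web2

/-!
# P073, H579: the reduction step for discs bounded by curves of a web
-/

open Set Metric Topology Filter

namespace P073.H579

open P073.TR P073.SCH P073.H339

/-- sub-arcs -/
theorem IsArc.exists_sub {E : Type*} [NormedAddCommGroup E] [NormedSpace ℝ E] {b : Set E}
    {p q r s : E} (h : IsArc b p q) (hr : r ∈ b) (hs : s ∈ b) (hrs : r ≠ s) :
    ∃ τ ⊆ b, IsArc τ r s ∧ (p ∈ τ → p = r ∨ p = s) ∧ (q ∈ τ → q = r ∨ q = s) := by
  obtain ⟨φ, h0, h1⟩ := h
  obtain ⟨t, ht, rfl⟩ : r ∈ φ.toFun '' Icc 0 1 := by rw [φ.image_eq]; exact hr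
  obtain ⟨u, hu, rfl⟩ : s ∈ φ.toFun '' Icc 0 1 := by rw [φ.image_eq]; exact hs
  have hne : t ≠ u := fun h => hrs (by rw [h])
  have key : ∀ {t u : ℝ}, t ∈ Icc (0:ℝ) 1 → u ∈ Icc (0:ℝ) 1 → t < u →
      ∃ τ ⊆ b, IsArc τ (φ.toFun t) (φ.toFun u) ∧ (p ∈ τ → p = φ.toFun t ∨ p = φ.toFun u) ∧
        (q ∈ τ → q = φ.toFun t ∨ q = φ.toFun u) := by
    intro t u ht hu htu
    have s1 : Icc t u ⊆ Icc (0:ℝ) 1 := Icc_subset_Icc ht.1 hu.2
    refine ⟨φ.toFun '' Icc t u, ?_, IsArc.of_param htu
      (φ.restr (Convex.conicalSet (convex_Icc _ _)) s1) rfl rfl, ?_, ?_⟩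
    · rintro _ ⟨x, hx, rfl⟩
      exact φ.mapsTo (s1 hx)
    · rintro ⟨x, hx, hxp⟩
      left
      have : x = 0 := φ.injOn (s1 hx) ⟨le_refl _, zero_le_one⟩ (by rw [hxp, h0])
      have h2 : t = 0 := le_antisymm (by rw [← this]; exact hx.1) ht.1
      rw [h2, h0]
    · rintro ⟨x, hx, hxq⟩
      right
      have : x = 1 := φ.injOn (s1 hx) ⟨zero_le_one, le_refl _⟩ (by rw [hxq, h1])
      have h2 : u = 1 := le_antisymm hu.2 (by rw [← this]; exact hx.2)
      rw [h2, h1]
  rcases lt_or_gt_of_ne hne with h | h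
  · exact key ht hu h
  · obtain ⟨τ, h1, h2, h3, h4⟩ := key hu ht h
    exact ⟨τ, h1, h2.symm, fun h => (h3 h).symm, fun h => (h4 h).symm⟩

/-- a circle made of an arc of the family `i` and an arc of the other family -/
def Bigon (A : Bool → Set P) (i : Bool) (σ : Set P) : Prop :=
  ∃ a b p q, IsArc a p q ∧ IsArc b p q ∧ a ⊆ A i ∧ b ⊆ A (!i) ∧ a ∩ b ⊆ {p, q} ∧ σ = a ∪ b

theorem Bigon.flip {A : Bool → Set P} {i : Bool} {σ : Set P} (h : Bigon A i σ) :
    Bigon A (!i) σ := by
  obtain ⟨a, b, p, q, h1, h2, h3, h4, h5, h6⟩ := h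
  exact ⟨b, a, p, q, h2, h1, h4, by rwa [Bool.not_not], by rwa [inter_comm], by rwa [union_comm]⟩

theorem Bigon.all {A : Bool → Set P} {i : Bool} {σ : Set P} (h : Bigon A i σ) (j : Bool) :
    Bigon A j σ := by
  by_cases hij : j = i
  · rw [hij]; exact h
  · have : j = !i := by cases i <;> cases j <;> simp_all
    rw [this]; exact h.flip

/-- admissible discs: bounded by a curve of one family or by two arcs -/
def Adm (A : Bool → Set P) (D : Set P) : Prop :=
  P073.AmbDisc D ∧ ((∃ i, frontier D ⊆ A i) ∨ Bigon A false (frontier D))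

/-- the components of the two families -/
structure Comps (A : Bool → Set P) {J : Bool → Type} (K : ∀ i, J i → Set P) : Prop where
  union : ∀ i, ⋃ j, K i j = A i
  dis : ∀ i j j', j ≠ j' → Disjoint (K i j) (K i j')
  closed : ∀ i j, IsClosed (K i j)
  conn : ∀ i j, IsPreconnected (K i j)

theorem Web.exists_comps {C : Set P} {A : Bool → Set P} (h : Web C A) :
    ∃ (J : Bool → Type) (_ : ∀ i, Finite (J i)) (K : ∀ i, J i → Set P), Comps A K := by
  have h1 := fun i => (h.curve i).exists_components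
  choose J hJ K hU hd hK using h1
  refine ⟨J, hJ, K, hU, hd, fun i j => ?_, fun i j => ?_⟩
  · rcases hK i j with ⟨h2, -⟩ | ⟨u, v, h2, -⟩
    · exact (IsCircle.isCompact (conSphere_iff.1 h2)).isClosed
    · exact (isArc_iff_conBall.2 h2).isClosed
  · rcases hK i j with ⟨h2, -⟩ | ⟨u, v, h2, -⟩
    · obtain ⟨D, hD, hf⟩ := schoenflies (conSphere_iff.1 h2)
      rw [← hf]
      exact AmbDisc.isPreconnected_frontier hD
    · exact ConBall.isPreconnected h2

/-- the measure of a disc -/
noncomputable def meas (A : Bool → Set P) {J : Bool → Type} (K : ∀ i, J i → Set P) (D : Set P) : ℕ :=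
  (A false ∩ A true ∩ D).ncard + ({j | K false j ⊆ D}.ncard + {j | K true j ⊆ D}.ncard)

section

variable {C : Set P} {A : Bool → Set P} {J : Bool → Type} [∀ i, Finite (J i)]
  {K : ∀ i, J i → Set P}

theorem circle_comp (h : Web C A) (hK : Comps A K) {i : Bool} {κ : Set P} (hκ : IsCircle κ)
    (hs : κ ⊆ A i) : ∃ j, K i j = κ := by
  have hpre : IsPreconnected κ := by
    obtain ⟨D, hD, hf⟩ := schoenflies hκ
    rw [← hf]
    exact AmbDisc.isPreconnected_frontier hD
  have hne : κ.Nonempty := by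
    obtain ⟨D, hD, hf⟩ := schoenflies hκ
    rw [← hf]
    exact AmbDisc.frontier_nonempty hD
  obtain ⟨x, hx⟩ := hne
  obtain ⟨j, hj⟩ := mem_iUnion.1 ((hK.union i).symm ▸ hs hx : x ∈ ⋃ j, K i j)
  refine ⟨j, Subset.antisymm ?_ ?_⟩
  · have hdis : ∀ y ∈ K i j, y ∈ κ → y ∉ closure (A i \ κ) := by
      intro y _ hy
      apply notMem_closure_of_eventually
      filter_upwards [near_eq_of_subset (h.curve i) hκ hs hy] with z hz hz2
      exact hz2.2 (hz.1 hz2.1)
    have hsub : K i j ⊆ κ ∪ closure (A i \ κ) := by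
      intro y hy
      have hyA : y ∈ A i := hK.union i ▸ mem_iUnion.2 ⟨j, hy⟩
      by_cases h1 : y ∈ κ
      · exact Or.inl h1
      · exact Or.inr (subset_closure ⟨hyA, h1⟩)
    rcases IsPreconnected.subset_or (hK.conn i j) (IsCircle.isCompact hκ).isClosed
      isClosed_closure hsub hdis with h1 | h1
    · exact h1
    · exact absurd (h1 hj) (hdis x hj hx)
  · exact IsPreconnected.subset_of_finite hpre (K i) (hK.closed i)
      (by rw [hK.union i]; exact hs) (hK.dis i) hx hj

theorem meas_lt_of_cross (h : Web C A) {D D' : Set P} (hs : D' ⊆ D) {p : P}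
    (hp : p ∈ A false ∩ A true) (hpD : p ∈ D) (hpD' : p ∉ D') : meas A K D' < meas A K D := by
  have h1 : (A false ∩ A true ∩ D').ncard < (A false ∩ A true ∩ D).ncard := by
    apply ncard_lt_ncard _ (h.finite_cross.subset inter_subset_left)
    refine ⟨inter_subset_inter_right _ hs, fun h2 => hpD' (h2 ⟨hp, hpD⟩).2⟩
  have h2 : ∀ i, {j | K i j ⊆ D'}.ncard ≤ {j | K i j ⊆ D}.ncard := fun i =>
    ncard_le_ncard (fun j hj => Subset.trans hj hs) (toFinite _)
  have := h2 false
  have := h2 true
  unfold meas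
  omega

theorem meas_lt_of_circle (h : Web C A) (hK : Comps A K) {D D' : Set P} (hs : D' ⊆ D) {i : Bool}
    {κ : Set P} (hκ : IsCircle κ) (hκA : κ ⊆ A i) (hκD : κ ⊆ D) (hκD' : ¬ κ ⊆ D') :
    meas A K D' < meas A K D := by
  obtain ⟨j, hj⟩ := circle_comp h hK hκ hκA
  have h1 : (A false ∩ A true ∩ D').ncard ≤ (A false ∩ A true ∩ D).ncard :=
    ncard_le_ncard (inter_subset_inter_right _ hs) (h.finite_cross.subset inter_subset_left)
  have h2 : ∀ i, {j | K i j ⊆ D'}.ncard ≤ {j | K i j ⊆ D}.ncard := fun i =>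
    ncard_le_ncard (fun j hj => Subset.trans hj hs) (toFinite _)
  have h3 : {j | K i j ⊆ D'}.ncard < {j | K i j ⊆ D}.ncard := by
    apply ncard_lt_ncard _ (toFinite _)
    refine ⟨fun j hj => Subset.trans hj hs, fun h4 => hκD' ?_⟩
    have : K i j ⊆ D' := h4 (show K i j ⊆ D by rw [hj]; exact hκD)
    rwa [hj] at this
  have := h2 false
  have := h2 true
  unfold meas
  cases i <;> omega

theorem Adm.frontier_sub {D : Set P} (hD : Adm A D) : frontier D ⊆ A false ∪ A true := by
  rcases hD.2 with ⟨i, h1⟩ | ⟨a, b, p, q, -, -, h3, h4, -, h6⟩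
  · cases i
    · exact h1.trans subset_union_left
    · exact h1.trans subset_union_right
  · rw [h6]
    exact union_subset_union h3 h4

theorem Adm.sub (h : Web C A) {D : Set P} (hD : Adm A D) : D ⊆ C :=
  AmbDisc.subset_of_convex hD.1 h.convex h.closed
    (hD.frontier_sub.trans (union_subset (h.sub false) (h.sub true)))

/-- strict decrease when the new disc does not meet the old boundary -/
theorem meas_lt_of_interior (h : Web C A) (hK : Comps A K) {D D' : Set P} (hD : Adm A D)
    (hs : D' ⊆ D) (hdis : ∀ x ∈ frontier D, x ∉ D') : meas A K D' < meas A K D := by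
  have hfs := hD.1.isClosed.frontier_subset
  rcases hD.2 with ⟨i, h1⟩ | ⟨a, b, p, q, h1, h2, h3, h4, -, h6⟩
  · obtain ⟨x, hx⟩ := AmbDisc.frontier_nonempty hD.1
    exact meas_lt_of_circle h hK hs hD.1.frontier_isCircle h1 hfs
      (fun h2 => hdis x hx (h2 hx))
  · have hp : p ∈ frontier D := by rw [h6]; exact Or.inl h1.left_mem
    exact meas_lt_of_cross h hs ⟨h3 h1.left_mem, h4 h2.left_mem⟩ (hfs hp) (hdis p hp)

/-- **The reduction step.** -/
theorem step (h : Web C A) (hK : Comps A K) {D : Set P} (hD : Adm A D) {i : Bool}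
    (hne : (A i ∩ interior D).Nonempty) :
    ∃ D', Adm A D' ∧ D' ⊆ D ∧ meas A K D' < meas A K D := by
  have hDC := hD.sub h
  have hfs := hD.1.isClosed.frontier_subset
  obtain ⟨hM, hM1, hM2⟩ := h.curve_in i hD.1 hD.frontier_sub hDC
  set S := A i ∩ interior D with hS
  have hsubA : closure S ⊆ A i := closure_minimal inter_subset_left (h.isClosed i)
  have hMD : closure S ⊆ D :=
    closure_minimal (inter_subset_right.trans interior_subset) hD.1.isClosed
  obtain ⟨J', hJ', C', hU, hd, hb⟩ := hM.exists_components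
  obtain ⟨x, hx⟩ := hne
  obtain ⟨j, hj⟩ := mem_iUnion.1 (hU.symm ▸ subset_closure hx : x ∈ ⋃ j, C' j)
  have hjM : C' j ⊆ closure S := by rw [← hU]; exact subset_iUnion _ _
  rcases hb j with ⟨h1, h2⟩ | ⟨r, s, h1, h2, h3, h4⟩
  · -- a circle inside
    have hκ := conSphere_iff.1 h1
    have hin : C' j ⊆ interior D := by
      intro y hy
      by_contra hyn
      have hyf : y ∈ frontier D := ⟨subset_closure (hMD (hjM hy)), hyn⟩
      have := (hM1 y (hjM hy) hyf).2.1
      rw [h2 y hy] at this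
      omega
    obtain ⟨D', hD', hf⟩ := schoenflies hκ
    have hD'D : D' ⊆ interior D := AmbDisc.subset_interior_of_frontier hD' hD.1 (by rw [hf]; exact hin)
    refine ⟨D', ⟨hD', Or.inl ⟨i, by rw [hf]; exact hjM.trans hsubA⟩⟩, hD'D.trans interior_subset,
      ?_⟩
    exact meas_lt_of_interior h hK hD (hD'D.trans interior_subset)
      (fun y hy hy2 => hy.2 (hD'D hy2))
  · -- an arc inside
    have hγ := isArc_iff_conBall.2 h1
    set γ := C' j with hγdef
    have hrM := hjM hγ.left_mem
    have hsM := hjM hγ.right_mem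
    have hrf : r ∈ frontier D := by
      refine ⟨subset_closure (hMD hrM), fun h5 => ?_⟩
      rw [hM2 r hrM h5] at h2
      omega
    have hsf : s ∈ frontier D := by
      refine ⟨subset_closure (hMD hsM), fun h5 => ?_⟩
      rw [hM2 s hsM h5] at h3
      omega
    have hγf : γ ∩ frontier D ⊆ {r, s} := by
      rintro y ⟨hy, hyf⟩
      exact h4 y hy (hM1 y (hjM hy) hyf).2.1
    obtain ⟨hrA, -, hr0⟩ := hM1 r hrM hrf
    obtain ⟨hsA, -, hs0⟩ := hM1 s hsM hsf
    have hγA : γ ⊆ A i := hjM.trans hsubA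
    have hγD : γ ⊆ D := hjM.trans hMD
    -- the new disc for an arc `τ` of the boundary
    have build : ∀ τ : Set P, IsArc τ r s → τ ⊆ frontier D → τ ⊆ A (!i) →
        ∃ D', Adm A D' ∧ D' ⊆ D ∧ frontier D' = γ ∪ τ ∧ frontier D ∩ D' ⊆ γ ∪ τ := by
      intro τ hτ hτf hτA
      have hint : γ ∩ τ ⊆ {r, s} := fun y hy => hγf ⟨hy.1, hτf hy.2⟩
      have hc := isCircle_of_arcs hγ hτ hint
      obtain ⟨D', hD', hf⟩ := schoenflies hc
      have hsub : D' ⊆ D := AmbDisc.mono hD.1 hD' (by
        rw [hf]; exact union_subset hγD (hτf.trans hfs))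
      refine ⟨D', ⟨hD', Or.inr ?_⟩, hsub, hf, ?_⟩
      · have : Bigon A i (frontier D') := ⟨γ, τ, r, s, hγ, hτ, hγA, hτA, hint, hf⟩
        exact this.all false
      · rw [← hf]; exact AmbDisc.frontier_inter hD' hsub
    have hadm : (∃ i, frontier D ⊆ A i) ∨ Bigon A i (frontier D) := by
      rcases hD.2 with h5 | h5
      · exact Or.inl h5
      · exact Or.inr (h5.all i)
    rcases hadm with ⟨i', h5⟩ | ⟨a, b, p, q, ha, hb', haA, hbA, hab, hfab⟩
    · -- bounded by a circle of the other family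
      have hi' : i' = !i := by
        by_contra hne'
        have : i' = i := by cases i <;> cases i' <;> simp_all
        rw [this] at h5
        exact hr0 (Eventually.of_forall fun y hy => h5 hy)
      rw [hi'] at h5
      obtain ⟨τ₁, τ₂, hτ₁, hτ₂, hττ, hfτ⟩ :=
        IsCircle.arcs_through hD.1.frontier_isCircle hrf hsf hγ.ne
      obtain ⟨D', h6, h7, h8, h9⟩ := build τ₁ hτ₁ (by rw [hfτ]; exact subset_union_left)
        ((by rw [hfτ]; exact subset_union_left : τ₁ ⊆ frontier D).trans h5)
      refine ⟨D', h6, h7, meas_lt_of_circle h hK h7 hD.1.frontier_isCircle h5 hfs ?_⟩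
      intro h10
      obtain ⟨y, hy, hyr, hys⟩ := IsArc.exists_interior hτ₂
      have hyf : y ∈ frontier D := by rw [hfτ]; exact Or.inr hy
      have hy' : y ∉ ({r, s} : Set P) := by
        rintro (h11 | h11)
        · exact hyr h11
        · exact hys h11
      rcases h9 ⟨hyf, h10 hyf⟩ with h11 | h11
      · exact hy' (hγf ⟨h11, hyf⟩)
      · exact hy' (hττ ⟨h11, hy⟩)
    · -- bounded by a bigon
      have haf : a ⊆ frontier D := by rw [hfab]; exact subset_union_left
      have hbf : b ⊆ frontier D := by rw [hfab]; exact subset_union_right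
      have hinb : ∀ y, y ∈ frontier D → (¬ ∀ᶠ z in 𝓝 y, z ∈ frontier D → z ∈ A i) → y ∈ b := by
        intro y hyf hy0
        by_contra hyb
        apply hy0
        filter_upwards [hb'.isClosed.isOpen_compl.mem_nhds hyb] with z hz hzf
        rw [hfab] at hzf
        exact haA (hzf.resolve_right hz)
      have hrb := hinb r hrf hr0
      have hsb := hinb s hsf hs0
      obtain ⟨τ, hτb, hτ, hτp, hτq⟩ := IsArc.exists_sub hb' hrb hsb hγ.ne
      obtain ⟨D', h6, h7, h8, h9⟩ := build τ hτ (hτb.trans hbf) (hτb.trans hbA)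
      have hpf : p ∈ frontier D := haf ha.left_mem
      have hqf : q ∈ frontier D := haf ha.right_mem
      have hpc : p ∈ A false ∩ A true := h.mem_pair i (haA ha.left_mem) (hbA hb'.left_mem)
      have hqc : q ∈ A false ∩ A true := h.mem_pair i (haA ha.right_mem) (hbA hb'.right_mem)
      have hnot : ∀ y ∈ frontier D, y ∉ τ → y ∉ D' := by
        intro y hyf hyτ hyD'
        rcases h9 ⟨hyf, hyD'⟩ with h10 | h10
        · rcases hγf ⟨h10, hyf⟩ with h11 | h11
          · rw [h11] at hyτ; exact hyτ hτ.left_mem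
          · rw [mem_singleton_iff] at h11
            rw [h11] at hyτ; exact hyτ hτ.right_mem
        · exact hyτ h10
      by_cases hpτ : p ∈ τ
      · by_cases hqτ : q ∈ τ
        · -- `γ ∪ a` is a circle
          have hpair : a ∩ γ ⊆ {r, s} := fun y hy => hγf ⟨hy.2, haf hy.1⟩
          have hpq := ha.ne
          have hcirc : IsCircle (γ ∪ a) := by
            rcases hτp hpτ with h10 | h10
            · have h11 : q = s := by
                rcases hτq hqτ with h11 | h11
                · exact absurd (h10.trans h11.symm) hpq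
                · exact h11
              rw [h10, h11] at ha
              exact isCircle_of_arcs hγ ha (by rwa [inter_comm])
            · have h11 : q = r := by
                rcases hτq hqτ with h11 | h11
                · exact h11
                · exact absurd (h10.trans h11.symm) hpq
              rw [h10, h11] at ha
              exact isCircle_of_arcs hγ ha.symm (by rwa [inter_comm])
          refine ⟨D', h6, h7, meas_lt_of_circle h hK h7 hcirc (union_subset hγA haA)
            (union_subset hγD (haf.trans hfs)) ?_⟩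
          intro h12
          obtain ⟨y, hy, hyp, hyq⟩ := IsArc.exists_interior ha
          have hyτ : y ∉ τ := by
            intro h13
            rcases hab ⟨hy, hτb h13⟩ with h14 | h14
            · exact hyp h14
            · exact hyq h14
          exact hnot y (haf hy) hyτ (h12 (Or.inr hy))
        · exact ⟨D', h6, h7, meas_lt_of_cross h h7 hqc (hfs hqf) (hnot q hqf hqτ)⟩
      · exact ⟨D', h6, h7, meas_lt_of_cross h h7 hpc (hfs hpf) (hnot p hpf hpτ)⟩

/-- **Clean discs.** -/
theorem exists_clean_disc (h : Web C A) (hK : Comps A K) {D : Set P} (hD : Adm A D) :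
    ∃ D', Adm A D' ∧ D' ⊆ D ∧ ∀ i, Disjoint (A i) (interior D') := by
  induction hn : meas A K D using Nat.strong_induction_on generalizing D with
  | _ n ih =>
    by_cases hc : ∀ i, Disjoint (A i) (interior D)
    · exact ⟨D, hD, Subset.rfl, hc⟩
    · push Not at hc
      obtain ⟨i, hi⟩ := hc
      obtain ⟨D', h1, h2, h3⟩ := step h hK hD (i := i) (Set.not_disjoint_iff_nonempty_inter.1 hi)
      obtain ⟨D'', k1, k2, k3⟩ := ih _ (hn ▸ h3) h1 rfl
      exact ⟨D'', k1, k2.trans h2, k3⟩

end

end P073.H579
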