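import Vale.Agent.P073.H579.Web3

/-!
# P073, H579: **(E1)** clean discs in a web

Two families of curves in a convex planar set crossing in straight crosses: either there is no
circle and any two curves of different families cross at most once (`Good`), or there is a clean
disc (`CleanDisc`): a disc whose interior meets no curve, bounded by a curve without crossing
points or by one arc of each family (a bigon).
-/

open Set Metric Topology Filter

namespace P073.H579

open P073.TR P073.SCH P073.H339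

/-- no circles, no bigons -/
structure Good (A : Bool → Set P) : Prop where
  circ : ∀ i σ, IsCircle σ → ¬ σ ⊆ A i
  bigon : ∀ a b p q, IsArc a p q → IsArc b p q → a ⊆ A false → b ⊆ A true → False

/-- clean discs -/
structure CleanDisc (C : Set P) (A : Bool → Set P) (E : Set P) : Prop where
  disc : P073.AmbDisc E
  int : E ⊆ interior C
  clean : ∀ i, Disjoint (A i) (interior E)
  bd : (∃ i, frontier E ⊆ A i ∧ Disjoint (frontier E) (A (!i))) ∨
    ∃ a b p q, IsArc a p q ∧ IsArc b p q ∧ a ⊆ A false ∧ b ⊆ A true ∧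
      a ∩ A true = {p, q} ∧ b ∩ A false = {p, q} ∧ a ∩ b = {p, q} ∧ frontier E = a ∪ b

variable {C : Set P} {A : Bool → Set P}

/-- at a boundary point of a clean disc where the boundary is in the family `i`, the other family
is absent -/
theorem clean_notMem (h : Web C A) {D : Set P} (hD : P073.AmbDisc D)
    (hc : ∀ i, Disjoint (A i) (interior D)) (i : Bool) {y : P} (hy : y ∈ frontier D)
    (hev : ∀ᶠ z in 𝓝 y, z ∈ frontier D → z ∈ A i) : y ∉ A (!i) := by
  intro hyB
  have hyA : y ∈ A i := hev.self_of_nhds hy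
  obtain ⟨d, e, hd, he, hne, hne', l1, l2⟩ := h.cross' i hyA hyB
  have hnear := near_eq (h.curve i) hD.frontier_isCircle hy hev
  have hline : LineAt (frontier D) y d := by
    filter_upwards [hnear, l1] with z h1 h2
    rw [← h1, h2]
  have hd0 : d ≠ 0 := by rintro rfl; rw [norm_zero] at hd; exact zero_ne_one hd
  have hdet : det d e ≠ 0 := det_ne_zero he hd hne hne'
  have hin : ∀ u : P, (u = e ∨ u = -e) → ∀ᶠ t in 𝓝[>] (0:ℝ), y + t • u ∈ A (!i) := by
    intro u hu
    filter_upwards [(tendsto_add_smul' y u).eventually l2] with t ht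
    rcases hu with rfl | rfl
    · exact ht.2 ⟨t, rfl⟩
    · exact ht.2 ⟨-t, by rw [smul_neg, neg_smul]⟩
  rcases sides hD hd0 hy hline hdet with ⟨h2, _⟩ | ⟨_, h2⟩
  · obtain ⟨t, _, h3, h4⟩ := eventually_unique (h2.and (hin e (Or.inl rfl)))
    exact Set.disjoint_left.1 (hc (!i)) h4 h3
  · obtain ⟨t, _, h3, h4⟩ := eventually_unique (h2.and (hin (-e) (Or.inr rfl)))
    exact Set.disjoint_left.1 (hc (!i)) h4 h3

/-- a boundary point of a disc near which the boundary is in the family `i` is interior -/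
theorem notMem_frontier_of_near (h : Web C A) {D : Set P} (hD : P073.AmbDisc D) (i : Bool) {y : P}
    (hy : y ∈ frontier D) (hev : ∀ᶠ z in 𝓝 y, z ∈ frontier D → z ∈ A i) : y ∉ frontier C := by
  intro hyC
  have hyA : y ∈ A i := hev.self_of_nhds hy
  have h1 := (h.bdry i y hyA).1 hyC
  have hnear := near_eq (h.curve i) hD.frontier_isCircle hy hev
  have h2 : dirs (A i) y = dirs (frontier D) y := DM.dirs_congr hnear
  have h3 : (dirs (frontier D) y).encard = 2 := IsCircle.encard_dirs hD.frontier_isCircle hy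
  have h4 : (dirs (frontier D) y).ncard = 2 := by rw [ncard_def, h3]; rfl
  rw [h2, h4] at h1
  omega

theorem cleanDisc_of_adm (h : Web C A) {D : Set P} (hD : Adm A D)
    (hc : ∀ i, Disjoint (A i) (interior D)) : CleanDisc C A D := by
  have hDC := hD.sub h
  have hfs := hD.1.isClosed.frontier_subset
  -- the arcs of the boundary
  have harc : ∀ (i : Bool) (a b : Set P) (p q : P), IsArc a p q → IsArc b p q → a ⊆ A i →
      b ⊆ A (!i) → a ∩ b ⊆ {p, q} → frontier D = a ∪ b →
      (∀ y ∈ a, y ∉ frontier C) ∧ a ∩ A (!i) = {p, q} := by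
    intro i a b p q ha hb haA hbA hab hf
    have hnear : ∀ y ∈ a, y ≠ p → y ≠ q → ∀ᶠ z in 𝓝 y, z ∈ frontier D → z ∈ A i := by
      intro y hy hyp hyq
      have hyb : y ∉ b := by
        intro h1
        rcases hab ⟨hy, h1⟩ with h2 | h2
        · exact hyp h2
        · exact hyq h2
      filter_upwards [hb.isClosed.isOpen_compl.mem_nhds hyb] with z hz hzf
      rw [hf] at hzf
      exact haA (hzf.resolve_right hz)
    have haf : a ⊆ frontier D := by rw [hf]; exact subset_union_left
    refine ⟨fun y hy => ?_, Subset.antisymm ?_ ?_⟩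
    · by_cases hyp : y = p
      · rw [hyp]; exact h.notMem_frontier i (haA ha.left_mem) (hbA hb.left_mem)
      · by_cases hyq : y = q
        · rw [hyq]; exact h.notMem_frontier i (haA ha.right_mem) (hbA hb.right_mem)
        · exact notMem_frontier_of_near h hD.1 i (haf hy) (hnear y hy hyp hyq)
    · rintro y ⟨hy, hyA⟩
      by_cases hyp : y = p
      · exact Or.inl hyp
      · by_cases hyq : y = q
        · exact Or.inr hyq
        · exact absurd hyA (clean_notMem h hD.1 hc i (haf hy) (hnear y hy hyp hyq))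
    · rintro y (rfl | hy)
      · exact ⟨ha.left_mem, hbA hb.left_mem⟩
      · rw [mem_singleton_iff] at hy
        rw [hy]; exact ⟨ha.right_mem, hbA hb.right_mem⟩
  have hfin : ∀ y ∈ frontier D, y ∉ frontier C := by
    rcases hD.2 with ⟨i, h1⟩ | ⟨a, b, p, q, ha, hb, haA, hbA, hab, hf⟩
    · exact fun y hy => notMem_frontier_of_near h hD.1 i hy (Eventually.of_forall fun z hz => h1 hz)
    · intro y hy
      rw [hf] at hy
      rcases hy with hy | hy
      · exact (harc false a b p q ha hb haA hbA hab hf).1 y hy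
      · exact (harc true b a p q hb ha hbA haA (by rwa [inter_comm]) (by rwa [union_comm])).1 y hy
  refine ⟨hD.1, ?_, hc, ?_⟩
  · intro x hx
    by_cases hxi : x ∈ interior D
    · exact interior_mono hDC hxi
    · have hxf : x ∈ frontier D := ⟨subset_closure hx, hxi⟩
      by_contra h1
      exact hfin x hxf ⟨subset_closure (hDC hx), h1⟩
  · rcases hD.2 with ⟨i, h1⟩ | ⟨a, b, p, q, ha, hb, haA, hbA, hab, hf⟩
    · refine Or.inl ⟨i, h1, Set.disjoint_left.2 fun y hy => ?_⟩
      exact clean_notMem h hD.1 hc i hy (Eventually.of_forall fun z hz => h1 hz)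
    · refine Or.inr ⟨a, b, p, q, ha, hb, haA, hbA, (harc false a b p q ha hb haA hbA hab hf).2,
        (harc true b a p q hb ha hbA haA (by rwa [inter_comm]) (by rwa [union_comm])).2, ?_, hf⟩
      apply Subset.antisymm hab
      rintro y (rfl | hy)
      · exact ⟨ha.left_mem, hb.left_mem⟩
      · rw [mem_singleton_iff] at hy
        rw [hy]; exact ⟨ha.right_mem, hb.right_mem⟩

/-- two arcs with common end points contain a bigon -/
theorem exists_bigon (h : Web C A) {a b : Set P} {p q : P} (ha : IsArc a p q) (hb : IsArc b p q)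
    (haA : a ⊆ A false) (hbA : b ⊆ A true) :
    ∃ a' b' q', IsArc a' p q' ∧ IsArc b' p q' ∧ a' ⊆ A false ∧ b' ⊆ A true ∧
      a' ∩ b' ⊆ {p, q'} := by
  have hfin : ∀ a b : Set P, a ⊆ A false → b ⊆ A true → (a ∩ b).Finite := fun a b h1 h2 =>
    h.finite_cross.subset (inter_subset_inter h1 h2)
  induction hn : (a ∩ b).ncard using Nat.strong_induction_on generalizing a b q with
  | _ n ih =>
    by_cases hc : a ∩ b ⊆ {p, q}
    · exact ⟨a, b, q, ha, hb, haA, hbA, hc⟩
    · obtain ⟨r, hr, hrn⟩ := Set.not_subset.1 hc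
      have hrp : r ≠ p := fun h1 => hrn (Or.inl h1)
      have hrq : r ≠ q := fun h1 => hrn (Or.inr h1)
      obtain ⟨a₁, a₂, ha₁, ha₂, haa, haU⟩ := IsArc.split ha hr.1 hrp hrq
      obtain ⟨b₁, b₂, hb₁, hb₂, hbb, hbU⟩ := IsArc.split hb hr.2 hrp hrq
      have s1 : a₁ ⊆ a := by rw [haU]; exact subset_union_left
      have s2 : b₁ ⊆ b := by rw [hbU]; exact subset_union_left
      have hlt : (a₁ ∩ b₁).ncard < (a ∩ b).ncard := by
        apply ncard_lt_ncard _ (hfin a b haA hbA)
        refine ⟨inter_subset_inter s1 s2, fun h1 => ?_⟩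
        have h2 := (h1 ⟨ha.right_mem, hb.right_mem⟩ : q ∈ a₁ ∩ b₁).1
        exact hrq (haa ⟨h2, ha₂.right_mem⟩ : q = r).symm
      exact ih _ (hn ▸ hlt) ha₁ hb₁ (s1.trans haA) (s2.trans hbA) rfl

/-- **(E1)** -/
theorem good_or_cleanDisc (h : Web C A) : Good A ∨ ∃ E, CleanDisc C A E := by
  obtain ⟨J, hJ, K, hK⟩ := h.exists_comps
  have key : ∀ D, Adm A D → ∃ E, CleanDisc C A E := by
    intro D hD
    obtain ⟨D', h1, -, h3⟩ := exists_clean_disc h hK hD
    exact ⟨D', cleanDisc_of_adm h h1 h3⟩
  by_contra hcon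
  push Not at hcon
  obtain ⟨h1, h2⟩ := hcon
  apply h1
  refine ⟨fun i σ hσ hs => ?_, fun a b p q ha hb haA hbA => ?_⟩
  · obtain ⟨D, hD, hf⟩ := schoenflies hσ
    obtain ⟨E, hE⟩ := key D ⟨hD, Or.inl ⟨i, by rw [hf]; exact hs⟩⟩
    exact h2 E hE
  · obtain ⟨a', b', q', ha', hb', haA', hbA', hab'⟩ := exists_bigon h ha hb haA hbA
    obtain ⟨D, hD, hf⟩ := schoenflies (isCircle_of_arcs ha' hb' hab')
    obtain ⟨E, hE⟩ := key D ⟨hD, Or.inr ⟨a', b', p, q', ha', hb', haA', hbA', hab', hf⟩⟩
    exact h2 E hE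

end P073.H579
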